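import Vale.Agent.P287Q.G.Glu.DiagB
import Vale.Agent.P269.Orb.TZ
import Vale.Agent.P269.Orb.Brg

set_option linter.unusedSectionVars false
set_option linter.style.haveILetI false

/-!
# Existence and uniqueness of the class of the diagonal
-/

namespace Vale.Agent.P269.DgB

open Set Function Topology Filter Module P291Z Orb Holo Ch Mono Tq Tub Fam

variable {S Λ R J K : Type} [Fintype S] [Fintype Λ] [Fintype R] [Fintype J] [Fintype K]
  {F : Fam S Λ R J K} {K₀ : RD R} [FP F.actT F.cone] [FP F.act2 F.cone2]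

theorem cont_snd {Y : Ch.Sp} (V : VB Y) : Continuous fun y : V.tot.T => y.1.2 :=
  continuous_snd.comp continuous_subtype_val

variable (F) in
/-- the first projection -/
noncomputable def pr : Mor (Tq.sp F.act2 F.cone2) (Tq.sp F.actT F.cone) :=
  Eqh.mor (θ := fun a => a) (f := fun x => (x.1, x.2.1))
    ⟨Hm.id, fun _ h => h.1.1, by fun_prop, fun _ _ _ _ => rfl⟩

variable (F) in
/-- the diagonal -/
noncomputable def dg : Mor (Tq.sp F.actT F.cone) (Tq.sp F.act2 F.cone2) :=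
  Eqh.mor (θ := fun a => a) (f := fun x => (x.1, x.2, x.2))
    ⟨Hm.id, fun _ h => ⟨⟨h, h⟩, fun _ _ => rfl⟩, by fun_prop, fun _ _ _ _ => rfl⟩

theorem mk_mem_dg {x : Sp F.act2 F.cone2} :
    (Tq.sp F.act2 F.cone2).π x ∈ range (dg F).map ↔ x.val.2.1 = x.val.2.2 := by
  refine ⟨fun ⟨y, hy⟩ => ?_, fun h => ⟨(Tq.sp F.actT F.cone).π ((pr F).f x),
    ((dg F).map_π _).trans (congrArg _ (Sp.ext (Prod.ext rfl (Prod.ext rfl h))))⟩⟩
  obtain ⟨b, rfl⟩ := (Tq.sp F.actT F.cone).surj y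
  rw [Mor.map_π] at hy
  obtain ⟨g, rfl⟩ := ((Tq.sp F.act2 F.cone2).fib _ _).1 hy
  rfl

theorem range_dg :
    range (dg F).map = {z : F.X2 | (Quo.out z).1.2.1 = (Quo.out z).1.2.2} := Set.ext fun z => by
  rw [← mk_out z]
  exact mk_mem_dg.trans (by rw [mk_out z]; rfl)

variable (hF : F.Inv) (hR : F.Reg K₀)

/-- the vertical tangent bundle -/
noncomputable def vb : VB (Tq.sp F.actT F.cone) :=
  (chars (Y := Tq.sp F.actT F.cone) fun j => (hm_chT (F.wt j) (F.w j)).ρ).sub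
    (fun t => F.vert t.val) (F.dv K₀)
    ((isClosed_vert (F := F)).preimage (f := fun x : Sp F.actT F.cone × (J → ℂ) => (x.1.val, x.2))
      ((Sp.continuous_val.comp continuous_fst).prodMk continuous_snd) :)
    (fun t => finrank_vert' hF hR t.val_mem) fun g _ _ hw => hF.vert_act g.isUnit hw

/-- the projection onto the vertical tangent space -/
noncomputable def pv (b : Sp F.actT F.cone) : (J → ℂ) →L[ℂ] J → ℂ := (vb hF hR).P b

theorem continuous_pv : Continuous (pv hF hR) := (vb hF hR).P_cont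

theorem pv_mem (b w) : pv hF hR b w ∈ F.vert b.val := (vb hF hR).P_mem b w

theorem pv_eq {b w} (h : w ∈ F.vert b.val) : pv hF hR b w = w := (vb hF hR).P_eq h

theorem isSec : ((vb hF hR).pb (pr F)).IsSec fun t : Sp F.act2 F.cone2 =>
    pv hF hR ((pr F).f t) (t.val.2.1 - t.val.2.2) :=
  ⟨fun _ => pv_mem hF hR _ _, ((continuous_pv hF hR).comp (pr F).cf).clm_apply
    (Sp.continuous_val.snd.fst.sub Sp.continuous_val.snd.snd), fun g t =>
    (congrArg (pv hF hR _) (funext fun _ => (mul_sub _ _ _).symm)).trans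
      ((vb hF hR).P_smul g ((pr F).f t) (t.val.2.1 - t.val.2.2))⟩

include hF hR in
theorem exists_frame (b : Sp F.actT F.cone) : ∃ (N : Set (Sp F.actT F.cone))
    (ℓ : (Fin (F.dv K₀) → ℂ) →L[ℂ] J → ℂ) (q : (J → ℂ) →L[ℂ] Fin (F.dv K₀) → ℂ), N ∈ 𝓝 b ∧
    (∀ a, q (ℓ a) = a) ∧ (∀ w, w ∈ F.vert b.val ↔ w ∈ range ℓ) ∧
    ∀ t ∈ N, ∀ w ∈ F.vert t.val, q w = 0 → w = 0 := by
  obtain ⟨N, ψ, q, h1, h2, -, h3⟩ := (vb hF hR).exists_frame b
  refine ⟨N, ψ b, q, h1.mem_nhds h2, (h3 b h2).1, (h3 b h2).2, fun t ht w hw e => ?_⟩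
  obtain ⟨a, rfl⟩ := ((h3 t ht).2 w).1 hw
  exact (congrArg (ψ t) (((h3 t ht).1 a).symm.trans e)).trans (map_zero _)

theorem tube : Tube (dg F) (isSec hF hR) where
  ps _ := rfl
  zero b := (congrArg (pv hF hR b) (sub_self _)).trans (map_zero _)
  inv := ⟨id, tendsto_id, fun _ => rfl⟩
  free := FP.free
  lh b := by
    obtain ⟨N, -, q, h1, -, -, h2⟩ := exists_frame hF hR b
    obtain ⟨σ, a1, a2, a3, a4⟩ := exists_inv hF hR b.val_mem (finrank_fin_fun ℂ)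
      (Q := q ∘L pv hF hR b) fun w hw e =>
        h2 b (mem_of_mem_nhds h1) w hw ((congrArg q (pv_eq hF hR hw)).symm.trans e)
    have c1 : Continuous fun b : Sp F.actT F.cone => (b.val, q ∘L pv hF hR b) :=
      Sp.continuous_val.prodMk (continuous_const.clm_comp (continuous_pv hF hR))
    have c2 : Continuous fun y : (vb hF hR).tot.T => y.1.1 := (vb hF hR).proj.cf
    let τ : (vb hF hR).tot.T → (Fin (F.dv K₀) → ℂ) × ((Λ → ℂ) × (J → ℂ)) ×
        ((J → ℂ) →L[ℂ] Fin (F.dv K₀) → ℂ) :=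
      fun y => (q y.1.2, Sp.val (act := F.actT) y.1.1, q ∘L pv hF hR y.1.1)
    have c3 : Continuous τ := (q.continuous.comp (cont_snd (vb hF hR))).prodMk (c1.comp c2)
    have c4 : Continuous fun t : Sp F.act2 F.cone2 =>
        (t.val.2.2, (t.val.1, t.val.2.1), q ∘L pv hF hR ((pr F).f t)) :=
      Sp.continuous_val.snd.snd.prodMk (c1.comp (pr F).cf)
    have c5 := c3.tendsto' ((tb (isSec hF hR)).f ((dg F).f b)) (0, b.val, q ∘L pv hF hR b)
      (Prod.ext (show q (pv hF hR b (b.val.2 - b.val.2)) = 0 by simp) rfl)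
    refine lh_of_emb (Sp.isEmbedding_val (act := F.act2) (S := F.cone2)) (tb (isSec hF hR)).cf
      (γ := fun y => ((τ y).2.1.1, (τ y).2.1.2, σ (τ y))) ?_
      (((c4.tendsto ((dg F).f b)).eventually a4).mono fun t ht =>
        Prod.ext rfl (Prod.ext rfl (ht t.val_mem)))
    filter_upwards [c5.eventually a3, c5.eventually a1.eventually_analyticAt,
      (c2.tendsto' _ b rfl).eventually h1] with y b1 b2 b3
    obtain ⟨b4, b5⟩ := b1 (Sp.val_mem (act := F.actT) y.1.1)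
    refine ⟨c3.snd.fst.fst.continuousAt.prodMk (c3.snd.fst.snd.continuousAt.prodMk
        (b2.continuousAt.comp c3.continuousAt)), Sp.of _ _ b4, rfl,
      Subtype.ext (Prod.ext rfl (sub_eq_zero.1 (h2 _ b3 _ (sub_mem (pv_mem hF hR _ _) y.2) ?_)))⟩
    exact (map_sub q _ _).trans (sub_eq_zero.2 b5)

omit [FP F.actT F.cone] in
theorem exists_ext {r : ℕ} {O : Set (Fin r → ℂ)} (φ : O → F.cone2) {Φ : (Fin r → ℂ) → J → ℂ}
    {z : (Λ → ℂ) × (J → ℂ)} (h1 : IsOpen O) (h2 : 0 ∈ O) (h3 : AnalyticOnNhd ℂ Φ O)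
    (h4 : ∀ v : O, (φ v).1 = (z.1, z.2, Φ v)) : ∃ ψ : (Fin r → ℂ) → Sp F.act2 F.cone2,
      ((Tq.sp F.act2 F.cone2).π ∘ ψ) ∘ Subtype.val = (fun v : O => Quo.mk F.act2 (φ v)) ∧
      ∀ v ∈ O, (ψ v).val = (z.1, z.2, Φ v) ∧ ContinuousAt ψ v := by
  classical
  let ψ : (Fin r → ℂ) → Sp F.act2 F.cone2 := fun v => φ (if h : v ∈ O then ⟨v, h⟩ else ⟨0, h2⟩)
  have c1 : ∀ v ∈ O, (ψ v).val = (z.1, z.2, Φ v) := fun v hv => by
    simp only [ψ, dif_pos hv]
    exact h4 ⟨v, hv⟩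
  refine ⟨ψ, funext fun v => ?_, fun v hv => ⟨c1 v hv, Sp.isEmbedding_val.continuousAt_iff.2
    ((continuousAt_const.prodMk (continuousAt_const.prodMk (h3 v hv).continuousAt)).congr
      (mem_of_superset (h1.mem_nhds hv) fun w hw => (c1 w hw).symm))⟩⟩
  exact congrArg (fun w => Quo.mk F.act2 (φ w)) (dif_pos v.2)

variable {t : Coch F.X2}

/-- **the Euler cocycle represents the diagonal** -/
theorem isDiag_of (h1 : supp (δ t) = ∅) (h2 : supp t ⊆ range (dg F).map)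
    (h3 : IsDeg (2 * F.dv K₀) t) (h4 : LCoh (range (dg F).map) t (isSec hF hR).eul) :
    F.IsDiag t := by
  refine ⟨h1, range_dg (F := F) ▸ h2, fun z hz => ⟨by rwa [finrank_vert' hF hR hz],
    fun r O φ Φ b1 b2 b3 b4 b5 b6 b7 b8 => ?_⟩⟩
  obtain rfl : r = F.dv K₀ := by
    rw [← finrank_vert' hF hR hz, ← b8, LinearMap.finrank_range_of_inj b7, finrank_fin_fun]
  obtain ⟨ψ, c0, c1⟩ := exists_ext φ b1 b2 b3 b6
  have c2 : ∀ v ∈ O, ContinuousAt ((Tq.sp F.act2 F.cone2).π ∘ ψ) v := fun v hv =>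
    (Tq.sp F.act2 F.cone2).cont.continuousAt.comp (c1 v hv).2
  have c3 : ∀ v ∈ O, (Tq.sp F.act2 F.cone2).π (ψ v) ∈ range (dg F).map ↔ z.2 = Φ v := fun v hv => by
    rw [mk_mem_dg, (c1 v hv).1]
  have c4 : ∀ v ∈ O, pv hF hR ((pr F).f (ψ v)) ((ψ v).val.2.1 - (ψ v).val.2.2) =
      pv hF hR (.of _ z hz) (z.2 - Φ v) := fun v hv => by
    rw [show (pr F).f (ψ v) = Sp.of F.actT z hz from
      Subtype.ext (congrArg (fun y => (y.1, y.2.1)) (c1 v hv).1 :), (c1 v hv).1]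
  have c5 : LocCo (pull ((Tq.sp F.act2 F.cone2).π ∘ ψ) (isSec hF hR).eul) 1 :=
    locCo_eul_one (isSec hF hR) rfl (mem_of_superset (b1.mem_nhds b2) fun v hv => (c1 v hv).2)
      ((c4 0 b2).trans (by rw [b5, sub_self]; exact map_zero _))
      (((pv hF hR (.of _ z hz)).hasFDerivAt.comp _
        ((b3 0 b2).differentiableAt.hasFDerivAt.const_sub z.2)).congr_of_eventuallyEq
          (mem_of_superset (b1.mem_nhds b2) c4))
      ((injective_iff_map_eq_zero _).2 fun v hv => b7 ((neg_eq_zero.1 ((pv_eq hF hR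
        (b := .of _ z hz) (neg_mem (b8.le ⟨v, rfl⟩))).symm.trans hv)).trans (map_zero _).symm))
  obtain ⟨c, d1, d2⟩ := h4
  have d3 := (c3 0 b2).2 b5.symm
  have d4 : ∀ v ∈ O, ∀ {a : Coch F.X2}, ((Tq.sp F.act2 F.cone2).π (ψ v) ∈ supp a →
      (Tq.sp F.act2 F.cone2).π (ψ v) ∈ range (dg F).map) → v ≠ 0 →
      pull ((Tq.sp F.act2 F.cone2).π ∘ ψ) a ∈ Van v := fun v hv a e h0 =>
    Van.pull (c2 v hv) fun h => h0 (b4 hv b2 (((c3 v hv).1 (e h)).symm.trans b5.symm))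
  have d5 := (c5.of_cohom (a := pull ((Tq.sp F.act2 F.cone2).π ∘ ψ) t)
    (b := pull ((Tq.sp F.act2 F.cone2).π ∘ ψ) c) (by
      filter_upwards [eventually_van (Van.pull (c2 0 b2) (d2 _ d3)),
        (c2 0 b2).eventually (d1 _ d3), b1.mem_nhds b2] with v e1 e2 e3
      exact ⟨by rwa [δ_pull, ← map_sub, ← map_sub], d4 v e3 e2⟩)).cohom_open (U := O)
    fun v hv => d4 v hv (@h2 _)
  rwa [one_smul, pull_pull, c0] at d5

/-- **uniqueness** -/
theorem lcoh_of (ht : F.IsDiag t) : LCoh (range (dg F).map) t (isSec hF hR).eul :=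
  (tube hF hR).lcoh ht.1 (range_dg (F := F) ▸ ht.2.1) fun b => by
    obtain ⟨h1, h2⟩ := ht.2.2 _ (Sp.val_mem (act := F.actT) b)
    rw [finrank_vert' hF hR (Sp.val_mem (act := F.actT) b)] at h1
    obtain ⟨N, ℓ, q, a1, a2, a3, a4⟩ := exists_frame hF hR b
    replace a4 := a4 b (mem_of_mem_nhds a1)
    obtain ⟨O, Φ, b1, b2, b3, b4, b5, b6, b7⟩ := exists_germ hF hR b.val_mem
      (Q := q ∘L pv hF hR b) fun w hw e => a4 w hw ((congrArg q (pv_eq hF hR hw)).symm.trans e)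
    obtain ⟨ψ, c0, c1⟩ := exists_ext (fun v : O => ⟨_, (b5 v v.2).1⟩) b1 b2 b3 fun _ => rfl
    obtain ⟨c, c2, c3⟩ := h2 _ O (fun v : O => ⟨_, (b5 v v.2).1⟩) Φ b1 b2 b3
      (fun v hv w hw e => by rw [← (b5 v hv).2, e, (b5 w hw).2]) b4 (fun _ => rfl) b6 b7
    rw [← c0, ← pull_pull] at c3
    refine ⟨h1, ℓ.toLinearMap, ψ, LeftInverse.injective a2, Submodule.ext fun w => (a3 w).symm, (c1 0 b2).2,
      Sp.ext ((c1 0 b2).1.trans (by rw [b4]; rfl)), mem_of_superset (b1.mem_nhds b2) fun v hv => ?_,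
      locCo_tau.of_open b1 b2 (fun v hv => Subtype.ext (c2 hv)) (supp_eq_empty.1 c3 _)⟩
    have e : (pr F).f (ψ v) = b := Subtype.ext (congrArg (fun y => (y.1, y.2.1)) (c1 v hv).1 :)
    refine ⟨e, ?_⟩
    change pv hF hR _ _ = ℓ v
    rw [e, (c1 v hv).1]
    exact sub_eq_zero.1 (a4 _ (sub_mem (pv_mem hF hR _ _) ((a3 _).2 ⟨v, rfl⟩))
      ((map_sub q _ _).trans (sub_eq_zero.2 ((b5 v hv).2.trans (a2 v).symm))))

theorem isDiag_loc {c : Coch F.X2} (h1 : IsDeg (2 * F.dv K₀) c)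
    (h2 : LCoh (range (dg F).map) c (isSec hF hR).eul) : F.IsDiag (loc (range (dg F).map) c) :=
  have h := (h2.lco (tube hF hR).lco).isCo (tube hF hR).isClosed h1
  isDiag_of hF hR h.1.cocycle h.1.supp h.1.deg ((LCoh.of_van h.2).symm.trans h2)

include hF hR in
theorem isDiag : F.IsDiag F.diag :=
  Classical.epsilon_spec ⟨_, isDiag_loc hF hR (isSec hF hR).isCo.deg (LCoh.refl _ _)⟩

include hF hR in
theorem cohom {t' : Coch F.X2} (ht : F.IsDiag t) (ht' : F.IsDiag t') :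
    Cohom {z : F.X2 | (Quo.out z).1.2.1 = (Quo.out z).1.2.2} t t' :=
  range_dg (F := F) ▸ ((lcoh_of hF hR ht).trans (lcoh_of hF hR ht').symm).cohom
    (tube hF hR).isClosed (range_dg (F := F) ▸ ht.2.1) (range_dg (F := F) ▸ ht'.2.1)

end Vale.Agent.P269.DgB

namespace Vale.Agent.P269.Fam

open P291Z

variable {S Λ R J K : Type} [Fintype S] [Fintype Λ] [Fintype R] [Fintype J] [Fintype K]
  {F : Fam S Λ R J K} {K₀ : RD R} [DecidableEq R]

/-- **the diagonal class exists** -/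
theorem isDiag_diag (hF : F.Good) (hR : F.Reg K₀) : F.IsDiag F.diag :=
  haveI := hF.fp; haveI := DgB.fp2 hF; DgB.isDiag hF.toInv hR

theorem nice_X2 (hF : F.Good) : P291Z.Nice F.X2 := haveI := DgB.fp2 hF; inferInstance

/-- **the diagonal class is unique** -/
theorem IsDiag.cohom' {t t' : Coch F.X2} (h : F.Good) (hR : F.Reg K₀) (ht : F.IsDiag t)
    (ht' : F.IsDiag t') : Cohom {z : F.X2 | (Quo.out z).1.2.1 = (Quo.out z).1.2.2} t t' :=
  haveI := h.fp; haveI := DgB.fp2 h; DgB.cohom h.toInv hR ht ht'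

end Vale.Agent.P269.Fam
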