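import Vale.Agent.P287Q.G.Glu.Ctx
import Vale.Agent.P269.Map.SQD

/-!
# Decompositions of a curve into two parts: definitions
-/

set_option linter.unusedSectionVars false

namespace Vale.Agent.P269

open P291Z Set Function Topology Filter Base Cv Holo Vir

section gen

variable {A A₀ A₁ A₂ W W₀ W₁ U P P' : Type} [NormedRing A] [NormedAlgebra ℂ A] [NormedRing A₀]
  [NormedAlgebra ℂ A₀] [NormedRing A₁] [NormedAlgebra ℂ A₁] [NormedRing A₂] [NormedAlgebra ℂ A₂]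
  [NormedAddCommGroup W] [NormedSpace ℂ W] [NormedAddCommGroup W₀] [NormedSpace ℂ W₀]
  [NormedAddCommGroup W₁] [NormedSpace ℂ W₁] [NormedAddCommGroup U] [NormedSpace ℂ U]
  [AddCommGroup P] [Module ℂ P] [AddCommGroup P'] [Module ℂ P']

/-- The sum of Kuranishi data. -/
def Ch.KD.sum (D : Ch.KD A W P) (D' : Ch.KD A W P') : Ch.KD A W (P × P') :=
  ⟨fun a f => (D.ρ a f.1, D'.ρ a f.2), D.P₀.prod D'.P₀, fun x => (D.van x).prod (D'.van x),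
    fun x => (D.obs x).prod (D'.obs x), fun x => (D.s x, D'.s x)⟩

/-- `θ` is a homomorphism of algebras. -/
structure AH (θ : CL A A₁) : Prop where
  one : θ 1 = 1
  mul : ∀ a b, θ (a * b) = θ a * θ b

/-- The second projection of a fibre product. -/
def fp₂ (π : W₁ →L[ℂ] W₀) (y : W₁ × U) : W₀ × U := (π y.1, y.2)

/-- The fibre product of two sets. -/
def fpS (π : W₁ →L[ℂ] W₀) (O₁ : Set W₁) (O₂ : Set (W₀ × U)) : Set (W₁ × U) :=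
  {y | y.1 ∈ O₁ ∧ fp₂ π y ∈ O₂}

/-- `Z` is the product of `B` with a subset of `U`. -/
def PrB (B : Set W₀) (Z : Set (W₀ × U)) : Prop := ∀ x ∈ Z, x.1 ∈ B ∧ ∀ l ∈ B, (l, x.2) ∈ Z

/-- `act` is the fibre product of the actions `act₁` and `act₂` over `act₀`. -/
structure Fp (act : A → W₁ × U → W₁ × U) (act₁ : A₁ → W₁ → W₁) (act₂ : A₂ → W₀ × U → W₀ × U)
    (act₀ : A₀ → W₀ → W₀) (θ₁ : CL A A₁) (θ₂ : CL A A₂) (τ₁ : CL A₁ A₀) (τ₂ : CL A₂ A₀)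
    (π : W₁ →L[ℂ] W₀) : Prop where
  h₁ : AH θ₁
  h₂ : AH θ₂
  k₁ : AH τ₁
  k₂ : AH τ₂
  surj₁ : Surjective τ₁
  surj₂ : Surjective τ₂
  sq : ∀ a, τ₁ (θ₁ a) = τ₂ (θ₂ a)
  lift : ∀ a₁ a₂, τ₁ a₁ = τ₂ a₂ → ∃ a, θ₁ a = a₁ ∧ θ₂ a = a₂
  inj : ∀ a, θ₁ a = 0 → θ₂ a = 0 → a = 0
  e₁ : ∀ a, IsUnit a → ∀ y, (act a y).1 = act₁ (θ₁ a) y.1
  e₂ : ∀ a, IsUnit a → ∀ y, fp₂ π (act a y) = act₂ (θ₂ a) (fp₂ π y)
  p₁ : ∀ a, IsUnit a → ∀ x, π (act₁ a x) = act₀ (τ₁ a) (π x)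
  p₂ : ∀ a, IsUnit a → ∀ x, (act₂ a x).1 = act₀ (τ₂ a) x.1
  ind : ∀ a, IsUnit a → ∀ l l' u, (act₂ a (l, u)).2 = (act₂ a (l', u)).2

/-- The group acts freely and properly on the manifold `B`, with quotient of dimension `b`. -/
structure BsOk (act₀ : A₀ → W₀ → W₀) (B : Set W₀) (b : ℕ) : Prop where
  isAct : IsAct act₀ B
  orb : Orb.Orb A₀ˣ (Sp act₀ B)
  free : ∀ l ∈ B, Fre act₀ l
  mf : Ch.KD.Mf A₀ B b

/-- `Δ` represents the diagonal of the quotient of `B`. -/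
structure IsDB (act₀ : A₀ → W₀ → W₀) (B : Set W₀) [IsAct act₀ B] [Nice (Quo act₀ B)] (b : ℕ)
    (Δ : Coch (Quo act₀ B × Quo act₀ B)) : Prop where
  co : IsCo (range fun x => (x, x)) b Δ
  gys : gys (fun x => (x, x)) Δ (cross Prod.fst Prod.snd (fnd act₀ B b) (fnd act₀ B b)) =
    fnd act₀ B b

/-- Block diagonal maps. -/
noncomputable def blkD (f : W₀ →L[ℂ] W) (g : W →L[ℂ] W₀) (f' : W₁ →L[ℂ] W) (g' : W →L[ℂ] W₁)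
    (a : W₀ →L[ℂ] W₀) (a' : W₁ →L[ℂ] W₁) : W →L[ℂ] W := f ∘L a ∘L g + f' ∘L a' ∘L g'

theorem blkD_add (f : W₀ →L[ℂ] W) (g : W →L[ℂ] W₀) (f' : W₁ →L[ℂ] W) (g' : W →L[ℂ] W₁)
    (a b : W₀ →L[ℂ] W₀) (a' b' : W₁ →L[ℂ] W₁) :
    blkD f g f' g' (a + b) (a' + b') = blkD f g f' g' a a' + blkD f g f' g' b b' := by
  simp only [blkD, ContinuousLinearMap.add_comp, ContinuousLinearMap.comp_add]
  exact add_add_add_comm _ _ _ _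

theorem blkD_smul (f : W₀ →L[ℂ] W) (g : W →L[ℂ] W₀) (f' : W₁ →L[ℂ] W) (g' : W →L[ℂ] W₁) (c : ℂ)
    (a : W₀ →L[ℂ] W₀) (a' : W₁ →L[ℂ] W₁) :
    blkD f g f' g' (c • a) (c • a') = c • blkD f g f' g' a a' := by
  simp only [blkD, ContinuousLinearMap.smul_comp, ContinuousLinearMap.comp_smul, smul_add]

end gen

variable {S Λ R J K ι ν κ ν' κ' ν₁ κ₁ ν₂ κ₂ : Type} [Fintype S] [Fintype Λ] [Fintype R] [Fintype J]
  [Fintype K] [Fintype ι] [DecidableEq ι] [Fintype ν] [Fintype κ] [Fintype ν'] [Fintype κ']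
  [Fintype ν₁] [Fintype κ₁] [Fintype ν₂] [Fintype κ₂]

/-- A distribution of the marked points and of the persistent nodes. -/
structure Sv (ν κ ν₁ κ₁ ν₂ κ₂ : Type) where
  /-- the marked points -/
  φ : ν₁ ⊕ ν₂ ≃ ν
  /-- the persistent nodes -/
  ψ : κ₁ ⊕ κ₂ ≃ κ

namespace Sv

variable (s : Sv ν κ ν₁ κ₁ ν₂ κ₂)

/-- The parts are exchanged. -/
def symm : Sv ν κ ν₂ κ₂ ν₁ κ₁ := ⟨(Equiv.sumComm _ _).trans s.φ, (Equiv.sumComm _ _).trans s.ψ⟩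

/-- The marked points and branches of the first part. -/
abbrev mk₁ : Ch.Mk ν₁ κ₁ → Ch.Mk ν κ :=
  Sum.map (fun a => s.φ (.inl a)) (Prod.map (fun q => s.ψ (.inl q)) id)

/-- The marked points and branches of the second part. -/
abbrev mk₂ : Ch.Mk ν₂ κ₂ → Ch.Mk ν κ :=
  Sum.map (fun a => s.φ (.inr a)) (Prod.map (fun q => s.ψ (.inr q)) id)

/-- The part that contains a marked point. -/
def mkS : Ch.Mk ν κ → Ch.Mk ν₁ κ₁ ⊕ Ch.Mk ν₂ κ₂ :=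
  Sum.elim (fun a => (s.φ.symm a).map .inl .inl)
    fun q => (s.ψ.symm q.1).map (fun a => .inr (a, q.2)) fun a => .inr (a, q.2)

/-- The tori of the first part. -/
def t₁ (q : ν₁ ⊕ κ₁) : (ν ⊕ κ) ⊕ Empty :=
  .inl (q.map (fun a => s.φ (.inl a)) fun a => s.ψ (.inl a))

/-- The tori of the second part. -/
def t₂ (q : ν₂ ⊕ κ₂) : (ν ⊕ κ) ⊕ Empty :=
  .inl (q.map (fun a => s.φ (.inr a)) fun a => s.ψ (.inr a))

/-- The part to which a torus belongs. -/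
def tS : ν ⊕ κ → (ν₁ ⊕ κ₁) ⊕ ν₂ ⊕ κ₂ :=
  Sum.elim (fun a => (s.φ.symm a).map .inl .inl) fun q => (s.ψ.symm q).map .inr .inr

end Sv

/-- The projection to the first summand. -/
noncomputable def lpr {M M₁ M₂ : ι → ℕ} (φ₁ : HV M₁ M) (φ₂ : HV M₂ M) : HV M M₁ :=
  fun i => .fst ℂ _ _ ∘L ((φ₁ i).coprod (φ₂ i)).inverse

namespace Ch

variable {ch : Ch ι J} {n n₁ n₂ : Nm ι J}

/-- The numerical hypotheses for decompositions. -/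
structure QN (ch : Ch ι J) (n₁ n₂ : Nm ι J) : Prop where
  num : ch.Num₀
  num₁ : (ch.re n₁).Num₀
  num₂ : (ch.re n₂).Num₀
  tight : ch.Tight'
  tight₁ : (ch.re n₁).Tight'
  tight₂ : (ch.re n₂).Tight'
  g : n₁.g + n₂.g = ch.g + 1
  m : ∀ i, n₁.m i + n₂.m i = ch.m i

theorem QN.symm (h : ch.QN n₁ n₂) : ch.QN n₂ n₁ :=
  ⟨h.num, h.num₂, h.num₁, h.tight, h.tight₂, h.tight₁, (add_comm _ _).trans h.g,
    fun i => (add_comm _ _).trans (h.m i)⟩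

/-- Points with two labels. -/
abbrev WQ (ch : Ch ι J) (n₁ n₂ : Nm ι J) (ν κ ν₁ κ₁ ν₂ κ₂ Λ : Type) [Fintype ν] [Fintype κ]
    [Fintype ν₁] [Fintype κ₁] [Fintype ν₂] [Fintype κ₂] : Type :=
  ch.WF ν κ Λ × ch.Lb n₁ (Mk ν₁ κ₁) × ch.Lb n₂ (Mk ν₂ κ₂)

/-- The group of the labels. -/
abbrev AL (ch : Ch ι J) (n₁ n₂ : Nm ι J) : Type := AP ((ch.re n₁).A Empty) ((ch.re n₂).A Empty)

/-- The group of the space of decompositions. -/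
abbrev AQ (ch : Ch ι J) (n₁ n₂ : Nm ι J) (ν κ S : Type) : Type := AP (ch.AF ν κ S) (ch.AL n₁ n₂)

instance : FiniteDimensional ℂ (ch.WQ n₁ n₂ ν κ ν₁ κ₁ ν₂ κ₂ Λ) := inferInstance

instance : CompleteSpace (ch.WQ n₁ n₂ ν κ ν₁ κ₁ ν₂ κ₂ Λ) := inferInstance

variable (s : Sv ν κ ν₁ κ₁ ν₂ κ₂)

/-- The action on the space of decompositions. -/
noncomputable def actQ (F : Wt S Λ R J) (a : ch.AQ n₁ n₂ ν κ S)
    (z : ch.WQ n₁ n₂ ν κ ν₁ κ₁ ν₂ κ₂ Λ) : ch.WQ n₁ n₂ ν κ ν₁ κ₁ ν₂ κ₂ Λ :=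
  (actF F a.1 z.1, actL1 F s.t₁ (a.1, a.2.1) z.2.1, actL1 F s.t₂ (a.1, a.2.2) z.2.2)

/-- The group of the first part. -/
noncomputable def θQ₁ : CL (ch.AQ n₁ n₂ ν κ S) ((ch.re n₁).AF ν₁ κ₁ S) :=
  CL.mk (fun a => θL s.t₁ (a.1, a.2.1)) (fun a b => map_add (θL s.t₁) (a.1, a.2.1) (b.1, b.2.1))
    fun c a => map_smul (θL s.t₁) c (a.1, a.2.1)

/-- The group of the second part. -/
noncomputable def θQ₂ : CL (ch.AQ n₁ n₂ ν κ S) ((ch.re n₂).AF ν₂ κ₂ S) :=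
  CL.mk (fun a => θL s.t₂ (a.1, a.2.2)) (fun a b => map_add (θL s.t₂) (a.1, a.2.2) (b.1, b.2.2))
    fun c a => map_smul (θL s.t₂) c (a.1, a.2.2)

/-- The curve of `x` is the disjoint union of the curves of the labels. -/
structure Du (x : ch.W (Mk ν κ)) (w₁ : ch.Lb n₁ (Mk ν₁ κ₁)) (w₂ : ch.Lb n₂ (Mk ν₂ κ₂)) : Prop where
  mem : x ∈ ch.base _
  one : Pc x w₁ s.mk₁
  two : Pc x w₂ s.mk₂
  compl : ∀ i, IsCompl (w₁.2.1 i).range (w₂.2.1 i).range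
  bij : ∀ l, Bijective ((w₁.2.2 l).prod (w₂.2.2 l))
  crv : crv x = apV w₁.2.1 '' crv w₁.1 ∪ apV w₂.2.1 '' crv w₂.1

/-- The point of the chart of a part, with the induced fields. -/
noncomputable def prt (x : ch.WF ν κ Λ) (w : ch.Lb n (Mk ν' κ')) (ψ : HV ch.M n.M) :
    (ch.re n).WF ν' κ' Λ :=
  (x.1, W.mk' w.1.Q w.1.p w.1.Ξ fun j => w.2.2 (some j) ∘L x.2.X j ∘L pbT ψ _)

/-- The first part. -/
noncomputable def pt₁ (z : ch.WQ n₁ n₂ ν κ ν₁ κ₁ ν₂ κ₂ Λ) : (ch.re n₁).WF ν₁ κ₁ Λ :=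
  prt z.1 z.2.1 (lpr z.2.1.2.1 z.2.2.2.1)

/-- The second part. -/
noncomputable def pt₂ (z : ch.WQ n₁ n₂ ν κ ν₁ κ₁ ν₂ κ₂ Λ) : (ch.re n₂).WF ν₂ κ₂ Λ :=
  prt z.1 z.2.2 (lpr z.2.2.2.1 z.2.1.2.1)

/-- All decomposed curves; the fields live on the big curve. -/
def CQ : Set (ch.WQ n₁ n₂ ν κ ν₁ κ₁ ν₂ κ₂ Λ) :=
  {z | Du s z.1.2 z.2.1 z.2.2 ∧ (∀ j, z.2.1.1.X j = 0) ∧ ∀ j, z.2.2.1.X j = 0}

/-- The first part of the curve. -/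
def part (z : ch.WQ n₁ n₂ ν κ ν₁ κ₁ ν₂ κ₂ Λ) : Set (V ch.M) := apV z.2.1.2.1 '' crv z.2.1.1

/-- The labels are exchanged. -/
def swQ (z : ch.WQ n₁ n₂ ν κ ν₁ κ₁ ν₂ κ₂ Λ) : ch.WQ n₂ n₁ ν κ ν₂ κ₂ ν₁ κ₁ Λ := (z.1, z.2.2, z.2.1)

variable (F : Fam S Λ R J K) (e : K → ι → ℕ) (T₁ : Set ((ch.re n₁).WF ν₁ κ₁ Λ))
  (T₂ : Set ((ch.re n₂).WF ν₂ κ₂ Λ))

/-- **The labelled space** over `T₁` and `T₂`. -/
def ZQ : Set (ch.WQ n₁ n₂ ν κ ν₁ κ₁ ν₂ κ₂ Λ) :=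
  {z | z ∈ CQ s ∧ z.1 ∈ ch.adm ν κ F ∧ pt₁ z ∈ T₁ ∧ pt₂ z ∈ T₂}

/-- The labelled solutions. -/
def LQ : Set (ch.WQ n₁ n₂ ν κ ν₁ κ₁ ν₂ κ₂ Λ) := ZQ s F T₁ T₂ ∩ Prod.fst ⁻¹' ch.solF ν κ F

/-- The Kuranishi data of the labelled space. -/
noncomputable abbrev kdPQ (ch : Ch ι J) (n₁ n₂ : Nm ι J) (ν κ ν₁ κ₁ ν₂ κ₂ : Type) [Fintype ν]
    [Fintype κ] [Fintype ν₁] [Fintype κ₁] [Fintype ν₂] [Fintype κ₂] (F : Fam S Λ R J K)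
    (e : K → ι → ℕ) : KD (ch.AQ n₁ n₂ ν κ S) (ch.WQ n₁ n₂ ν κ ν₁ κ₁ ν₂ κ₂ Λ) (ch.P K) :=
  (ch.kd ν κ F e).pb (fun a => a.1) Prod.fst

/-- A stratum: a level that is a manifold of dimension `N`, locally analytically constructible. -/
structure Stra (Z : Set (ch.WF ν κ Λ)) (N : ℕ) : Prop where
  lev : Lev F Z
  mfd : ∀ x ∈ Z, MfdAt Z N x
  an : LocAn (ch.baseF ν κ F.B) Z

/-- The closure of a stratum. -/
abbrev clo (Z : Set (ch.WF ν κ Λ)) : Set (ch.WF ν κ Λ) := closure Z ∩ ch.baseF ν κ F.B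

/-- Pairs of points with the same parameter. -/
abbrev W2 (ch : Ch ι J) (n₁ n₂ : Nm ι J) (ν₁ κ₁ ν₂ κ₂ Λ : Type) [Fintype ν₁] [Fintype κ₁]
    [Fintype ν₂] [Fintype κ₂] : Type := (ch.re n₁).WF ν₁ κ₁ Λ × (ch.re n₂).W (Mk ν₂ κ₂)

/-- The group of the pairs. -/
abbrev A2 (ch : Ch ι J) (n₁ n₂ : Nm ι J) (ν₁ κ₁ ν₂ κ₂ S : Type) : Type :=
  AP ((ch.re n₁).AF ν₁ κ₁ S) ((ch.re n₂).A (ν₂ ⊕ κ₂))

instance : FiniteDimensional ℂ (ch.W2 n₁ n₂ ν₁ κ₁ ν₂ κ₂ Λ) := inferInstance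

/-- The parameter. -/
noncomputable abbrev πF : ch.WF ν κ Λ →L[ℂ] (Λ → ℂ) := .fst ℂ _ _

/-- The extra torus. -/
noncomputable def τF : CL (ch.AF ν κ S) (S → ℂ) :=
  CL.mk (fun a => a.1) (fun _ _ => rfl) fun _ _ => rfl

/-- The group of the second point. -/
noncomputable def θ2 : CL (ch.A2 n₁ n₂ ν₁ κ₁ ν₂ κ₂ S) ((ch.re n₂).AF ν₂ κ₂ S) :=
  CL.mk (fun a => (a.1.1, a.2)) (fun _ _ => rfl) fun _ _ => rfl

/-- The action on pairs. -/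
noncomputable def act2 (F : Wt S Λ R J) (a : ch.A2 n₁ n₂ ν₁ κ₁ ν₂ κ₂ S)
    (y : ch.W2 n₁ n₂ ν₁ κ₁ ν₂ κ₂ Λ) : ch.W2 n₁ n₂ ν₁ κ₁ ν₂ κ₂ Λ :=
  (actF F a.1 y.1, (actF F (θ2 a) (fp₂ πF y)).2)

/-- The Kuranishi data of the pairs. -/
noncomputable def kd2 (ch : Ch ι J) (n₁ n₂ : Nm ι J) (ν₁ κ₁ ν₂ κ₂ : Type) [Fintype ν₁] [Fintype κ₁]
    [Fintype ν₂] [Fintype κ₂] (F : Fam S Λ R J K) (e : K → ι → ℕ) :
    KD (ch.A2 n₁ n₂ ν₁ κ₁ ν₂ κ₂ S) (ch.W2 n₁ n₂ ν₁ κ₁ ν₂ κ₂ Λ)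
    ((ch.re n₁).P K × (ch.re n₂).P K) :=
  (((ch.re n₁).kd ν₁ κ₁ F e).pb AP.fst Prod.fst).sum (((ch.re n₂).kd ν₂ κ₂ F e).pb θ2 (fp₂ πF))

/-- The group of the pair of parts. -/
noncomputable def θQ : CL (ch.AQ n₁ n₂ ν κ S) (ch.A2 n₁ n₂ ν₁ κ₁ ν₂ κ₂ S) :=
  CL.mk (fun a => (θQ₁ s a, (θQ₂ s a).2))
    (fun a b => Prod.ext (map_add (θQ₁ s) a b) (congrArg Prod.snd (map_add (θQ₂ s) a b) :))
    fun c a => Prod.ext (map_smul (θQ₁ s) c a) (congrArg Prod.snd (map_smul (θQ₂ s) c a) :)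

/-- The pair of parts. -/
noncomputable def pt2 (z : ch.WQ n₁ n₂ ν κ ν₁ κ₁ ν₂ κ₂ Λ) : ch.W2 n₁ n₂ ν₁ κ₁ ν₂ κ₂ Λ :=
  (pt₁ z, (pt₂ z).2)

/-- Fixed direct sum decompositions of the factors and of the spaces of sections. -/
structure Bip (ch : Ch ι J) (n₁ n₂ : Nm ι J) where
  /-- first inclusion -/
  φ₁ : HV n₁.M ch.M
  /-- second inclusion -/
  φ₂ : HV n₂.M ch.M
  /-- first projection -/
  ψ₁ : HV ch.M n₁.M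
  /-- second projection -/
  ψ₂ : HV ch.M n₂.M
  /-- first restriction -/
  r₁ : ∀ l, ch.E l →L[ℂ] (ch.re n₁).E l
  /-- second restriction -/
  r₂ : ∀ l, ch.E l →L[ℂ] (ch.re n₂).E l
  /-- first extension -/
  e₁ : ∀ l, (ch.re n₁).E l →L[ℂ] ch.E l
  /-- second extension -/
  e₂ : ∀ l, (ch.re n₂).E l →L[ℂ] ch.E l
  ψφ₁₁ : ∀ i v, ψ₁ i (φ₁ i v) = v
  ψφ₁₂ : ∀ i v, ψ₁ i (φ₂ i v) = 0
  ψφ₂₁ : ∀ i v, ψ₂ i (φ₁ i v) = 0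
  ψφ₂₂ : ∀ i v, ψ₂ i (φ₂ i v) = v
  φψ : ∀ i v, φ₁ i (ψ₁ i v) + φ₂ i (ψ₂ i v) = v
  re₁₁ : ∀ l v, r₁ l (e₁ l v) = v
  re₁₂ : ∀ l v, r₁ l (e₂ l v) = 0
  re₂₁ : ∀ l v, r₂ l (e₁ l v) = 0
  re₂₂ : ∀ l v, r₂ l (e₂ l v) = v
  er : ∀ l v, e₁ l (r₁ l v) + e₂ l (r₂ l v) = v

/-- Transport of functions along maps of points and tests. -/
noncomputable def trP (K : Type) {ch ch' : Ch ι J} (f : ch'.Pt → ch.Pt) (g : ∀ j, ch'.Th j → ch.Th j)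
    (h : ch'.Zt → ch.Zt) : ch.P K →ₗ[ℂ] ch'.P K where
  toFun w := (fun j z m => w.1 j (f z) (g j m.1, g j m.2), fun k z ζ => w.2 k (f z) (h ζ))
  map_add' _ _ := rfl
  map_smul' _ _ := rfl

namespace Bip

variable (b : ch.Bip n₁ n₂)

/-- The parts are exchanged. -/
def symm : ch.Bip n₂ n₁ :=
  ⟨b.φ₂, b.φ₁, b.ψ₂, b.ψ₁, b.r₂, b.r₁, b.e₂, b.e₁, b.ψφ₂₂, b.ψφ₂₁, b.ψφ₁₂, b.ψφ₁₁,
    fun i v => (add_comm _ _).trans (b.φψ i v), b.re₂₂, b.re₂₁, b.re₁₂, b.re₁₁,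
    fun i v => (add_comm _ _).trans (b.er i v)⟩

/-- The direct sum of two tensors. -/
noncomputable def ds {σ : Type} [Fintype σ] {τ : σ → ι} {l : Option J}
    (X₁ : Tn n₁.M τ →L[ℂ] (ch.re n₁).E l) (X₂ : Tn n₂.M τ →L[ℂ] (ch.re n₂).E l) :
    Tn ch.M τ →L[ℂ] ch.E l := b.e₁ l ∘L X₁ ∘L pbT b.φ₁ τ + b.e₂ l ∘L X₂ ∘L pbT b.φ₂ τ

/-- The direct sum of two points, with additional fields `v`. -/
noncomputable def sm (y₁ : (ch.re n₁).W (Mk ν₁ κ₁)) (y₂ : (ch.re n₂).W (Mk ν₂ κ₂))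
    (v : ∀ j, ch.Th j →L[ℂ] ch.E (some j)) : ch.W (Mk ν κ) :=
  W.mk' (fun l => b.ds (y₁.Q l) (y₂.Q l))
    (fun a => (s.mkS a).elim (fun c => apV b.φ₁ (y₁.p c)) fun c => apV b.φ₂ (y₂.p c))
    (b.ds y₁.Ξ y₂.Ξ) fun j => b.ds (y₁.X j) (y₂.X j) + v j

variable (A : Set J)

/-- The fields induced on the first part. -/
noncomputable def rs₁ : ch.Fm A ch.hf →ₗ[ℂ] (ch.re n₁).Fm A (ch.re n₁).hf :=
  Fm.cmp (fun j => b.r₁ (some j)) fun _ => pbT b.ψ₁ _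

/-- The fields induced on the second part. -/
noncomputable def rs₂ : ch.Fm A ch.hf →ₗ[ℂ] (ch.re n₂).Fm A (ch.re n₂).hf :=
  Fm.cmp (fun j => b.r₂ (some j)) fun _ => pbT b.ψ₂ _

/-- The cross terms. -/
noncomputable def cr : Submodule ℂ (ch.Fm A ch.hf) :=
  LinearMap.ker (b.rs₁ A) ⊓ LinearMap.ker (b.rs₂ A)

/-- The cross terms of a field. -/
noncomputable def crF : ch.Fm A ch.hf →ₗ[ℂ] ch.Fm A ch.hf :=
  .id - (Fm.cmp (fun j => b.e₁ (some j)) fun _ => pbT b.φ₁ _) ∘ₗ b.rs₁ A -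
    (Fm.cmp (fun j => b.e₂ (some j)) fun _ => pbT b.φ₂ _) ∘ₗ b.rs₂ A

theorem crF_mem (v : ch.Fm A ch.hf) : b.crF A v ∈ b.cr A := by
  have a : ∀ j (m : (ch.re n₁).Th j), pbT b.φ₁ _ (pbT b.ψ₁ _ m) = m := fun j m => by
    ext u
    exact congrArg m (funext fun i => b.ψφ₁₁ _ _)
  have a' : ∀ j (m : (ch.re n₂).Th j), pbT b.φ₂ _ (pbT b.ψ₂ _ m) = m := fun j m => by
    ext u
    exact congrArg m (funext fun i => b.ψφ₂₂ _ _)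
  refine ⟨funext fun j => ContinuousLinearMap.ext fun m => ?_,
    funext fun j => ContinuousLinearMap.ext fun m => ?_⟩
  · change b.r₁ _ (v j (pbT b.ψ₁ _ m) - b.e₁ _ (b.r₁ _ (v j (pbT b.ψ₁ _ (pbT b.φ₁ _ (pbT b.ψ₁ _ m))))) -
      b.e₂ _ _) = 0
    rw [map_sub, map_sub, b.re₁₁, b.re₁₂, a, sub_self, sub_zero]
  · change b.r₂ _ (v j (pbT b.ψ₂ _ m) - b.e₁ _ _ -
      b.e₂ _ (b.r₂ _ (v j (pbT b.ψ₂ _ (pbT b.φ₂ _ (pbT b.ψ₂ _ m)))))) = 0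
    rw [map_sub, map_sub, b.re₂₁, b.re₂₂, a', sub_zero, sub_self]

/-- The projection to the cross terms. -/
noncomputable def crP : ch.Fm A ch.hf →L[ℂ] b.cr A :=
  LinearMap.toContinuousLinearMap ((b.crF A).codRestrict _ (b.crF_mem A))

/-- Pairs of points with cross terms. -/
abbrev WX (ν₁ κ₁ ν₂ κ₂ Λ : Type) [Fintype ν₁] [Fintype κ₁] [Fintype ν₂] [Fintype κ₂] : Type :=
  ch.W2 n₁ n₂ ν₁ κ₁ ν₂ κ₂ Λ × b.cr A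

instance : FiniteDimensional ℂ (b.WX A ν₁ κ₁ ν₂ κ₂ Λ) := inferInstance

variable {A}

/-- The direct sum. -/
noncomputable def μ (y : b.WX A ν₁ κ₁ ν₂ κ₂ Λ) : ch.WF ν κ Λ :=
  (y.1.1.1, b.sm s y.1.1.2 y.1.2 (Fm.ex y.2.1))

/-- Block diagonal elements. -/
noncomputable def β : CL (ch.A2 n₁ n₂ ν₁ κ₁ ν₂ κ₂ S) (ch.AF ν κ S) :=
  CL.mk (fun a => (a.1.1, fun i => blkD (b.φ₁ i) (b.ψ₁ i) (b.φ₂ i) (b.ψ₂ i) (a.1.2.1 i) (a.2.1 i),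
      fun l => blkD (b.e₁ l) (b.r₁ l) (b.e₂ l) (b.r₂ l) (a.1.2.2.1 l) (a.2.2.1 l),
      fun q => (s.tS q).elim a.1.2.2.2 a.2.2.2))
    (fun a a' => Prod.ext rfl (Prod.ext (funext fun _ => blkD_add ..)
      (Prod.ext (funext fun _ => blkD_add ..) (funext fun q => by
      rcases h : s.tS q with _ | _ <;> simp only [Prod.snd_add, Pi.add_apply, h] <;> rfl))))
    fun c a => Prod.ext rfl (Prod.ext (funext fun _ => blkD_smul ..)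
      (Prod.ext (funext fun _ => blkD_smul ..) (funext fun q => by
      rcases h : s.tS q with _ | _ <;> simp only [Prod.smul_snd, Pi.smul_apply, h] <;> rfl)))

variable (A) in
/-- The action on the cross terms. -/
noncomputable def ρc (F : Wt S Λ R J) (a : ch.A2 n₁ n₂ ν₁ κ₁ ν₂ κ₂ S) (v : b.cr A) : b.cr A :=
  b.crP A (ρM (F.cS a.1.1) (b.β s a).2.1 (fun j => (b.β s a).2.2.1 (some j)) v.1)

/-- The action on pairs with cross terms. -/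
noncomputable def actX (F : Wt S Λ R J) (a : ch.A2 n₁ n₂ ν₁ κ₁ ν₂ κ₂ S)
    (y : b.WX A ν₁ κ₁ ν₂ κ₂ Λ) : b.WX A ν₁ κ₁ ν₂ κ₂ Λ := (act2 F a y.1, b.ρc s A F a y.2)

/-- The gauge transformation that moves the labels to the standard position. -/
noncomputable def γ (w₁ : ch.Lb n₁ (Mk ν₁ κ₁)) (w₂ : ch.Lb n₂ (Mk ν₂ κ₂)) : ch.A (ν ⊕ κ) :=
  (fun i => Ring.inverse (w₁.2.1 i ∘L b.ψ₁ i + w₂.2.1 i ∘L b.ψ₂ i),
    fun l => b.e₁ l ∘L w₁.2.2 l + b.e₂ l ∘L w₂.2.2 l, 1)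

variable (A) in
/-- The pair of parts and the cross terms. -/
noncomputable def g (z : ch.WQ n₁ n₂ ν κ ν₁ κ₁ ν₂ κ₂ Λ) : b.WX A ν₁ κ₁ ν₂ κ₂ Λ :=
  (pt2 z, b.crP A (qX A (act (dup (b.γ z.2.1 z.2.2)) z.1.2)))

/-- The standard section. -/
noncomputable def st (y : b.WX A ν₁ κ₁ ν₂ κ₂ Λ) : ch.WQ n₁ n₂ ν κ ν₁ κ₁ ν₂ κ₂ Λ :=
  (b.μ s y, Lb.nf (y.1.1.2, b.φ₁, b.r₁), Lb.nf (y.1.2, b.φ₂, b.r₂))

variable (A) in
/-- The decomposed curves without cross terms outside `A`. -/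
def CA : Set (ch.WQ n₁ n₂ ν κ ν₁ κ₁ ν₂ κ₂ Λ) := {z | z ∈ CQ s ∧ (b.g Aᶜ z).2 = 0}

variable (A) in
/-- Pairs of curves with cross terms. -/
def BA : Set (b.WX A ν₁ κ₁ ν₂ κ₂ Λ) :=
  {y | y.1.1.2 ∈ (ch.re n₁).base _ ∧ y.1.2 ∈ (ch.re n₂).base _}

/-- A point of the first part as a point of the sum. -/
noncomputable def i₁ (z : (ch.re n₁).Pt) : ch.Pt := (apV b.φ₁ z.1, fun l => z.2 l ∘L b.r₁ l)

/-- The projection of points to the first part. -/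
noncomputable def j₁ (z : ch.Pt) : (ch.re n₁).Pt := (apV b.ψ₁ z.1, fun l => z.2 l ∘L b.e₁ l)

/-- Restriction of functions to the first part. -/
noncomputable def B₁ (K : Type) : ch.P K →ₗ[ℂ] (ch.re n₁).P K :=
  trP K b.i₁ (fun _ => pbT b.ψ₁ _) fun ζ i => ζ i ∘L b.ψ₁ i

/-- Extension of functions from the first part. -/
noncomputable def L₁ (K : Type) : (ch.re n₁).P K →ₗ[ℂ] ch.P K :=
  trP K b.j₁ (fun _ => pbT b.φ₁ _) fun ζ i => ζ i ∘L b.φ₁ i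

/-- Restriction of functions to both parts. -/
noncomputable def B (K : Type) : ch.P K →ₗ[ℂ] (ch.re n₁).P K × (ch.re n₂).P K :=
  (b.B₁ K).prod (b.symm.B₁ K)

/-- The Kuranishi data of the direct sum. -/
noncomputable abbrev kdX :
    KD (ch.A2 n₁ n₂ ν₁ κ₁ ν₂ κ₂ S) (b.WX F.mov ν₁ κ₁ ν₂ κ₂ Λ) (ch.P K) :=
  (ch.kd ν κ F e).pb (b.β s) (b.μ s)

variable (ν₁ κ₁ ν₂ κ₂) in
/-- The Kuranishi data of the pairs. -/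
noncomputable abbrev kd0 : KD (ch.A2 n₁ n₂ ν₁ κ₁ ν₂ κ₂ S) (b.WX F.mov ν₁ κ₁ ν₂ κ₂ Λ)
    ((ch.re n₁).P K × (ch.re n₂).P K) := (ch.kd2 n₁ n₂ ν₁ κ₁ ν₂ κ₂ F e).pb id Prod.fst

/-- The differential of the section along the cross terms. -/
noncomputable def E (y : b.WX F.mov ν₁ κ₁ ν₂ κ₂ Λ) : b.cr F.mov →ₗ[ℂ] ch.P K :=
  dSc F e (b.μ s y) ∘ₗ (b.cr F.mov).subtype

end Bip

end Ch

end Vale.Agent.P269
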