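import Vale.Agent.P287Q.G.Glu.Ctx
import Vale.Agent.P287Q.G.Vir.Ker0
import Vale.Agent.P287Q.G.Vir.Adm
import Vale.Agent.P269.Base.Match

set_option linter.unusedSectionVars false

/-!
# Labelled normalisations: pointwise facts
-/

namespace Vale.Agent.P269.Ch

open P291Z Set Function Topology Filter Base Cv Holo Vir KD

variable {S Λ R J K ι ν κ ν' κ' : Type} [Fintype S] [Fintype Λ] [Fintype R] [Fintype J]
  [Fintype K] [Fintype ι] [DecidableEq ι] [Fintype ν] [Fintype κ] [Fintype ν'] [Fintype κ']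
  {ch : Ch ι J} {n : Nm ι J} {F : Fam S Λ R J K} {x : ch.W (Mk ν κ)}
  {w w' : ch.Lb n (Mk ν (κ ⊕ κ'))}

open Classical in
/-- The pairs that are glued. -/
noncomputable def prs {X : Type} (p : Mk ν (κ ⊕ κ') → X) : Finset (X × X) :=
  Finset.univ.image fun a => (p (nq a false), p (nq a true))

namespace GlP

theorem mem_prs {X : Type} {p : Mk ν (κ ⊕ κ') → X} {q : X × X} :
    q ∈ prs p ↔ ∃ a, (p (nq a false), p (nq a true)) = q := by simp [prs]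

theorem apV_smul {M M' : ι → ℕ} (φ : HV M M') (t : ι → ℂ) (c : V M) :
    apV φ (t • c) = t • apV φ c := funext fun i => map_smul (φ i) (t i) (c i)

theorem hasDerivAt_apV {M M' : ι → ℕ} (φ : HV M M') {γ : ℂ → V M} {v : V M} {t : ℂ}
    (h : HasDerivAt γ v t) : HasDerivAt (fun z => apV φ (γ z)) (apV φ v) t :=
  hasDerivAt_pi.2 fun i => (φ i).hasFDerivAt.comp_hasDerivAt t (hasDerivAt_pi.1 h i)

theorem wedge_pbT (φ : HV n.M ch.M) (μ : Tn ch.M ch.slot) (c v : V n.M) :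
    wedge (ch := ch.re n) (pbT φ _ μ) c v = wedge μ (apV φ c) (apV φ v) :=
  Finset.sum_congr rfl fun ε _ => congrArg _ (congrArg μ (funext fun s => by
    rcases s with s | s
    exacts [apply_ite (φ ch.o) _ _ _, rfl]))

theorem ptz_gr {x : ch.W ν'} (hx : x ∈ ch.base ν') (q : ν') : ptz x q ∈ gr x :=
  Classical.epsilon_spec (mem_crv.1 (hx.2.2.2.1 q).1)

theorem gr_ext {x : ch.W ν'} (hx : ∀ l, Surjective (x.Q l)) {z z' : ch.Pt} (a : z ∈ gr x)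
    (b : z' ∈ gr x) (e : z.1 = z'.1) : z = z' :=
  Prod.ext e (funext fun l => gr_unique (c := z'.1) (e ▸ a) b (hx l))

theorem lk_mem {x : ch.W ν} {w : ch.Lb n ν'} (h : Lk x w) {z : (ch.re n).Pt} (hz : z ∈ gr w.1)
    (h0 : ∀ i, apV w.2.1 z.1 i ≠ 0) : lpt w z ∈ gr x :=
  ⟨h0, fun l μ => (congrArg (z.2 l) (h.Q l μ)).trans (hz.2 l _)⟩

section

variable {X : Type} [TopologicalSpace X] [T2Space X] [CompactSpace X] {Q : RS X}
  {N : Finset (X × X)} {A : ι → LB Q}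

theorem br_apV {M M' : ι → ℕ} (φ : HV M M') (π : X → V M) (y : X) :
    br A (fun y => apV φ (π y)) y = fun t => apV φ (br A π y t) :=
  funext fun t => by rw [Cv.br_eq, Cv.br_eq, apV_smul]

variable {x : ch.W ν'} {π : X → V ch.M} {u : X → ∀ l, ch.E l →L[ℂ] ℂ} {p : ν' → X} {ξ : X → ℂ}

theorem h1_bz (c : Cr N A x π u p ξ) {a : ι → ℕ} (ha : a ≠ 0) :
    h1 N (bz A fun i => a i) = 0 := by
  simp only [h1, c.par.finrank c.cur ha, deg_bz, c.deg_eq, c.gen_eq, sub_self]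

theorem h1_one (c : Cr N A x π u p ξ) (i : ι) : h1 N (A i) = 0 := by
  rw [h1, c.par.finrank_one c.cur, c.deg_eq, c.gen_eq, sub_self]

theorem ptz_eq (c : Cr N A x π u p ξ) {q : ν'} (e : π (p q) = x.p q) :
    ptz x q = (π (p q), u (p q)) := gr_ext c.mem.1 (ptz_gr c.mem q) (c.gr _) e.symm

open Classical in
/-- sections with prescribed jumps -/
theorem exists_jmp {p : Mk ν (κ ⊕ κ') → X} (hp : Injective p) (hd : Disjoint N (prs p)) {L : LB Q}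
    (h1 : Cv.h1 (N ∪ prs p) L = 0) (v : κ' → ℂ) :
    ∃ s ∈ H0 N L, ∀ a, s (p (nq a false)) - s (p (nq a true)) = v a :=
  have i : Injective fun a => (p (nq a false), p (nq a true)) := fun a b e => by
    simpa using hp (congrArg Prod.fst e)
  let ⟨s, a, b⟩ := CD.exists_jump hd h1 (extend (fun a => (p (nq a false), p (nq a true))) v 0)
  ⟨s, a, fun q => (b _ (mem_prs.2 ⟨q, rfl⟩)).trans (i.extend_apply _ _ q)⟩

end

theorem E_ext {x : ch.W ν'} (hx : x ∈ ch.base ν') {l : Option J} {v v' : ch.E l}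
    (e : ∀ z ∈ gr x, z.2 l v = z.2 l v') : v = v' :=
  let ⟨_, _, _, _, _, _, _, _, _, _, _, c⟩ := Cv.exists_cr hx
  c.u_ext fun y => e _ (c.gr y)

end GlP

open GlP

namespace Gl

variable (h : Gl x w)
include h

open Classical in
/-- **both curves have a common normalisation** -/
theorem exists_cr : ∃ (X : Type) (_ : TopologicalSpace X) (_ : T2Space X) (_ : CompactSpace X)
    (Q : RS X) (N : Finset (X × X)) (A : ι → LB Q) (π : X → V n.M) (u : _) (p : _) (ξ ξ' : X → ℂ),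
    Cr N A w.1 π u p ξ ∧ (∀ a, π (p a) = w.1.p a) ∧ Disjoint N (prs p) ∧
      Cr (N ∪ prs p) A x (fun y => apV w.2.1 (π y)) (fun y l => u y l ∘L w.2.2 l)
        (fun a => p (inc a)) ξ' := by
  obtain ⟨X, _, _, _, Q, N, A, π, p, P', e, P⟩ := h.par
  obtain ⟨u, p', ξ, c'⟩ := Par.exists_cr (ch := ch.re n) P' h.mem'
  obtain rfl : p = p' := funext fun a => c'.orb_mark.1 ⟨1, (e a).trans (one_smul _ _).symm⟩
  obtain ⟨u₁, p₁, ξ', c⟩ := P.exists_cr h.mem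
  obtain rfl : (fun a => p (inc a)) = p₁ := funext fun a => c.orb_mark.1
    ⟨1, by rw [e, one_smul, h.mark]⟩
  obtain rfl : (fun y l => u y l ∘L w.2.2 l) = u₁ := funext₂ fun y l =>
    gr_unique (lk_mem h.toLk (c'.gr y) (P.ne y)) (c.gr y) (h.mem.1 l)
  refine ⟨X, _, ‹_›, ‹_›, Q, N, A, π, u, p, ξ, ξ', c', e, Finset.disjoint_left.2 fun a d f => ?_, c⟩
  obtain ⟨q, rfl⟩ := mem_prs.1 f
  exact (c'.sm _ _ d).1 rfl

theorem apV_mem {c : V n.M} (hc : c ∈ crv w.1) : apV w.2.1 c ∈ crv x := by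
  obtain ⟨X, _, _, _, Q, N, A, π, p, P', -, P⟩ := h.par
  obtain ⟨y, t, ht, rfl⟩ := (P'.img c).1 hc
  exact apV_smul _ t _ ▸ P.smul_mem y ht

theorem lpt_mem {z : (ch.re n).Pt} (hz : z ∈ gr w.1) : lpt w z ∈ gr x :=
  lk_mem h.toLk hz (crv_ne (h.apV_mem ⟨z, hz, rfl⟩))

theorem exists_apV {c : V ch.M} (hc : c ∈ crv x) : ∃ y ∈ crv w.1, apV w.2.1 y = c := by
  obtain ⟨X, _, _, _, Q, N, A, π, p, P', -, P⟩ := h.par
  obtain ⟨y, t, ht, rfl⟩ := (P.img c).1 hc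
  exact ⟨_, P'.smul_mem y ht, apV_smul _ _ _⟩

theorem exists_lpt {z : ch.Pt} (hz : z ∈ gr x) : ∃ y ∈ gr w.1, lpt w y = z :=
  let ⟨_, ⟨y, a, b⟩, e⟩ := h.exists_apV ⟨z, hz, rfl⟩
  ⟨y, a, gr_ext h.mem.1 (h.lpt_mem a) hz (b ▸ e :)⟩

theorem lpt_inc (a : Mk ν κ) : lpt w (ptz w.1 (inc a)) = ptz x a :=
  gr_ext h.mem.1 (h.lpt_mem (ptz_gr h.mem' _)) (ptz_gr h.mem a) (h.mark a).symm

theorem lpt_nq (a : κ') : lpt w (ptz w.1 (nq a false)) = lpt w (ptz w.1 (nq a true)) :=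
  gr_ext h.mem.1 (h.lpt_mem (ptz_gr h.mem' _)) (h.lpt_mem (ptz_gr h.mem' _)) (h.node a)

theorem jmp_comp (a : κ') (l : Option J) : jmp w.1 a l ∘L w.2.2 l = 0 :=
  (ContinuousLinearMap.sub_comp _ _ _).trans
    (sub_eq_zero.2 (congrFun (congrArg Prod.snd (h.lpt_nq a)) l))

/-- only the branches are identified -/
theorem apV_inj {c c' : V n.M} (hc : c ∈ crv w.1) (hc' : c' ∈ crv w.1)
    (e : apV w.2.1 c = apV w.2.1 c') :
    c = c' ∨ ∃ a b, ∃ t : ι → ℂ, c = t • w.1.p (nq a b) ∧ c' = t • w.1.p (nq a (!b)) := by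
  obtain ⟨X, _, _, _, Q, N, A, π, p, P', f, P⟩ := h.par
  obtain ⟨y, t, ht, rfl⟩ := (P'.img c).1 hc
  obtain ⟨y', t', ht', rfl⟩ := (P'.img c').1 hc'
  rw [apV_smul, apV_smul] at e
  have k := P.fibre ht e
  obtain rfl : t = t' := Dict.smul_cancel (P.ne y') (P.π_eq k ▸ e :)
  simp only [Finset.mem_union, Finset.mem_image, Finset.mem_univ, true_and, Prod.mk.injEq] at k
  rcases k with k | (k | ⟨a, rfl, rfl⟩) | k | ⟨a, rfl, rfl⟩
  exacts [.inl (k ▸ rfl), .inl (P'.π_eq (.inr (.inl k)) ▸ rfl), .inr ⟨a, false, t, f _ ▸ rfl, f _ ▸ rfl⟩,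
    .inl (P'.π_eq (.inr (.inr k)) ▸ rfl), .inr ⟨a, true, t, f _ ▸ rfl, f _ ▸ rfl⟩]

theorem isNode (a : κ') : IsNode ch.o (crv x) (apV w.2.1 (w.1.p (nq a false))) := by
  classical
  obtain ⟨X, _, _, _, Q, N, A, π, p, -, f, P⟩ := h.par
  exact ⟨_, _, f _ ▸ P.isCross (n := (p (nq a false), p (nq a true)))
    (Finset.mem_union_right _ (Finset.mem_image_of_mem _ (Finset.mem_univ a)))⟩

theorem val_of {j : J} (hj : Mt x w j) {c : V n.M} (hc : c ∈ crv w.1) {y : ℂ}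
    (hv : Val w.1 j c y) : Val x j (apV w.2.1 c) y := fun _ hu μ =>
  let ⟨u, a⟩ := mem_crv.1 hc
  gr_unique (h.lpt_mem a) hu (h.mem.1 _) ▸ (congrArg (u _) (hj μ)).trans (hv u a _)

theorem val_iff {j : J} (hj : Mt x w j) {c : V n.M} (hc : c ∈ crv w.1)
    (hv : ∃ y, Val w.1 j c y) {y : ℂ} : Val x j (apV w.2.1 c) y ↔ Val w.1 j c y :=
  ⟨fun a => let ⟨_, b⟩ := hv; val_unique (h.apV_mem hc) (h.val_of hj hc b) a ▸ b, h.val_of hj hc⟩

theorem fld_eq {j : J} (hj : Mt x w j) {c : V n.M} (hc : c ∈ crv w.1) (hv : ∃ y, Val w.1 j c y) :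
    fld x (apV w.2.1 c) j = fld w.1 c j :=
  Cv.fld_eq (h.apV_mem hc) (h.val_of hj hc (val_fld hv))

theorem jmp_surj (ha : ∀ l, ch.a l ≠ 0) (l : Option J) :
    Surjective fun (v : (ch.re n).E l) (a : κ') => jmp w.1 a l v := fun t => by
  obtain ⟨X, _, _, _, Q, N, A, π, u, p, ξ, ξ', c', e, d, c⟩ := h.exists_cr
  obtain ⟨s, a, b⟩ := exists_jmp c'.inj d (h1_bz c (ha l)) t
  obtain ⟨v, hv⟩ := c'.u_surj (ha l) a
  refine ⟨v, funext fun q => ?_⟩
  simp only [jmp, ptz_eq c' (e _), _root_.sub_apply, hv, b]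

theorem mem_range (ha : ∀ l, ch.a l ≠ 0) (l : Option J) {v : (ch.re n).E l} :
    v ∈ range (w.2.2 l) ↔ ∀ a, jmp w.1 a l v = 0 := by
  refine ⟨fun ⟨v, e⟩ a => e ▸ DFunLike.congr_fun (h.jmp_comp a l) v, fun b => ?_⟩
  classical
  obtain ⟨X, _, _, _, Q, N, A, π, u, p, ξ, ξ', c', e, d, c⟩ := h.exists_cr
  simp only [jmp, ptz_eq c' (e _), _root_.sub_apply, sub_eq_zero] at b
  obtain ⟨v', hv⟩ := c.u_surj (ha l) (mem_H0_union.2 ⟨c'.u_mem l v, fun q hq =>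
    let ⟨a, f⟩ := mem_prs.1 hq; f ▸ b a⟩)
  exact ⟨v', c'.u_ext hv⟩

theorem h_eq (ha : ∀ l, ch.a l ≠ 0) (l : Option J) : n.h l = ch.h l + Fintype.card κ' := by
  let T : (ch.re n).E l →ₗ[ℂ] κ' → ℂ := LinearMap.pi fun a => (jmp w.1 a l).toLinearMap
  have a := T.finrank_range_add_finrank_ker
  rw [LinearMap.range_eq_top.2 (h.jmp_surj ha l), show T.ker = (w.2.2 l).range from
    Submodule.ext fun v => funext_iff.trans (h.mem_range ha l).symm,
    LinearMap.finrank_range_of_inj (h.inj l)] at a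
  simpa [add_comm] using a.symm

theorem M_eq (hn : ch.GN n κ') (i : ι) : n.M i = ch.M i + Fintype.card κ' := by
  have a := hn.tight.1.eq h.mem i
  have b : (n.M i : ℤ) = n.m i + 1 - n.g := hn.tight'.1.eq h.mem' i
  have c := hn.g
  rw [hn.m] at b
  omega

set_option linter.unusedVariables false in
theorem li (hn : ch.GN n κ') (i : ι) :
    LinearIndependent ℂ fun a : κ' => w.1.p (nq a false) i - w.1.p (nq a true) i := by
  classical
  obtain ⟨X, _, _, _, Q, N, A, π, u, p, ξ, ξ', c', e, d, c⟩ := h.exists_cr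
  refine Fintype.linearIndependent_iff.2 fun g hg a => ?_
  obtain ⟨s, k, b⟩ := exists_jmp c'.inj d (h1_one c i) (Pi.single a 1)
  obtain ⟨l, hl⟩ := c'.full.span i s k
  simp only [hl, e, ← map_sub] at b
  simpa [b, Pi.single_apply] using congrArg l hg

theorem ker_eq (hn : ch.GN n κ') (i : ι) : (w.2.1 i).ker =
    Submodule.span ℂ (range fun a : κ' => w.1.p (nq a false) i - w.1.p (nq a true) i) := by
  refine (Submodule.eq_of_le_of_finrank_eq (Submodule.span_le.2 (range_subset_iff.2 fun a =>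
    (map_sub (w.2.1 i) _ _).trans (sub_eq_zero.2 (congrFun (h.node a) i)))) ?_).symm
  have a := (w.2.1 i).toLinearMap.finrank_range_add_finrank_ker
  rw [LinearMap.range_eq_top.2 (h.surj i), finrank_top, Module.finrank_fin_fun,
    Module.finrank_fin_fun] at a
  rw [finrank_span_eq_card (h.li hn i)]
  exact (add_left_cancel (a.trans (h.M_eq hn i))).symm

/-- a section on the glued curve lifts -/
theorem lfX_spec (ha : ∀ l, ch.a l ≠ 0) {A : Set J} (j : A) (hj : ∀ c ∈ crv x, ∃ y, Val x j c y) :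
    w.2.2 (some j) ∘L x.X j = lfX A x w j ∘L pbT w.2.1 _ ∧
      ∀ z ∈ gr w.1, ∀ μ, z.2 (some j) (lfX A x w j μ) = fld x (apV w.2.1 z.1) j * val μ z.1 := by
  have k : ∀ z ∈ gr w.1, ∀ μ, z.2 (some j) (lfX A x w j μ) = fld x (apV w.2.1 z.1) j * val μ z.1 := by
    refine Classical.epsilon_spec (p := fun X : (ch.re n).Th j →L[ℂ] (ch.re n).E (some j) =>
      ∀ z ∈ gr w.1, ∀ μ, z.2 (some j) (X μ) = fld x (apV w.2.1 z.1) j * val μ z.1) ?_
    classical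
    obtain ⟨X, _, _, _, Q, N, B, π, u, p, ξ, ξ', c', -, -, c⟩ := h.exists_cr
    obtain ⟨s, hs⟩ := c.exists_ind_iff.2 hj
    obtain ⟨G, hG⟩ := c'.exists_field (ha (some j)) (mem_H0_union.1 (c.ind_mem hs)).1
    refine ⟨G, fun z hz μ => ?_⟩
    obtain ⟨y, t, ht, rfl⟩ := c'.mem_gr.1 hz
    rw [apV_smul, c.fld_smul hs y ht, _root_.smul_apply, hG, Base.val_smul, chr_wd ht, smul_eq_mul]
    exact mul_mul_mul_comm _ _ _ _
  exact ⟨ContinuousLinearMap.ext fun μ => E_ext h.mem' fun z hz => (val_fld (hj _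
    (h.apV_mem ⟨z, hz, rfl⟩)) _ (h.lpt_mem hz) μ).trans (k z hz (pbT w.2.1 _ μ)).symm, k⟩

set_option linter.unusedVariables false in
/-- the lift is unique -/
theorem eq_lfX (ha : ∀ l, ch.a l ≠ 0) {A : Set J} (j : A) (hm : Mt x w j)
    (hj : ∀ c ∈ crv w.1, ∃ y, Val w.1 j c y) : w.1.X j = lfX A x w j := by
  have k : ∀ z ∈ gr w.1, ∀ μ, z.2 (some j) (w.1.X j μ) = fld x (apV w.2.1 z.1) j * val μ z.1 :=
    fun z hz μ => h.fld_eq hm ⟨z, hz, rfl⟩ (hj _ ⟨z, hz, rfl⟩) ▸ val_fld (hj _ ⟨z, hz, rfl⟩) _ hz μ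
  exact ContinuousLinearMap.ext fun μ => E_ext h.mem' fun z hz => (k z hz μ).trans
    (Classical.epsilon_spec (p := fun X : (ch.re n).Th j →L[ℂ] (ch.re n).E (some j) =>
      ∀ z ∈ gr w.1, ∀ μ, z.2 (some j) (X μ) = fld x (apV w.2.1 z.1) j * val μ z.1)
      ⟨_, k⟩ z hz μ).symm

/-- a section with equal values at the branches descends -/
theorem dsX_spec (ha : ∀ l, ch.a l ≠ 0) {A : Set J} (j : A)
    (hj : ∀ a μ, jmp w.1 a (some j) (w.1.X j (pbT w.2.1 _ μ)) = 0) :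
    w.2.2 (some j) ∘L dsX A w j = w.1.X j ∘L pbT w.2.1 _ := by
  obtain ⟨q, hq⟩ :=
    ContinuousLinearMap.HasLeftInverse.of_injective_of_finiteDimensional (h.inj (some j))
  refine Classical.epsilon_spec (p := fun X : ch.Th j →L[ℂ] ch.E (some j) =>
    w.2.2 (some j) ∘L X = w.1.X j ∘L pbT w.2.1 _)
    ⟨q ∘L w.1.X j ∘L pbT w.2.1 _, ContinuousLinearMap.ext fun μ => ?_⟩
  obtain ⟨v, hv⟩ := (h.mem_range ha _).2 (hj · μ)
  exact (congrArg (fun y => w.2.2 (some j) (q y)) hv.symm).trans ((congrArg _ (hq v)).trans hv)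

theorem eq_dsX {A : Set J} (j : A) (hm : Mt x w j) : x.X j = dsX A w j :=
  ContinuousLinearMap.ext fun μ => h.inj (some j) ((hm μ).trans (DFunLike.congr_fun
    (Classical.epsilon_spec (p := fun X : ch.Th j →L[ℂ] ch.E (some j) =>
      w.2.2 (some j) ∘L X = w.1.X j ∘L pbT w.2.1 _) ⟨_, ContinuousLinearMap.ext hm⟩) μ).symm)

theorem jmp_iff {j : J} (hj : ∀ c ∈ crv w.1, ∃ y, Val w.1 j c y) (a : κ') :
    (∀ μ, jmp w.1 a (some j) (w.1.X j (pbT w.2.1 _ μ)) = 0) ↔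
      fld w.1 (w.1.p (nq a false)) j = fld w.1 (w.1.p (nq a true)) j := by
  have k : ∀ q μ, (ptz w.1 q).2 (some j) (w.1.X j (pbT w.2.1 _ μ)) =
      fld w.1 (w.1.p q) j * val μ (apV w.2.1 (w.1.p q)) := fun q μ =>
    val_fld (hj _ (h.mem'.2.2.2.1 q).1) _ (ptz_gr h.mem' q) _
  obtain ⟨μ, hμ⟩ := exists_val_one (a := ch.b j) (crv_ne (h.apV_mem (h.mem'.2.2.2.1 (nq a true)).1))
  simp only [jmp, _root_.sub_apply, k, h.node, sub_eq_zero]
  exact ⟨fun e => by simpa [hμ] using e μ, fun e _ => e ▸ rfl⟩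

theorem lead {γ : ℂ → V n.M} (hγ : IsBranch ch.o (crv w.1) γ) {q} (e : γ 0 = w.1.p q) {ρ : ℂ}
    (a : Lead w.1 γ ρ) : Lead x (fun t => apV w.2.1 (γ t)) ρ := by
  obtain ⟨f, a1, a2, a3⟩ := a
  have k : IsNode ch.o (crv x) (apV w.2.1 (γ 0)) ∨
      ∃ n, ∃ s : ι → ℂ, apV w.2.1 (γ 0) = s • x.p n := by
    rw [e]
    rcases q with q | ⟨q | q, b⟩
    · exact .inr ⟨.inl q, 1, by rw [one_smul, h.mark]; rfl⟩
    · exact .inr ⟨.inr (q, b), 1, by rw [one_smul, h.mark]; rfl⟩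
    · cases b
      exacts [.inl (h.isNode q), .inl (h.node q ▸ h.isNode q)]
  refine ⟨f, a1, a2, ?_⟩
  filter_upwards [a3, hγ.mem, hγ.holo.eventually_analyticAt] with t b1 b2 b3 u hu μ
  obtain ⟨v, hv⟩ := mem_crv.1 b2
  have b := b1 v hv (pbT w.2.1 _ μ)
  rw [if_pos (.inr ⟨q, 1, by rw [e, one_smul]⟩), wedge_pbT] at b
  rw [if_pos k, (hasDerivAt_apV _ b3.differentiableAt.hasDerivAt).deriv, ← b, ← h.Ξ,
    ← gr_unique (h.lpt_mem hv) hu (h.mem.1 _)]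
  rfl

theorem rsd_inc (a : Mk ν κ) : rsd w.1 (inc a) = rsd x a := by
  obtain ⟨X, _, _, _, Q, N, A, π, p, P', e, P⟩ := h.par
  have b := (Cv.br_zero (A := A) _).trans (e (inc a))
  exact (lead_iff_rsd h.mem (br_apV _ π _ ▸ P.isBranch _) (by rw [b, h.mark])).1
    (h.lead (P'.isBranch _) b ((lead_iff_rsd h.mem' (P'.isBranch _) b).2 rfl))

theorem rsd_nq (a : κ') : rsd w.1 (nq a false) = (-1) ^ ch.k * rsd w.1 (nq a true) := by
  classical
  obtain ⟨X, _, _, _, Q, N, A, π, p, P', e, P⟩ := h.par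
  have b := fun q => (Cv.br_zero (A := A) _).trans (e q)
  have k := fun q => h.lead (P'.isBranch _) (b q) ((lead_iff_rsd h.mem' (P'.isBranch _) (b q)).2 rfl)
  have c := P.isCross (n := (p (nq a false), p (nq a true)))
    (Finset.mem_union_right _ (Finset.mem_image_of_mem _ (Finset.mem_univ a)))
  rw [br_apV, br_apV] at c
  exact h.mem.2.2.2.2.2.2 _ _ _ _ _ c (k _) (k _)

set_option linter.unusedVariables false in
/-- the residues -/
theorem baseF_iff (hn : ch.GN n κ') {l : Λ → ℂ} {B : Set (Λ → ℂ)} :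
    (l, x) ∈ ch.baseF ν κ B ↔ (l, w.1) ∈ (ch.re n).baseF ν (κ ⊕ κ') B := by
  simp only [mem_baseF, h.mem, h.mem', true_and, Sum.forall, ← h.rsd_inc]
  exact and_congr_right fun _ => (and_iff_left h.rsd_nq).symm

theorem adm (hn : ch.GN n κ') (hF : F.Inv) {l : Λ → ℂ} (hm : ∀ j ∉ F.mov, Mt x w j)
    (hw : (l, w.1) ∈ (ch.re n).adm ν (κ ⊕ κ') F) : (l, x) ∈ ch.adm ν κ F := by
  obtain ⟨a1, a2, a3, a4, a5⟩ := hw
  have k := fun j hj c hc => h.fld_eq (hm j hj) hc (a2 j hj c hc)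
  refine ⟨(h.baseF_iff hn).2 a1, fun j hj c hc => ?_, fun c hc => ?_, fun j hj => ?_,
    fun j hj q => ?_⟩
  · obtain ⟨y, b, rfl⟩ := h.exists_apV hc
    exact (a2 j hj y b).imp fun _ => h.val_of (hm j hj) b
  · obtain ⟨y, b, rfl⟩ := h.exists_apV hc
    exact hF.baseE _ _ _ (fun j hj => (k j hj y b).symm) (a3 y b)
  · refine ContinuousLinearMap.ext fun μ => h.inj (some j)
      ((hm j (disjoint_left.1 hF.zer_base hj) μ).trans ?_)
    rw [show w.1.X j = 0 from a4 j hj]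
    simp
  · simp only [h.mark, k j hj _ (h.mem'.2.2.2.1 _).1]
    exact a5 j hj (.inl q)

theorem solF (hn : ch.GN n κ') {l : Λ → ℂ} (hm : ∀ j, Mt x w j)
    (hw : (l, w.1) ∈ (ch.re n).solF ν (κ ⊕ κ') F) :
    (l, x) ∈ ch.solF ν κ F ∧ Mtd ((l, w.1) : (ch.re n).WF ν (κ ⊕ κ') Λ) := by
  obtain ⟨a1, a2⟩ := mem_solF.1 hw
  have k : ∀ c ∈ crv w.1, fld x (apV w.2.1 c) = fld w.1 c := fun c hc =>
    funext fun j => h.fld_eq (hm j) hc ((a2 c hc).1 j)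
  refine ⟨mem_solF.2 ⟨(h.baseF_iff hn).2 a1, fun c hc => ?_⟩, fun a => Prod.ext rfl ?_⟩
  · obtain ⟨y, b, rfl⟩ := h.exists_apV hc
    exact ⟨fun j => ((a2 y b).1 j).imp fun _ => h.val_of (hm j) b, k y b ▸ (a2 y b).2⟩
  · exact (k _ (h.mem'.2.2.2.1 _).1).symm.trans (h.node a ▸ k _ (h.mem'.2.2.2.1 _).1)

end Gl

variable {T : Set ((ch.re n).WF ν (κ ⊕ κ') Λ)} {z : ch.WG n ν κ κ' Λ}

theorem Zb.adm (hn : ch.GN n κ') (hF : F.Inv) (hT : T ⊆ (ch.re n).adm ν (κ ⊕ κ') F)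
    (hz : z ∈ Zb F T) : z.1 ∈ ch.adm ν κ F := hz.1.adm hn hF hz.2.2 (hT hz.2.1)

end Vale.Agent.P269.Ch
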