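import Vale.Agent.P287Q.G.Glu.Act
import Vale.Agent.P287Q.G.Glu.Gl0

/-!
# Labelled normalisations: the action and the pointwise facts
-/
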