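import Vale.Agent.P287Q.G.Glu.Ctx
import Vale.Agent.P287Q.G.Bas.Defs
import Vale.Agent.P269.Base.Match
import Vale.Agent.P269.Map.W

/-!
# Persistent nodes as pairs of marked points: definitions
-/

set_option linter.unusedSectionVars false

namespace Vale.Agent.P269

open P291Z Set Function Topology Filter Module Orb Holo Ch

namespace Nd

section gen

variable {A W W₀ α β : Type} [NormedRing A] [NormedAlgebra ℂ A] [NormedAddCommGroup W]
  [NormedSpace ℂ W] [Fintype α] [Fintype β]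

instance fdV [FiniteDimensional ℂ W] : @FiniteDimensional ℂ (W × (α → ℂ)) _
    NormedAddCommGroup.toAddCommGroup NormedSpace.toModule := fd_prod _ _

/-- The action on the total space of the sum of the line bundles of the characters `c i`. -/
def actV (act : A → W → W) (c : α → A → ℂ) (a : A) (z : W × (α → ℂ)) : W × (α → ℂ) :=
  (act a z.1, fun i => c i a * z.2 i)

/-- Holomorphic characters. -/
structure Chr (c : α → A → ℂ) : Prop where
  hm : ∀ i, Tq.Hm (c i)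
  an : ∀ i a, IsUnit a → AnalyticAt ℂ (c i) a

/-- A section of the line bundle of the character `c` over an orbifold. -/
structure Sc (act : A → W → W) (S : Set W) (c : A → ℂ) (s : W → ℂ) : Prop where
  isAct : IsAct act S
  orb : Orb Aˣ (Holo.Sp act S)
  hm : Tq.Hm c
  cont : ContinuousOn s S
  eqv : ∀ a, IsUnit a → ∀ x ∈ S, s (act a x) = c a * s x

variable {act : A → W → W} {S : Set W} {c : A → ℂ} {s : W → ℂ}

theorem Sc.isSec (h : Sc act S c s) : haveI := h.isAct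
    (Ch.char (Y := spA h.orb) h.hm.ρ).IsSec fun x : Holo.Sp act S => s x.val :=
  ⟨fun _ => trivial, h.cont.domRestrict, fun g x => h.eqv _ g.isUnit _ x.val_mem⟩

/-- The Euler cocycle, supported on the zero set. -/
noncomputable def Sc.eu (h : Sc act S c s) : Coch (Quo act S) := h.isSec.eul

variable (w : β → α → ℤ) (σ : β → α → ℂ) (r : β → W → ℂ)

/-- Invariant functions on the total space. -/
noncomputable def rho (z : W × (α → ℂ)) (b : β) : ℂ := (∏ i, z.2 i ^ w b i) * r b z.1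

/-- The level set of the invariant functions. -/
def N0 (B : Set W) : Set (W × (α → ℂ)) :=
  {z | z.1 ∈ B ∧ (∀ i, z.2 i ≠ 0) ∧ ∀ b, rho w r z b = 1}

/-- A neighbourhood of the level set. -/
def N1 (B : Set W) : Set (W × (α → ℂ)) :=
  {z | z.1 ∈ B ∧ (∀ i, z.2 i ≠ 0) ∧ ∀ b, rho w r z b ∈ Complex.slitPlane}

/-- The retraction onto the level set. -/
noncomputable def lab (z : W × (α → ℂ)) : W × (α → ℂ) :=
  (z.1, fun i => z.2 i * Complex.exp (-∑ b, σ b i * Complex.log (rho w r z b)))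

/-- The product structure of the neighbourhood. -/
noncomputable def lf (g : W × (α → ℂ) → W₀) (z : W × (α → ℂ)) : W₀ × (β → ℂ) :=
  (g (lab w σ r z), fun b => Complex.log (rho w r z b))

/-- The hypotheses on the invariant functions. -/
structure Lab [DecidableEq β] (act : A → W → W) (c : α → A → ℂ) (B : Set W) : Prop where
  chr : Chr c
  ivt : Ivt act B
  dual : ∀ b b', ∑ i, w b' i * σ b i = if b = b' then 1 else 0
  hol : ∀ b, ∀ x ∈ B, HolOn B (r b) x
  ne : ∀ b, ∀ x ∈ B, r b x ≠ 0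
  inv : ∀ a, IsUnit a → ∀ x ∈ B, ∀ b, (∏ i, c i a ^ w b i) * r b (act a x) = r b x

end gen

section uni

variable {S Λ R J K I : Type} [Fintype S] [Fintype Λ] [Fintype R] [Fintype J] [Fintype K] [Fintype I]

/-- Pairs of values. -/
abbrev W3 (Λ J : Type) : Type := (Λ → ℂ) × (J → ℂ) × (J → ℂ)

/-- The two tori. -/
abbrev A2 (S R : Type) : Type := (S → ℂ) × (R → ℂ)

/-- The three tori. -/
abbrev A3 (S R : Type) : Type := (S → ℂ) × (R → ℂ) × (R → ℂ)

/-- The characters by which an identification of the line bundles changes. -/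
noncomputable def c3 (r : R) (t : A3 S R) : ℂ := t.2.2 r / t.2.1 r

/-- Forgetting the last torus. -/
noncomputable def θ3 : CL (A3 S R) (A2 S R) :=
  CL.mk (fun t => (t.1, t.2.1)) (fun _ _ => rfl) fun _ _ => rfl

/-- The quotients of the free base fields. -/
noncomputable def r3 (φ : I → J) (i : I) (z : W3 Λ J) : ℂ := z.2.1 (φ i) / z.2.2 (φ i)

/-- The identification of the line bundles is used to move the second point. -/
noncomputable def g3 (F : Wt S Λ R J) (z : W3 Λ J × (R → ℂ)) : W3 Λ J :=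
  (z.1.1, z.1.2.1, (F.actT (1, z.2⁻¹) (z.1.1, z.1.2.2)).2)

/-- The pairs of points in the same orbit. -/
def dg3 (F : Fam S Λ R J K) : Set (W3 Λ J) :=
  {z | z ∈ F.cone3 ∧ ∃ t, IsUnit t ∧ z.2.2 = (F.actT (1, t) (z.1, z.2.1)).2}

/-- The diagonal embedding. -/
noncomputable def d3 (F : Fam S Λ R J K) (z : F.X F.cone) : F.X3 :=
  Quo.mk F.act3 ⟨((Quo.out z).1.1, (Quo.out z).1.2, (Quo.out z).1.2), ⟨(Quo.out z).2, (Quo.out z).2⟩⟩

/-- `t` represents the diagonal of the fibre product. -/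
structure IsD3 (F : Fam S Λ R J K) (t : Coch F.X3) : Prop where
  co : ∃ m, IsCo (range (d3 F)) m t
  gys : Gys (d3 F) t (Tq.fnd F.act3 F.cone3) (Tq.fnd F.actT F.cone)

/-- `τ` extends the tautological identification of the line bundles along the diagonal. -/
structure IsTau (F : Fam S Λ R J K) (τ : W3 Λ J → R → ℂ) : Prop where
  sec : Tq.Sec F.act3 F.cone3 c3 τ
  eq : ∀ z ∈ F.cone3, ∀ t, IsUnit t → z.2.2 = (F.actT (1, t) (z.1, z.2.1)).2 → τ z = t

/-- The universal neighbourhood. -/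
abbrev NU (F : Fam S Λ R J K) (φ : I → J) : Set (W3 Λ J × (R → ℂ)) :=
  N1 (fun i => F.w (φ i)) (r3 φ) F.cone3

end uni

section mod

variable {S Λ R J K I ι ν κ ε : Type} [Fintype S] [Fintype Λ] [Fintype R] [Fintype J] [Fintype K]
  [Fintype I] [Fintype ι] [DecidableEq ι] [Fintype ν] [Fintype κ] [Fintype ε] {ch : Ch ι J}

/-- The marked point that comes from a branch of the node `e`. -/
abbrev mq (e : ε) (b : Bool) : Mk (ν ⊕ ε × Bool) κ := .inl (.inr (e, b))

/-- The nodes `ε` are regarded as pairs of marked points. -/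
def uW (x : ch.WF ν (κ ⊕ ε) Λ) : ch.WF (ν ⊕ ε × Bool) κ Λ :=
  (x.1, x.2.1, fun n => x.2.p (unp ν κ ε n), x.2.2.2)

/-- The inverse relabelling. -/
def dW (x : ch.WF (ν ⊕ ε × Bool) κ Λ) : ch.WF ν (κ ⊕ ε) Λ :=
  (x.1, x.2.1, fun n => x.2.p ((unp ν κ ε).symm n), x.2.2.2)

/-- The inclusion of the groups. -/
noncomputable def θu : CL (ch.AF ν (κ ⊕ ε) S) (ch.AF (ν ⊕ ε × Bool) κ S) :=
  CL.mk (fun a => (a.1, a.2.1, a.2.2.1, fun q => a.2.2.2
    (q.elim (Sum.elim .inl fun e => .inr (.inr e.1)) fun k => .inr (.inl k)))) (fun _ _ => rfl)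
    fun _ _ => rfl

/-- The projection of the groups. -/
noncomputable def θd : CL (ch.AF (ν ⊕ ε × Bool) κ S) (ch.AF ν (κ ⊕ ε) S) :=
  CL.mk (fun a => (a.1, a.2.1, a.2.2.1, fun q => a.2.2.2
    (q.elim (fun n => .inl (.inl n)) (Sum.elim .inr fun e => .inl (.inr (e, false))))))
    (fun _ _ => rfl) fun _ _ => rfl

/-- The action on the values at the two points. -/
noncomputable def θe (ℓ : R → ι → ℤ) (e : ε) (a : ch.AF (ν ⊕ ε × Bool) κ S) : A3 S R :=
  (a.1, (θv ℓ (mq e false) a).2, (θv ℓ (mq e true) a).2)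

/-- The characters by which the identifications change. -/
noncomputable def cM (ℓ : R → ι → ℤ) (q : ε × R) (a : ch.AF (ν ⊕ ε × Bool) κ S) : ℂ :=
  c3 q.2 (θe ℓ q.1 a)

/-- The values at the two points. -/
noncomputable def v3 (e : ε) (x : ch.WF (ν ⊕ ε × Bool) κ Λ) : W3 Λ J :=
  vl2 x (mq e false) (mq e true)

/-- The values and the identification at the two points. -/
noncomputable def evE (e : ε) (z : ch.WF (ν ⊕ ε × Bool) κ Λ × (ε × R → ℂ)) : W3 Λ J × (R → ℂ) :=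
  (v3 e z.1, fun r => z.2 (e, r))

open Classical in
/-- A block diagonal matrix. -/
noncomputable def blk {α β M : Type} [Zero M] (w : α → β → M) (a : ε × α) (b : ε × β) : M :=
  if a.1 = b.1 then w a.2 b.2 else 0

/-- The quotients of the free base fields. -/
noncomputable def rM (φ : I → J) (q : ε × I) (x : ch.WF (ν ⊕ ε × Bool) κ Λ) : ℂ :=
  r3 φ q.2 (v3 q.1 x)

variable (ch) in
/-- The basis dual to `χ`, `ℓ r`. -/
noncomputable def dv (ℓ : R → ι → ℤ) : Option R → ι → ℤ :=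
  Classical.epsilon fun v => (∀ o, ∑ i, o.elim ch.χ ℓ i * v o i = 1) ∧
    (∀ o o', o' ≠ o → ∑ i, o.elim ch.χ ℓ i * v o' i = 0) ∧
    ∀ i, (fun i' => ∑ o, v o i * o.elim ch.χ ℓ i') = Pi.single i 1

/-- The scalars that match the residues and realise the identification at the node `e`. -/
noncomputable def sM (ℓ : R → ι → ℤ) (z : ch.WF (ν ⊕ ε × Bool) κ Λ × (ε × R → ℂ)) (e : ε) (i : ι) :
    ℂ := ∏ o : Option R, o.elim (rsd z.1.2 (mq e false) / ((-1) ^ ch.k * rsd z.1.2 (mq e true)))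
      (fun r => (z.2 (e, r))⁻¹) ^ dv ch ℓ o i

/-- Rescaling the second points. -/
noncomputable def tM (s : ε → ι → ℂ) : ch.AF (ν ⊕ ε × Bool) κ S :=
  (1, 1, 1, Sum.elim (Sum.elim 1 fun e => cond e.2 (s e.1) 1) 1)

/-- The curve with nodes defined by the identifications. -/
noncomputable def gM (F : Wt S Λ R J) (ℓ : R → ι → ℤ)
    (z : ch.WF (ν ⊕ ε × Bool) κ Λ × (ε × R → ℂ)) : ch.WF ν (κ ⊕ ε) Λ :=
  dW (actF F (tM (sM ℓ z)) z.1)

section sets

variable (ch : Ch ι J) (ν κ ε : Type) [Fintype ν] [Fintype κ] [Fintype ε] (F : Fam S Λ R J K)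
  (Z₀ : Set J) (φ : I → J)

/-- The admissible points at whose new marked points the fields `Z₀` vanish and the fields `φ i` do
not. -/
def BM' : Set (ch.WF (ν ⊕ ε × Bool) κ Λ) :=
  {x | x ∈ ch.adm _ κ F ∧ ∀ e b, (∀ j ∈ Z₀, (vl x (mq e b)).2 j = 0) ∧ ∀ i, (vl x (mq e b)).2 (φ i) ≠ 0}

/-- The corresponding points with nodes. -/
def BM0 : Set (ch.WF ν (κ ⊕ ε) Λ) := ch.adm ν (κ ⊕ ε) F ∩ uW ⁻¹' BM' ch ν κ ε F Z₀ φ

/-- The neighbourhood of the torus bundle. -/
abbrev NM : Set (ch.WF (ν ⊕ ε × Bool) κ Λ × (ε × R → ℂ)) :=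
  N1 (blk fun i => F.w (φ i)) (rM φ) (BM' ch ν κ ε F Z₀ φ)

end sets

variable (F : Fam S Λ R J K) (Z₀ : Set J) (φ : I → J)

/-- The base cycles `T`, `T'` correspond to each other. -/
structure NdT (T : Set (ch.WF ν (κ ⊕ ε) Λ)) (T' : Set (ch.WF (ν ⊕ ε × Bool) κ Λ)) : Prop where
  van : ∀ x ∈ T', ∀ e b, ∀ j ∈ Z₀, (vl x (mq e b)).2 j = 0
  maps : ∀ x ∈ ch.solF ν (κ ⊕ ε) F ∩ T, uW x ∈ T'
  loc : ∀ x ∈ ch.solF ν (κ ⊕ ε) F ∩ ch.adm ν (κ ⊕ ε) F, uW x ∈ T' →
    ∀ᶠ y in 𝓝 x, y ∈ T ↔ y ∈ ch.adm ν (κ ⊕ ε) F ∧ uW y ∈ T'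

/-- The standing hypotheses. -/
structure Cx [DecidableEq R] [DecidableEq I] (ch : Ch ι J) (e : K → ι → ℕ) (K₀ : RD R)
    (ℓ : R → ι → ℤ) (n : J → I → ℤ) (ψ : J → (Λ → ℂ) → ℂ) : Prop where
  std : ch.Std F e K₀ ℓ
  num : Num₀ ch
  lat : ch.Lat F.toWt ℓ
  zer : F.zer ⊆ Z₀
  nice : (F.sub F.B Z₀).Nice 0
  sh : (F.sub F.B Z₀).Sh 0 φ n ψ

end mod

end Nd

/-- The factors after the nodes `ε` have been replaced by pairs of marked points. -/
def Fac.un {S Λ R J ν κ : Type} [Fintype S] [Fintype Λ] [Fintype R] [Fintype J] {F : Wt S Λ R J}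
    (ε : Type) : Fac F (ν ⊕ ε × Bool) κ → Fac F ν (κ ⊕ ε)
  | .psi n => .psi (Ch.unp ν κ ε n)
  | .ev n A c => .ev (Ch.unp ν κ ε n) A c
  | .par A c => .par A c
  | .dg q => .dg (.inl q)
  | .tw Θ => .tw Θ

end Vale.Agent.P269
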