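import Vale.Agent.P287Q.G.Glu.X3
import Vale.Agent.P269.LG.KunB

/-!
# The class of the diagonal of the fibre product
-/

set_option linter.unusedSectionVars false
set_option linter.style.haveILetI false

namespace Vale.Agent.P269

open P291Z Set Function Topology Filter Holo Mono Tq Module Coh X3 Loc

variable {S Λ R J K β : Type} [Fintype S] [Fintype Λ] [Fintype R] [Fintype J] [Fintype K]
  [Fintype β] [DecidableEq R] {F : Fam S Λ R J K} {δ : J → ℕ} {a a' : β → H (F.X F.cone)}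
  {t : Coch F.X3}

namespace X3

theorem nice (h : F.Good) : Nice F.X3 := haveI := h.fp3; inferInstance

theorem emb (h : F.Good) : IsClosedEmbedding (hold F).q :=
  haveI := nice h
  LeftInverse.isClosedEmbedding (q₁_d F) (hol₁ F).q.continuous (hold F).q.continuous

theorem exists_isD3 (h : F.Nice δ) : ∃ t, Nd.IsD3 F t := by
  haveI := h.toGood.fp3
  haveI := h.toGood.fp
  obtain ⟨n, hn⟩ := h.exists_dim
  obtain ⟨m, hm⟩ := h.exists_dim3
  obtain ⟨t, h1, h2, h3, h4⟩ := hm.ori.exists_gys (emb h.toGood) hn.deg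
  rw [← mul_sub] at h3
  obtain ⟨k, hk⟩ := LG.KB.deg_nat h3
  rw [← d3_eq] at h2
  exact ⟨t, ⟨k, h1, hk, h2⟩, by
    rw [d3_eq] at h2 ⊢
    exact (Gys_iff (emb h.toGood) h1 h2).2 h4⟩

theorem hev (ht : Nd.IsD3 F t) : hcls t ∈ Ch.Hev F.X3 :=
  ht.co.elim fun _ h => Ch.mem_Hev (hcls_isDeg h.deg)

theorem intg_d3 (h : F.Good) (hc : F.Cp) (ht : Nd.IsD3 F t) (c : H F.X3) :
    intg (Tq.fnd F.act3 F.cone3) (hcls t * c) = intg (Tq.fnd F.actT F.cone) (H.map (hold F).q c) := by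
  haveI := nice h
  haveI := h.nice
  haveI := h.compact hc
  haveI := h.compact3 hc
  obtain ⟨⟨k, h1⟩, h2⟩ := ht
  rw [d3_eq] at h1 h2
  rw [← intg_push, ← (Gys_iff (emb h) h1.cocycle h1.supp).1 h2,
    push_gys_eq_cap (emb h) h1.cocycle h1.supp, intg_cap,
    Ch.Hev.commute (Ch.mem_Hev (hcls_isDeg h1.deg))]

/-- **Poincare duality**: the class `∑ a b × a' b` is the class of the diagonal. -/
theorem isCas_iff_eq (h : F.Nice δ) (hc : F.Cp) (ht : Nd.IsD3 F t) :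
    F.IsCas a a' ↔ hcls t = csm F a a' := by
  haveI := h.toGood.compact hc
  haveI := h.toGood.compact3 hc
  obtain ⟨n, q⟩ := h.qm3 hc
  rw [isCas_iff]
  simp only [← intg_d3 h.toGood hc ht]
  exact ⟨fun e => (q.ps.ext_left e).symm, fun e _ => by rw [e]⟩

theorem cas_mem (h : F.Nice δ) (hc : F.Cp) (ha : F.IsCas a a') : csm F a a' ∈ Ch.Hev F.X3 :=
  (exists_isD3 h).elim fun _ ht => (isCas_iff_eq h hc ht).1 ha ▸ hev ht

end X3

theorem Nd.IsD3.hcls_eq (h : F.Nice δ) (hc : F.Cp) (ha : F.IsCas a a') (ht : Nd.IsD3 F t) :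
    hcls t = ∑ b, hpull (fun z : F.X3 => Quo.mk F.actT (⟨_, (Quo.out z).2.1⟩ : F.cone)) (a b) *
      hpull (fun z : F.X3 => Quo.mk F.actT (⟨_, (Quo.out z).2.2⟩ : F.cone)) (a' b) := by
  rw [(isCas_iff_eq h hc ht).1 ha, show (fun z : F.X3 => Quo.mk F.actT
    (⟨_, (Quo.out z).2.1⟩ : F.cone)) = (hol₁ F).q from funext (hol₁ F).toEqh.toEqv.qm_out,
    show (fun z : F.X3 => Quo.mk F.actT (⟨_, (Quo.out z).2.2⟩ : F.cone)) = (hol₂ F).q from
    funext (hol₂ F).toEqh.toEqv.qm_out]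
  simp only [hpull_eq]
  rfl

end Vale.Agent.P269
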