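import Vale.Agent.P287Q.G.Glu.Cas0
import Vale.Agent.P269.Bas.Prd
import Vale.Agent.P287Q.G.LG.Top

/-!
# The class of the diagonal of a target and of a trivial family
-/

set_option linter.unusedSectionVars false
set_option linter.style.haveILetI false

namespace Vale.Agent.P269

open P291Z Set Function Topology Filter Holo Mono Tq Module Coh X3 Loc TensorProduct

namespace X3

section kun

variable {X X₁ X₂ : Type} [TopologicalSpace X] [TopologicalSpace X₁] [TopologicalSpace X₂] [Nice X]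
  [Nice X₁] [Nice X₂] [CompactSpace X] [CompactSpace X₁] [CompactSpace X₂] {p₁ : C(X, X₁)}
  {p₂ : C(X, X₂)} (hp : IsHomeomorph fun x => (p₁ x, p₂ x))
include hp

/-- linear forms on the cohomology of a product -/
theorem kun_ext {f g : H X →ₗ[ℂ] ℂ}
    (h : ∀ a b, f (H.map p₁ a * H.map p₂ b) = g (H.map p₁ a * H.map p₂ b)) (c : H X) : f c = g c := by
  obtain ⟨c, rfl⟩ := Fl.toH_bijective.2 c
  obtain ⟨c, rfl⟩ := (Hc.kunneth hp).2 c
  induction c with
  | zero => simp only [map_zero]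
  | add x y hx hy => simp only [map_add, hx, hy]
  | tmul x y =>
    obtain ⟨a, ha, rfl⟩ := cls_surj x
    obtain ⟨b, hb, rfl⟩ := cls_surj y
    rw [lift.tmul, Hc.cross_cls _ ha hb, Fl.toH_cls (cross_Zc (IsPr.of_isHomeomorph hp) ha hb),
      hcls_mul (cocycle_pull p₁.continuous ha.2) (cocycle_pull p₂.continuous hb.2),
      ← H.map_hcls _ ha.2, ← H.map_hcls _ hb.2]
    exact h _ _

theorem intg_cross (β₁ : BM X₁) (β₂ : BM X₂) (c₁ : H X₁) (c₂ : H X₂) :
    intg (cross p₁ p₂ β₁ β₂) (H.map p₁ c₁ * H.map p₂ c₂) = intg β₁ c₁ * intg β₂ c₂ := by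
  obtain ⟨a, ha, rfl⟩ := hcls_surj c₁
  obtain ⟨b, hb, rfl⟩ := hcls_surj c₂
  have h1 := cocycle_pull p₁.continuous ha
  have h2 := cocycle_pull p₂.continuous hb
  rw [H.map_hcls _ ha, H.map_hcls _ hb, ← hcls_mul h1 h2, intg_hcls _ (cocycle_mul h1 h2),
    intg_hcls _ ha, intg_hcls _ hb]
  exact cross_spec hp β₁ β₂ a ⟨(isClosed_supp _).isCompact, ha⟩ b ⟨(isClosed_supp _).isCompact, hb⟩

omit hp in
theorem hev_of_par {c : H X} (h : (parH X).σ c = c) : c ∈ Ch.Hev X := by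
  have := Subalgebra.smul_mem _ (LG.add_parH_mem c) (2⁻¹ : ℂ)
  rwa [h, ← two_smul ℂ, smul_smul, inv_mul_cancel₀ two_ne_zero, one_smul] at this

end kun

variable {S Λ Λ₀ R J K K' : Type} [Fintype S] [Fintype Λ] [Fintype Λ₀] [Fintype R] [Fintype J]
  [Fintype K] [Fintype K']

theorem actL_empty (F : Wt Empty Λ R J) (τ l) : F.actL τ l = l := funext fun a => by
  simp [Wt.actL]

/-- the splitting of the three tori -/
noncomputable def e₃ (R : Type) [Fintype R] : Nd.A3 Empty R ≃L[ℂ] Nd.A2 Empty R × Nd.A2 Empty R :=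
  LinearEquiv.toContinuousLinearEquiv
    { toFun t := ((t.1, t.2.1), (t.1, t.2.2))
      invFun t := (t.1.1, t.1.2, t.2.2)
      map_add' _ _ := rfl
      map_smul' _ _ := rfl
      left_inv _ := rfl
      right_inv _ := Prod.ext rfl (Prod.ext (Subsingleton.elim _ _) rfl) }

/-- splitting off the torus `S` -/
noncomputable def eS (S A : Type) [Fintype S] [NormedAddCommGroup A] [NormedSpace ℂ A]
    [FiniteDimensional ℂ A] : ((S → ℂ) × A) ≃L[ℂ] (S → ℂ) × (Empty → ℂ) × A :=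
  LinearEquiv.toContinuousLinearEquiv
    { toFun t := (t.1, 0, t.2)
      invFun t := (t.1, t.2.2)
      map_add' _ _ := Prod.ext rfl (Prod.ext (Subsingleton.elim _ _) rfl)
      map_smul' _ _ := Prod.ext rfl (Prod.ext (Subsingleton.elim _ _) rfl)
      left_inv _ := rfl
      right_inv _ := Prod.ext rfl (Prod.ext (Subsingleton.elim _ _) rfl) }

theorem prd₃ {F : Fam Empty Λ R J K} {l} (h : F.B = {l}) : Prd F.act3 F.actT F.actT (e₃ R)
    ((ContinuousLinearMap.id ℂ _).prodMap (.fst ℂ _ _)) (fun z => (l, z.2.2))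
    (fun v y => (v.1, v.2, y.2)) F.cone F.cone3 F.cone where
  one := rfl
  mul _ _ := rfl
  an_q _ := analyticAt_const.prod (Dg0.a₂ analyticAt_snd)
  an_j _ := (Dg0.a₁ analyticAt_fst).prod ((Dg0.a₂ analyticAt_fst).prod (Dg0.a₂ analyticAt_snd))
  mem x := and_congr_right fun e => by rw [show x.1 = l from h.le e.1]
  p_j _ _ := rfl
  q_j _ _ e := Prod.ext (h.le e.1).symm rfl
  j_pq _ := rfl
  p_act _ _ _ := rfl
  q_act _ _ _ _ := Prod.ext (actL_empty _ _ _).symm rfl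

variable {F : Fam S Λ R J K} {F₀ : Fam Empty Λ₀ R J K'} {l₀ : Λ₀ → ℂ} (h : F.TrivC F₀ l₀)
include h

theorem triv_act (a : Nd.A2 S R) (b : Empty → ℂ) {x : (Λ → ℂ) × (J → ℂ)} (hx : x ∈ F.cone) :
    (F.actT a x).2 = (F₀.actT (b, a.2) (l₀, x.2)).2 := funext fun j => by
  rcases h.wt j with e | e
  · simp [Wt.actT, e, h.w]
  · simp [Wt.actT, e x hx]

theorem triv_mem {x : (Λ → ℂ) × (J → ℂ)} : x ∈ F.cone ↔ x.1 ∈ F.B ∧ (l₀, x.2) ∈ F₀.cone :=
  ⟨fun e => ⟨e.1, (h.cone _ e.1 _).1 e⟩, fun e => (h.cone _ e.1 _).2 e.2⟩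

theorem prdT : Prd F.actT F₀.actT F.actL (eS S _) (.fst ℂ _ _) (fun z => (l₀, z.2))
    (fun v y => (v, y.2)) F.B F.cone F₀.cone where
  one := Prod.ext rfl (Prod.ext (Subsingleton.elim _ _) rfl)
  mul _ _ := Prod.ext rfl (Prod.ext (Subsingleton.elim _ _) rfl)
  an_q _ := analyticAt_const.prod analyticAt_snd
  an_j _ := analyticAt_fst.prod (Dg0.a₂ analyticAt_snd)
  mem _ := triv_mem h
  p_j _ _ := rfl
  q_j _ _ e := Prod.ext (h.B.le e.1).symm rfl
  j_pq _ := rfl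
  p_act _ _ _ := rfl
  q_act a _ _ e := Prod.ext (actL_empty _ _ _).symm (triv_act h a _ e)

theorem prdT₃ : Prd F.act3 F₀.act3 F.actL (eS S _) (.fst ℂ _ _) (fun z => (l₀, z.2))
    (fun v y => (v, y.2)) F.B F.cone3 F₀.cone3 where
  one := Prod.ext rfl (Prod.ext (Subsingleton.elim _ _) rfl)
  mul _ _ := Prod.ext rfl (Prod.ext (Subsingleton.elim _ _) rfl)
  an_q _ := analyticAt_const.prod analyticAt_snd
  an_j _ := analyticAt_fst.prod (Dg0.a₂ analyticAt_snd)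
  mem _ := ⟨fun e => ⟨e.1.1, ((triv_mem h).1 e.1).2, ((triv_mem h).1 e.2).2⟩,
    fun e => ⟨(triv_mem h).2 ⟨e.1, e.2.1⟩, (triv_mem h).2 ⟨e.1, e.2.2⟩⟩⟩
  p_j _ _ := rfl
  q_j _ _ e := Prod.ext (h.B.le e.1.1).symm rfl
  j_pq _ := rfl
  p_act _ _ _ := rfl
  q_act a _ _ e := Prod.ext (actL_empty _ _ _).symm
    (Prod.ext (triv_act h (a.1, a.2.1) _ e.1) (triv_act h (a.1, a.2.2) _ e.2))

omit h in
theorem cp_of {F : Fam Empty Λ R J K} {l} (h : F.B = {l}) : F.Cp :=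
  haveI : Subsingleton F.B := h ▸ inferInstance
  haveI : Subsingleton (F.Bs F.B) := inferInstanceAs (Subsingleton (Quot _))
  Finite.compactSpace

end X3

theorem St.cas : St.Cas := @fun Λ R J K _ _ _ _ _ F l C i h hB hi => by
  have hc := cp_of hB
  haveI := h.toGood.fp
  haveI := h.toGood.compact hc
  haveI := h.toGood.compact3 hc
  obtain ⟨n, hn⟩ := h.exists_dim
  obtain ⟨_, -, e⟩ := (prd₃ hB).fnd_eq hn hn
  have hp := (prd₃ hB).isHomeomorph
  have e₁ : (prd₃ hB).eqh.toEqv.qm = (hol₁ F).q := rfl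
  have e₂ : (prd₃ hB).eqM.map = (hol₂ F).q := ContinuousMap.ext fun z => by
    obtain ⟨z, rfl⟩ := mk_surj z
    exact congrArg (Quo.mk _) (Subtype.ext (Prod.ext (hB.le z.2.1.1).symm rfl))
  rw [e₁, e₂] at e hp
  refine isCas_iff.2 (kun_ext hp (f := intg _ ∘ₗ LinearMap.mulLeft ℂ _)
    (g := intg _ ∘ₗ (H.mapA (hold F).q).toLinearMap) fun a b => ?_)
  obtain ⟨a, rfl⟩ := hi.bij.2 a
  obtain ⟨b, rfl⟩ := hi.bij.2 b
  have k : ∀ s, H.map (hol₁ F).q (i (C.fr.e s)) * H.map (hol₂ F).q (i (C.fr.f s)) ∈ Ch.Hev _ :=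
    fun s => hev_of_par (by
      rw [Tq.parH_mul, Tq.parH_map, Tq.parH_map, hi.ev, hi.ev, C.fr.he, C.fr.hf, i.map_smul, i.map_smul,
        H.map_smulC, H.map_smulC, smul_mul_smul_comm, ← mul_pow, neg_one_mul, neg_neg, one_pow,
        one_smul])
  change intg _ (csm F _ _ * _) = intg _ (H.map _ _)
  rw [map_mul (H.map _), H.map_map, H.map_map, H.map_id (f := (hol₁ F).q.comp _) (q₁_d F),
    H.map_id (f := (hol₂ F).q.comp _) (q₂_d F), ← Wt.intX_eq, ← hi.η, csm, Finset.sum_mul, map_sum]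
  conv_rhs => rw [← C.fr.left b, map_sum]
  refine Finset.sum_congr rfl fun s _ => ?_
  rw [comp_apply, comp_apply, ← mul_assoc, Ch.Hev.commute (k s), ← mul_assoc, ← map_mul (H.map _),
    mul_assoc, ← map_mul (H.map _), e, intg_cross hp, ← Wt.intX_eq, ← Wt.intX_eq, ← hi.η, ← hi.η,
    map_smul, smul_eq_mul, mul_comm]

theorem St.casT : St.CasT := @fun S Λ Λ₀ R J K K' β _ _ _ _ _ _ _ _ _ F F₀ l₀ a a' h hc h₀ hT ha => by
  have hc₀ := cp_of hT.B
  haveI := h.toGood.fp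
  haveI := h.toGood.fpB
  haveI := h₀.toGood.fp
  haveI := h₀.toGood.fp3
  haveI := h.toGood.compact hc
  haveI := h.toGood.compact3 hc
  haveI := h₀.toGood.compact hc₀
  haveI := h₀.toGood.compact3 hc₀
  obtain ⟨b, hb⟩ := h.sm
  have hB : Dim F.actL F.B _ := .of_mfd fun x hx => ⟨hx, hb _⟩
  obtain ⟨n, hn⟩ := h₀.exists_dim
  obtain ⟨m, hm⟩ := h₀.exists_dim3
  obtain ⟨-, -, e⟩ := (prdT hT).fnd_eq hB hn
  obtain ⟨_, -, e'⟩ := (prdT₃ hT).fnd_eq hB hm
  have hp := (prdT hT).isHomeomorph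
  have hp' := (prdT₃ hT).isHomeomorph
  have k : ∀ c, F.pb F₀.toWt (fun z => (l₀, z.2)) F.cone c = H.map (prdT hT).eqM.map c := fun c =>
    Wt.pb_eq ⟨(prdT hT).eqM.maps, (prdT hT).eqM.cont, fun a ha x hx =>
      ⟨_, (prdT hT).eqM.isUnit ha, (prdT hT).eqM.eqv a ha x hx⟩⟩ c
  have k' : csm F (fun b => F.pb F₀.toWt (fun z => (l₀, z.2)) _ (a b))
      (fun b => F.pb F₀.toWt (fun z => (l₀, z.2)) _ (a' b)) =
      H.map (prdT₃ hT).eqM.map (csm F₀ a a') := by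
    simp only [csm, k, map_sum, map_mul, H.map_map]
    refine Finset.sum_congr rfl fun s _ => congrArg₂ (· * ·) (congrArg (H.map · _) ?_)
      (congrArg (H.map · _) ?_) <;>
    · refine ContinuousMap.ext fun z => ?_
      obtain ⟨z, rfl⟩ := mk_surj z
      rfl
  refine isCas_iff.2 (kun_ext hp' (f := intg _ ∘ₗ LinearMap.mulLeft ℂ _)
    (g := intg _ ∘ₗ (H.mapA (hold F).q).toLinearMap) fun x y => ?_)
  change intg _ (csm F _ _ * _) = intg _ (H.map _ _)
  have e₁ : (prdT₃ hT).eqh.toEqv.qm.comp (hold F).q = (prdT hT).eqh.toEqv.qm :=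
    ContinuousMap.ext fun z => by
      obtain ⟨z, rfl⟩ := mk_surj z
      rfl
  have e₂ : (prdT₃ hT).eqM.map.comp (hold F).q = (hold F₀).q.comp (prdT hT).eqM.map :=
    ContinuousMap.ext fun z => by
      obtain ⟨z, rfl⟩ := mk_surj z
      rfl
  rw [k', ← mul_assoc, Ch.Hev.commute (Ch.map_mem_Hev _ (cas_mem h₀ hc₀ ha)), mul_assoc, ← map_mul,
    e', intg_cross hp', isCas_iff.1 ha, map_mul, H.map_map, H.map_map, e₁, e₂, ← H.map_map, e,
    intg_cross hp]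

end Vale.Agent.P269
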