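import Vale.Agent.P287Q.G.Glu.Defs
import Vale.Agent.P269.Map.Tot
import Vale.Agent.P269.Spl.An
import Vale.Agent.P269.Spl.Cyc
import Vale.Agent.P269.Prop.TopA

set_option linter.unusedSectionVars false

/-!
# Cycles under principal bundles and linear projections
-/

namespace Vale.Agent.P269

open Set Function Topology Filter Module P291Z Holo Ch.KD

variable {A A' W W' V : Type} [NormedRing A] [NormedAlgebra ℂ A] [NormedAddCommGroup W]
  [NormedSpace ℂ W] [NormedRing A'] [NormedAlgebra ℂ A'] [NormedAddCommGroup W'] [NormedSpace ℂ W']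
  [NormedAddCommGroup V] [NormedSpace ℂ V] [FiniteDimensional ℂ A] [FiniteDimensional ℂ A']
  [FiniteDimensional ℂ W] [FiniteDimensional ℂ W'] [FiniteDimensional ℂ V] {act : A → W → W}
  {act' : A' → W' → W'} {T M U B : Set W} {T' : Set W'} {n m d : ℕ}

theorem pre_of_eq {α β : Type} {f : α → β} {x : α} {y : β} {S : Set β} (e : f x = y) (h : y ∈ S) :
    x ∈ f ⁻¹' S := mem_preimage.2 (e ▸ h)

theorem PCy.inter (h : PCy T M n) (hU : IsOpen U) : PCy (T ∩ U) (M ∩ U) n :=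
  have := FiniteDimensional.complete ℂ W
  ⟨fun x hx => (h.mfd x hx.1).congr (mem_of_superset (hU.mem_nhds hx.2) fun _ a =>
      (and_iff_left a).symm), h.lc.inter hU.isLocallyClosed, inter_subset_inter_left _ h.sub,
    h.opn.imp fun _ a => ⟨a.1, by rw [a.2, inter_right_comm]⟩,
    h.small.mono fun _ a => ⟨a.1.1, fun b => a.2 ⟨b, a.1.2⟩⟩,
    fun _ hx => hU.closure_inter ⟨h.dense hx.1, hx.2⟩⟩

theorem PCy.cyc (h : PCy T M (finrank ℂ A + d)) (hi : Ivt act M)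
    (hf : M ⊆ closure {x | x ∈ M ∧ Fre act x}) : Cyc act T M d :=
  ⟨⟨⟨hi, fun x => (h.mfd x x.2).2, hf⟩, h.lc, h.sub, h.opn, h.small⟩, h.dense⟩

theorem Cyc.pcy (h : Cyc act T M d) : PCy T M (finrank ℂ A + d) :=
  ⟨fun x hx => ⟨hx, h.mfd ⟨x, hx⟩⟩, h.lc, h.sub, h.opn, h.small, h.dense⟩

theorem PCy.nonempty (h : PCy T M n) (hT : T.Nonempty) : M.Nonempty :=
  closure_nonempty_iff.1 (hT.mono h.dense)

/-- manifolds -/
theorem pcy_self (h : ∀ x ∈ M, MfdAt M n x) : PCy M M n :=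
  ⟨h, isLocallyClosed_of_mfd fun x => ⟨n, (h x x.2).2⟩, Subset.rfl,
    ⟨univ, isOpen_univ, (inter_univ _).symm⟩, sdiff_self (a := M) ▸ dimLt_empty n, subset_closure⟩

/-- closures of strata -/
theorem pcy_clo (hB : ∀ x ∈ B, ∃ k, MfdAt B k x) (hM : M ⊆ B) (hm : ∀ x ∈ M, MfdAt M n x)
    (ha : LocAn B M) : PCy (closure M ∩ B) M n :=
  have hT : ∀ x : B, ∃ N, IsMfd (Subtype.val : B → W) N x := fun x =>
    (hB x x.2).imp fun _ h => h.2
  ⟨hm, isClosed_closure.isLocallyClosed.inter (isLocallyClosed_of_mfd hT),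
    subset_inter subset_closure hM, ⟨coborder M, (pcy_self hm).lc.isOpen_coborder, by
      rw [inter_right_comm, closure_inter_coborder, inter_eq_left.2 hM]⟩,
    ha.bdry hM hT (DimLt.of_mfd' fun x => (hm x x.2).2), inter_subset_left⟩

section smo

variable {f : W' → W} {Ψ : W × V → W'} {Θ : W' → V} {x : W'}

theorem SmoAt.mfdAt (h : SmoAt T' B f Ψ Θ x) (hM : M ⊆ B) (hx : x ∈ T') (c : MfdAt M n (f x)) :
    MfdAt (T' ∩ f ⁻¹' M) (n + finrank ℂ V) x := by
  have := FiniteDimensional.complete ℂ W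
  have := FiniteDimensional.complete ℂ W'
  have := FiniteDimensional.complete ℂ V
  have e := h.left.self_of_nhds hx
  have := (c.prod (MfdAt.univ (Θ x))).iso' (S' := T' ∩ f ⁻¹' M) (F := Ψ)
    (G := fun y => (f y, Θ y)) (.of_an h.an)
    (e.symm ▸ (h.hol.prod h.holΘ).mono (.of_forall fun _ a => a.1))
    (h.right.mono fun q a b => let k := a (hM b.1)
      ⟨⟨k.1, pre_of_eq k.2.1 b.1⟩, Prod.ext k.2.1 k.2.2⟩)
    (e.symm ▸ h.left.mono fun y a b => ⟨⟨b.2, trivial⟩, a b.1⟩)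
  rwa [e] at this

theorem SmoAt.mem_closure (h : SmoAt T' B f Ψ Θ x) (hM : M ⊆ B) (hx : x ∈ T')
    (c : f x ∈ closure M) : x ∈ closure (T' ∩ f ⁻¹' M) := by
  have h1 : Tendsto (fun y => (y, Θ x)) (𝓝 (f x)) (𝓝 (f x, Θ x)) := tendsto_inl _ _
  have h2 := h.an.continuousAt.tendsto.comp h1
  rw [h.left.self_of_nhds hx] at h2
  exact mem_closure_iff_frequently.2 (h2.frequently (((mem_closure_iff_frequently.1 c).and_eventually
    (h1.eventually h.right)).mono fun y a => let k := a.2 (hM a.1)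
      ⟨k.1, pre_of_eq k.2.1 a.1⟩))

variable (h : ∀ x ∈ T', ∃ (Ψ : W × V → W') (Θ : W' → V), SmoAt T' B f Ψ Θ x)
include h

theorem smo_dimLt (c : DimLt n M) : DimLt (n + finrank ℂ V) (T' ∩ f ⁻¹' M) := by
  have := FiniteDimensional.complete ℂ W'
  refine DimLt.of_locally fun x hx => ?_
  obtain ⟨Ψ, Θ, k⟩ := h x hx.1
  exact ⟨_, k.left.and ((k.hol.prod k.holΘ).ev hx.1 k.an.eventually_analyticAt),
    (c.prod.image_an' Ψ).mono fun y a =>
      ⟨(f y, Θ y), ⟨⟨a.1.2, trivial⟩, a.2.2 a.1.1⟩, a.2.1 a.1.1⟩⟩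

theorem smo_lc (hT : T ⊆ B) (c : IsLocallyClosed T) : IsLocallyClosed (T' ∩ f ⁻¹' T) := by
  have := FiniteDimensional.complete ℂ W
  have := FiniteDimensional.complete ℂ W'
  have := FiniteDimensional.complete ℂ V
  refine ((isLocallyClosed_tfae _).out 3 0).1 fun x hx => ?_
  obtain ⟨Ψ, Θ, k⟩ := h x hx.1
  obtain ⟨Φ, h1, h2⟩ := k.hol.prod k.holΘ
  have h3 := h1.continuousAt.tendsto
  rw [← h2.self_of_nhds hx.1] at h3
  obtain ⟨O, k1, hO, k2⟩ := _root_.eventually_nhds_iff.1 ((h1.eventually_analyticAt.and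
    (h2.and k.left)).and (h3.eventually ((k.an.eventually_analyticAt.and k.right).and
      (continuousAt_fst.eventually (c.isOpen_coborder.mem_nhds (subset_coborder hx.2))))))
  refine ⟨O, k2, hO, fun y hy => ?_⟩
  obtain ⟨⟨a1, -⟩, ⟨a2, a3⟩, a4⟩ := k1 y hy.1
  have a5 := (mem_closure_iff_frequently.1 hy.2).and_eventually (hO.mem_nhds hy.1)
  have a6 : (Φ y).1 ∈ T := closure_inter_coborder.le ⟨mem_closure_of_frequently_of_tendsto
    (a5.mono fun z b => mem_of_eq_of_mem (congrArg Prod.fst ((k1 z b.2).1.2.1 b.1.1)).symm b.1.2)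
    (continuousAt_fst.comp a1.continuousAt), a4⟩
  have a7 : Ψ (Φ y) = y := tendsto_nhds_unique_of_frequently_eq
    (a2.continuousAt.comp a1.continuousAt) tendsto_id
    (a5.mono fun z b => (congrArg Ψ ((k1 z b.2).1.2.1 b.1.1)).symm.trans ((k1 z b.2).1.2.2 b.1.1))
  obtain ⟨b1, b2, -⟩ := a3 (hT a6)
  exact a7 ▸ ⟨b1, pre_of_eq b2 a6⟩

theorem smo_pcy (hT : T ⊆ B) (c : PCy T M n) :
    PCy (T' ∩ f ⁻¹' T) (T' ∩ f ⁻¹' M) (n + finrank ℂ V) := by
  refine ⟨fun x hx => let ⟨_, _, k⟩ := h x hx.1; k.mfdAt (c.sub.trans hT) hx.1 (c.mfd _ hx.2),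
    smo_lc h hT c.lc, inter_subset_inter_right _ (preimage_mono c.sub), ?_,
    (smo_dimLt h c.small).mono fun _ a => ⟨a.1.1, a.1.2, fun b => a.2 ⟨a.1.1, b⟩⟩,
    fun x hx => let ⟨_, _, k⟩ := h x hx.1; k.mem_closure (c.sub.trans hT) hx.1 (c.dense hx.2)⟩
  obtain ⟨U, hU, rfl⟩ := c.opn
  obtain ⟨O, hO, e⟩ := continuousOn_iff'.1 (show ContinuousOn f T' from fun x hx =>
    let ⟨_, _, k⟩ := h x hx; k.hol.tendsto hx) U hU
  exact ⟨O, hO, by rw [preimage_inter, inter_left_comm, inter_comm T', e, inter_comm O,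
    ← inter_assoc, inter_comm T']⟩

end smo

theorem Smo.pcy {f : W' → W} {r : ℕ} (h : Smo T' B f r) (hT : T ⊆ B) (c : PCy T M n) :
    PCy (T' ∩ f ⁻¹' T) (T' ∩ f ⁻¹' M) (n + r) := by
  simpa only [finrank_fin_fun] using smo_pcy h.loc hT c

section bun

variable [IsAct act univ] [IsAct act' univ] {θ : A' →L[ℂ] A} {f : W' → W}
  (h : Bun act' act T' B θ f) (hi : Ivt act' T') (hi' : Ivt act B)
include h hi hi'

theorem Holo.Bun.fre {x : W'} (hx : x ∈ T') : Fre act' x ↔ Fre act (f x) := by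
  refine ⟨fun H b hb e => ?_, fun H a ha e =>
    h.free x hx a ha (H _ (h.isUnit ha) (by rw [← h.eqv a ha x hx, e])) e⟩
  obtain ⟨a, ha, rfl⟩ := h.usurj b hb
  obtain ⟨k, h1, h2, h3⟩ := h.fib _ (hi a ha x hx) x hx ((h.eqv a ha x hx).trans e)
  rw [← one_mul (θ a), ← congrArg (· * θ a) h2, ← h.mul,
    H _ (h1.mul ha) ((IsAct.mul k a h1 ha x (mem_univ x)).trans h3), h.one]

/-- local trivialisations -/
theorem Holo.Bun.smoAt {x : W'} (hx : x ∈ T') :
    ∃ (Ψ : W × LinearMap.ker (θ : A' →ₗ[ℂ] A) → W') (Θ : W' → _), SmoAt T' B f Ψ Θ x := by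
  have := FiniteDimensional.complete ℂ A
  have := FiniteDimensional.complete ℂ A'
  have := FiniteDimensional.complete ℂ W'
  have : IsAct act' T' := IsAct.mono inferInstance (subset_univ _) hi
  have : IsAct act B := IsAct.mono inferInstance (subset_univ _) hi'
  obtain ⟨σ, s1, s2, s3⟩ := h.sec x hx
  have hf : HolOn T' f x := (h.hol x hx).imp fun _ a => ⟨a.1, eventually_nhdsWithin_iff.1 a.2⟩
  let Ψ : W × LinearMap.ker (θ : A' →ₗ[ℂ] A) → W' := fun q => act' (1 + q.2) (σ q.1)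
  have k1 : ∀ c, AnalyticAt ℂ (fun c : LinearMap.ker (θ : A' →ₗ[ℂ] A) => (1 + c : A')) c :=
    fun c => analyticAt_const.add ((LinearMap.ker (θ : A' →ₗ[ℂ] A)).subtypeL.analyticAt c)
  have h0 : Ψ (f x, 0) = x := by simp [Ψ, s2, act_one]
  have h1 : AnalyticAt ℂ Ψ (f x, 0) := (act_an (act := act') 1 x).comp_of_eq
    (((k1 _).comp analyticAt_snd).prod (s1.comp_of_eq analyticAt_fst rfl)) (by simp [s2])
  have h2 := analyticAt_fst.prod h1
  obtain ⟨w, h3, h4⟩ := exists_leftInv h2 ((injective_iff_map_eq_zero _).2 fun ⟨u, v⟩ e => by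
    rw [(hasFDerivAt_fst.prodMk h1.differentiableAt.hasFDerivAt).fderiv] at e
    obtain rfl : u = 0 := congrArg Prod.fst e
    have e1 : fderiv ℂ Ψ (f x, 0) (0, v) = 0 := congrArg Prod.snd e
    have e2 : AnalyticAt ℂ (fun b => act' b x) (1 + (0 : LinearMap.ker (θ : A' →ₗ[ℂ] A))) :=
      (act_an (act := act') 1 x).comp_of_eq (analyticAt_id.prod analyticAt_const) (by simp)
    rw [← fderiv_inr h1] at e1
    simp only [Ψ, s2] at e1
    replace e1 := (congrArg (· v) (HasFDerivAt.comp (f := fun c : LinearMap.ker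
      (θ : A' →ₗ[ℂ] A) => (1 + c : A')) 0 e2.differentiableAt.hasFDerivAt ((LinearMap.ker
      (θ : A' →ₗ[ℂ] A)).subtypeL.hasFDerivAt.const_add 1)).fderiv).symm.trans e1
    have e3 : ∀ z : ℂ, NormedSpace.exp (z • (v : A')) = 1 := fun z =>
      h.free x hx _ (expU _).isUnit ((congrArg Units.val (h.ρ_exp _)).trans (by
        rw [map_smul, show θ v = 0 from v.2, smul_zero, isExp_expU.zero, Units.val_one]))
        (fix_of_fderiv (by simpa using e1) z)
    have e4 := (hasDerivAt_exp_smul_const (v : A') (0 : ℂ)).unique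
      ((hasDerivAt_const (0 : ℂ) (1 : A')).congr_of_eventuallyEq (.of_forall e3))
    rw [e3, one_mul] at e4
    exact Prod.ext rfl (Subtype.ext e4))
  simp only [h0] at h3
  have h5 : w (f x, x) = (f x, 0) := by simpa only [h0] using h4.self_of_nhds
  refine ⟨Ψ, fun y => (w (f y, y)).2, hf, (hf.prod (.of_an analyticAt_id)).comp_an hx
    (analyticAt_snd.comp h3), by rwa [h5], ?_, ?_⟩
  · obtain ⟨P, hP, Q, hQ, h6⟩ := eventually_prod_iff.1 (nhds_prod_eq.ge h4)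
    obtain ⟨O, hO, h7⟩ := (mem_nhds_subtype _ _ _).1 hQ
    have h8 : ∀ᶠ p in 𝓝 (x, x), p.1 ∈ T' → ∀ a, IsUnit a → θ a = 1 → act' a p.1 = p.2 →
        a - 1 ∈ O := by
      by_contra hn
      obtain ⟨p, a1, a2⟩ := exists_seq_forall_of_frequently (not_eventually.1 hn)
      push Not at a2
      choose a3 g a4 a5 a6 a7 using a2
      have a8 := (h.rig x hx (fun n => (p n).1) g (fun n => ⟨a3 n, a4 n, a5 n⟩)
        (continuousAt_fst.tendsto.comp a1) (by
          simp only [a6]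
          exact continuousAt_snd.tendsto.comp a1)).sub_const 1
      rw [sub_self] at a8
      obtain ⟨n, a9⟩ := (a8.eventually hO).exists
      exact a7 n a9
    have h9 : Tendsto f (𝓝[T'] x) (𝓝[B] (f x)) := (h.continuousOn x hx).tendsto_nhdsWithin h.maps
    have h10 : Tendsto (fun y => (σ (f y), y)) (𝓝[T'] x) (𝓝 (x, x)) :=
      ((s1.continuousAt.tendsto.mono_right (by rw [s2])).comp
        (h9.mono_right nhdsWithin_le_nhds)).prodMk_nhds (tendsto_id.mono_left nhdsWithin_le_nhds)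
    rw [← eventually_nhdsWithin_iff]
    filter_upwards [h9.eventually s3, h10.eventually h8, (h.continuousOn x hx).eventually hP,
      self_mem_nhdsWithin] with y a b c e
    obtain ⟨g, b1, b2, b3⟩ := h.fib _ a.1 y e a.2
    have b4 : Ψ (f y, ⟨g - 1, by simp [b2, h.one]⟩) = y := by simp [Ψ, b3]
    have b5 := h6 c (h7 (a := ⟨g - 1, by simp [b2, h.one]⟩) (b a.1 g b1 b2 b3))
    simp only [b4] at b5
    rw [b5, b4]
  · rw [h5]
    have h6 : ∀ᶠ q : W × LinearMap.ker (θ : A' →ₗ[ℂ] A) in 𝓝 (f x, 0), IsUnit (1 + q.2 : A') :=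
      ((k1 _).continuousAt.comp continuousAt_snd).eventually (p := IsUnit)
        (Units.isOpen.mem_nhds (by simp))
    filter_upwards [h4, h6, continuousAt_fst.eventually (eventually_nhdsWithin_iff.1 s3)]
      with q a b c e
    have a1 : f (Ψ q) = q.1 := by
      rw [h.eqv _ b _ (c e).1, (c e).2, map_add, show θ q.2 = 0 from q.2.2, add_zero, h.one,
        act_one (act := act)]
    exact ⟨hi _ b _ (c e).1, a1, by rw [a1, a]⟩

theorem Holo.Bun.dimLt (hM : M ⊆ B) (c : DimLt n M) (e : n + finrank ℂ A' ≤ m + finrank ℂ A) :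
    DimLt m (T' ∩ f ⁻¹' M) :=
  have := finrank_ker_add h.surj
  have _ := hM
  (smo_dimLt (fun _ => h.smoAt hi hi') c).le (by omega)

theorem Holo.Bun.mfdAt (hM : M ⊆ B) {x : W'} (hx : x ∈ T') (c : MfdAt M n (f x))
    (e : m + finrank ℂ A = n + finrank ℂ A') : MfdAt (T' ∩ f ⁻¹' M) m x := by
  have := finrank_ker_add h.surj
  obtain ⟨_, _, k⟩ := h.smoAt hi hi' hx
  exact (show n + finrank ℂ (LinearMap.ker (θ : A' →ₗ[ℂ] A)) = m by omega) ▸ k.mfdAt hM hx c

/-- `T'` is locally a product of `B` with the kernel group, hence locally closed over `T`. -/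
theorem Holo.Bun.lc (hT : T ⊆ B) (c : IsLocallyClosed T) : IsLocallyClosed (T' ∩ f ⁻¹' T) :=
  smo_lc (fun _ => h.smoAt hi hi') hT c

theorem Holo.Bun.pcy (hT : T ⊆ B) (c : PCy T M n) (e : m + finrank ℂ A = n + finrank ℂ A') :
    PCy (T' ∩ f ⁻¹' T) (T' ∩ f ⁻¹' M) m :=
  have := finrank_ker_add h.surj
  (show n + finrank ℂ (LinearMap.ker (θ : A' →ₗ[ℂ] A)) = m by omega) ▸
    smo_pcy (fun _ => h.smoAt hi hi') hT c

theorem Holo.Bun.cyc (hT : T ⊆ B) (c : Cyc act T M d) :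
    Cyc act' (T' ∩ f ⁻¹' T) (T' ∩ f ⁻¹' M) d :=
  (h.pcy hi hi' hT c.pcy (by omega)).cyc (fun a ha x hx => ⟨hi a ha x hx.1,
      pre_of_eq (h.eqv a ha x hx.1) (c.inv _ (h.isUnit ha) _ hx.2)⟩) fun _ hx =>
    closure_mono (fun _ a => And.intro ⟨a.1, a.2.1⟩ ((h.fre hi hi' a.1).2 a.2.2))
      ((h.closure_preimage fun _ a => hT (c.sub a.1)).ge ⟨hx.1, c.free hx.2⟩).1

theorem Holo.Bun.prp (hT : T ⊆ B) (hI : Ivt act T) (c : Prp act T) :
    Prp act' (T' ∩ f ⁻¹' T) := by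
  have := FiniteDimensional.complete ℂ A
  have := FiniteDimensional.complete ℂ A'
  have : IsAct act' T' := IsAct.mono inferInstance (subset_univ _) hi
  have : IsAct act T := IsAct.mono inferInstance (subset_univ _) hI
  have := h.isAct_preimage hI
  have := c.properSMul
  have := (h.restrict hT).properSMul
  exact prp_of_properSMul

/-- the fundamental class pulls back -/
theorem Holo.Bun.res_fnd [IsAct act' T'] [IsAct act B] [Nice (Quo act B)]
    (ho : Orb.Orb Aˣ (Sp act B)) (c : Cyc act B M d) (hl : IsLocallyClosed T') :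
    IsOpenEmbedding h.toEt.map ∧ res h.toEt.map (fnd act B d) = fnd act' T' d := by
  have := FiniteDimensional.complete ℂ A'
  have := FiniteDimensional.proper ℂ W'
  have := ho.proper
  have := h.properSMul
  have := hl.locallyCompactSpace
  have : LocallyCompactSpace B := ho.nice.lc
  have k := h.cyc hi hi' Subset.rfl c
  rw [inter_eq_left.2 h.maps.subset_preimage] at k
  exact ⟨h.isOpenEmbedding h.toEt.map_mk, k.eq_fnd (Prp.orb prp_of_properSMul)
    (h.isFund_res h.toEt.map_mk (c.isFund ho))⟩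

end bun

section spt

variable {ρ : A → V → V} {p : W →L[ℂ] W} {q : W →L[ℂ] V} {ι : V →L[ℂ] W} (s : Spt act ρ p q ι)
  (h0 : ∀ x ∈ T, q x = 0)
include s

theorem Ch.KD.Spt.q_add' {x : W} (hx : q x = 0) (v : V) : q (x + ι v) = v := by
  rw [map_add, hx, s.q_ι, zero_add]

theorem Ch.KD.Spt.p_add' {x : W} (hx : q x = 0) (v : V) : p (x + ι v) = x :=
  add_right_cancel ((congrArg (fun w => p (x + ι v) + ι w) (s.q_add' hx v)).symm.trans (s.add _))

include h0

theorem Ch.KD.Spt.pcy_lift (c : PCy T M n) : PCy (p ⁻¹' T) (p ⁻¹' M) (n + finrank ℂ V) := by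
  have := smo_pcy (T' := p ⁻¹' T) (f := p) (fun x _ => ⟨fun y => y.1 + ι y.2, q,
    .of_an (p.analyticAt x), .of_an (q.analyticAt x),
    analyticAt_fst.add ((ι.analyticAt _).comp analyticAt_snd), .of_forall fun y _ => s.add y,
    .of_forall fun y a => ⟨pre_of_eq (s.p_add' (h0 _ a) _) a, s.p_add' (h0 _ a) _,
      s.q_add' (h0 _ a) _⟩⟩) Subset.rfl c
  rwa [inter_self, inter_eq_right.2 (preimage_mono c.sub)] at this

theorem Ch.KD.Spt.pcy_push (hM : M ⊆ T) (c : PCy (p ⁻¹' T) (p ⁻¹' M) n) :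
    PCy T M (n - finrank ℂ V) ∧ (T.Nonempty → finrank ℂ V ≤ n) := by
  have := FiniteDimensional.complete ℂ W
  have h1 : ∀ x, q x = 0 → p x = x := fun x hx => by simpa [hx] using s.add x
  have h2 : ∀ {S : Set W}, S ⊆ T → ∀ x, x ∈ S ↔ x ∈ p ⁻¹' S ∧ q x = 0 := fun hS x =>
    ⟨fun a => ⟨pre_of_eq (h1 x (h0 x (hS a))) a, h0 x (hS a)⟩,
      fun a => mem_of_eq_of_mem (h1 x a.2).symm a.1⟩
  have h3 : ∀ x ∈ M, ∃ k, k + finrank ℂ V = n ∧ MfdAt M k x := fun x hx =>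
    (c.mfd x ((h2 hM x).1 hx).1).sub' (.of_an (q.analyticAt x)) (h0 x (hM hx))
      (fun v _ => Submodule.subset_span ⟨fun z => x + ι (z • v),
        ⟨analyticAt_const.add ((ι.analyticAt _).comp (analyticAt_id.smul analyticAt_const)),
          by simp, .of_forall fun z => pre_of_eq (s.p_add' (h0 x (hM hx)) _) hx⟩, by
        simp only [s.q_add' (h0 x (hM hx))]
        simpa using ((hasDerivAt_id (0 : ℂ)).smul_const v).deriv⟩) (.of_forall (h2 hM))
  have h4 : T.Nonempty → finrank ℂ V ≤ n := fun ⟨x, hx⟩ =>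
    let ⟨_, hy⟩ := c.nonempty ⟨x, ((h2 Subset.rfl x).1 hx).1⟩
    let ⟨_, e, _⟩ := h3 _ hy
    e ▸ Nat.le_add_left _ _
  refine ⟨⟨fun x hx => let ⟨_, e, k⟩ := h3 x hx; Nat.eq_sub_of_add_eq e ▸ k, ?_, hM, ?_, ?_,
    fun x hx => ?_⟩, h4⟩
  · rw [Set.ext (h2 Subset.rfl)]
    exact c.lc.inter (isClosed_eq q.continuous continuous_const).isLocallyClosed
  · obtain ⟨U, hU, e⟩ := c.opn
    refine ⟨U, hU, Set.ext fun x => ?_⟩
    rw [h2 hM, e, mem_inter_iff x T, h2 Subset.rfl, mem_inter_iff, and_right_comm]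
  · rcases T.eq_empty_or_nonempty with rfl | hT
    · exact (dimLt_empty _).mono sdiff_subset
    refine DimLt.of_prod (W' := V) isOpen_univ univ_nonempty ?_
    rw [Nat.sub_add_cancel (h4 hT)]
    exact (c.small.image_an fun x _ => (p.analyticAt x).prod (q.analyticAt x)).mono fun y a =>
      ⟨y.1 + ι y.2, pre_of_eq (S := T \ M) (s.p_add' (h0 _ a.1.1) _) a.1,
        Prod.ext (s.p_add' (h0 _ a.1.1) _) (s.q_add' (h0 _ a.1.1) _)⟩
  · exact h1 x (h0 x hx) ▸ map_mem_closure p.continuous (c.dense ((h2 Subset.rfl x).1 hx).1)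
      fun _ a => a

theorem Ch.KD.Spt.cyc [IsAct act univ] (c : Cyc act T M d) (hU : IsOpen U)
    (hi : Ivt act (p ⁻¹' T ∩ U)) : Cyc act (p ⁻¹' T ∩ U) (p ⁻¹' M ∩ U) (d + finrank ℂ V) := by
  refine PCy.cyc (add_assoc _ d _ ▸ (s.pcy_lift h0 c.pcy).inter hU) (fun a ha x hx =>
    ⟨pre_of_eq (s.p_act a ha x) (c.inv a ha _ hx.1), (hi a ha x ⟨c.sub hx.1, hx.2⟩).2⟩)
    fun x hx => closure_mono (s := {y | p y ∈ M ∧ Fre act (p y)} ∩ U) (fun y a => And.intro
      ⟨a.1.1, a.2⟩ fun b hb e => a.1.2 b hb (by rw [← s.p_act b hb, e])) (hU.closure_inter ⟨?_, hx.2⟩)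
  exact s.add x ▸ map_mem_closure (f := fun y => y + ι (q x)) (by fun_prop) (c.free hx.1)
    fun y a => by rwa [mem_ofPred_eq, s.p_add' (h0 _ (c.sub a.1))]

end spt

end Vale.Agent.P269
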