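import Vale.Agent.P287Q.G.Map.Defs
import Vale.Agent.P269.Spl.Defs
import Vale.Agent.P269.Pt.Ops2
import Vale.Agent.P269.Holo.Set2

/-!
# Labels: nodes that are normalised, unions of components
-/

set_option linter.unusedSectionVars false

namespace Vale.Agent.P269

open P291Z Set Function Topology Filter Base Cv Holo

section smo

variable {W W' : Type} [NormedAddCommGroup W] [NormedSpace ℂ W] [NormedAddCommGroup W']
  [NormedSpace ℂ W']

/-- `T` is the closure of the manifold `M` of dimension `n`, with small boundary. -/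
structure PCy (T M : Set W) (n : ℕ) : Prop where
  mfd : ∀ x ∈ M, MfdAt M n x
  lc : IsLocallyClosed T
  sub : M ⊆ T
  opn : ∃ U, IsOpen U ∧ M = T ∩ U
  small : DimLt n (T \ M)
  dense : T ⊆ closure M

/-- Near `x` the map `f : T' → T` is the projection of an analytic product `T × B`. -/
structure SmoAt (T' : Set W') (T : Set W) (f : W' → W) {B : Type} [NormedAddCommGroup B]
    [NormedSpace ℂ B] (Ψ : W × B → W') (Θ : W' → B) (x : W') : Prop where
  hol : HolOn T' f x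
  holΘ : HolOn T' Θ x
  an : AnalyticAt ℂ Ψ (f x, Θ x)
  left : ∀ᶠ y in 𝓝 x, y ∈ T' → Ψ (f y, Θ y) = y
  right : ∀ᶠ q in 𝓝 (f x, Θ x), q.1 ∈ T → Ψ q ∈ T' ∧ f (Ψ q) = q.1 ∧ Θ (Ψ q) = q.2

/-- `f : T' → T` is locally the projection of an analytic product with `ℂ^r`. -/
structure Smo (T' : Set W') (T : Set W) (f : W' → W) (r : ℕ) : Prop where
  maps : MapsTo f T' T
  loc : ∀ x ∈ T', ∃ (Ψ : W × (Fin r → ℂ) → W') (Θ : W' → Fin r → ℂ), SmoAt T' T f Ψ Θ x

/-- The product of two normed algebras. -/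
def AP (A B : Type) : Type := A × B

variable {A B : Type} [NormedRing A] [NormedAlgebra ℂ A] [NormedRing B] [NormedAlgebra ℂ B]

noncomputable instance : NormedRing (AP A B) := inferInstanceAs (NormedRing (A × B))

noncomputable instance : NormedAlgebra ℂ (AP A B) := inferInstanceAs (NormedAlgebra ℂ (A × B))

instance [FiniteDimensional ℂ A] [FiniteDimensional ℂ B] : FiniteDimensional ℂ (AP A B) :=
  inferInstanceAs (FiniteDimensional ℂ (A × B))

instance [CompleteSpace A] [CompleteSpace B] : CompleteSpace (AP A B) :=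
  inferInstanceAs (CompleteSpace (A × B))

theorem AP.finrank [FiniteDimensional ℂ A] [FiniteDimensional ℂ B] :
    Module.finrank ℂ (AP A B) = Module.finrank ℂ A + Module.finrank ℂ B := Module.finrank_prod

theorem AP.isUnit_iff {a : AP A B} : IsUnit a ↔ IsUnit a.1 ∧ IsUnit a.2 := Prod.isUnit_iff

theorem fd_prod (W W' : Type) [NormedAddCommGroup W] [NormedSpace ℂ W] [FiniteDimensional ℂ W]
    [NormedAddCommGroup W'] [NormedSpace ℂ W'] [FiniteDimensional ℂ W'] :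
    @FiniteDimensional ℂ (W × W') _ NormedAddCommGroup.toAddCommGroup NormedSpace.toModule :=
  inferInstance

variable (A) in
/-- Finite dimensional normed algebras. -/
abbrev FD : Prop := FiniteDimensional ℂ A

variable (A B) in
/-- Continuous linear maps of normed algebras. -/
abbrev CL : Type := A →L[ℂ] B

/-- A linear map of finite dimensional algebras. -/
noncomputable def CL.mk [FiniteDimensional ℂ A] (f : A → B) (h : ∀ a b, f (a + b) = f a + f b)
    (h' : ∀ (c : ℂ) a, f (c • a) = c • f a) : CL A B :=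
  LinearMap.toContinuousLinearMap ⟨⟨f, h⟩, h'⟩

/-- The first projection. -/
noncomputable def AP.fst : CL (AP A B) A := ContinuousLinearMap.fst ℂ A B

/-- The second projection. -/
noncomputable def AP.snd : CL (AP A B) B := ContinuousLinearMap.snd ℂ A B

end smo

/-- The numerical data of a chart that depend on the curve. -/
structure Nm (ι J : Type) where
  /-- dimensions of the factors -/
  M : ι → ℕ
  /-- dimensions of the spaces of sections -/
  h : Option J → ℕ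
  /-- genus -/
  g : ℤ
  /-- multidegree -/
  m : ι → ℤ

variable {S Λ R J K ι ν κ ν' κ' ε : Type} [Fintype S] [Fintype Λ] [Fintype R] [Fintype J]
  [Fintype K] [Fintype ι] [DecidableEq ι] [Fintype ν] [Fintype κ] [Fintype ν'] [Fintype κ']
  [Fintype ε]

/-- Linear maps between the factors. -/
abbrev HV (M M' : ι → ℕ) : Type := ∀ i, (Fin (M i) → ℂ) →L[ℂ] (Fin (M' i) → ℂ)

/-- The map of the ambient spaces. -/
noncomputable def apV {M M' : ι → ℕ} (φ : HV M M') (c : V M) : V M' := fun i => φ i (c i)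

/-- The pull-back of forms. -/
noncomputable def pbT {M M' : ι → ℕ} (φ : HV M M') {σ : Type} [Fintype σ] (τ : σ → ι) :
    Tn M' τ →L[ℂ] Tn M τ :=
  ContinuousMultilinearMap.compContinuousLinearMapL fun s => φ (τ s)

theorem val_pbT {M M' : ι → ℕ} (φ : HV M M') {a : ι → ℕ} (μ : Tens M' a) (c : V M) :
    val (pbT φ _ μ) c = val μ (apV φ c) := rfl

/-- The characters of the extra torus on the fields. -/
noncomputable def Wt.cS (F : Wt S Λ R J) (τ : S → ℂ) (j : J) : ℂ := ∏ i, τ i ^ F.wt j i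

namespace Ch

/-- The same chart for other curves. -/
@[reducible] def re (ch : Ch ι J) (n : Nm ι J) : Ch ι J :=
  ⟨n.M, ch.o, n.g, n.m, ch.a, n.h, ch.k, ch.bω, ch.b⟩

/-- The spaces `E l` have the dimensions of the spaces of sections. -/
def Tight' (ch : Ch ι J) : Prop :=
  ch.Tight ∧ ∀ l, ch.h l = (∑ i, ch.a l i * ch.m i + 1 - ch.g).toNat

variable {ch : Ch ι J} {n : Nm ι J}

instance : FD (ch.A ν) := inferInstance

instance : FD (ch.AF ν κ S) := inferInstance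

/-- Labels: a point of the second chart, maps `φ : V' → V` of the factors and maps `r : E → E'` of
the spaces of sections. -/
def Lb (ch : Ch ι J) (n : Nm ι J) (ν' : Type) [Fintype ν'] : Type :=
  (ch.re n).W ν' × HV n.M ch.M × ∀ l, ch.E l →L[ℂ] (ch.re n).E l

noncomputable instance : NormedAddCommGroup (ch.Lb n ν') :=
  inferInstanceAs (NormedAddCommGroup (_ × _ × _))

noncomputable instance : NormedSpace ℂ (ch.Lb n ν') := inferInstanceAs (NormedSpace ℂ (_ × _ × _))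

instance : FiniteDimensional ℂ (ch.Lb n ν') :=
  (fd_prod ((ch.re n).W ν') (HV n.M ch.M × ∀ l, ch.E l →L[ℂ] (ch.re n).E l) :)

instance : CompleteSpace (ch.Lb n ν') := FiniteDimensional.complete ℂ _

/-- The map of points. -/
noncomputable def lpt (w : ch.Lb n ν') (z : (ch.re n).Pt) : ch.Pt :=
  (apV w.2.1 z.1, fun l => z.2 l ∘L w.2.2 l)

/-- The maps of the label intertwine the Hilbert points and the tensors `Ξ`. -/
structure Lk (x : ch.W ν) (w : ch.Lb n ν') : Prop where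
  Q : ∀ l μ, w.2.2 l (x.Q l μ) = w.1.Q l (pbT w.2.1 _ μ)
  Ξ : ∀ μ, w.2.2 none (x.Ξ μ) = w.1.Ξ (pbT w.2.1 _ μ)

/-- The maps of the label intertwine the fields `j`. -/
def Mt (x : ch.W ν) (w : ch.Lb n ν') (j : J) : Prop :=
  ∀ μ, w.2.2 (some j) (x.X j μ) = w.1.X j (pbT w.2.1 _ μ)

/-- Restriction of values of functions to the pulled back tests. -/
noncomputable def resF (K : Type) (φ : HV n.M ch.M) :
    Vir.Fib (ch.re n).Th K (ch.re n).Zt →ₗ[ℂ] Vir.Fib ch.Th K ch.Zt where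
  toFun f := (fun j m => f.1 j (pbT φ _ m.1, pbT φ _ m.2), fun k ζ => f.2 k fun i => ζ i ∘L φ i)
  map_add' _ _ := rfl
  map_smul' _ _ := rfl

/-- The action on labels. -/
noncomputable def actLb (c : J → ℂ) (s : ch.A ν) (s' : (ch.re n).A ν') (w : ch.Lb n ν') :
    ch.Lb n ν' :=
  (act s' (scl c w.1), fun i => s.1 i ∘L w.2.1 i ∘L Ring.inverse (s'.1 i),
    fun l => s'.2.1 l ∘L w.2.2 l ∘L Ring.inverse (s.2.1 l))

/-- The group element acting on the second chart; `β` says which torus rescales a marked point. -/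
noncomputable def θL (β : ν' ⊕ κ' → (ν ⊕ κ) ⊕ ε) :
    CL (AP (ch.AF ν κ S) ((ch.re n).A ε)) ((ch.re n).AF ν' κ' S) :=
  CL.mk (fun a => (a.1.1, a.2.1, a.2.2.1, fun q => Sum.elim a.1.2.2.2 a.2.2.2 (β q)))
    (fun _ _ => Prod.ext rfl (Prod.ext rfl (Prod.ext rfl (funext fun q => by
      rcases h : β q with _ | _ <;> simp only [Prod.snd_add, Pi.add_apply, h] <;> rfl))))
    fun _ _ => Prod.ext rfl (Prod.ext rfl (Prod.ext rfl (funext fun q => by
      rcases h : β q with _ | _ <;> simp only [Prod.smul_snd, Pi.smul_apply, h] <;> rfl)))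

theorem θL_apply (β : ν' ⊕ κ' → (ν ⊕ κ) ⊕ ε) (a : AP (ch.AF ν κ S) ((ch.re n).A ε)) : θL β a =
    (a.1.1, a.2.1, a.2.2.1, fun q => Sum.elim a.1.2.2.2 a.2.2.2 (β q)) := rfl

/-- The action of the big group on labels. -/
noncomputable def actL1 (F : Wt S Λ R J) (β : ν' ⊕ κ' → (ν ⊕ κ) ⊕ ε)
    (a : AP (ch.AF ν κ S) ((ch.re n).A ε)) (w : ch.Lb n (Mk ν' κ')) : ch.Lb n (Mk ν' κ') :=
  actLb (F.cS a.1.1) a.1.2 (dup (θL β a).2) w

/-- The point of the second chart with the parameter. -/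
def μL (x : ch.WF ν κ Λ) (w : ch.Lb n (Mk ν' κ')) : (ch.re n).WF ν' κ' Λ := (x.1, w.1)

/-- A set of points that is defined by conditions on the curve and the base fields. -/
structure Lev (F : Fam S Λ R J K) (T : Set (ch.WF ν κ Λ)) : Prop where
  adm : T ⊆ ch.adm ν κ F
  inv : Ivt (actF F.toWt) T
  mov : ∀ x ∈ T, ∀ X, (∀ j ∉ F.mov, X j = x.2.X j) → (x.1, W.mk' x.2.Q x.2.p x.2.Ξ X) ∈ T

section glue

/-- Points with a labelled partial normalisation. -/
abbrev WG (ch : Ch ι J) (n : Nm ι J) (ν κ κ' Λ : Type) [Fintype ν] [Fintype κ] [Fintype κ'] :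
    Type := ch.WF ν κ Λ × ch.Lb n (Mk ν (κ ⊕ κ'))

/-- The group of the labelled space. -/
abbrev AG (ch : Ch ι J) (n : Nm ι J) (ν κ κ' S : Type) : Type :=
  AP (ch.AF ν κ S) ((ch.re n).A κ')

instance : FiniteDimensional ℂ (ch.WG n ν κ κ' Λ) := inferInstance

instance : CompleteSpace (ch.WG n ν κ κ' Λ) := inferInstance

/-- The group of the normalised chart. -/
noncomputable def θG : CL (ch.AG n ν κ κ' S) ((ch.re n).AF ν (κ ⊕ κ') S) :=
  θL (Equiv.sumAssoc ν κ κ').symm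

/-- The normalised point. -/
def μG (z : ch.WG n ν κ κ' Λ) : (ch.re n).WF ν (κ ⊕ κ') Λ := μL z.1 z.2

/-- The action on the labelled space. -/
noncomputable def actG (F : Wt S Λ R J) (a : ch.AG n ν κ κ' S) (z : ch.WG n ν κ κ' Λ) :
    ch.WG n ν κ κ' Λ := (actF F a.1 z.1, actL1 F (Equiv.sumAssoc ν κ κ').symm a z.2)

/-- The branches of the labelled nodes. -/
abbrev nq (e : κ') (b : Bool) : Mk ν (κ ⊕ κ') := .inr (.inr e, b)

/-- The old marked points. -/
abbrev inc (a : Mk ν κ) : Mk ν (κ ⊕ κ') := a.map id (Prod.map .inl id)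

open Classical in
/-- The curve of `x` is obtained from the curve of the label `w` by gluing the pairs `κ'`. -/
structure Gl (x : ch.W (Mk ν κ)) (w : ch.Lb n (Mk ν (κ ⊕ κ'))) : Prop extends Lk x w where
  mem : x ∈ ch.base (Mk ν κ)
  mem' : w.1 ∈ (ch.re n).base (Mk ν (κ ⊕ κ'))
  surj : ∀ i, Surjective (w.2.1 i)
  inj : ∀ l, Injective (w.2.2 l)
  mark : ∀ a, x.p a = apV w.2.1 (w.1.p (inc a))
  node : ∀ e, apV w.2.1 (w.1.p (nq e false)) = apV w.2.1 (w.1.p (nq e true))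
  par : ∃ (X : Type) (_ : TopologicalSpace X) (_ : T2Space X) (_ : CompactSpace X) (R : RS X)
    (N : Finset (X × X)) (A : ι → LB R) (π : X → V n.M) (p : Mk ν (κ ⊕ κ') → X),
    Par ch.o (crv w.1) N A π ∧ (∀ a, π (p a) = w.1.p a) ∧
      Par ch.o (crv x) (N ∪ Finset.univ.image fun e => (p (nq e false), p (nq e true))) A
        fun y => apV w.2.1 (π y)

variable (F : Fam S Λ R J K) (T : Set ((ch.re n).WF ν (κ ⊕ κ') Λ))

/-- Labelled points over `T` with matching base fields. -/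
def Zb : Set (ch.WG n ν κ κ' Λ) :=
  {z | Gl z.1.2 z.2 ∧ μG z ∈ T ∧ ∀ j ∉ F.mov, Mt z.1.2 z.2 j}

/-- The movable fields live on the normalised curve. -/
def Zn : Set (ch.WG n ν κ κ' Λ) := {z | z ∈ Zb F T ∧ ∀ j ∈ F.mov, z.1.2.X j = 0}

/-- The movable fields live on the glued curve: **the labelled space**. -/
def Zf : Set (ch.WG n ν κ κ' Λ) := {z | z ∈ Zb F T ∧ ∀ j ∈ F.mov, z.2.1.X j = 0}

/-- Matching movable fields on both curves. -/
def Zm : Set (ch.WG n ν κ κ' Λ) := {z | z ∈ Zb F T ∧ ∀ j ∈ F.mov, Mt z.1.2 z.2 j}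

end glue

section prod

variable {n₁ n₂ : Nm ι J} {ν₁ κ₁ ν₂ κ₂ : Type} [Fintype ν₁] [Fintype κ₁] [Fintype ν₂] [Fintype κ₂]

/-- Points with a labelled decomposition into two parts. -/
abbrev WP (ch : Ch ι J) (n₁ n₂ : Nm ι J) (ν₁ κ₁ ν₂ κ₂ Λ : Type) [Fintype ν₁] [Fintype κ₁]
    [Fintype ν₂] [Fintype κ₂] : Type :=
  ch.WF (ν₁ ⊕ ν₂) (κ₁ ⊕ κ₂) Λ × ch.Lb n₁ (Mk ν₁ κ₁) × ch.Lb n₂ (Mk ν₂ κ₂)

/-- The group of the space of decompositions. -/
abbrev AS (ch : Ch ι J) (n₁ n₂ : Nm ι J) (ν₁ κ₁ ν₂ κ₂ S : Type) : Type :=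
  AP (ch.AF (ν₁ ⊕ ν₂) (κ₁ ⊕ κ₂) S) (AP ((ch.re n₁).A Empty) ((ch.re n₂).A Empty))

instance : FiniteDimensional ℂ (ch.WP n₁ n₂ ν₁ κ₁ ν₂ κ₂ Λ) := inferInstance

instance : CompleteSpace (ch.WP n₁ n₂ ν₁ κ₁ ν₂ κ₂ Λ) := inferInstance

/-- The tori of the first part. -/
def β₁ : ν₁ ⊕ κ₁ → ((ν₁ ⊕ ν₂) ⊕ κ₁ ⊕ κ₂) ⊕ Empty := fun q => .inl (q.map .inl .inl)

/-- The tori of the second part. -/
def β₂ : ν₂ ⊕ κ₂ → ((ν₁ ⊕ ν₂) ⊕ κ₁ ⊕ κ₂) ⊕ Empty := fun q => .inl (q.map .inr .inr)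

/-- The action on the space of decompositions. -/
noncomputable def actP (F : Wt S Λ R J) (a : ch.AS n₁ n₂ ν₁ κ₁ ν₂ κ₂ S)
    (z : ch.WP n₁ n₂ ν₁ κ₁ ν₂ κ₂ Λ) : ch.WP n₁ n₂ ν₁ κ₁ ν₂ κ₂ Λ :=
  (actF F a.1 z.1, actL1 F β₁ (a.1, a.2.1) z.2.1, actL1 F β₂ (a.1, a.2.2) z.2.2)

/-- The curve of the label `w` is a part of the curve of `x`. -/
structure Pc (x : ch.W ν) (w : ch.Lb n ν') (φ : ν' → ν) : Prop extends Lk x w where
  mem : w.1 ∈ (ch.re n).base ν'
  inj : ∀ i, Injective (w.2.1 i)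
  mark : ∀ a, x.p (φ a) = apV w.2.1 (w.1.p a)

/-- The curve of `x` is the disjoint union of the curves of the labels. -/
structure Sp2 (x : ch.W (Mk (ν₁ ⊕ ν₂) (κ₁ ⊕ κ₂))) (w₁ : ch.Lb n₁ (Mk ν₁ κ₁))
    (w₂ : ch.Lb n₂ (Mk ν₂ κ₂)) : Prop where
  mem : x ∈ ch.base _
  one : Pc x w₁ (Sum.map .inl (Prod.map .inl id))
  two : Pc x w₂ (Sum.map .inr (Prod.map .inr id))
  compl : ∀ i, IsCompl (w₁.2.1 i).range (w₂.2.1 i).range
  bij : ∀ l, Bijective ((w₁.2.2 l).prod (w₂.2.2 l))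
  crv : crv x = apV w₁.2.1 '' crv w₁.1 ∪ apV w₂.2.1 '' crv w₂.1

end prod

end Ch

end Vale.Agent.P269
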