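import Vale.Agent.P287Q.G.Glu.NdF
import Vale.Agent.P287Q.G.Glu.NdT
import Vale.Agent.P287Q.G.Glu.Cas
import Vale.Agent.P287Q.G.Qrr.NdD

/-!
# Persistent nodes in the absolute theory
-/

set_option linter.unusedSectionVars false

namespace Vale.Agent.P269

open P291Z Set Function Topology Filter Ch

variable {S Λ R J K I ι ν κ ε β : Type} [Fintype S] [Fintype Λ] [Fintype R] [Fintype J] [Fintype K]
  [Fintype I] [Fintype ι] [DecidableEq ι] [Fintype ν] [Fintype κ] [Fintype ε] [Fintype β]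
  {F : Fam S Λ R J K}

namespace Nd

theorem smul_zero' (u : ν → ℕ) : (fun n => u n • (0 : J → ℕ)) = 0 := funext fun _ => smul_zero _

theorem ok_un {f : Fac F.toWt (ν ⊕ ε × Bool) κ} (h : f.Ok F 0) : (f.un ε).Ok F 0 := by
  cases f
  exacts [trivial, fun _ e => h ⟨e.1, fun _ _ _ a => (a rfl).elim⟩, h, trivial, trivial]

theorem dq_un {W : Wt S Λ R J} (fs : List (Fac W (ν ⊕ ε × Bool) κ)) :
    (fs.map (Fac.un ε)).filterMap Fac.dq = (fs.filterMap Fac.dq).map .inl := by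
  rw [List.filterMap_map, List.map_filterMap]
  exact List.filterMap_congr fun f _ => by cases f <;> rfl

/-- the sum of the products of the evaluation classes is even -/
theorem sum_ev_mem {ch : Ch ι J} {ℓ : R → ι → ℤ} {Z : Set (ch.WF ν κ Λ)} (hz : GZ F ℓ Z)
    {a a' : β → H (F.X F.cone)} (h : X3.csm F a a' ∈ Hev _) (n n' : Mk ν κ) :
    ∑ b, F.cl Z (.ev n _ (a b)) * F.cl Z (.ev n' _ (a' b)) ∈ Hev _ := by
  refine mem_of_eq_of_mem ?_ (map_mem_Hev (hz.eqh_vl2 n n').toEqv.qm h)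
  rw [X3.csm, map_sum]
  refine Finset.sum_congr rfl fun b _ => ?_
  rw [hz.cl_ev n fun _ e => vl_mem (hz.sol e) n, hz.cl_ev n' fun _ e => vl_mem (hz.sol e) n',
    map_mul, H.map_map, H.map_map]
  exact congrArg₂ (H.map · _ * H.map · _)
    (ContinuousMap.ext fun z => Quot.inductionOn z fun _ => rfl)
    (ContinuousMap.ext fun z => Quot.inductionOn z fun _ => rfl)

variable [DecidableEq R]

theorem ev_cyc [DecidableEq I] [DecidableEq ε] {ch ch' : Ch ι J} (hc : ch' = ch)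
    {e : Ch ι J → K → ι → ℕ} {φ : I → J} {K₀ ℓ n ψ} (h : Cx F F.zer φ ch (e ch) K₀ ℓ n ψ)
    {O M O' M' d d'} (hv : Vd F (e ch') (ch'.cyc (κ ⊕ ε) F (0 : ν → J → ℕ)) O M d)
    (hv' : Vd F (e ch) (ch.cyc κ F (0 : ν ⊕ ε × Bool → J → ℕ)) O' M' d') (hd : F.IsDiag F.diag)
    {fs : List (Fac F.toWt (ν ⊕ ε × Bool) κ)}
    (hK : IsCompact (dia F.toWt (ch.solF _ κ F ∩ ch.cyc κ F (0 : ν ⊕ ε × Bool → J → ℕ))))
    (hA : ∀ f ∈ fs, f.At (ch.solF _ κ F ∩ ch.cyc κ F 0)) (hq : ∀ q, .dg q ∈ fs) {es : List ε}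
    (hl : es.Nodup) (hl' : ∀ q, q ∈ es) {t : Coch F.X3} (ht : IsD3 F t)
    {a a' : β → H (F.X F.cone)}
    (ha : hcls t = ∑ s, hpull (fun z => Quo.mk F.actT ⟨_, (Quo.out z).2.1⟩) (a s) *
      hpull (fun z => Quo.mk F.actT ⟨_, (Quo.out z).2.2⟩) (a' s)) :
    ev (virF F (e ch') (ch'.cyc (κ ⊕ ε) F 0)) (ind univ *
        ((fs.map (Fac.un ε) ++ es.map fun q => Fac.dg (Sum.inr q)).map (F.coch _)).prod) =
      ∑ s : ε → β, ev (virF F (e ch) (ch.cyc κ F 0)) (ind univ * ((fs ++ es.flatMap fun q =>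
        [Fac.ev (mq q false) _ (a (s q)), Fac.ev (mq q true) _ (a' (s q))]).map (F.coch _)).prod) := by
  subst hc
  exact (congrArg (ev _ <| · * _) (pull_ind _ univ).symm).trans (ev_node h (ndT_cyc h.std h.nice)
    hv hv' hd hK hA hq hl hl' (cocycle_ind' isClopen_univ) ht ha)

variable {k D : ℕ} (g : ℤ) (d : R → ℤ) (h : F.Nice 0) (hc : F.Cp) (hk : F.Big k) (hD : F.BigD k D)
include h hc hk hD

omit hc in
variable (ν κ) in
theorem gz0 : GZ F ℓs (F.Zs κ k D g d (0 : ν → J → ℕ)) :=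
  smul_zero' (J := J) (0 : ν → ℕ) ▸ h.gz κ hk hD g d 0

theorem lvl {fs : List (Fac F.toWt ν κ)} (hf : ∀ f ∈ fs, f.Ok F 0) (hq : ∀ q, .dg q ∈ fs) :
    F.Lvl k D g d 0 (fun _ => True) fs :=
  ⟨hD, gz0 ν κ g d h hk hD, by rw [Fam.sel_true hD]; exact isClopen_univ,
    h.toGood.isCompact_dia hc hk hD _,
    fun f e => smul_zero' (J := J) (0 : ν → ℕ) ▸
      h.at_of_ok (u := 0) hk hD ((smul_zero' (J := J) (0 : ν → ℕ)).symm ▸ hf f e), hq⟩

/-- the normal form of the integrals -/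
theorem intM_nf {fs : List (Fac F.toWt ν κ)} (hf : ∀ f ∈ fs, f.Ok F 0) (hq : ∀ q, .dg q ∈ fs)
    (hn : (fs.filterMap Fac.dq).Nodup) : F.intM k D g d 0 fs =
      F.itg (F.vir κ k D g d 0) (hcls (ind univ) * (fs.map (F.cn _)).prod) := by
  obtain ⟨a, ⟨_, b⟩, -⟩ := h.dg St.dg
  rw [Fam.intM, (lvl g d h hc hk hD hf hq).intg_eq a b, Fam.sel_true hD, Fam.clL_eq hn]

variable {a a' : β → H (F.X F.cone)} (ha : F.IsCas a a')
include ha

/-- **persistent nodes are replaced by pairs of marked points** -/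
theorem intM_nodes [DecidableEq ε] {fs : List (Fac F.toWt (ν ⊕ ε × Bool) κ)}
    (hf : ∀ f ∈ fs, f.Ok F 0) (hq : ∀ q, .dg q ∈ fs) {es : List ε} (hl : es.Nodup)
    (hl' : ∀ q, q ∈ es) :
    F.intM k D g d 0 (fs.map (Fac.un ε) ++ es.map fun q => .dg (.inr q)) =
      ∑ s : ε → β, F.intM k D g d 0 (fs ++ es.flatMap fun q =>
        [.ev (mq q false) _ (a (s q)), .ev (mq q true) _ (a' (s q))]) := by
  obtain ⟨_, _, -, -, v⟩ := h.vd' (ν := ν) (κ ⊕ ε) hk
  obtain ⟨_, _, -, -, v'⟩ := h.vd' (ν := ν ⊕ ε × Bool) κ hk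
  obtain ⟨_, _, -, w⟩ := v D hD g d 0
  obtain ⟨_, _, o, w'⟩ := v' D hD g d 0
  obtain ⟨_, φ, n, ψ, s⟩ := h.sh
  obtain ⟨t, ht⟩ := X3.exists_isD3 h
  have l := lvl g d h hc hk hD hf hq
  rw [smul_zero'] at w w'
  simp only [Fam.intM, Fam.intg, Fam.sel_true hD]
  exact ev_cyc (congrArg (F.chart g · d k D) (Fintype.card_congr (unp ν κ ε)).symm) (e := F.tdeg)
    ⟨o.toStd, o.num, o.lat, Subset.rfl, h, s⟩ w w' (h.dg St.dg).1 l.cpt l.fac hq hl hl' ht
    (ht.hcls_eq h hc ha)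

variable {fs : List (Fac F.toWt (ν ⊕ Unit × Bool) κ)} (hf : ∀ f ∈ fs, f.Ok F 0)
  (hq : ∀ q, .dg q ∈ fs) (hn : (fs.filterMap Fac.dq).Nodup)
include hf hq hn

/-- one node, in normal form -/
theorem itg_node : F.itg (F.vir (κ ⊕ Unit) k D g d 0)
      (hcls (ind univ) * ((fs.map (Fac.un Unit)).map (F.cn _)).prod) =
    ∑ b, F.itg (F.vir κ k D g d 0) (hcls (ind univ) * (F.cl _ (.ev (mq () false) _ (a b)) *
      (F.cl _ (.ev (mq () true) _ (a' b)) * (fs.map (F.cn _)).prod))) := by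
  have e := intM_nodes g d h hc hk hD ha hf hq (List.nodup_singleton ())
    fun _ => List.mem_singleton_self _
  have c := Hev.commute (sum_ev_mem (gz0 _ κ g d h hk hD) (X3.cas_mem h hc ha)
    (mq () false) (mq () true)) (fs.map (F.cn _)).prod
  rw [intM_nf g d h hc hk hD, Finset.sum_congr rfl fun s _ => intM_nf g d h hc hk hD ?_ ?_ ?_] at e
  · simp only [List.map_append, List.prod_append, List.flatMap_singleton, List.map_cons,
      List.map_nil, List.prod_cons, List.prod_nil, Fam.cn, mul_one] at e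
    simp only [← mul_assoc (F.cl _ _)]
    rw [e, ← map_sum, ← map_sum, ← Finset.mul_sum, ← Finset.mul_sum, ← Finset.mul_sum,
      ← Finset.sum_mul, c, ← (Equiv.funUnique Unit β).sum_comp]
    rfl
  · exact List.forall_mem_append.2 ⟨hf, List.forall_mem_cons.2 ⟨fun _ e => e.1,
      List.forall_mem_singleton.2 fun _ e => e.1⟩⟩
  · exact fun q => List.mem_append_left _ (hq q)
  · rwa [List.filterMap_append, show List.filterMap Fac.dq (List.flatMap _ _) = [] from rfl,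
      List.append_nil]
  · exact List.forall_mem_append.2 ⟨List.forall_mem_map.2 fun f e => ok_un (hf f e),
      List.forall_mem_singleton.2 trivial⟩
  · exact Sum.rec (fun q => List.mem_append_left _ (List.mem_map_of_mem (f := Fac.un Unit) (hq q)))
      fun _ => List.mem_append_right _ (List.mem_singleton_self _)
  · rw [List.filterMap_append, dq_un]
    exact List.nodup_append.2 ⟨hn.map Sum.inl_injective, List.nodup_singleton (Sum.inr ()),
      List.forall_mem_map.2 fun _ _ => List.forall_mem_singleton.2 Sum.inl_ne_inr⟩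

/-- one node -/
theorem intM_node : F.intM k D g d 0 (.dg (.inr ()) :: fs.map (Fac.un Unit)) =
    ∑ b, F.intM k D g d 0 (.ev (mq () false) _ (a b) :: .ev (mq () true) _ (a' b) :: fs) := by
  rw [intM_nf g d h hc hk hD, Finset.sum_congr rfl fun s _ => intM_nf g d h hc hk hD ?_ ?_ ?_]
  · exact (congrArg (F.itg _ <| _ * ·) (one_mul _)).trans (itg_node g d h hc hk hD ha hf hq hn)
  · exact List.forall_mem_cons.2 ⟨fun _ e => e.1, List.forall_mem_cons.2 ⟨fun _ e => e.1, hf⟩⟩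
  · exact fun q => .tail _ (.tail _ (hq q))
  · exact hn
  · exact List.forall_mem_cons.2 ⟨trivial, List.forall_mem_map.2 fun f e => ok_un (hf f e)⟩
  · exact Sum.rec (fun q => .tail _ (List.mem_map_of_mem (f := Fac.un Unit) (hq q))) fun _ => .head _
  · refine List.nodup_cons (a := Sum.inr ()).2 ?_
    rw [dq_un]
    exact ⟨fun e => let ⟨_, _, c⟩ := List.mem_map.1 e; Sum.inl_ne_inr c, hn.map Sum.inl_injective⟩

end Nd

/-- **Nodes** in the absolute theory. -/
theorem St.nDq : St.NDq := fun F k g d _ _ fs h ha hf =>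
  let ⟨_, e⟩ := h.pt
  (F.eventually_bigD k).mono fun _ hD => Nd.intM_node g d h.nice (X3.cp_of e) h.big hD
    ha hf (fun q => q.elim0) (Subsingleton.elim [] (fs.filterMap Fac.dq) ▸ List.nodup_nil)

end Vale.Agent.P269
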