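import Vale.Agent.P287Q.G.Glu.Ctx
import Vale.Agent.P287Q.G.Vir.RD

set_option linter.unusedSectionVars false

/-!
# The Kuranishi data of the diagonals
-/

namespace Vale.Agent.P269.Fam

open Set Function Topology Filter Module P291Z Orb Holo Ch Ch.KD Vir

variable {S Λ R J K κ' : Type} [Fintype S] [Fintype Λ] [Fintype R] [Fintype J] [Fintype K]
  [Fintype κ'] {F : Fam S Λ R J K} {K₀ : RD R}

theorem mem_vert {z : (Λ → ℂ) × (J → ℂ)} {η : J → ℂ} :
    η ∈ F.vert z ↔ (∀ j ∉ F.mov, η j = 0) ∧ ∀ k, ∑ j, F.jac z k j * η j = 0 := by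
  simp only [vert, Submodule.mem_inf, Submodule.mem_iInf, LinearMap.mem_ker, LinearMap.proj_apply,
    mem_compl_iff, LinearMap.sum_apply, LinearMap.smul_apply, smul_eq_mul, jac]

theorem finrank_mov (A : Set J) :
    finrank ℂ (Submodule.pi Aᶜ fun _ => ⊥ : Submodule ℂ (J → ℂ)) = Nat.card A := by
  classical
  rw [(LinearEquiv.ofBijective (LinearMap.pi fun j : A => LinearMap.proj j.1 ∘ₗ
    (Submodule.pi Aᶜ fun _ => ⊥ : Submodule ℂ (J → ℂ)).subtype) ⟨fun Y Y' h =>
      Subtype.ext (funext fun j => by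
        by_cases hj : j ∈ A
        exacts [congrFun h ⟨j, hj⟩, (Y.2 j hj).trans (Y'.2 j hj).symm]), fun Y =>
      ⟨⟨fun j => if h : j ∈ A then Y ⟨j, h⟩ else 0, fun j hj => dif_neg hj⟩,
        funext fun j => dif_pos j.2⟩⟩).finrank_eq, finrank_fintype_fun_eq_card,
    Nat.card_eq_fintype_card]

theorem finrank_pi_univ {V : Type} [AddCommGroup V] [Module ℂ V] [FiniteDimensional ℂ V]
    {p : κ' → Submodule ℂ V} {d : ℕ} (h : ∀ a, finrank ℂ (p a) = d) :
    finrank ℂ (Submodule.pi univ p) = Fintype.card κ' * d := by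
  rw [← (LinearEquiv.ofBijective (LinearMap.codRestrict (Submodule.pi univ p)
    (LinearMap.pi fun a => (p a).subtype ∘ₗ LinearMap.proj (φ := fun a => p a) a)
      fun x a _ => (x a).2) ⟨fun x y e => funext fun a => Subtype.ext
        (congrFun (congrArg Subtype.val e) a), fun x =>
      ⟨fun a => ⟨x.1 a, x.2 a trivial⟩, rfl⟩⟩).finrank_eq, finrank_pi_fintype]
  simp [h]

theorem finrank_vert (hF : F.Inv) {K₁ : Set K} {z : (Λ → ℂ) × (J → ℂ)} (hR : F.RegAt K₁ z)
    (hz : z ∈ F.cone) : finrank ℂ (F.vert z) + Nat.card K₁ = Nat.card F.mov :=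
  hR.finrank_vert hF hz

theorem finrank_vert' (_hF : F.Inv) (hR : F.Reg K₀) {z : (Λ → ℂ) × (J → ℂ)} (hz : z ∈ F.cone) :
    finrank ℂ (F.vert z) = F.dv K₀ := hR.dim z hz

theorem isClosed_vert : IsClosed {x : ((Λ → ℂ) × (J → ℂ)) × (J → ℂ) | x.2 ∈ F.vert x.1} := by
  simp only [mem_vert, ofPred_and, ofPred_forall]
  exact (isClosed_iInter fun j => isClosed_iInter fun _ =>
    isClosed_eq (by fun_prop) continuous_const).inter (isClosed_iInter fun k => isClosed_eq
      (continuous_finsetSum _ fun j _ => ((continuous_jac k j).comp continuous_fst).mul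
        (by fun_prop)) continuous_const)

theorem Inv.vert_act (hF : F.Inv) {t : (S → ℂ) × (R → ℂ)} (ht : IsUnit t) {z : (Λ → ℂ) × (J → ℂ)}
    {η : J → ℂ} (h : η ∈ F.vert z) : (F.actT t (z.1, η)).2 ∈ F.vert (F.actT t z) := by
  obtain ⟨a, b⟩ := mem_vert.1 h
  refine mem_vert.2 ⟨fun j hj => by simp only [Wt.actT, a j hj, mul_zero], fun k => ?_⟩
  have h1 := hasDerivAt_eval ((F.fib (F.actT t z).1).F k) (F.actT t z).2 (F.actT t (z.1, η)).2
  have h2 := (hasDerivAt_eval ((F.fib z.1).F k) z.2 η).const_mul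
    ((∏ i, t.1 i ^ F.wk k i) * ∏ i, t.2 i ^ F.χ k i)
  refine (h1.unique (h2.congr_of_eventuallyEq (.of_forall fun ε => ?_))).trans
    (mul_eq_zero_of_right _ (b k))
  refine Eq.trans ?_ (hF.eval_act ht (z.1, fun j => z.2 j + ε * η j) k)
  exact congrArg (MvPolynomial.eval · _) (funext fun j => by simp only [Wt.actT]; ring)

theorem mem_vert_of_tendsto {α : Type} {l : Filter α} [l.NeBot]
    {y : α → (Λ → ℂ) × (J → ℂ) × (J → ℂ)} {z : (Λ → ℂ) × (J → ℂ)} (h1 : ∀ n, y n ∈ F.cone2)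
    (h2 : Tendsto y l (𝓝 (z.1, z.2, z.2))) {c : α → ℂ} {w : J → ℂ}
    (h3 : Tendsto (fun n => c n • ((y n).2.1 - (y n).2.2)) l (𝓝 w)) : w ∈ F.vert z := by
  have h4 := tendsto_pi_nhds.1 h3
  refine mem_vert.2 ⟨fun j hj => tendsto_nhds_unique (h4 j) (tendsto_const_nhds.congr fun n => by
    simp [(h1 n).2 j hj]), fun k => ?_⟩
  have h5 : Tendsto (fun n => (y n).2.1 - (y n).2.2) l (𝓝 0) := by
    simpa using h2.snd_nhds.fst_nhds.sub h2.snd_nhds.snd_nhds
  have h6 := fun j => tendsto_dd (T := (F.G k).support)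
    (fun β => ((MvPolynomial.continuous_eval (MvPolynomial.coeff β (F.G k))).tendsto _).comp
      h2.fst_nhds) h2.snd_nhds.snd_nhds h5 j
  simp only [dd_zero, ← fib_eq] at h6
  refine tendsto_nhds_unique (tendsto_finsetSum _ fun j _ => (h6 j).mul (h4 j))
    (tendsto_const_nhds.congr fun n => ?_)
  have h7 := eval_add_plw (T := (F.G k).support)
    (c := fun β => MvPolynomial.eval (y n).1 (MvPolynomial.coeff β (F.G k))) (y n).2.2
    ((y n).2.1 - (y n).2.2)
  rw [add_sub_cancel, ← fib_eq, (h1 n).1.1.2.2 k, (h1 n).1.2.2.2 k, zero_add] at h7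
  rw [← mul_zero (c n), h7, Finset.mul_sum]
  exact Finset.sum_congr rfl fun j _ => mul_left_comm _ _ _

theorem continuous_wt (j : J) : Continuous fun g : ((S → ℂ) × (R → ℂ))ˣ =>
    (∏ i, g.1.1 i ^ F.wt j i) * ∏ i, g.1.2 i ^ F.w j i :=
  (continuous_finsetProd _ fun i _ => Continuous.zpow₀ (by fun_prop) _ fun g => .inl
    (isUnit_pi_iff.1 (Prod.isUnit_iff.1 g.isUnit).1 i)).mul
  (continuous_finsetProd _ fun i _ => Continuous.zpow₀ (by fun_prop) _ fun g => .inl
    (isUnit_pi_iff.1 (Prod.isUnit_iff.1 g.isUnit).2 i))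

theorem kdg_zero {x : κ' → (Λ → ℂ) × (J → ℂ) × (J → ℂ)} :
    (F.kdg κ').s x ∈ (F.kdg κ').van x ↔ ∀ a, (x a).2.1 = (x a).2.2 :=
  (Submodule.mem_bot ℂ).trans (funext_iff.trans (forall_congr' fun _ => sub_eq_zero))

theorem rep_kdg : IsRepOn (F.kdg κ').ρ (F.kdg κ').P₀ where
  mem _ _ _ hq e _ j hj := mul_eq_zero_of_right _ (hq e trivial j hj)
  add _ _ _ _ _ _ := funext₂ fun _ _ => mul_add _ _ _
  smul _ _ _ _ _ := funext₂ fun _ _ => mul_left_comm _ _ _
  one _ _ := funext₂ fun e j => by simp [kdg]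
  mul _ _ _ _ _ _ := funext₂ fun e j => by
    simp only [kdg, Pi.mul_apply, Prod.fst_mul, Prod.snd_mul, mul_zpow, Finset.prod_mul_distrib]
    ring
  cont q _ := continuous_pi fun e => continuous_pi fun j =>
    ((continuous_wt j).comp (Units.continuous_map
      (f := Pi.evalMonoidHom (fun _ : κ' => (S → ℂ) × (R → ℂ)) e)
        (continuous_apply e))).mul (continuous_const (y := q e j))

theorem continuous_kdg : Continuous (F.kdg κ').s := continuous_pi fun e => by
  simp only [kdg]; fun_prop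

theorem ok_kdg (hF : F.Inv) (hR : F.Reg K₀) :
    (F.kdg κ').Ok (F.actD κ') (F.cD κ') 0 (Fintype.card κ' * F.dv K₀) where
  fin := inferInstance
  rep := rep_kdg
  fam := ⟨fun _ _ => bot_le, isClosed_eq continuous_snd continuous_const, fun _ _ => finrank_bot ℂ _,
    fun _ _ _ _ _ hq => funext₂ fun e j => mul_eq_zero_of_right _ (congrFun₂ hq e j)⟩
  mem _ hx e _ j hj := sub_eq_zero.2 ((hx e trivial).2 j hj)
  cont := continuous_kdg.continuousOn
  eqv _ _ _ _ := funext₂ fun _ _ => (mul_sub _ _ _).symm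
  obs_closed := by
    have h : ∀ e, Continuous fun z : F.cD κ' × (κ' → J → ℂ) => z.1.1 e := fun e =>
      (continuous_apply e).comp (continuous_subtype_val.comp continuous_fst)
    refine (isClosed_eq (continuous_kdg.comp (by fun_prop)) (continuous_const (y := 0))).inter
      ((congrArg IsClosed ?_).mp (isClosed_iInter fun e => (isClosed_vert (F := F)).preimage
        (((h e).fst.prodMk (h e).snd.fst).prodMk ((continuous_apply e).comp continuous_snd))))
    exact Set.ext fun z => mem_iInter.trans (forall_congr' fun e => ⟨fun a _ => a, fun a => a trivial⟩)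
  obs_rank _ hx _ := (finrank_pi_univ fun e => finrank_vert' hF hR (hx e trivial).1.1).trans
    (zero_add _).symm
  obs_inv _ _ _ _ ha _ hf e _ := hF.vert_act (Pi.isUnit_iff.1 ha e) (hf e trivial)
  le_obs _ _ _ := bot_le
  obs_le _ _ _ _ hf e _ := (mem_vert.1 (hf e trivial)).1
  cone x _ hx w y c u h1 h2 h3 h4 e _ := by
    refine mem_vert_of_tendsto (y := fun n => y n e) (l := atTop) (fun n => h1 n e trivial) ?_
      (c := c) ((tendsto_pi_nhds.1 h4 e).congr fun n =>
        (congrArg (_ + ·) (congrFun (h3 n) e)).trans (add_zero _))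
    have := tendsto_pi_nhds.1 h2 e
    rwa [show x e = ((x e).1, (x e).2.1, (x e).2.1) from
      Prod.ext rfl (Prod.ext rfl (kdg_zero.1 hx e).symm)] at this

end Vale.Agent.P269.Fam
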