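import Vale.Agent.P287Q.G.Glu.Gl
import Vale.Agent.P287Q.G.Map.Cr

set_option linter.unusedSectionVars false

/-!
# Labelled normalisations: lifts, uniqueness
-/

namespace Vale.Agent.P269.Ch

open P291Z Set Function Topology Filter Base Cv Holo Vir KD

namespace GlB

section lin

variable {A B C α : Type} [NormedAddCommGroup A] [NormedSpace ℂ A] [NormedAddCommGroup B]
  [NormedSpace ℂ B] [NormedAddCommGroup C] [NormedSpace ℂ C] [FiniteDimensional ℂ B]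
  [FiniteDimensional ℂ C]

theorem tendsto_of_inj {l : Filter α} {r : α → B →L[ℂ] C} {r₀ : B →L[ℂ] C} (h0 : Injective r₀)
    (hr : Tendsto r l (𝓝 r₀)) {D : α → A →L[ℂ] B} {D₀ : A →L[ℂ] B}
    (h : Tendsto (fun a => r a ∘L D a) l (𝓝 (r₀ ∘L D₀))) : Tendsto D l (𝓝 D₀) := by
  have := FiniteDimensional.complete ℂ B
  obtain ⟨s, hs⟩ := r₀.toLinearMap.exists_leftInverse_of_injective (LinearMap.ker_eq_bot.2 h0)
  let s' : C →L[ℂ] B := s.toContinuousLinearMap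
  have e : s' ∘L r₀ = 1 := ContinuousLinearMap.ext fun v => LinearMap.congr_fun hs v
  have h1 : Tendsto (fun a => s' ∘L r a) l (𝓝 1) :=
    e ▸ ((continuous_const.clm_comp continuous_id).tendsto r₀).comp hr
  have h2 : Tendsto (fun a => Ring.inverse (s' ∘L r a)) l (𝓝 (Ring.inverse 1)) :=
    (NormedRing.inverse_continuousAt (1 : (B →L[ℂ] B)ˣ)).tendsto.comp h1
  have h3 := ((continuous_fst.clm_comp (continuous_const (y := s') |>.clm_comp
    continuous_snd)).tendsto (Ring.inverse 1, r₀ ∘L D₀)).comp (h2.prodMk_nhds h)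
  have e' : Ring.inverse (1 : B →L[ℂ] B) ∘L s' ∘L r₀ ∘L D₀ = D₀ := by
    rw [Ring.inverse_one]
    exact ContinuousLinearMap.ext fun v => LinearMap.congr_fun hs _
  rw [e'] at h3
  refine h3.congr' ?_
  filter_upwards [h1.eventually (Units.isOpen.mem_nhds isUnit_one)] with a c
  exact ContinuousLinearMap.ext fun v => inv_ap c _

omit [FiniteDimensional ℂ B] [FiniteDimensional ℂ C] in
theorem tendsto_comp {l : Filter α} {r : α → B →L[ℂ] C} {r₀ : B →L[ℂ] C} {D : α → A →L[ℂ] B}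
    {D₀ : A →L[ℂ] B} (hr : Tendsto r l (𝓝 r₀)) (h : Tendsto D l (𝓝 D₀)) :
    Tendsto (fun a => r a ∘L D a) l (𝓝 (r₀ ∘L D₀)) :=
  ((continuous_fst.clm_comp continuous_snd).tendsto (r₀, D₀)).comp (hr.prodMk_nhds h)

theorem exists_fin {P : Type} {G : Set P} (u : P → B →L[ℂ] ℂ)
    (h : ∀ v, (∀ z ∈ G, u z v = 0) → v = 0) : ∃ (k : ℕ) (z : Fin k → P), (∀ i, z i ∈ G) ∧
      Injective (ContinuousLinearMap.pi fun i => u (z i)) := by
  obtain ⟨t, a, b, c⟩ := exists_linearIndependent ℂ (u '' G)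
  have f : t.Finite := c.set_finite_of_isNoetherian
  obtain ⟨k, e, he⟩ := f.fin_param
  choose z z1 z2 using fun i => a (he.2 ▸ mem_range_self i : e i ∈ t)
  refine ⟨k, z, z1, (injective_iff_map_eq_zero _).2 fun v hv => h v fun y hy => ?_⟩
  have d : Submodule.span ℂ t ≤ (ContinuousLinearMap.apply ℂ ℂ v).ker :=
    Submodule.span_le.2 fun m hm => by
      obtain ⟨i, rfl⟩ := he.2.ge hm
      exact z2 i ▸ congrFun hv i
  exact d (b ▸ Submodule.subset_span ⟨y, hy, rfl⟩)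

theorem exists_unit_left {f g : A →L[ℂ] B} (hf : Surjective f) (h : f.ker = g.ker) :
    ∃ s : B →L[ℂ] B, IsUnit s ∧ s ∘L f = g := by
  obtain ⟨r, hr⟩ := f.exists_rightInverse_of_surjective (LinearMap.range_eq_top.2 hf)
  have e : (g ∘L r) ∘L f = g := ContinuousLinearMap.ext fun v => by
    have : r (f v) - v ∈ f.ker := by
      change f _ = 0
      rw [map_sub, sub_eq_zero]
      exact ContinuousLinearMap.ext_iff.1 hr _
    exact sub_eq_zero.1 ((map_sub g _ _).symm.trans (h.le this))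
  refine ⟨_, isUnit_of_inj fun v hv => ?_, e⟩
  obtain ⟨v, rfl⟩ := hf v
  exact h.ge ((ContinuousLinearMap.ext_iff.1 e v).symm.trans hv)

theorem exists_unit_right {f g : B →L[ℂ] C} (hf : Injective f) (hg : Injective g)
    (h : range f = range g) : ∃ s : B →L[ℂ] B, IsUnit s ∧ g ∘L s = f := by
  obtain ⟨r, hr⟩ := g.toLinearMap.exists_leftInverse_of_injective (LinearMap.ker_eq_bot.2 hg)
  have e : g ∘L r.toContinuousLinearMap ∘L f = f := ContinuousLinearMap.ext fun v => by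
    obtain ⟨y, hy⟩ := h.le (mem_range_self v)
    change g (r (f v)) = f v
    rw [← hy]
    exact congrArg g (LinearMap.congr_fun hr y)
  exact ⟨_, isUnit_of_inj fun v hv => hf
    ((ContinuousLinearMap.ext_iff.1 e v).symm.trans (by
      change g ((r.toContinuousLinearMap ∘L f) v) = _
      rw [hv, map_zero, map_zero])), e⟩

end lin

end GlB

open GlB

variable {S Λ R J K ι ν κ ν' κ' : Type} [Fintype S] [Fintype Λ] [Fintype R] [Fintype J]
  [Fintype K] [Fintype ι] [DecidableEq ι] [Fintype ν] [Fintype κ] [Fintype ν'] [Fintype κ']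
  {ch : Ch ι J} {n : Nm ι J} {F : Fam S Λ R J K} {x : ch.W (Mk ν κ)}
  {w w' : ch.Lb n (Mk ν (κ ⊕ κ'))}

variable {T : Set ((ch.re n).WF ν (κ ⊕ κ') Λ)} {z : ch.WG n ν κ κ' Λ}

/-- the lift of a labelled solution -/
theorem ZL.lf (hn : ch.GN n κ') (hT : Lev F T) (hz : z ∈ ZL F T) :
    z + ι₂ F (lfX F.mov z.1.2 z.2) ∈ ZD F T := by
  obtain ⟨⟨⟨hg, ht, hm⟩, h0⟩, hs⟩ := hz
  refine mem_of_eq_of_mem (add_ι₂ _) ?_
  set X := z.2.1.X + Fm.ex (lfX F.mov z.1.2 z.2) with hX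
  have e1 : ∀ j ∉ F.mov, X j = z.2.1.X j := fun j hj => by
    rw [hX, Pi.add_apply, Fm.ex_not _ hj, add_zero]
  have e2 : ∀ j (hj : j ∈ F.mov), X j = lfX F.mov z.1.2 z.2 ⟨j, hj⟩ := fun j hj => by
    rw [hX, Pi.add_apply, Fm.ex_mem _ hj, h0 j hj, zero_add]
  have hv := (mem_solF.1 hs).2
  have sp := fun j (hj : j ∈ F.mov) => hg.lfX_spec hn.num.a_ne (A := F.mov) ⟨j, hj⟩
    fun c hc => (hv c hc).1 j
  have ht' := hT.mov _ ht X e1
  have hb := (hT.adm ht').1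
  refine ⟨⟨hg.congr z.1.2.X X, ht', fun j hj μ => (hm j hj μ).trans ?_⟩, hs,
    ⟨hb, hb.2.1, fun y hy => ?_⟩, mm_eq_zero.2 fun j hj μ => ?_⟩
  · exact (DFunLike.congr_fun (e1 j hj) _).symm
  · have hc : y.1 ∈ crv z.2.1 := ⟨y, hy, rfl⟩
    refine ⟨_, (hv _ (hg.apV_mem hc)).2.2, fun j μ => ?_⟩
    by_cases hj : j ∈ F.mov
    · exact (congrArg (fun Y : _ →L[ℂ] _ => y.2 (some j) (Y μ)) (e2 j hj)).trans
        ((sp j hj).2 y hy μ)
    · exact (congrArg (fun Y : _ →L[ℂ] _ => y.2 (some j) (Y μ)) (e1 j hj)).trans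
        ((hg.val_iff (hm j hj) hc ((hT.adm ht).2.1 j hj _ hc)).1
          (val_fld ((hv _ (hg.apV_mem hc)).1 j)) y.2 hy μ)
  · exact (ContinuousLinearMap.ext_iff.1 (sp j hj).1 μ).trans (DFunLike.congr_fun (e2 j hj) _).symm

theorem ZD.mt (hz : z ∈ ZD F T) (j : J) : Mt z.1.2 z.2 j :=
  (em (j ∈ F.mov)).elim (mm_eq_zero.1 hz.2.2.2 j) (hz.1.2.2 j)

theorem ZD_iff₂ (hn : ch.GN n κ') (hT : Lev F T) :
    z ∈ ZD F T ↔ p₂ F z ∈ ZL F T ∧ q₂ F z = lfX F.mov (p₂ F z).1.2 (p₂ F z).2 := by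
  refine ⟨fun h => ⟨⟨(Zb_eq₂ hT).le h.1, ?_⟩, funext fun j => ?_⟩, fun h => ?_⟩
  · rw [p₂_apply]
    exact h.2.1
  · rw [p₂_apply]
    exact h.1.1.eq_lfX hn.num.a_ne j (ZD.mt h j) fun c hc => ((mem_solF.1 h.2.2.1).2 c hc).1 j
  · have := ZL.lf hn hT h.1
    rwa [← h.2, show p₂ F z + ι₂ F (q₂ F z) = z from sub_add_cancel _ _] at this

theorem GlB.dsX_spec (hn : ch.GN n κ') (hg : Gl z.1.2 z.2)
    (hs : μG z ∈ (ch.re n).solF ν (κ ⊕ κ') F) (hm : Mtd (μG z)) (j : F.mov) :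
    z.2.2.2 (some j) ∘L dsX F.mov z.2 j = z.2.1.X j ∘L pbT z.2.2.1 _ :=
  hg.dsX_spec hn.num.a_ne j fun a => (hg.jmp_iff (fun c hc => ((mem_solF.1 hs).2 c hc).1 j) a).2
    (congrFun (congrArg Prod.snd (hm a)) j)

theorem ZD_iff₁ (hn : ch.GN n κ') (hT : Lev F T) :
    z ∈ ZD F T ↔ p₁ F z ∈ ZS F T ∧ q₁ F z = dsX F.mov (p₁ F z).2 := by
  have _ := hT
  have e : (p₁ F z).2 = z.2 := by rw [p₁_apply]
  have e' : μG (p₁ F z) = μG z := by rw [p₁_apply]; rfl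
  refine ⟨fun h => ⟨⟨⟨Zb_eq₁.le h.1, ?_⟩, ?_⟩, funext fun j => ?_⟩, fun ⟨⟨⟨h1, h2⟩, h3⟩, h4⟩ => ?_⟩
  · exact mem_preimage.2 (e' ▸ h.2.2.1)
  · exact e' ▸ (h.1.1.solF hn (ZD.mt h) h.2.2.1).2
  · exact e ▸ h.1.1.eq_dsX j (ZD.mt h j)
  · have hb : z ∈ Zb F T := Zb_eq₁.ge h1
    rw [mem_preimage, e'] at h2
    rw [e'] at h3
    rw [e] at h4
    have hm : ∀ j ∈ F.mov, Mt z.1.2 z.2 j := fun j hj μ =>
      (congrArg (fun Y : _ →L[ℂ] _ => z.2.2.2 (some j) (Y μ)) (congrFun h4 ⟨j, hj⟩)).trans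
        (ContinuousLinearMap.ext_iff.1 (GlB.dsX_spec hn hb.1 h2 h3 ⟨j, hj⟩) μ)
    exact ⟨hb, (hb.1.solF hn (fun j => (em (j ∈ F.mov)).elim (hm j) (hb.2.2 j)) h2).1, h2,
      mm_eq_zero.2 hm⟩

section cont

variable {α : Type} {l : Filter α} {y : α → ch.WG n ν κ κ' Λ}

theorem GlB.tendsto_Fm {A : Set J} {h : J → ℕ} {f : α → ch.Fm A h} {f₀ : ch.Fm A h}
    (a : ∀ j, Tendsto (fun b => f b j) l (𝓝 (f₀ j))) : Tendsto f l (𝓝 f₀) :=
  tendsto_pi_nhds.2 a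

theorem GlB.tendsto_w (h : Tendsto y l (𝓝 z)) : Tendsto (fun a => (y a).2.1) l (𝓝 z.2.1) ∧
    Tendsto (fun a => (y a).2.2.1) l (𝓝 z.2.2.1) ∧ Tendsto (fun a => (y a).2.2.2) l (𝓝 z.2.2.2) :=
  ⟨h.snd_nhds.fst_nhds, h.snd_nhds.snd_nhds.fst_nhds, h.snd_nhds.snd_nhds.snd_nhds⟩

theorem GlB.continuous_apV {M M' : ι → ℕ} : Continuous fun q : HV M M' × V M => apV q.1 q.2 :=
  continuous_pi fun i => ((continuous_apply i).comp continuous_fst).clm_apply
    ((continuous_apply i).comp continuous_snd)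

theorem GlB.continuous_pbT {M M' : ι → ℕ} {σ : Type} [Fintype σ] (τ : σ → ι) :
    Continuous fun φ : HV M M' => pbT φ τ :=
  (ContinuousMultilinearMap.compContinuousLinearMapContinuousMultilinear ℂ
    (fun s => Fin (M (τ s)) → ℂ) (fun s => Fin (M' (τ s)) → ℂ) ℂ).cont.comp
      (continuous_pi fun s => continuous_apply (τ s))

end cont

theorem continuousOn_lfX (hn : ch.GN n κ') :
    ContinuousOn (fun z : ch.WG n ν κ κ' Λ => lfX F.mov z.1.2 z.2)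
      {z | Gl z.1.2 z.2 ∧ z.1 ∈ ch.solF ν κ F} := by
  intro z hz
  refine GlB.tendsto_Fm fun j => ?_
  set U := {z : ch.WG n ν κ κ' Λ | Gl z.1.2 z.2 ∧ z.1 ∈ ch.solF ν κ F}
  have := nhdsWithin_neBot_of_mem hz
  have h0 : Tendsto id (𝓝[U] z) (𝓝 z) := tendsto_id.mono_right nhdsWithin_le_nhds
  have hU : ∀ᶠ y in 𝓝[U] z, y ∈ U := self_mem_nhdsWithin
  obtain ⟨t1, t2, -⟩ := GlB.tendsto_w h0
  obtain ⟨k, q, q1, q2⟩ := exists_fin (G := gr z.2.1) (fun q => q.2 (some j)) fun v hv => by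
    obtain ⟨X, _, _, _, R, N, A, π, u, p, ξ, c⟩ := exists_cr hz.1.mem'
    exact c.u_inj fun y => hv _ (c.gr y)
  choose q' a b using fun i => hn.cuts'.exists_gr (hU.mono fun _ c => c.1.mem') hz.1.mem' t1 (q1 i)
  have sp : ∀ y ∈ U, _ := fun y (c : y ∈ U) => (c.1.lfX_spec hn.num.a_ne (A := F.mov) j
    fun d hd => ((mem_solF.1 c.2).2 d hd).1 j).2
  have pi : ∀ {B : Type} [NormedAddCommGroup B] [NormedSpace ℂ B], Continuous
      fun f : Fin k → B →L[ℂ] ℂ => ContinuousLinearMap.pi f := fun {B} _ _ =>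
    (ContinuousLinearMap.piEquivL ℂ B fun _ : Fin k => ℂ).continuous
  refine tendsto_of_inj q2 (r := fun y => .pi fun i => (q' i y).2 (some j)) (((pi.tendsto _).comp
    (tendsto_pi_nhds.2 fun i => tendsto_pi_nhds.1 (b i).snd_nhds _) :)) ?_
  have e : ∀ y ∈ U, ∀ q : Fin k → (ch.re n).Pt, (∀ i, q i ∈ gr y.2.1) →
      (ContinuousLinearMap.pi fun i => (q i).2 (some j)) ∘L lfX F.mov y.1.2 y.2 j =
        .pi fun i => fld y.1.2 (apV y.2.2.1 (q i).1) j • evL _ (q i).1 := fun y c q d =>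
    ContinuousLinearMap.ext fun μ => funext fun i => sp y c _ (d i) μ
  rw [e z hz q q1]
  refine Tendsto.congr' ((hU.and (eventually_all.2 a)).mono fun y c => (e y c.1 _ c.2).symm)
    ((pi.tendsto _).comp (tendsto_pi_nhds.2 fun i => Tendsto.smul ?_
      ((analyticAt_evL (a := ch.b j) (q i).1).continuousAt.tendsto.comp (b i).fst_nhds)))
  exact (lim_fld hz.1.mem.1 h0.fst_nhds ((GlB.continuous_apV.tendsto _).comp
    (t2.prodMk_nhds (b i).fst_nhds)) (hz.1.apV_mem ⟨_, q1 i, rfl⟩) ((hU.and (a i)).mono fun y c =>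
      have d := c.1.1.apV_mem ⟨_, c.2, rfl⟩
      ⟨d, ((mem_solF.1 c.1.2).2 _ d).1 j⟩)).2

theorem continuousOn_dsX (hn : ch.GN n κ') :
    ContinuousOn (fun z : ch.WG n ν κ κ' Λ => dsX F.mov z.2) (ZS F T) := by
  intro z hz
  refine GlB.tendsto_Fm fun j => ?_
  have h0 : Tendsto id (𝓝[ZS F T] z) (𝓝 z) := tendsto_id.mono_right nhdsWithin_le_nhds
  obtain ⟨t1, t2, t3⟩ := GlB.tendsto_w h0
  have e : ∀ y ∈ (ZS F T : Set (ch.WG n ν κ κ' Λ)), _ := fun y c =>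
    GlB.dsX_spec hn c.1.1.1.1 c.1.2 c.2 j
  refine tendsto_of_inj (hz.1.1.1.1.inj (some j)) (tendsto_pi_nhds.1 t3 _) ?_
  rw [e z hz]
  have a := ((W.XL (ch := ch.re n) (ν := Mk ν (κ ⊕ κ')) j).continuous.tendsto _).comp t1
  have b := ((GlB.continuous_pbT (Sigma.fst : (Σ i, Fin (ch.b j i)) → ι)).tendsto _).comp t2
  exact Tendsto.congr' (mem_of_superset self_mem_nhdsWithin fun y c => (e y c).symm)
    (tendsto_comp a b)

theorem GlB.cS_one (Wg : Wt S Λ R J) : Wg.cS 1 = 1 := funext fun j => by simp [Wt.cS]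

/-- **the normalised point determines the glued point up to frames** -/
theorem et_μG (hn : ch.GN n κ') (hT : Ivt (actF F.toWt) T) :
    Et (actG F.toWt : ch.AG n ν κ κ' S → _) (actF F.toWt) (Zn F T) T θG μG := by
  have _ := hT
  refine ⟨θG_one, θG_mul, θG_surj, θG_usurj, fun z hz => hz.1.2.1,
    fun z _ => ⟨_, analyticAt_μG z, .of_forall fun _ => rfl⟩, fun _ _ _ _ => μG_actG,
    fun z hz z' hz' e => ?_, fun z hz a ha h1 e => ?_⟩
  · obtain ⟨⟨l, x⟩, y, φ, r⟩ := z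
    obtain ⟨⟨l', x'⟩, y', φ', r'⟩ := z'
    obtain ⟨rfl, rfl⟩ : l = l' ∧ y = y' := Prod.ext_iff.1 e
    obtain ⟨⟨h, -, m⟩, m0⟩ := hz
    obtain ⟨⟨h', -, m'⟩, m0'⟩ := hz'
    choose g g1 g2 using fun i => exists_unit_left (f := φ i) (g := φ' i) (h.surj i)
      ((h.ker_eq hn i).trans (h'.ker_eq hn i).symm)
    choose k k1 k2 using fun l => exists_unit_right (f := r l) (g := r' l) (h.inj l) (h'.inj l)
      (Set.ext fun v => (h.mem_range hn.num.a_ne l).trans (h'.mem_range hn.num.a_ne l).symm)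
    obtain rfl : (fun i => g i ∘L φ i) = φ' := funext g2
    have k3 : ∀ l v, r' l (k l v) = r l v := fun l => ContinuousLinearMap.ext_iff.1 (k2 l)
    refine ⟨((1, g, k, 1), 1), AP.isUnit_iff.2 ⟨isUnitF_iff.2 ⟨fun _ => one_ne_zero,
      Cv.isUnit_iff.2 ⟨g1, k1, fun _ _ => one_ne_zero⟩⟩, isUnit_one⟩, θG_eq_one.2 ⟨rfl, rfl, rfl⟩,
      Prod.ext (Prod.ext (F.actL_one _) (W.ext (fun l => ?_) (fun a => ?_) ?_ fun j => ?_))
        (Prod.ext ?_ (Prod.ext (funext fun i => ?_) (funext fun l => ?_)))⟩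
    · exact ContinuousLinearMap.ext fun μ => h'.inj l
        ((k3 l _).trans ((h.Q l _).trans (h'.Q l μ).symm))
    · exact (one_smul (ι → ℂ) _).trans ((congrArg (apV g) (h.mark a)).trans (h'.mark a).symm)
    · exact ContinuousLinearMap.ext fun μ => h'.inj none
        ((k3 none _).trans ((h.Ξ _).trans (h'.Ξ μ).symm))
    · have a : (scl (F.cS 1) x).X j = x.X j := by rw [GlB.cS_one, scl_one]
      refine ContinuousLinearMap.ext fun μ => h'.inj (some j) ((k3 _ _).trans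
        ((congrArg (r _) (DFunLike.congr_fun a _)).trans ?_))
      by_cases hj : j ∈ F.mov
      · exact congrArg (r _) (DFunLike.congr_fun (m0 j hj) _) |>.trans ((map_zero _).trans
          ((congrArg (r' _) (DFunLike.congr_fun (m0' j hj) _)).trans (map_zero _)).symm)
      · exact (m j hj _).trans (m' j hj μ).symm
    · exact (congrArg Prod.snd (μG_actG.trans (congrArg (actF F.toWt · _)
        (θG_eq_one.2 ⟨rfl, rfl, rfl⟩)))).trans (congrArg Prod.snd (actF_one _))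
    · exact congrArg (g i ∘L φ i ∘L ·) (Ring.inverse_one _)
    · exact ContinuousLinearMap.ext fun v => (k3 l _).symm.trans (congrArg (r' l) (ap_inv (k1 l) v))
  · obtain ⟨a1, a2, a3⟩ := θG_eq_one.1 h1
    obtain ⟨⟨τ, g, k, t⟩, b⟩ := a
    obtain rfl : τ = 1 := a1
    obtain rfl : t = 1 := a2
    obtain rfl : b = 1 := a3
    have hk := (Cv.isUnit_iff.1 (isUnitF_iff.1 (AP.isUnit_iff.1 ha).1).2).2.1
    obtain rfl : g = 1 := funext fun i => ContinuousLinearMap.ext fun v => by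
      obtain ⟨v, rfl⟩ := hz.1.1.surj i v
      exact DFunLike.congr_fun ((congrArg (g i ∘L z.2.2.1 i ∘L ·) (Ring.inverse_one _)).symm.trans
        (congrFun (congrArg (·.2.2.1) e) i)) v
    obtain rfl : k = 1 := funext fun l => ContinuousLinearMap.ext fun v => hz.1.1.inj l
      ((DFunLike.congr_fun (congrFun (congrArg (·.2.2.2) e) l) (k l v)).symm.trans
        (congrArg (z.2.2.2 l) (inv_ap (hk l) v)))
    rfl

/-- the points of the curve outside finitely many orbits span every factor -/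
theorem Tight.eq_zero (hT : ch.Tight) {y : ch.W ν'} (hy : y ∈ ch.base ν') {B : Set (V ch.M)}
    (hB : B.Finite) {i : ι} {l : (Fin (ch.M i) → ℂ) →L[ℂ] ℂ}
    (hl : ∀ c ∈ crv y, (∀ b ∈ B, ∀ t : ι → ℂ, c ≠ t • b) → l (c i) = 0) : l = 0 := by
  classical
  obtain ⟨X, _, _, _, Q, N, A, π, u, p, ξ, c⟩ := exists_cr hy
  have f : {q | Sm N q ∧ ∃ b ∈ B, ∃ t : ι → ℂ, π q = t • b}.Finite :=
    (hB.biUnion (t := fun b => {q | Sm N q ∧ ∃ t : ι → ℂ, π q = t • b}) fun b _ =>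
      Set.Subsingleton.finite fun q ⟨a, t, e⟩ q' ⟨_, t', e'⟩ =>
        (c.par.inj q q' (t' * t⁻¹) (by
          rw [e', e, mul_smul, Dict.inv_smul (Dict.unit_of_ne (e ▸ c.par.ne q))])).resolve_right
          (sm_iff.1 a q')).subset fun q ⟨a, b, d, e⟩ => mem_biUnion d ⟨a, e⟩
  refine c.full.eq_zero (by exact_mod_cast (c.par.finrank_one c.cur i).trans (hT.eq hy i).symm)
    (eq_of_gen (lin_mem c.par.sec i l).1 (zero_mem _) N f.toFinset fun q a => ?_)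
  exact hl _ (c.par.mem q) fun b d t e => a.2 (f.mem_toFinset.2 ⟨a.1, b, d, t, e⟩)

theorem Tight.clm_ext (hT : ch.Tight) {y : ch.W ν'} (hy : y ∈ ch.base ν') {B : Set (V ch.M)}
    (hB : B.Finite) {i : ι} {k : ℕ} {f g : (Fin (ch.M i) → ℂ) →L[ℂ] Fin k → ℂ}
    (hl : ∀ c ∈ crv y, (∀ b ∈ B, ∀ t : ι → ℂ, c ≠ t • b) → f (c i) = g (c i)) : f = g :=
  ContinuousLinearMap.ext fun v => funext fun j => sub_eq_zero.1 (DFunLike.congr_fun
    (hT.eq_zero hy hB (l := (.proj j : (_ → ℂ) →L[ℂ] ℂ) ∘L (f - g)) fun c a b =>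
      sub_eq_zero.2 (congrFun (hl c a b) j)) v)

/-- the group of the label acts freely -/
theorem Gl.free (hn : ch.GN n κ') {Wg : Wt S Λ R J} (h : Gl z.1.2 z.2) {a : ch.AG n ν κ κ' S}
    (ha : IsUnit a) (h1 : a.1 = 1) (e : actG Wg a z = z) : a = 1 := by
  have hs := isUnit_dupF (isUnit_θG ha)
  obtain ⟨b, g, k, t⟩ := a
  obtain rfl : b = 1 := h1
  have hg := (Cv.isUnit_iff.1 hs).1
  have e1 := congrArg (·.2.1) e
  have e2 : ∀ i v, z.2.2.1 i (g i v) = z.2.2.1 i v := fun i v =>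
    (DFunLike.congr_fun (congrFun (congrArg (·.2.2.1) e) i) (g i v)).symm.trans
      (congrArg (z.2.2.1 i) (inv_ap (hg i) v))
  obtain rfl : g = 1 := funext fun i => hn.tight'.1.clm_ext h.mem' (finite_range z.2.1.p)
    fun c a b => by
      have d : apV g c ∈ crv z.2.1 := e1 ▸ (mem_crv_act (x := scl _ z.2.1) hs).2 ⟨c, a, rfl⟩
      rcases h.apV_inj a d (funext fun i => (e2 i _).symm) with f | ⟨q, r, t, f, -⟩
      · exact (congrFun f i).symm
      · exact (b _ ⟨_, rfl⟩ t f).elim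
  obtain rfl : k = 1 := funext fun l => ContinuousLinearMap.ext fun v => by
    obtain ⟨μ, rfl⟩ := h.mem'.1 l v
    exact DFunLike.congr_fun (congrArg (W.Q · l) e1) μ
  obtain rfl : t = 1 := funext fun q => Dict.smul_cancel
    (crv_ne (h.mem'.2.2.2.1 (nq q false)).1)
    ((congrArg (W.p · (nq q false)) e1).trans (one_smul _ _).symm)
  rfl

theorem Gl.fre (hn : ch.GN n κ') {Wg : Wt S Λ R J} (h : Gl z.1.2 z.2) (hx : Fre (actF Wg) z.1) :
    Fre (actG Wg : ch.AG n ν κ κ' S → _) z := fun _ ha e =>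
  h.free hn ha (hx _ (AP.isUnit_iff.1 ha).1 (congrArg Prod.fst e)) e

section uniq

variable {X : Type} [TopologicalSpace X] [T2Space X] [CompactSpace X] {Q : RS X}
  {N : Finset (X × X)} {A : ι → LB Q}

theorem GlB.factor {M : ι → ℕ} {o : ι} {C : Set (V M)} {π : X → V M} (c : Par o C N A π) {q : X}
    (hq : Sm N q) {γ : ℂ → V M} (hγ : IsBranch o C γ) (ho : Base.Orb (γ 0) (π q)) :
    ∃ ψ : ℂ → X, Tendsto ψ (𝓝[≠] 0) (𝓝[≠] q) ∧
      ∀ᶠ t in 𝓝 0, ∃ s : ι → ℂ, (∀ i, s i ≠ 0) ∧ γ t = s • π (ψ t) := by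
  obtain ⟨y, s, φ, -, -, a3, a4, a5, a6⟩ := c.factor_branch hγ
  obtain ⟨τ, -, e⟩ := ho
  have b := a6.self_of_nhds
  rw [a4, br_zero] at b
  obtain rfl : y = q := (c.inj y q (τ * s 0) (by rw [e, b, mul_smul])).resolve_right
    fun k => sm_iff.1 hq y (Jn.symm k)
  have t1 : Tendsto φ (𝓝[≠] 0) (𝓝[≠] 0) :=
    tendsto_nhdsWithin_iff.2 ⟨Tendsto.mono_left (by simpa [ContinuousAt, a4] using a3.continuousAt)
      nhdsWithin_le_nhds, by simpa [a4] using a3.differentiableAt.hasDerivAt.eventually_ne a5⟩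
  have t2 : Tendsto (Q.i y) (𝓝[≠] 0) (𝓝[≠] y) := fun U k => (Q.ev_ne_iff (p := (· ∈ U))).1 k
  refine ⟨fun t => Q.i y (φ t), t2.comp t1,
    (a6.and hγ.mem).mono fun t k => ?_⟩
  rw [br_eq, ← mul_smul] at k
  exact ⟨_, Dict.unit_of_ne (k.1 ▸ c.ne_zero _ k.2), k.1⟩

open Classical in
theorem GlB.jn_iff {p : Mk ν (κ ⊕ κ') → X} (h : ∀ m, Sm N (p m)) (y y' : X) :
    Jn N y y' ↔ Jn (N ∪ prs p) y y' ∧ ∀ m, p m ≠ y := by
  refine ⟨fun a => ⟨a.imp (Finset.mem_union_left _) (Finset.mem_union_left _),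
    fun m e => sm_iff.1 (h m) y' (e ▸ a)⟩, fun ⟨a, b⟩ => a.imp (fun a => ?_) fun a => ?_⟩ <;>
  refine (Finset.mem_union.1 a).resolve_right fun k => ?_ <;>
  obtain ⟨q, -, e⟩ := Finset.mem_image.1 k
  exacts [b _ (congrArg Prod.fst e), b _ (congrArg Prod.snd e)]

theorem GlB.wsec_pb {π : X → V n.M} (h : ∀ i j, (fun y => π y i j) ∈ H0 N (A i)) (φ : HV n.M ch.M)
    (P : Finset X) (μ : Tn ch.M ch.slot) (y : X) :
    wsec (ch := ch.re n) A π N P (pbT φ _ μ) y = wsec A (fun y => apV φ (π y)) N P μ y := by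
  have e : deriv (br A (fun y => apV φ (π y)) y) 0 = apV φ (deriv (br A π y) 0) :=
    funext (deriv_br_lin h y)
  rw [wsec, wsec, e]
  refine congrArg _ (Finset.sum_congr rfl fun ε _ => congrArg _ (congrArg μ (funext fun r => ?_)))
  rcases r with r | r
  · exact apply_ite (φ ch.o) _ _ _
  · rfl

end uniq

/-- **labels with the same branches differ by frames** -/
theorem Gl.unique (hn : ch.GN n κ') {Wg : Wt S Λ R J} {l : Λ → ℂ} (h : Gl x w) (h' : Gl x w')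
    (hb : ∀ a b, ∃ γ : ℂ → V n.M, ∃ γ' : ℂ → V n.M, IsBranch ch.o (crv w.1) γ ∧
      IsBranch ch.o (crv w'.1) γ' ∧ Base.Orb (γ 0) (w.1.p (nq a b)) ∧
      Base.Orb (γ' 0) (w'.1.p (nq a b)) ∧ ∀ᶠ t in 𝓝 0, apV w.2.1 (γ t) = apV w'.2.1 (γ' t)) :
    ∃ a : ch.AG n ν κ κ' S, IsUnit a ∧ a.1 = 1 ∧
      (actG Wg a ((l, x), w)).2.nf = w'.nf := by
  classical
  obtain ⟨X, _, _, _, Q, N, A, π, u, p, ξ, ξ₁, c, hp, -, d⟩ := h.exists_cr
  obtain ⟨X', _, _, _, Q', N', A', π', u', p', ξ', ξ₁', c', hp', -, d'⟩ := h'.exists_cr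
  obtain ⟨f, τ, hf, hJ, e, τ0, τm⟩ := d.par.exists_iso d'.par
  have sm : ∀ {φ : HV n.M ch.M} (t : ι → ℂ) (v : V n.M), apV φ (t • v) = t • apV φ v :=
    fun t v => funext fun i => map_smul _ (t i) (v i)
  have cs : ∀ {P : Mk ν (κ ⊕ κ') → Prop}, (∀ a, P (inc a)) → (∀ a b, P (nq a b)) → ∀ m, P m :=
    fun a b m => match m with
      | .inl q => a (.inl q)
      | .inr (.inl q, r) => a (.inr (q, r))
      | .inr (.inr q, r) => b q r
  have e1 : ∀ a, apV w.2.1 (π (p (inc a))) = apV w'.2.1 (π' (p' (inc a))) := fun a => by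
    rw [hp, hp', ← h.mark, ← h'.mark]
  have fp : ∀ m, f (p m) = p' m := cs (fun a => ((d'.par.inj _ _ _ ((e _).trans
    (congrArg _ (e1 a)))).resolve_right (sm_iff.1 (d'.sm a) _)).symm) fun a b => by
      obtain ⟨γ, γ', b1, b2, b3, b4, b5⟩ := hb a b
      obtain ⟨ψ, t1, t2⟩ := GlB.factor c.par (c.sm _) b1 ((hp _).symm ▸ b3)
      obtain ⟨ψ', t3, t4⟩ := GlB.factor c'.par (c'.sm _) b2 ((hp' _).symm ▸ b4)
      refine tendsto_nhds_unique_of_eventuallyEq ((hf.cont.tendsto _).comp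
        (t1.mono_right nhdsWithin_le_nhds)) (t3.mono_right nhdsWithin_le_nhds) ?_
      filter_upwards [t3.eventually (Xi.ev_sm (N' ∪ prs p') ∅ _),
        (t2.and (t4.and b5)).filter_mono nhdsWithin_le_nhds] with t k ⟨⟨s, s0, s1⟩, ⟨s', _, s2⟩, s3⟩
      refine (d'.par.fibre (t := s * (τ (ψ t))⁻¹) (s := s')
        (fun i => mul_ne_zero (s0 i) (inv_ne_zero (τ0 _ i))) ?_).resolve_right
          fun r => sm_iff.1 k.1 _ (Jn.symm r)
      rw [comp_apply, e, mul_smul, Dict.inv_smul (τ0 _), ← sm, ← sm, ← s1, ← s2, s3]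
  have hN : ∀ y y', Jn N y y' ↔ Jn N' (f y) (f y') := fun y y' => by
    simp only [GlB.jn_iff c.sm, GlB.jn_iff c'.sm, hJ, ← fp, ne_eq, f.apply_eq_iff_eq]
  obtain ⟨ω, ω1, ω2, ω3, -⟩ := hf.exists_omega f.injective c.par.nd c'.par.nd c.sm_image
    c'.sm_image (fun y y' => (hN y y').1) fun y => and_congr (by
      simp only [sm_iff, hN, f.surjective.forall]) (by simp [← fp])
  have c₂ := c'.comp hf c.par.nd hN fp (A := A) (c := fun y => (τ y)⁻¹) (fun i => by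
    have := H0.inv_mem (τm i) (τ0 · i)
    rw [inv_div] at this
    exact ⟨this.1, fun m hm => this.2 m (Finset.mem_union_left _ hm)⟩)
    (fun y i => inv_ne_zero (τ0 y i)) ω1 ω2 ω3
  have e2 : ∀ y, apV w'.2.1 ((τ y)⁻¹ • π' (f y)) = apV w.2.1 (π y) := fun y => by
    rw [sm, e, Dict.inv_smul (τ0 _)]
  have e3 : ∀ m, τ (p m) • (τ (p m))⁻¹ • π' (f (p m)) = w'.1.p m := fun m => by
    rw [Dict.smul_inv (τ0 _), fp, hp']
  obtain ⟨u₂, ξ₂, c₂⟩ : ∃ u₂ ξ₂, Cr N A w'.1 (fun y => (τ y)⁻¹ • π' (f y)) u₂ p ξ₂ := ⟨_, _, c₂⟩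
  have e4 : ∀ y l v, u₂ y l (w'.2.2 l v) = u y l (w.2.2 l v) := fun y l =>
    ContinuousLinearMap.ext_iff.1 (gr_unique (c := apV w'.2.1 ((τ y)⁻¹ • π' (f y)))
      (u' := fun l => u y l ∘L w.2.2 l) (h'.lpt_mem (c₂.gr y)) ((e2 y).symm ▸ d.gr y) (h.mem.1 l))
  obtain rfl : ξ₂ = ξ := funext (eq_of_gen c₂.xi.1 c.xi.1 N _ fun y hy => by
    obtain ⟨μ, hμ⟩ := exists_wedge_ne (d.par.ne y) (d.par.imm y)
    have a := c.Xi y (pbT w.2.1 _ μ)
    have b := c₂.Xi y (pbT w'.2.1 _ μ)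
    rw [← h.Ξ, GlB.wsec_pb c.par.sec] at a
    rw [← h'.Ξ, GlB.wsec_pb c₂.par.sec, e4, a, funext e2] at b
    refine (mul_right_cancel₀ ?_ b).symm
    rwa [wsec, if_pos hy, one_pow, one_mul])
  obtain ⟨s, hs, a1, a2, a3, a4, a5⟩ := c.exists_unit c₂ hn.num.a_ne (hn.tight'.1.eq h.mem')
  obtain ⟨hg, hk, ht⟩ := Cv.isUnit_iff.1 hs
  have e5 : ∀ m, s.2.2 m = τ (p m) := fun m => Dict.smul_cancel (c₂.par.ne (p m)) (by
    rw [e3, a4, act_p, ← hp, funext (a1 _)])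
  have e6 : ∀ a, τ (p (inc a)) = 1 := fun a => Dict.smul_cancel (d.par.ne (p (inc a))) (by
    rw [← e, fp, one_smul, e1])
  let a : ch.AG n ν κ κ' S := (1, s.1, s.2.1, fun q => s.2.2 (nq q false))
  have e7 : dup (θG a).2 = s := Prod.ext rfl (Prod.ext rfl (funext (cs (fun m => by
    rw [e5, e6]
    rcases m with m | m <;> rfl) fun q b => by
      cases b
      · rfl
      · exact (e5 _).trans ((funext fun i => (τm i).2 (_, _) (Finset.mem_union_right _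
          (Finset.mem_image_of_mem _ (Finset.mem_univ q)))).trans (e5 _).symm))))
  refine ⟨a, AP.isUnit_iff.2 ⟨isUnit_one, Cv.isUnit_iff.2 ⟨hg, hk, fun q => ht _⟩⟩, rfl,
    Prod.ext (W.ext (fun l => (congrFun a3 l).symm) (fun m => ?_) a5.symm fun _ => rfl)
      (Prod.ext (funext fun i => ?_) (funext fun l => ?_))⟩
  · exact (congrArg (fun s => (Ch.act s w.1).p m) e7).trans (congrFun a4 m).symm
  · have : w'.2.1 i ∘L s.1 i = w.2.1 i := hn.tight'.1.clm_ext h.mem' finite_empty fun v hv _ => by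
      obtain ⟨y, t, -, rfl⟩ := (c.par.img v).1 hv
      rw [Dict.smul_ap, map_smul, map_smul]
      exact congrArg _ ((congrArg (w'.2.1 i) (a1 y i)).trans (congrFun (e2 y) i))
    exact ContinuousLinearMap.ext fun v => (DFunLike.congr_fun this _).symm.trans
      (congrArg (w'.2.1 i) (ap_inv (hg i) v))
  · refine (congrArg (s.2.1 l ∘L w.2.2 l ∘L ·) (Ring.inverse_one _)).trans
      (ContinuousLinearMap.ext fun v => c₂.u_ext fun y => (a2 y l _).trans (e4 y l v).symm)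

end Vale.Agent.P269.Ch
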