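import Vale.Agent.P287Q.G.Glu.Eqv
import Vale.Agent.P287Q.G.Glu.GlB
import Vale.Agent.P287Q.G.Glu.Diag0
import Vale.Agent.P287Q.G.Vir.Ker
import Vale.Agent.P269.Map.Tot
import Vale.Agent.P287Q.G.Vir.RD

set_option linter.unusedSectionVars false

/-!
# Forgetting the fields on the glued curve
-/

namespace Vale.Agent.P269.Ch

open P291Z Set Function Topology Filter Module Base Cv Holo Vir KD

variable {S Λ R J K ι ν κ κ' : Type} [Fintype S] [Fintype Λ] [Fintype R] [Fintype J]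
  [Fintype K] [Fintype ι] [DecidableEq ι] [Fintype ν] [Fintype κ] [Fintype κ']
  {ch : Ch ι J} {n : Nm ι J} {F : Fam S Λ R J K} {e : K → ι → ℕ} {K₀ : RD R} {ℓ : R → ι → ℤ}
  {T : Set ((ch.re n).WF ν (κ ⊕ κ') Λ)} {z : ch.WG n ν κ κ' Λ}

namespace PwE

theorem finrank_Fm {h : J → ℕ} {A : Set J} [Fintype A] :
    finrank ℂ (ch.Fm A h) = ∑ j : A, finrank ℂ (ch.Th j) * h j :=
  (finrank_pi_clm (fun j : A => ch.Th j) fun j => Fin (h j) → ℂ).trans
    (Finset.sum_congr rfl fun _ _ => by rw [finrank_fin_fun])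

open Classical in
theorem rk_sub {ν' : Type} [Fintype ν'] {x : ch.W ν'} (hx : x ∈ ch.base ν') (ha : ∀ l, ch.a l ≠ 0) :
    ch.rk F ℓ K₀ = finrank ℂ (ch.Fm F.mov ch.hf) - ch.euD ℓ K₀.n K₀.γ := by
  have a : ∀ j, ch.eu (fun i => ch.a (some j) i) = ch.h (some j) := fun j => (h_eq₁ hx (ha _)).symm
  rw [rk_eq, finrank_Fm, Nat.cast_sum]
  simp only [a, Nat.cast_mul]
  exact congrArg (· - _) (Finset.sum_subtype _ (by simp) _)

theorem ex_cmp {A : Set J} {h h' : J → ℕ} {ch' : Ch ι J}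
    (a : ∀ j, (Fin (h j) → ℂ) →L[ℂ] (Fin (h' j) → ℂ)) (b : ∀ j, ch'.Th j →L[ℂ] ch.Th j)
    (v : ch.Fm A h) (j : J) : Fm.ex (Fm.cmp a b v) j = a j ∘L Fm.ex v j ∘L b j := by
  by_cases hj : j ∈ A
  · rw [Fm.ex_mem _ hj, Fm.ex_mem _ hj]
    rfl
  · rw [Fm.ex_not _ hj, Fm.ex_not _ hj, ContinuousLinearMap.zero_comp,
      ContinuousLinearMap.comp_zero]

theorem p₁_snd : (p₁ F z).2 = z.2 := by rw [p₁_apply]

theorem μG_p₁ : μG (p₁ F z) = μG z := by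
  rw [p₁_apply]
  rfl

theorem jmpP_p₁ (a : κ') : jmpP F e (p₁ F z) a = jmpP F e z a := by
  rw [jmpP, μG_p₁, p₁_snd, jmpP]

theorem mt (hz : z ∈ Zb F T) (h : mm F.mov z.1.2 z.2 = 0) (j : J) : Mt z.1.2 z.2 j := by
  by_cases hj : j ∈ F.mov
  exacts [mm_eq_zero.1 h j hj, hz.2.2 j hj]

/-- composition with the maps of the label -/
noncomputable abbrev rr (F : Fam S Λ R J K) (z : ch.WG n ν κ κ' Λ) :
    ch.Fm F.mov ch.hf →ₗ[ℂ] ch.Fm F.mov (ch.re n).hf :=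
  Fm.cmp (fun j => z.2.2.2 (some j)) fun _ => .id ℂ _

theorem mm_add (v : ch.Fm F.mov ch.hf) :
    mm F.mov (z + ι₁ F v).1.2 (z + ι₁ F v).2 = mm F.mov z.1.2 z.2 + rr F z v := by
  rw [add_ι₁]
  funext j
  refine ContinuousLinearMap.ext fun μ => ?_
  change z.2.2.2 (some j) (z.1.2.X j μ + Fm.ex v j μ) - z.2.1.X j (pbT z.2.2.1 _ μ) =
    (z.2.2.2 (some j) (z.1.2.X j μ) - z.2.1.X j (pbT z.2.2.1 _ μ)) + z.2.2.2 (some j) (v j μ)
  rw [Fm.ex_mem _ j.2, map_add]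
  exact add_sub_right_comm _ _ _

theorem jmpF_rr (h : Gl z.1.2 z.2) (a : κ') (v : ch.Fm F.mov ch.hf) :
    jmpF z.2.1 a (rr F z v) = 0 := funext fun j => LinearMap.ext fun μ => by
  rw [uF_apply, ex_cmp]
  exact DFunLike.congr_fun (h.jmp_comp a (some j)) _

theorem uZ_rr (y : (ch.re n).Pt) (v : ch.Fm F.mov ch.hf) :
    uZ y (rr F z v) = uZ (lpt z.2 y) v := funext fun j => LinearMap.ext fun μ => by
  rw [uF_apply, ex_cmp]
  rfl

theorem tendsto_rr {α : Type} {l : Filter α} {y : α → ch.WG n ν κ κ' Λ} {v : α → ch.Fm F.mov ch.hf}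
    {v₀ : ch.Fm F.mov ch.hf} (h1 : Tendsto y l (𝓝 z)) (h2 : Tendsto v l (𝓝 v₀)) :
    Tendsto (fun k => rr F (y k) (v k)) l (𝓝 (rr F z v₀)) := by
  have a : Continuous fun w : ch.Lb n (Mk ν (κ ⊕ κ')) => w.2.2 := continuous_snd.snd
  refine tendsto_pi_nhds.2 fun j => ?_
  have b := tendsto_pi_nhds.1 ((a.tendsto _).comp h1.snd_nhds) (some j.1)
  have c := tendsto_pi_nhds.1 h2 j
  exact ((isBoundedBilinearMap_comp (𝕜 := ℂ)).continuous.tendsto _).comp (b.prodMk_nhds c)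

theorem tl {α U V : Type} [NormedAddCommGroup U] [NormedSpace ℂ U] [NormedAddCommGroup V]
    [NormedSpace ℂ V] {l : Filter α} {y : α → U} {x : U} (f : U →L[ℂ] V) (h : Tendsto y l (𝓝 x)) :
    Tendsto (fun k => f (y k)) l (𝓝 (f x)) := (f.continuous.tendsto x).comp h

theorem lin₁ (hs : ch.Std F e K₀ ℓ) : (ch.kdD ν κ κ' n F e).Lin (ch.kdS ν κ κ' n F e) id (p₁ F)
    (ch.OD ν κ κ' n F e) (LinearMap.snd ℂ _ _) where
  mem _ h := h.2
  eqv _ _ _ _ := rfl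
  van x _ w h := mem_vanS.2 ⟨by rw [μG_p₁]; exact h.2.1, fun q =>
    (congrArg (jmpF _ q) (h.2.2 : w.2.2 = 0)).trans (map_zero _)⟩
  sec x hx := mem_vanS.2 ⟨by
    change sctF F e (μG x) - sctF F e (μG (p₁ F x)) ∈ _
    rw [μG_p₁, sub_self]
    exact zero_mem _, fun q => by
    have a := mm_add (F := F) (z := p₁ F x) (q₁ F x)
    rw [spt₁.add] at a
    change jmpF _ q (mm F.mov x.1.2 x.2 - mm F.mov (p₁ F x).1.2 (p₁ F x).2) = 0
    rw [a, add_sub_cancel_left, rr, p₁_snd]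
    exact jmpF_rr hx.1.1 q _⟩
  obs x hx h0 w hw := by
    obtain ⟨-, a, b⟩ := mem_obsD.1 hw
    refine mem_obsS.2 ⟨by rw [μG_p₁]; exact a, fun q => ?_⟩
    have c := pdL_eq hs.fits (mt hx.1 h0.2.2)
    have b0 := b _ (ptz_mem hx.1.1.mem' (nq q false))
    have b1 := b _ (ptz_mem hx.1.1.mem' (nq q true))
    rw [c, ← hx.1.1.lpt_nq, ← c, b0] at b1
    have d : jmpF x.2.1 q w.2.2 =
        uZ (ptz x.2.1 (nq q false)) w.2.2 - uZ (ptz x.2.1 (nq q true)) w.2.2 := rfl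
    rw [jmpP_p₁]
    change resF K _ (evZ _ w.2.1 - evZ _ w.2.1) + PD.dEq _ pwT (jmpF x.2.1 q w.2.2) = 0
    rw [d, map_sub, map_sub, sub_add_sub_comm, b1, sub_self]

end PwE

open PwE

variable (hs : ch.Std F e K₀ ℓ) (hn : ch.GN n κ')
include hs hn

theorem finrank_FmE {h : J → ℕ} {A : Set J} [Fintype A] :
    finrank ℂ (ch.Fm A h) = ∑ j : A, finrank ℂ (ch.Th j) * h j := PwE.finrank_Fm

theorem rk_glue (hz : z ∈ ZD F ((ch.re n).adm ν (κ ⊕ κ') F)) :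
    finrank ℂ ((ch.re n).Fm F.mov (ch.re n).hf) + (ch.rk F ℓ K₀).toNat = finrank ℂ (ch.Fm F.mov ch.hf) +
      (Fintype.card κ' * F.dv K₀ + ((ch.re n).rk F ℓ K₀).toNat) := by
  classical
  have a := rk_sub (F := F) (ℓ := ℓ) (K₀ := K₀) hz.1.1.mem hn.num.a_ne
  have b := rk_sub (ch := ch.re n) (F := F) (ℓ := ℓ) (K₀ := K₀) hz.1.1.mem' hn.num.a_ne
  have c : (ch.re n).euD ℓ K₀.n K₀.γ = ch.euD ℓ K₀.n K₀.γ + Fintype.card κ' * K₀.n := by
    rw [euD, euD, ← hn.g, ← hn.m]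
    ring
  have e1 := Int.toNat_of_nonneg (hs.rk_nonneg hz.2.1)
  have e2 := Int.toNat_of_nonneg ((hs.re n).rk_nonneg hz.2.2.1)
  rw [Fam.dv]
  zify
  rw [e1, e2, a, b, c]
  ring

theorem tt₁ (hT : Lev F T) : Tt (ch.kdD ν κ κ' n F e) (ch.kdS ν κ κ' n F e) (actG F.toWt) (ρ₁ F)
    (p₁ F) (q₁ F) (ZD F T) (ZS F T) (ch.OD ν κ κ' n F e) (LinearMap.snd ℂ _ _) (E₁ F e)
    fun z => dsX F.mov z.2 where
  lin := lin₁ hs
  graph _ := ZD_iff₁ hn hT
  cont := continuousOn_dsX hn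
  E_mem _ _ := E₁_mem hs.fits
  E_cont v := (continuous_E₁ v).continuousOn
  E_eqv _ _ _ ha := E₁_act hs.inv ha
  cone x hx v w y c u h h1 h2 h3 := by
    obtain ⟨x0, x1⟩ := (ZD_iff₁ hn hT).1 hx
    obtain ⟨δ, hδ⟩ : ∃ δ, δ = fun k => q₁ F (y k) - dsX F.mov (p₁ F (y k)).2 := ⟨_, rfl⟩
    obtain ⟨y', hy⟩ : ∃ y', y' = fun k => p₁ F (y k) + ι₁ F (dsX F.mov (p₁ F (y k)).2) := ⟨_, rfl⟩
    have a0 : ∀ k, q₁ F (p₁ F (y k)) = 0 := fun k => q₁_eq_zero.2 (h k).2.1.1.1.2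
    have a1 : ∀ k, y' k ∈ ZD F T := fun k => by
      rw [ZD_iff₁ hn hT, hy, spt₁.p_add (a0 k), spt₁.q_add (a0 k)]
      exact ⟨(h k).2.1, rfl⟩
    have a2 : ∀ k, y k = y' k + ι₁ F (δ k) := fun k => by
      rw [hy, hδ, add_assoc, ← map_add, add_sub_cancel, spt₁.add]
    have a3 : Tendsto δ atTop (𝓝 0) := by
      have := (tl (q₁ F) h1).sub ((continuousOn_dsX hn _ x0).tendsto.comp
        (tendsto_nhdsWithin_iff.2 ⟨tl (p₁ F) h1,
          .of_forall fun k => (h k).2.1⟩))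
      rw [← x1, sub_self] at this
      exact hδ ▸ this
    have a4 : Tendsto y' atTop (𝓝 x) := by
      have := h1.sub (tl (ι₁ F) a3)
      rw [map_zero, sub_zero] at this
      exact this.congr fun k => sub_eq_of_eq_add (a2 k)
    have h2' : Tendsto (fun k => c k • δ k) atTop (𝓝 v) := hδ ▸ h2
    have a5 := tendsto_dSc (e := e) a4.fst_nhds a3 h2'
    have a6 : ∀ k, (y k).1 = (y' k).1 + (0, ιX (δ k)) := fun k => congrArg Prod.fst (a2 k)
    have a7 : ∀ k, vanM F e (y' k).1 = vanM F e (y k).1 := fun k => by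
      rw [a2 k, add_ι₁]
      rfl
    refine ⟨hn.cuts.van_lim (.of_forall fun k => (h k).1.1.1.mem) hx.1.1.mem h1.fst_nhds
      (.of_forall fun k => ?_) (h3.fst_nhds.sub a5), ?_, ?_⟩
    · rw [← a6, smul_sub]
      change c k • sctF F e (y k).1 + (u k).1 - _ ∈ _
      rw [add_sub_right_comm, sub_sub_cancel]
      exact add_mem (Submodule.smul_mem _ _ (a7 k ▸ sctF_mem_vanM hs.fits (a1 k).2.1)) (h k).2.2.1
    · change w.2.1 - 0 ∈ vanM F e (μG x)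
      rw [sub_zero]
      exact hn.cuts'.van_lim (.of_forall fun k => (h k).1.1.1.mem') hx.1.1.mem'
        ((analyticAt_μG x).continuousAt.tendsto.comp h1) (.of_forall fun k =>
          add_mem (Submodule.smul_mem _ _ (sctF_mem_vanM (hs.re n).fits
            (by rw [comp_apply, ← μG_p₁ (F := F)]; exact (h k).2.1.1.2))) (h k).2.2.2.1) h3.snd_nhds.fst_nhds
    · refine sub_eq_zero.2 (tendsto_nhds_unique h3.snd_nhds.snd_nhds
        ((tendsto_rr a4 h2').congr fun k => ?_))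
      change _ = c k • mm F.mov (y k).1.2 (y k).2 + (u k).2.2
      rw [show (u k).2.2 = 0 from (h k).2.2.2.2, add_zero, a2 k, mm_add, (a1 k).2.2.2, zero_add,
        map_smul]
  inj x hx v h := funext fun j => ContinuousLinearMap.ext fun μ =>
    (hx.1.1.inj (some j)) ((DFunLike.congr_fun (congrFun (h.2.2 : rr F x v = 0) j) μ).trans
      (map_zero _).symm)
  ker x hx w hw h := by
    obtain ⟨a, b⟩ := mem_vanS.1 h
    obtain ⟨c, -, d⟩ := mem_obsD.1 hw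
    rw [μG_p₁] at a
    rw [p₁_snd] at b
    change w.2.1 ∈ _ at a
    have : ∀ j : F.mov, ∃ v : ch.Th j →L[ℂ] ch.E (some j), x.2.2.2 (some j) ∘L v = w.2.2 j :=
      fun j => by
        obtain ⟨g, hg⟩ := (x.2.2.2 (some j)).toLinearMap.exists_leftInverse_of_injective
          (LinearMap.ker_eq_bot.2 (hx.1.1.inj _))
        refine ⟨LinearMap.toContinuousLinearMap g ∘L w.2.2 j, ContinuousLinearMap.ext fun μ => ?_⟩
        obtain ⟨t, ht⟩ := (hx.1.1.mem_range hn.num.a_ne (some j) (v := w.2.2 j μ)).2 fun q => by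
          have := LinearMap.congr_fun (congrFun (b q) j) μ
          rwa [uF_apply, Fm.ex_mem _ j.2] at this
        change x.2.2.2 (some j) (g (w.2.2 j μ)) = _
        rw [← ht]
        exact congrArg _ (LinearMap.congr_fun hg t)
    obtain ⟨v, hv⟩ : ∃ v : ch.Fm F.mov ch.hf, ∀ j, x.2.2.2 (some j.1) ∘L v j = w.2.2 j :=
      Classical.skolem.1 this
    have f : rr F x v = w.2.2 := funext hv
    refine ⟨v, mem_vanM.2 ⟨sub_mem c.1 (dSc_mem hs.fits _ _), fun t ht => ?_⟩,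
      sub_mem a (zero_mem _), sub_eq_zero.2 f.symm⟩
    obtain ⟨y, hy, rfl⟩ := hx.1.1.exists_lpt ht
    change evZ _ (w.1 - dSc F e x.1 v) = 0
    rw [map_sub, d y hy, (mem_vanM.1 a).2 y hy, map_zero, zero_add, evZ_dSc,
      pdL_eq hs.fits (mt hx.1 hx.2.2.2), ← f, uZ_rr, sub_self]

end Vale.Agent.P269.Ch
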