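import Vale.Agent.P287Q.G.Glu.Pts
import Vale.Agent.P287Q.G.Glu.Std0
import Vale.Agent.P287Q.G.Glu.PwE
import Vale.Agent.P287Q.G.Glu.Pcy
import Vale.Agent.P287Q.G.Spl.Num
import Vale.Agent.P287Q.G.Vir.Std

set_option linter.unusedSectionVars false

/-!
# Gluing in the standard charts
-/

namespace Vale.Agent.P269.Fam

open P291Z Set Function Topology Filter Module Holo Base Cv Ch

variable {S Λ R J K ν κ ε : Type} [Fintype S] [Fintype Λ] [Fintype R] [Fintype J] [Fintype K]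
  [Fintype ν] [Fintype κ] [Fintype ε] [DecidableEq R] {F : Fam S Λ R J K} {k D : ℕ} {g g' : ℤ}
  {d : R → ℤ} {K₀ : RD R}

theorem fm_eqS {ι : Type} [Fintype ι] [DecidableEq ι] (ch : Ch ι J) (A : Set J) :
    finrank ℂ (ch.Fm A ch.hf) = ch.fm A := by
  classical
  exact (PwE.finrank_Fm (ch := ch) (A := A) (h := ch.hf)).trans
    (Finset.sum_subtype (p := (· ∈ A)) _ (by simp) fun j => finrank ℂ (ch.Th j) * ch.hf j).symm

variable (hk : F.Big k) (hD : F.BigD k D) (hg : g' + Fintype.card ε = g)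
include hk hD hg

/-- **the hypotheses of the gluing theorems** -/
theorem gc (hF : F.Good) (hR : F.Reg K₀) {Q : AM Λ R J ν (κ ⊕ ε) → Prop}
    (hQ : AM.IvtA F.toWt F.movᶜ Q) {n : ℤ} {N : ℕ}
    (h' : (F.sch ν (κ ⊕ ε) k D g' d).CyP F ℓs Q n) (h : (F.sch ν κ k D g d).CyP F ℓs (AM.Ct Q) n)
    (hN : ∀ m : AM Λ R J ν κ, AM.Ct Q m →
      Nat.card {x : ε × Bool → m.X // ∃ h : m.Nds x, Q (m.cut h)} = N) :
    ∃ V U N' N₀, Ivt (actF F.toWt) V ∧ (F.sch ν κ k D g d).GC (F.nms ν (κ ⊕ ε) k D g' d) F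
      (F.tdeg (F.sch ν κ k D g d)) K₀ ℓs ((F.sch ν (κ ⊕ ε) k D g' d).locP F ℓs Q) V
      ((F.sch ν κ k D g d).locP F ℓs (AM.Ct Q)) U N' N₀ N := by
  obtain ⟨U', N', o', i', s', a', p', e'⟩ := h'
  obtain ⟨U, N₀, o, i, -, a, p, e⟩ := h
  have iV : Ivt (actF F.toWt) (U' ∩ F.posG ν (κ ⊕ ε) k D g' d) := fun s b x c =>
    ⟨i' s b x c.1, ivt_posG s b x c.2⟩
  have sV : Stb F.mov (U' ∩ F.posG ν (κ ⊕ ε) k D g' d) := fun x b X c =>
    ⟨s' x b.1 X c, stb_posG _ x b.2 X c⟩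
  have lL : Lev F ((F.sch ν (κ ⊕ ε) k D g' d).locP F ℓs Q) := lev_locS hF.toInv hQ
  have lT := (lL.clo hF.toInv (chart_cuts hD)).interS iV sV
  have lab : ∀ x ∈ (F.sch ν κ k D g d).baseF ν κ F.B ∩ (U ∩ F.posG ν κ k D g d),
      Lab ε (F.nms ν (κ ⊕ ε) k D g' d) x.2 := fun x b => lab_posG hk hD hg b.2.2 ⟨trivial, b.1.2⟩
  have q' := p'.inter (isOpen_posG (F := F) (k := k) (D := D))
  have q := p.inter (isOpen_posG (F := F) (k := k) (D := D))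
  rw [inter_assoc, inter_assoc] at q q'
  refine ⟨_, U ∩ F.posG ν κ k D g d, N', N₀, iV, ⟨chart_std hF hR hD, gn hk hD hg, lT,
    lL.interS iV sV, q', hF.exists_pr hk hD g' d, sur_posG hk hD hg hF.toInv fun x b =>
      ⟨lT.adm b, b.2.2⟩⟩, lL, o'.inter isOpen_posG, fun x b => ⟨a' b, sol_posG hF.toInv hk hD b.1⟩,
    lev_locS hF.toInv hQ.ct, hF.exists_pr hk hD g d, o.inter isOpen_posG,
    fun s b x c => ⟨i s b x c.1, ivt_posG s b x c.2⟩,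
    fun x b => ⟨a b, sol_posG hF.toInv hk hD b.1⟩, q, fun ⟨x, b⟩ ⟨y, c⟩ => ?_, lab,
    fun z b => Zb.mem_locP hF.toInv (chart_lat hD) hQ b.1, fun x ⟨⟨b, m, r, c⟩, f⟩ =>
      cnt_locP hF.toInv (chart_lat hD) (gn hk hD hg) hQ b r (lab x ⟨b.1, f⟩) (hN m c)⟩
  have f' := e' ⟨x, b.1, b.2.1⟩
  have f := e ⟨y, c.1, c.2.1⟩
  rw [fm_eqS, fm_eqS, sch_re]
  omega

end Vale.Agent.P269.Fam
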