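import Vale.Agent.P287Q.G.Glu.Defs
import Vale.Agent.P287Q.G.Bas.NF

set_option linter.unusedSectionVars false
set_option linter.style.haveILetI false

/-!
# Gluing: integrals
-/

namespace Vale.Agent.P269

open P291Z Set Function Topology Filter Module Holo Ch

/-- the Gysin map on a cocycle whose support meets the subspace in a compact set -/
theorem GlC.ev_gys {X Y : Type} [TopologicalSpace X] [TopologicalSpace Y] [Nice Y] {i : X → Y}
    (hi : IsClosedEmbedding i) {t b : Coch Y} (ht : supp (δ t) = ∅) (hs : supp t ⊆ range i)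
    (β : BM Y) (hb : supp (δ b) = ∅) {K : Set X} (hK : IsCompact K) (h : i ⁻¹' supp b ⊆ K) :
    ev (gys i t β) (pull i b) = ev β (b * t) := by
  obtain ⟨N, a1, -, a2⟩ := exists_cut_compact (hK.image hi.continuous) isOpen_univ (subset_univ _) b
  have a3 : ∀ z, b - cut N b ∈ Van (i z) := fun z => a2 _ (by
    by_cases e : i z ∈ supp b
    exacts [.inl (mem_image_of_mem i (h e)), .inr e])
  have a4 : cut N b ∈ Near i := ⟨a1, fun z => by
    have := (Van _).sub_mem (supp_eq_empty.1 hb (i z)) (Van.δ (a3 z))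
    rwa [map_sub, sub_sub_cancel] at this⟩
  rw [Orb.ev_congr _ (b := pull i (cut N b)) fun z => by
    rw [← map_sub]
    exact Van.pull hi.continuous.continuousAt (a3 z), Orb.ev_gys hi ht hs β a4]
  refine (Orb.ev_congr _ fun y => ?_).symm
  rw [← _root_.sub_mul]
  by_cases e : y ∈ supp t
  · obtain ⟨z, rfl⟩ := hs e
    exact Van.mul_right (a3 z) t
  · exact Van.mul_left e _

variable {S Λ R J K ι ν κ κ' : Type} [Fintype S] [Fintype Λ] [Fintype R] [Fintype J]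
  [Fintype K] [Fintype ι] [DecidableEq ι] [Fintype ν] [Fintype κ] [Fintype κ']
  {ch : Ch ι J} {n : Nm ι J} {F : Fam S Λ R J K} {e : K → ι → ℕ} {K₀ : RD R} {ℓ : R → ι → ℤ}
  {Z : Set (ch.WF ν κ Λ)} {Z' : Set ((ch.re n).WF ν (κ ⊕ κ') Λ)}

variable {Y : Type} [TopologicalSpace Y] (Ψ : C(Y, Quo (actF F.toWt) Z))
  (Φ : C(Y, Quo (actF F.toWt) Z'))

/-- The points `Ψ y` and `Φ y` have representatives with the same values. -/
def Ch.SameV : Prop := ∀ y, ∃ (x : Z) (x' : Z'), Ψ y = Quo.mk _ x ∧ Φ y = Quo.mk _ x' ∧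
  x.1.1 = x'.1.1 ∧ ∀ a, vl x.1 a = vl x'.1 (inc a)

variable {Ψ Φ} (hZ : GZ F ℓ Z) (hZ' : GZ F ℓ Z') (pts : SameV Ψ Φ)
include hZ hZ' pts

theorem Ch.SameV.pull_dg (q : κ) :
    pull Ψ (F.coch Z (.dg q)) = pull Φ (F.coch Z' (.dg (.inl q))) := by
  rw [show F.coch Z (.dg q) = _ from hZ.evN_eq q _,
    show F.coch Z' (.dg (.inl q)) = _ from hZ'.evN_eq (.inl q) _, pull_pull, pull_pull]
  refine congrArg (pull · _) (funext fun y => ?_)
  obtain ⟨x, x', a, b, c, d⟩ := pts y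
  rw [comp_apply, comp_apply, a, b, Tq.Eqv.qm_mk, Tq.Eqv.qm_mk]
  exact congrArg _ (Subtype.ext (Prod.ext c (Prod.ext (congrArg Prod.snd (d (.inr (q, false))) :)
    (congrArg Prod.snd (d (.inr (q, true))) :))))

theorem Ch.SameV.pull_ev (a : Mk ν κ) {A} (c) (h : ∀ x ∈ Z, vl x a ∈ A)
    (h' : ∀ x ∈ Z', vl x (inc a) ∈ A) :
    pull Ψ (F.coch Z (.ev a A c)) = pull Φ (F.coch Z' (.ev (inc a) A c)) := by
  rw [show F.coch Z (.ev a A c) = _ from hZ.evF_eq a h _,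
    show F.coch Z' (.ev (inc a) A c) = _ from hZ'.evF_eq (inc a) h' _, pull_pull, pull_pull]
  refine congrArg (pull · _) (funext fun y => ?_)
  obtain ⟨x, x', b, b', -, d⟩ := pts y
  rw [comp_apply, comp_apply, b, b', Tq.Eqv.qm_mk, Tq.Eqv.qm_mk]
  exact congrArg _ (Subtype.ext (d a))

theorem Ch.SameV.pull_par {A} (c) (h : ∀ x ∈ Z, x.1 ∈ A) (h' : ∀ x ∈ Z', x.1 ∈ A) :
    pull Ψ (F.coch Z (.par A c)) = pull Φ (F.coch Z' (.par A c)) := by
  rw [show F.coch Z (.par A c) = _ from hZ.parF_eq h _,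
    show F.coch Z' (.par A c) = _ from hZ'.parF_eq h' _, pull_pull, pull_pull]
  refine congrArg (pull · _) (funext fun y => ?_)
  obtain ⟨x, x', b, b', d, -⟩ := pts y
  rw [comp_apply, comp_apply, b, b', Tq.Eqv.qm_mk, Tq.Eqv.qm_mk]
  exact congrArg _ (Subtype.ext d)

theorem Ch.SameV.mem_diq {q : κ} {y : Y} :
    Ψ y ∈ diq F.toWt Z q ↔ Φ y ∈ diq F.toWt Z' (.inl q) := by
  obtain ⟨x, x', a, b, -, d⟩ := pts y
  rw [a, b, hZ.mk_mem_diq, hZ'.mk_mem_diq, d, d]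
  rfl

/-- **integrals**; `hf` has to be checked for `psi` and `tw` only -/
theorem Ch.SameV.num [Nice Y] [Nice (Quo (actF F.toWt) Z')] (hd : F.IsDiag F.diag)
    (hc : IsCompact (dia F.toWt Z)) (hΨ : IsPr Ψ) (hΦ : IsClosedEmbedding Φ) {t : Coch _}
    (ht : supp (δ t) = ∅) (hs : supp t ⊆ range Φ) {v : BM _} {v' : BM _} {m : ℂ}
    (hv : push Ψ (gys Φ t v') = m • v) {fs : List (Fac F.toWt ν κ)}
    (hA : ∀ f ∈ fs, f.At Z ∧ (f.re id .inl : Fac _ ν (κ ⊕ κ')).At Z')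
    (hψ : ∀ a, .psi a ∈ fs → H.map Ψ (F.cl Z (.psi a)) = H.map Φ (F.cl Z' (.psi (inc a))))
    (hw : ∀ Θ, .tw Θ ∈ fs → H.map Ψ (F.cl Z (.tw Θ)) = H.map Φ (F.cl Z' (.tw Θ)))
    (hq : ∀ q, .dg q ∈ fs) :
    m * ev v (fs.map (F.coch Z)).prod =
      ev v' (((fs.map (Fac.re id .inl)).map (F.coch Z')).prod * t) := by
  have c := fun f hf => hZ.cocycle hd (hA f hf).1
  have c' := fun f hf => hZ'.cocycle hd (hA f hf).2
  have a1 : (fs.map (F.coch Z)).prod ∈ Zc _ :=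
    one_mul (fs.map (F.coch Z)).prod ▸ hZ.mem_Zc hd (fun f hf => (hA f hf).1) hq cocycle_one hc
  have a2 : ∀ f ∈ fs, H.map Ψ (F.cl Z f) = H.map Φ (F.cl Z' (f.re id .inl)) →
      Cohom univ (pull Ψ (F.coch Z f)) (pull Φ (F.coch Z' (f.re id .inl))) := fun f hf k =>
    NF.cohom_of_hcls (cocycle_pull Ψ.continuous (c f hf)) (cocycle_pull Φ.continuous (c' f hf))
      ((H.map_hcls Ψ (c f hf)).symm.trans (k.trans (H.map_hcls Φ (c' f hf))))
  have a3 : ∀ f ∈ fs,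
      Cohom (Ψ ⁻¹' f.spt Z) (pull Ψ (F.coch Z f)) (pull Φ (F.coch Z' (f.re id .inl))) := by
    intro f hf
    cases f with
    | psi a => exact a2 _ hf (hψ a hf)
    | ev a A b => exact pts.pull_ev hZ hZ' a b (hA _ hf).1 (hA _ hf).2 ▸ Cohom.refl _ _
    | par A b => exact pts.pull_par hZ hZ' b (hA _ hf).1 (hA _ hf).2 ▸ Cohom.refl _ _
    | dg q => exact pts.pull_dg hZ hZ' q ▸ Cohom.refl _ _
    | tw Θ => exact a2 _ hf (hw Θ hf)
  rw [← Orb.smul_ev, ← hv, Orb.ev_push hΨ _ a1, ← GlC.ev_gys hΦ ht hs v'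
    (NF.cocycle_prod (List.forall_mem_map.2 (List.forall_mem_map.2 c'))) (hΨ.pre _ hc)
    fun y hy => GZ.dia_eq.ge (mem_iInter.2 fun q => (pts.mem_diq hZ hZ').2 (hZ'.supp_dg hd _
      (NF.supp_prod (List.mem_map_of_mem (List.mem_map_of_mem (hq q))) hy))), ev_eq, ev_eq,
    map_list_prod, map_list_prod, List.map_map, List.map_map, List.map_map]
  exact congrArg _ (cls_eq_of_cohom (hΨ.pre _ hc) ((NF.cohom_prod (A := fun f => Ψ ⁻¹' f.spt Z)
    (fun f hf => ⟨cocycle_pull Ψ.continuous (c f hf), (supp_pull Ψ.continuous _).trans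
      (preimage_mono (hZ.supp_coch hd f))⟩)
    (List.forall₂_map_right_iff.2 (List.forall₂_same.2 a3))).mono fun y hy =>
      GZ.dia_eq.ge (mem_iInter.2 fun q => hy _ (hq q))))

end Vale.Agent.P269
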