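import Vale.Agent.P287Q.G.Glu.GH
import Vale.Agent.P287Q.G.Glu.Gl
import Vale.Agent.P287Q.G.Glu.ClsA
import Vale.Agent.P287Q.G.Map.Psi

set_option linter.unusedSectionVars false
set_option linter.style.haveILetI false

/-!
# Gluing: classes and integrals
-/

namespace Vale.Agent.P269

open P291Z Set Function Topology Filter Module Holo Ch

variable {S Λ R J K ι ν κ κ' : Type} [Fintype S] [Fintype Λ] [Fintype R] [Fintype J]
  [Fintype K] [Fintype ι] [DecidableEq ι] [Fintype ν] [Fintype κ] [Fintype κ']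
  {ch : Ch ι J} {n : Nm ι J} {F : Fam S Λ R J K} {e : K → ι → ℕ} {K₀ : RD R} {ℓ : R → ι → ℤ}
  {Z : Set (ch.WF ν κ Λ)} {Z' : Set ((ch.re n).WF ν (κ ⊕ κ') Λ)}

/-- The map of the ambient spaces. -/
noncomputable def GlC.apL {M M' : ι → ℕ} (φ : HV M M') : V M →L[ℂ] V M' :=
  .pi fun i => φ i ∘L .proj i

/-- the gluing map is an immersion -/
theorem Ch.Gl.exists_br {x : ch.W (Mk ν κ)} {w : ch.Lb n (Mk ν (κ ⊕ κ'))} (h : Gl x w)
    (q : Mk ν (κ ⊕ κ')) : ∃ γ, IsBranch ch.o (crv w.1) γ ∧ γ 0 = w.1.p q ∧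
      IsBranch ch.o (crv x) fun t => apV w.2.1 (γ t) :=
  let ⟨_, _, _, _, _, _, A, π, p, P', e, P⟩ := h.par
  ⟨_, P'.isBranch (p q), (Cv.br_zero (A := A) _).trans (e q), GlP.br_apV _ π _ ▸ P.isBranch _⟩

/-- **the cotangent lines at the old marked points agree** -/
theorem Ch.psi_glue (hZ : GZ F ℓ Z) (hZ' : GZ F ℓ Z') {Y : Set (ch.WG n ν κ κ' Λ)}
    [IsAct (actG F.toWt : ch.AG n ν κ κ' S → _) Y]
    (ho : Orb.Orb (ch.AG n ν κ κ' S)ˣ (Holo.Sp (actG F.toWt) Y)) (hY : ∀ z ∈ Y, Gl z.1.2 z.2)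
    {f : ch.WG n ν κ κ' Λ → (ch.re n).WF ν (κ ⊕ κ') Λ}
    (hf : ∀ z ∈ Y, (f z).2.Q = z.2.1.Q ∧ (f z).2.p = z.2.1.p)
    (h₁ : EqM (actG F.toWt : ch.AG n ν κ κ' S → _) (actF F.toWt) Y Z (fun a => a.1) Prod.fst)
    (h₂ : EqM (actG F.toWt : ch.AG n ν κ κ' S → _) (actF F.toWt) Y Z' θG f) (a : Mk ν κ) :
    H.map h₁.map (F.cl Z (.psi a)) = H.map h₂.map (F.cl Z' (.psi (inc a))) := by
  haveI := hZ.act
  haveI := hZ'.act
  have o := hZ.psi a
  have o' := hZ'.psi (inc a)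
  have o₂ := o'.pb h₂
  have c : ∀ z ∈ Y, crv (f z).2 = crv z.2.1 := fun z hz => by
    simp only [crv, gr, (hf z hz).1]
  have p : ∀ z ∈ Y, z.1.2.p a = apV z.2.2.1 ((f z).2.p (inc a)) := fun z hz =>
    (hf z hz).2.symm ▸ (hY z hz).mark a
  have hL : (((ch.re n).sdψ S Λ (inc a)).pb θG f).Hom (ch.sdψ S Λ a)
      (actG F.toWt : ch.AG n ν κ κ' S → _) Y (fun a => a.1) Prod.fst
      fun z => (GlC.apL z.2.2.1 : V n.M →L[ℂ] V ch.M) := by
    refine ⟨fun v _ => Continuous.continuousOn (continuous_pi fun i => ?_), fun z hz v hv => ?_,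
      fun z hz v hv => ?_, fun z hz s hs v hv => mem_of_eq_of_mem (sub_eq_zero.2 (funext fun i => ?_))
        (zero_mem _)⟩
    · exact ((continuous_apply i).comp (continuous_fst.comp (continuous_snd.comp
        continuous_snd))).clm_apply continuous_const
    · have := Psi.Tg_map (GlC.apL z.2.2.1) (fun y hy => (hY z hz).apV_mem (c z hz ▸ hy)) hv
      rwa [show GlC.apL z.2.2.1 ((f z).2.p (inc a)) = _ from (p z hz).symm] at this
    · obtain ⟨b, rfl⟩ := Psi.mem_Nr.1 hv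
      exact Psi.mem_Nr.2 ⟨b, (p z hz).symm ▸ GlP.apV_smul _ _ _⟩
    · refine (map_smul _ _ _).trans ((congrArg _
        (actLb_V (c := 1) (isUnit_dupF (isUnit_θG hs)) i _)).trans ?_)
      rcases a with a | a <;> rfl
  have hi : (((ch.re n).sdψ S Λ (inc a)).pb (θG : ch.AG n ν κ κ' S → _) f).Inj (ch.sdψ S Λ a)
      Y Prod.fst fun z => (GlC.apL z.2.2.1 : V n.M →L[ℂ] V ch.M) := by
    intro z hz v hv h1
    obtain ⟨γ, b1, b2, b3⟩ := (hY z hz).exists_br (inc a)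
    rw [← (hf z hz).2] at b2
    obtain ⟨r, h4⟩ := (mem_sdψ_B (S := S) (hZ'.base _ (h₂.maps hz)) ((c z hz).symm ▸ b1) b2).1 hv
    obtain ⟨s, h5⟩ := Psi.mem_Nr.1 h4
    obtain ⟨t, h6⟩ := Psi.mem_Nr.1 h1
    have h7 : z.2.2.1 ch.o (v ch.o) = t ch.o • z.2.2.1 ch.o (γ 0 ch.o) := by
      rw [p z hz, ← b2] at h6
      exact congrFun h6 ch.o
    have h8 : v ch.o - r • deriv γ 0 ch.o = s _ • γ 0 ch.o := b2.symm ▸ congrFun h5 _
    have h9 := congrArg (z.2.2.1 ch.o) h8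
    rw [map_sub, map_smul, map_smul, h7] at h9
    rwa [Psi.eq_zero b3 (a := r) (s := t ch.o - s ch.o) (by
      rw [(GlP.hasDerivAt_apV _ b1.holo.differentiableAt.hasDerivAt).deriv, sub_smul]
      exact (sub_sub_cancel _ _).symm.trans (congrArg _ h9)), zero_smul, sub_zero] at h4
  rw [hZ.cl_psi, hZ'.cl_psi, map_neg, map_neg, H.map_hcls _ (o.cocycle hZ.orb),
    H.map_hcls _ (o'.cocycle hZ'.orb), ← (o₂.pull ho hZ.orb o h₁ hL hi
      ((hL.rank o₂ o h₁.maps hi).2 fun _ => rfl)).1]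
  exact congrArg Neg.neg (o₂.pull ho hZ'.orb o' h₂ (L := fun _ => .id)
    ⟨fun _ _ => continuousOn_const, fun _ _ _ a => a, fun _ _ _ a => a,
      fun _ _ _ _ _ _ => mem_of_eq_of_mem (sub_self _) (zero_mem _)⟩ (fun _ _ _ _ a => a)
    fun _ _ w a => ⟨w, a, mem_of_eq_of_mem (sub_self _) (zero_mem _)⟩).1

end Vale.Agent.P269
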