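import Vale.Agent.P287Q.G.Glu.GlB
import Vale.Agent.P269.Prop.TopA
import Vale.Agent.P269.Prop.Core
import Vale.Agent.P287Q.G.Vir.Lim

set_option linter.unusedSectionVars false

/-!
# The action on labels is proper
-/

namespace Vale.Agent.P269

open P291Z Set Function Topology Filter Module Base Cv Holo Vir

/-- The first component of a unit. -/
def AP.fstU {A B : Type} [NormedRing A] [NormedRing B] (a : (AP A B)ˣ) : Aˣ :=
  ⟨a.1.1, a.2.1, congrArg Prod.fst a.3, congrArg Prod.fst a.4⟩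

theorem Base.bdd_of_smul_lim {E F α : Type} [NormedAddCommGroup E] [NormedSpace ℂ E]
    [NormedAddCommGroup F] [NormedSpace ℂ F] {l : Filter α} {t : α → ℂ} {p : α → E} {q : α → F}
    {p₀ : E} {q₀ r : F} (h1 : Tendsto (fun k => t k • p k) l (𝓝 p₀)) (h2 : Tendsto q l (𝓝 q₀))
    (h3 : Tendsto (fun k => t k • q k) l (𝓝 r)) (hr : r ≠ 0) : ∃ B : ℝ, ∀ᶠ k in l, ‖p k‖ ≤ B := by
  have h4 := norm_ne_zero_iff.2 hr
  refine ⟨_, (((h1.norm.mul h2.norm).div h3.norm h4).congr' ((h3.norm.eventually_ne h4).mono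
    fun k a => (div_eq_iff a).2 ?_)).eventually_le_const (lt_add_one _)⟩
  rw [norm_smul, norm_smul]
  ring

namespace Ch

variable {S Λ R J K ι ν κ κ' : Type} [Fintype S] [Fintype Λ] [Fintype R] [Fintype J]
  [Fintype K] [Fintype ι] [DecidableEq ι] [Fintype ν] [Fintype κ] [Fintype κ']
  {ch : Ch ι J} {n : Nm ι J} {F : Fam S Λ R J K} {e : K → ι → ℕ} {K₀ : RD R} {ℓ : R → ι → ℤ}
  {T : Set ((ch.re n).WF ν (κ ⊕ κ') Λ)} {z : ch.WG n ν κ κ' Λ}

section sq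

variable {Wg : Wt S Λ R J} {α : Type} {U : Ultrafilter α} {y : α → ch.WG n ν κ κ' Λ}
  {a : α → (ch.AG n ν κ κ' S)ˣ} {z' : ch.WG n ν κ κ' Λ}

theorem prp_actQ (b : ch.AG n ν κ κ' S) (l : Option J) (μ : Tens n.M (ch.a l)) :
    (actG Wg b z).2.1.Q l μ = b.2.2.1 l (z.2.1.Q l (sub b.2 _ μ)) := rfl

theorem prp_actp (b : ch.AG n ν κ κ' S) (q : κ') (s : Bool) (i : ι) :
    (actG Wg b z).2.1.p (nq q s) i = b.2.2.2 q i • b.2.1 i (z.2.1.p (nq q s) i) := rfl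

theorem prp_actφ (b : ch.AG n ν κ κ' S) (i : ι) (v : Fin (n.M i) → ℂ) :
    (actG Wg b z).2.2.1 i v = b.1.2.1 i (z.2.2.1 i (Ring.inverse (b.2.1 i) v)) := rfl

theorem prp_actcrv {b : ch.AG n ν κ κ' S} (hb : IsUnit b) {c : V n.M} (hc : c ∈ crv z.2.1) :
    (fun i => b.2.1 i (c i)) ∈ crv (actG Wg b z).2.1 :=
  (Cv.crv_act (isUnit_dupF (isUnit_θG hb))).ge ⟨c, hc, rfl⟩

variable (Wg U y a z z') in
/-- The units `a k` move labelled points near `z` to labelled points near `z'`, and their first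
components converge. -/
structure GSq : Prop where
  mem : ∀ᶠ k in U, Gl (y k).1.2 (y k).2
  gl : Gl z.1.2 z.2
  gl' : Gl z'.1.2 z'.2
  lim : Tendsto y U (𝓝 z)
  lim' : Tendsto (fun k => actG Wg (a k : ch.AG n ν κ κ' S) (y k)) U (𝓝 z')
  fst : ∃ s, Tendsto (fun k => AP.fstU (a k)) U (𝓝 s)

namespace GSq

variable (h : GSq z Wg U y a z')
include h

theorem symm : GSq z' Wg U (fun k => actG Wg (a k : ch.AG n ν κ κ' S) (y k)) (fun k => (a k)⁻¹) z :=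
  ⟨h.mem.mono fun k => Gl.act (a k).isUnit, h.gl', h.gl, h.lim',
    h.lim.congr fun k => (Holo.act_inv (act := actG Wg) (a k) (y k)).symm,
    let ⟨_, hs⟩ := h.fst; ⟨_, hs.inv⟩⟩

theorem limw : Tendsto (fun k => (y k).2.1) U (𝓝 z.2.1) := h.lim.snd_nhds.fst_nhds

theorem limφ (i : ι) : Tendsto (fun k => (y k).2.2.1 i) U (𝓝 (z.2.2.1 i)) :=
  tendsto_pi_nhds.1 h.lim.snd_nhds.snd_nhds.fst_nhds i

variable (hn : ch.GN n κ')
include hn

theorem lim_g : ∃ G, Tendsto (fun k => (a k : ch.AG n ν κ κ' S).2.1) U (𝓝 G) := by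
  obtain ⟨s, hs⟩ := h.fst
  have h1 := fun i => tendsto_pi_nhds.1
    ((Units.continuous_val.tendsto s).comp hs).snd_nhds.fst_nhds i
  have hC := h.gl.mem'.2.2.1
  have : ∀ i, ∃ G, Tendsto (fun k => (a k : ch.AG n ν κ κ' S).2.1 i) U (𝓝 G) := fun i => by
    refine lim_of_bdd (bdd_of_span (hC.span_top (hn.tight'.1.eq h.gl.mem' i) (p := fun _ => True)
      fun c hc => (hC.nod.frequently_not_node z.2.1.p hc).mono fun _ _ => trivial) ?_)
    rintro _ ⟨_, ⟨⟨c₀, h3, rfl⟩, -⟩, rfl⟩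
    obtain ⟨c, a1, a2⟩ := hn.cuts'.exists_gr (h.mem.mono fun _ b => b.mem') h.gl.mem' h.limw h3
    obtain ⟨c', a3⟩ := (a1.mono fun k b => prp_actcrv (Wg := Wg) (a k).isUnit ⟨_, b, rfl⟩).choice
    obtain ⟨t, d, -, a4, a5⟩ := exists_lim_gr U h.gl'.mem'.1 h.symm.limw (a3.mono fun _ b => b.1)
    have a6 := tendsto_pi_nhds.1 a2.fst_nhds i
    have a7 : Tendsto (fun k => t k i • (a k : ch.AG n ν κ κ' S).2.1 i ((c k).1 i)) U
        (𝓝 (d.1 i)) := (tendsto_pi_nhds.1 a5.fst_nhds i).congr'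
      (a3.mono fun k b => congrArg (t k i • ·) (congrFun b.2 i))
    refine ⟨_, a6, bdd_of_smul_lim a7 (tendsto_app (h1 i) (tendsto_app (h.limφ i) a6))
      ((tendsto_app (h.symm.limφ i) a7).congr fun k => ?_) (crv_ne (h.gl'.apV_mem ⟨_, a4, rfl⟩) i)⟩
    rw [map_smul, prp_actφ, inv_ap (isUnit_fst (AP.isUnit_iff.1 (a k).isUnit).2 i)]
    rfl
  choose G hG using this
  exact ⟨G, tendsto_pi_nhds.2 hG⟩

theorem lim_a : ∃ b, Tendsto (fun k => (a k : ch.AG n ν κ κ' S)) U (𝓝 b) := by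
  obtain ⟨s, hs⟩ := h.fst
  obtain ⟨G, h1⟩ := h.lim_g hn
  obtain ⟨G', h2⟩ := h.symm.lim_g hn
  have e : ∀ k, (↑(a k)⁻¹ : ch.AG n ν κ κ' S).2 * (a k : ch.AG n ν κ κ' S).2 = 1 := fun k =>
    congrArg Prod.snd (a k).inv_mul
  have h3 : ∀ l, ∃ e, Tendsto (fun k => (a k : ch.AG n ν κ κ' S).2.2.1 l) U (𝓝 e) := fun l => by
    refine lim_of_bdd (bdd_of_span Submodule.span_univ fun v _ => ?_)
    obtain ⟨μ, rfl⟩ := h.gl.mem'.1 l v
    refine ⟨_, tendsto_app (W.tendsto_Q h.limw l) tendsto_const_nhds, bdd_of_lim ((tendsto_app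
      (W.tendsto_Q h.symm.limw l) (tendsto_app (tendsto_sub (ch := ch.re n) (ν := κ')
        (s := fun k => ((↑(a k)⁻¹ : ch.AG n ν κ κ' S).2.1, 0)) (s₀ := (G', 0))
        (h2.prodMk_nhds tendsto_const_nhds) _) (tendsto_const_nhds (x := μ)))).congr fun k => ?_)⟩
    rw [prp_actQ]
    exact congrArg (fun μ => (a k : ch.AG n ν κ κ' S).2.2.1 l ((y k).2.1.Q l μ))
      (congrArg (sub · _ μ) (e k))
  have h4 : ∀ q i, ∃ e, Tendsto (fun k => (a k : ch.AG n ν κ κ' S).2.2.2 q i) U (𝓝 e) :=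
    fun q i => by
    obtain ⟨ζ, a1⟩ := exists_lin_one (crv_ne (h.gl.mem'.2.2.2.1 (nq q false)).1)
    have a2 := ((ζ i).continuous.tendsto _).comp
      (tendsto_pi_nhds.1 (W.tendsto_p h.limw (nq q false)) i)
    have a3 := ((ζ i).continuous.tendsto _).comp (tendsto_app (tendsto_pi_nhds.1 h2 i)
      (tendsto_pi_nhds.1 (W.tendsto_p h.symm.limw (nq q false)) i))
    rw [a1] at a2
    refine ⟨_, (a3.div a2 one_ne_zero).congr' ((a2.eventually_ne one_ne_zero).mono fun k b => ?_)⟩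
    refine (div_eq_iff b).2 ?_
    rw [comp_apply, prp_actp, map_smul, map_smul]
    exact congrArg (fun s : (ch.re n).A κ' => _ * ζ i (s.1 i _)) (e k)
  choose e h3 using h3
  choose t h4 using h4
  exact ⟨(s, G, e, t), ((Units.continuous_val.tendsto s).comp hs).prodMk_nhds (h1.prodMk_nhds
    ((tendsto_pi_nhds.2 h3).prodMk_nhds (tendsto_pi_nhds.2 fun q => tendsto_pi_nhds.2 (h4 q))))⟩

theorem lim_u : ∃ u, Tendsto a U (𝓝 u) :=
  let ⟨_, h1⟩ := h.lim_a hn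
  let ⟨_, h2⟩ := h.symm.lim_a hn
  let ⟨_, h3⟩ := bdd_of_lim h1
  let ⟨_, h4⟩ := bdd_of_lim h2
  exists_tendsto_units U a h3 h4

end GSq

end sq

/-- the frames of the labels are bounded -/
theorem Gl.tendsto (hn : ch.GN n κ') {Wg : Wt S Λ R J} {α : Type} {l : Filter α}
    {y : α → ch.WG n ν κ κ' Λ} {a : α → ch.AG n ν κ κ' S} {z' : ch.WG n ν κ κ' Λ} {s : ch.AF ν κ S}
    (h : Gl z.1.2 z.2) (h' : Gl z'.1.2 z'.2) (hy : ∀ᶠ k in l, Gl (y k).1.2 (y k).2 ∧ IsUnit (a k))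
    (h1 : Tendsto y l (𝓝 z)) (h2 : Tendsto (fun k => actG Wg (a k) (y k)) l (𝓝 z')) (hs : IsUnit s)
    (h3 : Tendsto (fun k => (a k).1) l (𝓝 s)) [l.NeBot] :
    ∃ b : ch.AG n ν κ κ' S, IsUnit b ∧ Tendsto a l (𝓝 b) := by
  obtain ⟨s, rfl⟩ := hs
  obtain ⟨v, hv⟩ := (hy.mono fun k b => b.2).choice
  have h4 : Tendsto (fun k => actG Wg (v k : ch.AG n ν κ κ' S) (y k)) l (𝓝 z') :=
    h2.congr' (hv.mono fun k b => by simp only [b])
  have h5 : Tendsto (fun k => AP.fstU (v k)) l (𝓝 s) :=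
    Units.isOpenEmbedding_val.isEmbedding.tendsto_nhds_iff.2
      (h3.congr' (hv.mono fun k b => congrArg Prod.fst b.symm))
  have k : ∀ U : Ultrafilter α, U ≤ l → ∃ u : (ch.AG n ν κ κ' S)ˣ,
      Tendsto a U (𝓝 (u : ch.AG n ν κ κ' S)) ∧ (u : ch.AG n ν κ κ' S).1 = s ∧
        actG Wg (u : ch.AG n ν κ κ' S) z = z' := fun U hU => by
    obtain ⟨u, hu⟩ := GSq.lim_u ⟨(hy.mono fun _ b => b.1).filter_mono hU, h, h', h1.mono_left hU,
      h4.mono_left hU, _, h5.mono_left hU⟩ hn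
    have b1 : Tendsto a U (𝓝 (u : ch.AG n ν κ κ' S)) :=
      ((Units.continuous_val.tendsto u).comp hu).congr' (hv.filter_mono hU)
    exact ⟨u, b1, tendsto_nhds_unique b1.fst_nhds (h3.mono_left hU), tendsto_nhds_unique
      (tendsto_act (act := actG Wg) hu (h1.mono_left hU)) (h4.mono_left hU)⟩
  obtain ⟨u₀, -, a1, a2⟩ := k _ (Ultrafilter.of_le l)
  refine ⟨u₀, u₀.isUnit, (tendsto_iff_ultrafilter _ _ _).2 fun U hU => ?_⟩
  obtain ⟨u, b1, b2, b3⟩ := k U hU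
  have b4 := h.free hn (Wg := Wg) (u₀⁻¹ * u).isUnit
    ((congrArg ((↑u₀⁻¹ : ch.AG n ν κ κ' S).1 * ·) (b2.trans a1.symm)).trans
      (congrArg Prod.fst u₀.inv_mul))
    (by rw [Holo.act_mul (act := actG Wg), b3, ← a2, Holo.act_inv (act := actG Wg)])
  rwa [inv_mul_eq_one.1 (Units.val_eq_one.1 b4)]

/-- **properness** -/
theorem prp_Gl (hn : ch.GN n κ') {Wg : Wt S Λ R J} {U : Set (ch.WF ν κ Λ)} (hU : Prp (actF Wg) U)
    (hi : Ivt (actF Wg) U) : Prp (actG Wg : ch.AG n ν κ κ' S → ch.WG n ν κ κ' Λ → _)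
      ({z | Gl z.1.2 z.2} ∩ Prod.fst ⁻¹' U) := fun z hz z' hz' =>
  bd_of_ultra fun V y a h1 h2 h3 => by
    obtain ⟨s, hs, -⟩ := (hU _ hz.2 _ hz'.2).exists_tendsto (fun s => hi _ s.isUnit)
      (hU _ hz'.2 _ hz.2) V (s := fun k => AP.fstU (a k)) (.of_forall fun k => (h1 k).2)
      h2.fst_nhds h3.fst_nhds
    obtain ⟨_, b⟩ := GSq.lim_a ⟨.of_forall fun k => (h1 k).1, hz.1, hz'.1, h2, h3, s, hs⟩ hn
    exact bdd_of_lim b

end Ch

end Vale.Agent.P269
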