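import Vale.Agent.P287Q.G.Glu.Eqv
import Vale.Agent.P287Q.G.Glu.GlB
import Vale.Agent.P287Q.G.Vir.Ker
import Vale.Agent.P269.Map.Tot

set_option linter.unusedSectionVars false

/-!
# The data of both curves
-/

namespace Vale.Agent.P269.Ch

open P291Z Set Function Topology Filter Module Base Cv Holo Vir KD

variable {S Λ R J K ι ν κ κ' : Type} [Fintype S] [Fintype Λ] [Fintype R] [Fintype J]
  [Fintype K] [Fintype ι] [DecidableEq ι] [Fintype ν] [Fintype κ] [Fintype κ']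
  {ch : Ch ι J} {n : Nm ι J} {F : Fam S Λ R J K} {e : K → ι → ℕ} {K₀ : RD R} {ℓ : R → ι → ℤ}
  {T : Set ((ch.re n).WF ν (κ ⊕ κ') Λ)} {z : ch.WG n ν κ κ' Λ}

namespace PwD

theorem mem_van {f : ch.P K × (ch.re n).P K × ch.Fm F.mov (ch.re n).hf} :
    f ∈ (ch.kdD ν κ κ' n F e).van z ↔
      f.1 ∈ vanM F e z.1 ∧ f.2.1 ∈ vanM F e (μG z) ∧ f.2.2 = 0 := Iff.rfl

theorem mem_P {f : ch.P K × (ch.re n).P K × ch.Fm F.mov (ch.re n).hf} :
    f ∈ (ch.kdD ν κ κ' n F e).P₀ ↔ f.1 ∈ ch.polF F e ∧ f.2.1 ∈ (ch.re n).polF F e :=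
  and_congr_right fun _ => and_iff_left trivial

theorem mt_all (hz : z ∈ ZD F T) (j : J) : Mt z.1.2 z.2 j :=
  (em (j ∈ F.mov)).elim (mm_eq_zero.1 hz.2.2.2 j) (hz.1.2.2 j)

theorem ZD_mono {T' : Set ((ch.re n).WF ν (κ ⊕ κ') Λ)} (h : T ⊆ T') (hz : z ∈ ZD F T) :
    z ∈ ZD F T' := ⟨⟨hz.1.1, h hz.1.2.1, hz.1.2.2⟩, hz.2⟩

theorem pbT_inj {M M' : ι → ℕ} {φ : HV M M'} (h : ∀ i, Surjective (φ i)) {σ : Type} [Fintype σ]
    (τ : σ → ι) : Injective (pbT φ τ) := fun μ μ' e => ContinuousMultilinearMap.ext fun v => by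
  choose c hc using fun s => h (τ s) (v s)
  exact funext hc ▸ DFunLike.congr_fun e c

/-- the relation between the three components at the point `y` -/
def Rl (d : PD K ch.Zt ch.Th) {ν' : Type} [Fintype ν'] (w : ch.Lb n ν') (y : (ch.re n).Pt)
    (f : ch.P K × (ch.re n).P K × ch.Fm F.mov (ch.re n).hf) : Prop :=
  evZ (lpt w y) f.1 = resF K w.2.1 (evZ y f.2.1) + d.dEq pwT (uZ y f.2.2)

theorem mem_obs (h : ch.Fits F e) (hm : ∀ j, Mt z.1.2 z.2 j)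
    {f : ch.P K × (ch.re n).P K × ch.Fm F.mov (ch.re n).hf} :
    f ∈ (ch.kdD ν κ κ' n F e).obs z ↔ f.1 ∈ obsM F e z.1 ∧ f.2.1 ∈ obsM F e (μG z) ∧
      ∀ y ∈ gr z.2.1, Rl (pd F e z.1 (lpt z.2 y)) z.2 y f := by
  simp only [mem_obsD, pdL_eq h hm, Rl]

theorem lpt_tz {ν' : Type} [Fintype ν'] (w : ch.Lb n ν') (t : ι → ℂ) (y : (ch.re n).Pt) :
    lpt w (tz t y) = tz t (lpt w y) :=
  Prod.ext (GlP.apV_smul _ _ _) (funext fun _ => ContinuousLinearMap.smul_comp _ _ _)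

theorem scF_add {b l : J → ℂ} {e lk : K → ℂ} (a a' : Fib ch.Th K ch.Zt) :
    PD.scF b l e lk (a + a') = PD.scF b l e lk a + PD.scF b l e lk a' :=
  Prod.ext (funext₂ fun _ _ => add_div _ _ _) (funext₂ fun _ _ => add_div _ _ _)

theorem Rl.tz (hs : ch.Std F e K₀ ℓ) {ν' : Type} [Fintype ν'] {w : ch.Lb n ν'} {x : ch.WF ν κ Λ}
    {y : (ch.re n).Pt} {t : ι → ℂ} (ht : ∀ i, t i ≠ 0)
    {f : ch.P K × (ch.re n).P K × ch.Fm F.mov (ch.re n).hf} (h1 : f.1 ∈ ch.polF F e)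
    (h2 : f.2.1 ∈ (ch.re n).polF F e) (h : Rl (pd F e x (lpt w (tz t y))) w (tz t y) f) :
    Rl (pd F e x (lpt w y)) w y f := by
  rw [Rl, lpt_tz] at h
  rw [Rl, evZ_tz hs.inv hs.fits hs.wt ht _ h1, evZ_tz hs.inv (hs.re n).fits (hs.re n).wt ht _ h2,
    pd_tz hs.inv hs.fits hs.wt ht, h, scF_add,
    ← PD.sc_dEq (fun _ => chr_ne_zero ht) (fun _ => zp_ne ht _)]
  refine congrArg₂ (· + ·) rfl (congrArg _ (funext fun j => LinearMap.ext fun m => ?_))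
  rw [← chr_wd ht]
  exact inv_mul_cancel_left₀ (chr_ne_zero ht) _

section curve

variable {X : Type} [TopologicalSpace X] [T2Space X] [CompactSpace X] {Q : RS X}
  {N : Finset (X × X)} {A : ι → LB Q} {π : X → V n.M} {u : X → ∀ l, (ch.re n).E l →L[ℂ] ℂ}
  {p : Mk ν (κ ⊕ κ') → X} {ξ : X → ℂ} {s : J → X → ℂ}

theorem rl_all (hs : ch.Std F e K₀ ℓ) (c : Cr N A z.2.1 π u p ξ)
    {f : ch.P K × (ch.re n).P K × ch.Fm F.mov (ch.re n).hf} (h1 : f.1 ∈ ch.polF F e)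
    (h2 : f.2.1 ∈ (ch.re n).polF F e)
    (h : ∀ y, Rl (pd F e z.1 (lpt z.2 (π y, u y))) z.2 (π y, u y) f) :
    ∀ y ∈ gr z.2.1, Rl (pd F e z.1 (lpt z.2 y)) z.2 y f := fun y hy => by
  obtain ⟨y, t, b, rfl⟩ := c.mem_gr.1 hy
  refine Rl.tz hs (y := tz t (π y, u y)) (t := t⁻¹) (fun i => inv_ne_zero (b i)) h1 h2 ?_
  rw [tz_inv b]
  exact h y

/-- the pull-back of the tests -/
noncomputable abbrev iT (φ : HV n.M ch.M) (j : J) : ch.Th j →ₗ[ℂ] (ch.re n).Th j :=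
  (pbT φ _).toLinearMap

/-- the pull-back of the tests -/
noncomputable abbrev iZ (φ : HV n.M ch.M) (ζ : ch.Zt) : (ch.re n).Zt := fun i => ζ i ∘L φ i

theorem sub_cd (h : ch.Fits F e) (hm : ∀ j, Mt z.1.2 z.2 j) :
    (cd F e K₀ (μG z) A π u s).sub (iT z.2.2.1) (iZ z.2.2.1) pwT =
      cd F e K₀ z.1 A (fun y => apV z.2.2.1 (π y)) (fun y l => u y l ∘L z.2.2.2 l) s := by
  have a : ∀ k ζ j y, (pd F e (μG z) (π y, u y)).D k (iZ z.2.2.1 ζ) j =
      (pd F e z.1 (apV z.2.2.1 (π y), fun l => u y l ∘L z.2.2.2 l)).D k ζ j := fun k ζ j y =>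
    congrArg (fun d => d.D k ζ j) (pdL_eq h hm (π y, u y))
  simp only [cd, CD.sub, a]
  rfl

theorem pw_iZ (φ : HV n.M ch.M) (ζ : ch.Zt) (j : J) : pwT (iZ φ ζ) j = iT φ j (pwT ζ j) := rfl

open Classical in
theorem exists_cd (hs : ch.Std F e K₀ ℓ) (hz : z ∈ ZD F T) :
    ∃ (X : Type) (_ : TopologicalSpace X) (_ : T2Space X) (_ : CompactSpace X)
      (Q : RS X) (N : Finset (X × X)) (A : ι → LB Q) (π : X → V n.M) (u : _) (p : _)
      (ξ ξ' : X → ℂ) (s : J → X → ℂ), Cr N A z.2.1 π u p ξ ∧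
      Cr (N ∪ prs p) A z.1.2 (fun y => apV z.2.2.1 (π y)) (fun y l => u y l ∘L z.2.2.2 l)
        (fun a => p (inc a)) ξ' ∧
      (cd F e K₀ (μG z) A π u s).Ok N (fun j => bz A (ch.wd j)) (fun k => bz A (F.dk ℓ k))
        (bz A fun i => ∑ r, K₀.γ r * ℓ r i) ∧
      ((cd F e K₀ (μG z) A π u s).sub (iT z.2.2.1) (iZ z.2.2.1) pwT).Ok N
        (fun j => bz A (ch.wd j)) (fun k => bz A (F.dk ℓ k))
        (bz A fun i => ∑ r, K₀.γ r * ℓ r i) := by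
  obtain ⟨X, _, _, _, Q, N, A, π, u, p, ξ, ξ', c', -, -, c⟩ := hz.1.1.exists_cr
  obtain ⟨s, a, b⟩ := c'.mem_sol.1 hz.2.2.1.2
  have d : ∀ y, ((μG z).1, fun j => s j y) ∈ F.cone := fun y =>
    ⟨hz.2.1.1.1, by simpa using b y 1 fun _ => one_ne_zero⟩
  refine ⟨X, _, ‹_›, ‹_›, Q, N, A, π, u, p, ξ, ξ', s, c', c,
    cd_ok (x := μG z) hs.inv hs.reg (hs.re n).fits (hs.re n).wt c' a d, ?_⟩
  rw [sub_cd hs.fits (mt_all hz)]
  exact (cd_ok hs.inv hs.reg hs.fits hs.wt c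
    (fun j y μ => (congrArg (u y _) (mt_all hz j μ)).trans (a j y _)) d).anti
      Finset.subset_union_left

end curve

theorem exists_obs (hs : ch.Std F e K₀ ℓ) (hz : z ∈ ZD F T) {f : ch.P K} (hf : f ∈ obsM F e z.1) :
    ∃ g, (f, g, 0) ∈ (ch.kdD ν κ κ' n F e).obs z := by
  classical
  obtain ⟨X, _, _, _, Q, N, A, π, u, p, ξ, ξ', s, c', c, o', o⟩ := exists_cd hs hz
  have a := (CD.mem_Ob_union.1 ((map_obsM (K₀ := K₀) (s := s) hs.inv hs.fits hs.wt hs.cuts.ne c).le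
    ⟨f, hf, rfl⟩)).1
  rw [← sub_cd hs.fits (mt_all hz)] at a
  obtain ⟨g, b, d⟩ := o'.exists_resG c'.par.nd o (fun _ _ _ => rfl)
    (fun j _ => pbT_inj hz.1.1.surj _)
    (fun j _ => (congrArg _ (bz_wd (ch := ch) j)).trans (GlP.h1_bz c' (hs.cuts.ne _))) a
  obtain ⟨g, k, rfl⟩ := (map_obsM (x := μG z) hs.inv (hs.re n).fits (hs.re n).wt hs.cuts.ne c').ge b
  refine ⟨g, (mem_obs hs.fits (mt_all hz)).2 ⟨hf, k, rl_all hs c' hf.1 k.1 fun y => ?_⟩⟩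
  rw [Rl, map_zero, map_zero, add_zero]
  exact (congrArg (evG y) d).symm

theorem exists_ker (hs : ch.Std F e K₀ ℓ) (hz : z ∈ ZD F T) {f : ch.P K} {g : (ch.re n).P K}
    (hf : (f, g, 0) ∈ (ch.kdD ν κ κ' n F e).obs z) (h : f ∈ vanM F e z.1) :
    ∃ v : (ch.re n).Fm F.mov (ch.re n).hf, g - dSc F e (μG z) v ∈ vanM F e (μG z) ∧
      ∀ j, v j ∘L pbT z.2.2.1 _ = 0 := by
  classical
  obtain ⟨X, _, _, _, Q, N, A, π, u, p, ξ, ξ', s, c', c, o', o⟩ := exists_cd hs hz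
  obtain ⟨-, a, b⟩ := (mem_obs hs.fits (mt_all hz)).1 hf
  obtain ⟨Y, d, d1, d2⟩ := (o'.resG_eq_zero o (fun _ _ _ => rfl)
    ((map_obsM (x := μG z) hs.inv (hs.re n).fits (hs.re n).wt hs.cuts.ne c').le ⟨g, a, rfl⟩)).1
      (ext_evG fun y => by
        have := b _ (c'.gr y)
        rw [Rl, map_zero, map_zero, add_zero] at this
        exact this.symm.trans ((mem_vanM.1 h).2 _ (c.gr y)))
  choose v hv using fun j : F.mov => exists_lift (u := fun y => u y (some j))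
    (v := fun y => (evY y Y j).toContinuousLinearMap) fun μ =>
      c'.u_surj (hs.cuts.ne _) (bz_wd (ch := ch) (A := A) j ▸ d.2 j μ)
  refine ⟨v, (mem_vanM_iff hs.inv (hs.re n).fits c').2 ⟨sub_mem a.1 (dSc_mem (hs.re n).fits _ _),
    ?_⟩, fun j => ContinuousLinearMap.ext fun μ => c'.u_inj fun y =>
      (hv j y _).trans (congrFun (LinearMap.congr_fun (d1 j) μ) y)⟩
  rw [map_sub, ← d2, sub_eq_zero]
  refine ext_evG fun y => (CD.evG_dG _ _).trans (congrArg ((pd F e (μG z) (π y, u y)).dEq pwT)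
    (funext fun j => LinearMap.ext fun μ => ?_))
  by_cases hj : j ∈ F.mov
  · exact (hv ⟨j, hj⟩ y μ).symm.trans (congrArg (u y _)
      (DFunLike.congr_fun (Fm.ex_mem (ch := ch.re n) (h := (ch.re n).hf) (A := F.mov) v hj) μ)).symm
  · exact (congrFun (LinearMap.congr_fun (d.1 j hj) μ) y).trans ((congrArg (u y _) (DFunLike.congr_fun
      (Fm.ex_not (ch := ch.re n) (h := (ch.re n).hf) (A := F.mov) v hj) μ)).trans (map_zero _)).symm

section lim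

variable {α ν' : Type} [Fintype ν'] {l : Filter α}

theorem tendsto_dEq {d : α → PD K ch.Zt ch.Th} {d₀ : PD K ch.Zt ch.Th} (t : PD.Tends d l d₀ univ)
    {Y : α → ∀ j, ch.Th j →ₗ[ℂ] ℂ} {Y₀ : ∀ j, ch.Th j →ₗ[ℂ] ℂ}
    (h : ∀ j m, Tendsto (fun a => Y a j m) l (𝓝 (Y₀ j m))) :
    Tendsto (fun a => (d a).dEq pwT (Y a)) l (𝓝 (d₀.dEq pwT Y₀)) :=
  (tendsto_pi_nhds.2 fun j => tendsto_pi_nhds.2 fun _ =>
    ((t.tv j trivial _).mul (h j _)).sub ((t.tv j trivial _).mul (h j _))).prodMk_nhds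
    (tendsto_pi_nhds.2 fun k => tendsto_pi_nhds.2 fun ζ => tendsto_finsetSum _ fun j _ =>
      (t.D k ζ j trivial).mul (h j _))

theorem tendsto_uZ {y : α → (ch.re n).Pt} {y₀ : (ch.re n).Pt} (hy : Tendsto y l (𝓝 y₀))
    {v : α → ch.Fm F.mov (ch.re n).hf} {v₀ : ch.Fm F.mov (ch.re n).hf} (hv : Tendsto v l (𝓝 v₀))
    (j : J) (m : ch.Th j) : Tendsto (fun a => uZ (y a) (v a) j m) l (𝓝 (uZ y₀ v₀ j m)) := by
  have a : Continuous fun v : ch.Fm F.mov (ch.re n).hf => Fm.ex v j := by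
    by_cases hj : j ∈ F.mov
    · simp only [Fm.ex_mem _ hj]
      exact continuous_iff_continuousAt.2 fun _ => (Fm.an_iff.1 analyticAt_id _).continuousAt
    · simp only [Fm.ex_not _ hj, continuous_const]
  exact (Continuous.clm_apply (f := fun q : (ch.re n).Pt × ch.Fm F.mov (ch.re n).hf => q.1.2 (some j))
    (g := fun q => Fm.ex q.2 j m) (by fun_prop) ((a.comp continuous_snd).clm_apply
      continuous_const)).tendsto (y₀, v₀) |>.comp (hy.prodMk_nhds hv)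

theorem continuous_resF {f : (ch.re n).P K} (hf : f ∈ (ch.re n).polF F e) :
    Continuous fun q : HV n.M ch.M × (ch.re n).Pt => resF K q.1 (evZ q.2 f) := by
  have a : ∀ j (m : ch.Th j), Continuous fun q : HV n.M ch.M × (ch.re n).Pt => pbT q.1 _ m :=
    fun j m => ((continuous_iff_continuousAt.2 fun φ : HV n.M ch.M =>
      (GlA.an_pbT analyticAt_id (Sigma.fst : (Σ i, Fin (ch.b j i)) → ι)).continuousAt).comp
        continuous_fst).clm_apply continuous_const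
  exact (continuous_pi fun j => continuous_pi fun m : ch.Th j × ch.Th j =>
    (cont_G1 ((mem_polS.1 hf).1 j)).comp (continuous_snd.prodMk ((a j m.1).prodMk (a j m.2)))).prodMk
    (continuous_pi fun k => continuous_pi fun ζ => (cont_G2 ((mem_polS.1 hf).2 k)).comp
      (continuous_snd.prodMk (continuous_pi fun i => continuous_const.clm_comp
        ((continuous_apply i).comp continuous_fst))))

variable {w : α → ch.Lb n ν'} {w₀ : ch.Lb n ν'} {y : α → (ch.re n).Pt} {y₀ : (ch.re n).Pt}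

theorem tendsto_lpt (hw : Tendsto w l (𝓝 w₀)) (hy : Tendsto y l (𝓝 y₀)) :
    Tendsto (fun a => lpt (w a) (y a)) l (𝓝 (lpt w₀ y₀)) :=
  (continuous_lpt.tendsto (w₀, y₀)).comp (hw.prodMk_nhds hy)

theorem Rl.lim [l.NeBot] {d : α → PD K ch.Zt ch.Th} {d₀ : PD K ch.Zt ch.Th}
    (t : PD.Tends d l d₀ univ) (hw : Tendsto w l (𝓝 w₀)) (hy : Tendsto y l (𝓝 y₀))
    {f : α → ch.P K × (ch.re n).P K × ch.Fm F.mov (ch.re n).hf}
    {f₀ : ch.P K × (ch.re n).P K × ch.Fm F.mov (ch.re n).hf} (hf : Tendsto f l (𝓝 f₀))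
    (h1 : ∀ᶠ a in l, (f a).1 ∈ ch.polF F e) (h2 : ∀ᶠ a in l, (f a).2.1 ∈ (ch.re n).polF F e)
    (h : ∀ᶠ a in l, Rl (d a) (w a) (y a) (f a)) : Rl d₀ w₀ y₀ f₀ :=
  have a : Tendsto (fun a => (w a).2.1) l (𝓝 w₀.2.1) := tendsto_pi_nhds.2 fun i =>
    ((Lb.an_iff.1 analyticAt_id).2.1 i).continuousAt.tendsto.comp hw
  tendsto_nhds_unique_of_eventuallyEq (tendsto_evZ h1 (isClosed_polS.mem_of_tendsto hf.fst_nhds h1)
    hf.fst_nhds (tendsto_lpt hw hy))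
    ((RepP.tendsto_fd (ev := fun q : HV n.M ch.M × (ch.re n).Pt => resF K q.1 ∘ₗ evZ q.2)
      (fun _ => continuous_resF) h2 (isClosed_polS.mem_of_tendsto hf.snd_nhds.fst_nhds h2)
      hf.snd_nhds.fst_nhds (a.prodMk_nhds hy)).add
      (tendsto_dEq t (tendsto_uZ hy hf.snd_nhds.snd_nhds))) h

end lim

variable (F e) in
/-- divided differences of the equations -/
noncomputable def dv (z : ch.WG n ν κ κ' Λ) (y : (ch.re n).Pt) : PD K ch.Zt ch.Th :=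
  ⟨tvZ (lpt z.2 y).1, fun k ζ => dd (F.G k).support (hc F e z.1.1 k ζ (lpt z.2 y).1)
    (fun j => yv z.1.2 (lpt z.2 y) j (pwT ζ j)) fun j => -uZ y (mm F.mov z.1.2 z.2) j (pwT ζ j),
    (pd F e z.1 (lpt z.2 y)).tot⟩

theorem rl_s (hm : ∀ j ∉ F.mov, Mt z.1.2 z.2 j) (y : (ch.re n).Pt) :
    Rl (dv F e z y) z.2 y ((ch.kdD ν κ κ' n F e).s z) := by
  have a : ∀ j m, yv z.1.2 (lpt z.2 y) j m =
      yv z.2.1 y j (pbT z.2.2.1 _ m) + uZ y (mm F.mov z.1.2 z.2) j m := fun j m => by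
    rw [uF_apply]
    by_cases hj : j ∈ F.mov
    · rw [Fm.ex_mem _ hj]
      exact eq_add_of_sub_eq' (map_sub (y.2 (some j)) _ _).symm
    · rw [Fm.ex_not _ hj, _root_.zero_apply, map_zero, add_zero]
      exact congrArg (y.2 (some j)) (hm j hj m)
  change evZ _ (sctF F e z.1) = resF K _ (evZ y (sctF F e (μG z))) + _
  rw [evZ_sctF, evZ_sctF]
  refine Prod.ext (funext₂ fun j m => ?_) (funext₂ fun k ζ => ?_)
  · exact (congrArg (kos _ · m) (LinearMap.ext (a j) :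
      _ = yv z.2.1 y j ∘ₗ iT z.2.2.1 j + uZ y (mm F.mov z.1.2 z.2) j)).trans (kos_add _ _)
  · have := eval_add_plw (T := (F.G k).support) (c := hc F e z.1.1 k ζ (lpt z.2 y).1)
      (fun j => yv z.1.2 (lpt z.2 y) j (pwT ζ j)) fun j => -uZ y (mm F.mov z.1.2 z.2) j (pwT ζ j)
    rw [show ((fun j => yv z.1.2 (lpt z.2 y) j (pwT ζ j)) + fun j =>
      -uZ y (mm F.mov z.1.2 z.2) j (pwT ζ j)) = fun j => yv z.2.1 y j (pbT z.2.2.1 _ (pwT ζ j)) from
        funext fun j => (congrArg (· + _) (a j _)).trans (add_neg_cancel_right _ _)] at this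
    simp only [mul_neg, Finset.sum_neg_distrib] at this
    exact (eq_add_of_add_neg_eq this.symm :)

theorem continuous_mm : Continuous fun z : ch.WG n ν κ κ' Λ => mm F.mov z.1.2 z.2 :=
  (continuous_iff_continuousAt.2 fun z => (analyticAt_mm F.mov z).continuousAt).comp
    (continuous_fst.snd.prodMk continuous_snd)

theorem tends_dv {α : Type} {l : Filter α} {z : α → ch.WG n ν κ κ' Λ} {z₀ : ch.WG n ν κ κ' Λ}
    {y : α → (ch.re n).Pt} {y₀ : (ch.re n).Pt} (hz : Tendsto z l (𝓝 z₀)) (hy : Tendsto y l (𝓝 y₀))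
    (h0 : mm F.mov z₀.1.2 z₀.2 = 0) :
    PD.Tends (fun a => dv F e (z a) (y a)) l (pd F e z₀.1 (lpt z₀.2 y₀)) univ := by
  have a := tendsto_lpt hz.snd_nhds hy
  have b := (continuous_mm.tendsto' _ _ h0).comp hz
  refine ⟨fun j _ m => tendsto_tvZ a j m, fun k ζ j _ => ?_, fun k ζ => tendsto_prod_pow a ζ _⟩
  simp only [pd, hp_eq, ← dd_zero]
  exact tendsto_dd (tendsto_hc hz.fst_nhds a k ζ)
    (tendsto_pi_nhds.2 fun j => tendsto_yv hz.fst_nhds a j _) (tendsto_pi_nhds.2 fun j => by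
      simpa using (tendsto_uZ hy b j (pwT ζ j)).neg) j

theorem Rl.smul_add {d : PD K ch.Zt ch.Th} {y : (ch.re n).Pt}
    {f g : ch.P K × (ch.re n).P K × ch.Fm F.mov (ch.re n).hf} (h : Rl d z.2 y f) (c : ℂ)
    (hz : Gl z.1.2 z.2) (hy : y ∈ gr z.2.1) (hg : g ∈ (ch.kdD ν κ κ' n F e).van z) :
    Rl d z.2 y (c • f + g) := by
  obtain ⟨a, b, k⟩ := mem_van.1 hg
  simp only [Rl, Prod.fst_add, Prod.snd_add, Prod.smul_fst, Prod.smul_snd, map_add, map_smul,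
    (mem_vanM.1 a).2 _ (hz.lpt_mem hy), (mem_vanM.1 b).2 _ hy, k, add_zero]
  exact (congrArg _ h).trans (_root_.smul_add _ _ _)

theorem van_le (hz : Gl z.1.2 z.2) : (ch.kdD ν κ κ' n F e).van z ≤ (ch.kdD ν κ κ' n F e).obs z :=
  fun f hf => mem_obsD.2 ⟨vanM_le_obsM hf.1, vanM_le_obsM hf.2.1, fun y hy => by
    rw [(mem_vanM.1 hf.1).2 _ (hz.lpt_mem hy), (mem_vanM.1 hf.2.1).2 _ hy, (mem_van.1 hf).2.2,
      map_zero, map_zero, map_zero, add_zero]⟩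

theorem finrank_sprod {V V' : Type} [AddCommGroup V] [Module ℂ V] [AddCommGroup V'] [Module ℂ V']
    (U : Submodule ℂ V) (U' : Submodule ℂ V') [FiniteDimensional ℂ U] [FiniteDimensional ℂ U'] :
    FiniteDimensional ℂ (U.prod U') ∧ finrank ℂ (U.prod U') = finrank ℂ U + finrank ℂ U' := by
  rw [← Module.finrank_prod, ← LinearMap.finrank_range_of_inj (f := U.subtype.prodMap U'.subtype)
    (U.injective_subtype.prodMap U'.injective_subtype), show U.prod U' =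
      LinearMap.range (U.subtype.prodMap U'.subtype) by
        rw [LinearMap.range_prodMap, Submodule.range_subtype, Submodule.range_subtype]]
  exact ⟨inferInstance, rfl⟩

theorem fin_P : FiniteDimensional ℂ (ch.kdD ν κ κ' n F e).P₀ :=
  haveI := (finrank_sprod ((ch.re n).polF F e) (⊤ : Submodule ℂ (ch.Fm F.mov (ch.re n).hf))).1
  (finrank_sprod _ _).1

theorem finrank_van : finrank ℂ ((ch.kdD ν κ κ' n F e).van z) =
    finrank ℂ (vanM F e z.1) + finrank ℂ (vanM F e (μG z)) := by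
  have : FiniteDimensional ℂ (vanM F e z.1) := Submodule.finiteDimensional_inf_left _ _
  have : FiniteDimensional ℂ (vanM F e (μG z)) := Submodule.finiteDimensional_inf_left _ _
  obtain ⟨a, b⟩ := finrank_sprod (vanM F e (μG z)) (⊥ : Submodule ℂ (ch.Fm F.mov (ch.re n).hf))
  exact (finrank_sprod _ _).2.trans (by rw [b, finrank_bot, add_zero])

theorem ok_pb {A A' W W' P : Type} [NormedRing A] [NormedAlgebra ℂ A] [NormedAddCommGroup W]
    [NormedSpace ℂ W] [NormedRing A'] [NormedAlgebra ℂ A'] [NormedAddCommGroup W'] [NormedSpace ℂ W']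
    [AddCommGroup P] [Module ℂ P] [TopologicalSpace P] {D : KD A W P} {act : A → W → W}
    {act' : A' → W' → W'} {O : Set W} {O' : Set W'} {v r : ℕ} {θ : A' → A} {f : W' → W}
    (h : D.Ok act O v r) (hf : EqM act' act univ univ θ f) (hm : MapsTo f O' O) :
    (D.pb θ f).Ok act' O' v r :=
  let ⟨θ', c, e⟩ := hf.hom
  h.pb θ' c (fun g => (e g).symm) (hf.cont.mono (subset_univ _)) hm
    fun x _ a ha => hf.eqv a ha x trivial

theorem finrank_pr {V V' : Type} [AddCommGroup V] [Module ℂ V] [AddCommGroup V'] [Module ℂ V']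
    [FiniteDimensional ℂ V] [FiniteDimensional ℂ V'] :
    finrank ℂ (V × V') = finrank ℂ V + finrank ℂ V' := Module.finrank_prod

theorem isClosed_sub {W P : Type} [TopologicalSpace W] [TopologicalSpace P] {O : Set W}
    {B : W → P → Prop} (h : ∀ (α : Type) (l : Filter α) (x : α → W) (f : α → P) x₀ f₀, l.NeBot →
      x₀ ∈ O → (∀ a, x a ∈ O) → Tendsto x l (𝓝 x₀) → Tendsto f l (𝓝 f₀) →
      (∀ᶠ a in l, B (x a) (f a)) → B x₀ f₀) : IsClosed {z : O × P | B z.1 z.2} :=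
  isClosed_of_closure_subset fun z hz => h _ (𝓝[_] z) (fun y : O × P => y.1.1) Prod.snd _ _
    (mem_closure_iff_nhdsWithin_neBot.1 hz) z.1.2 (fun y => y.1.2)
    ((continuous_subtype_val.comp continuous_fst).tendsto z |>.mono_left nhdsWithin_le_nhds)
    (continuous_snd.tendsto z |>.mono_left nhdsWithin_le_nhds) self_mem_nhdsWithin

theorem van_lim (hn : ch.GN n κ') {α : Type} {l : Filter α} [l.NeBot] {x : α → ch.WG n ν κ κ' Λ}
    (hx : ∀ a, Gl (x a).1.2 (x a).2) (h0 : Gl z.1.2 z.2) (h1 : Tendsto x l (𝓝 z))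
    {f : α → ch.P K × (ch.re n).P K × ch.Fm F.mov (ch.re n).hf}
    {f₀ : ch.P K × (ch.re n).P K × ch.Fm F.mov (ch.re n).hf} (h2 : Tendsto f l (𝓝 f₀))
    (hf : ∀ᶠ a in l, f a ∈ (ch.kdD ν κ κ' n F e).van (x a)) : f₀ ∈ (ch.kdD ν κ κ' n F e).van z :=
  ⟨hn.cuts.van_lim (.of_forall fun a => (hx a).mem) h0.mem h1.fst_nhds (hf.mono fun _ a => a.1)
    h2.fst_nhds, hn.cuts'.van_lim (x := fun a => μG (x a)) (.of_forall fun a => (hx a).mem') h0.mem'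
      ((analyticAt_μG z).continuousAt.tendsto.comp h1) (hf.mono fun _ a => a.2.1)
      h2.snd_nhds.fst_nhds, tendsto_nhds_unique_of_eventuallyEq h2.snd_nhds.snd_nhds
        tendsto_const_nhds (hf.mono fun _ a => (mem_van.1 a).2.2)⟩

variable (F z) in
theorem p₂_fst : (p₂ F z).1 = z.1 := (congrArg Prod.fst (p₂_apply (F := F) (z := z)) :)

theorem μG_add (v : (ch.re n).Fm F.mov (ch.re n).hf) : μG (z + ι₂ F v) = μG z + (0, ιX v) :=
  Prod.ext rfl rfl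

theorem van_add (v : (ch.re n).Fm F.mov (ch.re n).hf) :
    vanM F e (μG (z + ι₂ F v)) = vanM F e (μG z) :=
  (congrArg (fun y : ch.WG n ν κ κ' Λ => vanM F e (μG y)) (add_ι₂ v)).trans rfl

theorem mm_add (v : (ch.re n).Fm F.mov (ch.re n).hf) :
    mm F.mov (z + ι₂ F v).1.2 (z + ι₂ F v).2 = mm F.mov z.1.2 z.2 + (E₂ F e (z + ι₂ F v) v).2.2 := by
  refine (congrArg (fun y : ch.WG n ν κ κ' Λ => mm F.mov y.1.2 y.2 =
    mm F.mov z.1.2 z.2 + (E₂ F e y v).2.2) (add_ι₂ v)).mpr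
      (funext fun j => ContinuousLinearMap.ext fun μ => ?_)
  change _ - (z.2.1.X j _ + Fm.ex v j _) = _ - z.2.1.X j _ + -v j _
  rw [Fm.ex_mem _ j.2, sub_add_eq_sub_sub, sub_eq_add_neg]

end PwD

open PwD

variable (hs : ch.Std F e K₀ ℓ) (hn : ch.GN n κ')
include hs hn

theorem zero_kdD (hz : z ∈ ch.OD ν κ κ' n F e) :
    (ch.kdD ν κ κ' n F e).s z ∈ (ch.kdD ν κ κ' n F e).van z ↔
      z ∈ ZD F ((ch.re n).adm ν (κ ⊕ κ') F) :=
  ⟨fun h => ⟨⟨hz.1.1, hz.1.2.1.1, hz.1.2.2⟩, hz.2.2 h.1, hz.1.2.1.2 h.2.1, h.2.2⟩, fun h =>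
    ⟨sctF_mem_vanM hs.fits h.2.1, sctF_mem_vanM (hs.re n).fits h.2.2.1, h.2.2.2⟩⟩

/-- every obstruction on the glued curve extends -/
theorem srj_DL : (ch.kdD ν κ κ' n F e).Srj (ch.kdL ν κ κ' n F e) id
    (ZD F ((ch.re n).adm ν (κ ⊕ κ') F)) (LinearMap.fst ℂ _ _) := fun z hz f hf =>
  let ⟨_, h⟩ := exists_obs hs hz hf
  ⟨_, h, (congrArg (· ∈ vanM F e z.1) (sub_self f)).mpr (zero_mem _)⟩

theorem ker_DL (hz : z ∈ ZD F ((ch.re n).adm ν (κ ⊕ κ') F)) {f} (hf : f ∈ (ch.kdD ν κ κ' n F e).obs z)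
    (h : f.1 ∈ vanM F e z.1) : ∃ v, f - E₂ F e z v ∈ (ch.kdD ν κ κ' n F e).van z := by
  choose q hq using fun j : J => ContinuousLinearMap.HasLeftInverse.of_injective_of_finiteDimensional
    (pbT_inj hz.1.1.surj (Sigma.fst : (Σ i, Fin (ch.b j i)) → ι))
  let v₀ : (ch.re n).Fm F.mov (ch.re n).hf := fun j => -f.2.2 j ∘L q j
  have a : f - E₂ F e z v₀ = (f.1, f.2.1 - dSc F e (μG z) v₀, 0) :=
    Prod.ext (sub_zero _) (Prod.ext rfl (funext fun j => ContinuousLinearMap.ext fun μ =>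
      sub_eq_zero.2 ((congrArg (f.2.2 j) (hq j μ)).symm.trans (neg_neg _).symm)))
  obtain ⟨v, b, c⟩ := exists_ker hs hz (a ▸ sub_mem hf (E₂_obs hs.fits v₀)) h
  refine ⟨v₀ + v, ?_⟩
  rw [map_add, ← sub_sub, a]
  exact ⟨sub_mem h (zero_mem _), b, funext fun j => ContinuousLinearMap.ext fun μ =>
    sub_eq_zero.2 (neg_eq_zero.2 (DFunLike.congr_fun (c j) μ)).symm⟩

theorem inj_E₂ (hz : z ∈ ZD F ((ch.re n).adm ν (κ ⊕ κ') F)) {v}
    (h : E₂ F e z v ∈ (ch.kdD ν κ κ' n F e).van z) : v = 0 :=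
  funext fun j => ContinuousLinearMap.ext fun μ => GlP.E_ext hz.1.1.mem' fun y hy => by
    obtain ⟨m, hm⟩ := exists_val_one (a := ch.b j) (hz.1.1.lpt_mem hy).1
    have a : val (pbT z.2.2.1 _ m) y.1 * y.2 _ (Fm.ex v j μ) -
        val μ y.1 * y.2 _ (Fm.ex v j (pbT z.2.2.1 _ m)) = 0 :=
      congrFun (congrFun (congrArg Prod.fst ((mem_vanM.1 h.2.1).2 y hy)) j) (μ, pbT z.2.2.1 _ m)
    have b : v j (pbT z.2.2.1 _ m) = 0 :=
      neg_eq_zero.1 (DFunLike.congr_fun (congrFun (mem_van.1 h).2.2 j) m)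
    rw [Fm.ex_mem _ j.2, b, map_zero, mul_zero, sub_zero, val_pbT, 
      show val m (apV z.2.2.1 y.1) = 1 from hm, one_mul] at a
    exact a.trans (map_zero _).symm

theorem PwD.finrank_obs (hz : z ∈ ZD F ((ch.re n).adm ν (κ ⊕ κ') F)) :
    finrank ℂ ((ch.kdD ν κ κ' n F e).obs z) = finrank ℂ (obsM F e z.1) +
      (finrank ℂ (vanM F e (μG z)) + finrank ℂ ((ch.re n).Fm F.mov (ch.re n).hf)) := by
  have := fin_P (ch := ch) (n := n) (ν := ν) (κ := κ) (κ' := κ') (F := F) (e := e)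
  have : FiniteDimensional ℂ ((ch.kdD ν κ κ' n F e).obs z) :=
    Submodule.finiteDimensional_of_le (S₂ := (ch.kdD ν κ κ' n F e).P₀) fun f hf =>
      mem_P.2 ⟨(mem_obsD.1 hf).1.1, (mem_obsD.1 hf).2.1.1⟩
  have : FiniteDimensional ℂ (vanM F e (μG z)) := Submodule.finiteDimensional_inf_left _ _
  let Ψ : vanM F e (μG z) × (ch.re n).Fm F.mov (ch.re n).hf →ₗ[ℂ]
      ch.P K × (ch.re n).P K × ch.Fm F.mov (ch.re n).hf :=
    (LinearMap.inr ℂ _ _ ∘ₗ LinearMap.inl ℂ _ _ ∘ₗ (vanM F e (μG z)).subtype).coprod (E₂ F e z)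
  have v : ∀ g : vanM F e (μG z), (0, g.1, 0) ∈ (ch.kdD ν κ κ' n F e).van z := fun g =>
    ⟨zero_mem _, g.2, rfl⟩
  have i : Injective Ψ := (injective_iff_map_eq_zero _).2 fun q hq => by
    have a : q.2 = 0 := inj_E₂ hs hn hz (eq_neg_of_add_eq_zero_right hq ▸ neg_mem (v q.1))
    refine Prod.ext (Subtype.ext ?_) a
    rw [LinearMap.coprod_apply, a, map_zero, add_zero] at hq
    exact congrArg (·.2.1) hq
  rw [← finrank_map_add (LinearMap.fst ℂ _ _) (U := (ch.kdD ν κ κ' n F e).obs z)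
    (W := LinearMap.range Ψ) fun f => ⟨?_, fun ⟨a, b⟩ => ?_⟩, LinearMap.finrank_range_of_inj i,
    finrank_pr]
  · refine congrArg (fun U : Submodule ℂ (ch.P K) => finrank ℂ U + _) (le_antisymm ?_ fun f hf => ?_)
    · rintro _ ⟨f, hf, rfl⟩
      exact (mem_obsD.1 hf).1
    · exact let ⟨_, h⟩ := exists_obs hs hz hf; ⟨_, h, rfl⟩
  · rintro ⟨q, rfl⟩
    exact ⟨add_mem (van_le hz.1.1 (v q.1)) (E₂_obs hs.fits _), add_zero _⟩
  · obtain ⟨w, c⟩ := ker_DL hs hn hz a ((congrArg (· ∈ vanM F e z.1) b).mpr (zero_mem _))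
    exact ⟨(⟨_, c.2.1⟩, w), add_eq_of_eq_sub (Prod.ext (b.symm.trans (sub_zero f.1).symm)
      (Prod.ext rfl (mem_van.1 c).2.2.symm))⟩

theorem ok_kdD : ∃ v, (ch.kdD ν κ κ' n F e).Ok (actG F.toWt) (ch.OD ν κ κ' n F e) v
    (finrank ℂ ((ch.re n).Fm F.mov (ch.re n).hf) + (ch.rk F ℓ K₀).toNat) := by
  obtain ⟨v₁, o₁⟩ := hs.ok (ν := ν) (κ := κ)
  obtain ⟨v₂, o₂⟩ := (hs.re n).ok (ν := ν) (κ := κ ⊕ κ')
  replace o₁ := ok_pb o₁ eqM_fst (O' := ch.OD ν κ κ' n F e) fun _ h => h.2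
  replace o₂ := ok_pb o₂ eqM_μG (O' := ch.OD ν κ κ' n F e) fun _ h => h.1.2.1
  refine ⟨v₁ + v₂, fin_P, rep_kdD, ⟨fun x _ f hf => mem_P.2 ⟨hf.1.1, hf.2.1.1⟩,
    isClosed_sub (B := fun x f => f ∈ (ch.kdD ν κ κ' n F e).van x)
      fun _ _ _ _ _ _ _ a b c d => van_lim hn (fun k => (b k).1.1) a.1.1 c d,
    fun x hx => finrank_van.trans (congrArg₂ (· + ·) (o₁.fam.rank x hx) (o₂.fam.rank x hx)),
    fun x hx a ha f hf => ⟨o₁.fam.inv x hx a ha _ hf.1, o₂.fam.inv x hx a ha _ hf.2.1,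
      (congrArg (ρH F a) (mem_van.1 hf).2.2).trans (ρM_zero _ _ _)⟩⟩,
    fun x hx => mem_P.2 ⟨o₁.mem x hx, o₂.mem x hx⟩, continuous_sD.continuousOn,
    fun x _ a ha => sD_act hs.inv ha, isClosed_sub (B := fun x f => (ch.kdD ν κ κ' n F e).s x ∈
      (ch.kdD ν κ κ' n F e).van x ∧ f ∈ (ch.kdD ν κ κ' n F e).obs x)
      fun _ l y f x f₀ _ hx d1 d2 d3 d4 => ?_, fun x hx h => ?_,
    fun x _ _ a ha f => obsD_act hs.inv ha, fun x hx _ => van_le hx.1.1,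
    fun x _ _ f hf => mem_P.2 ⟨(mem_obsD.1 hf).1.1, (mem_obsD.1 hf).2.1.1⟩,
    fun x hx h w y r u d1 d2 d3 d4 => ?_⟩
  · have h := van_lim hn (fun k => (d1 k).1.1) hx.1.1 d2 ((continuous_sD.tendsto x).comp d2)
      (d4.mono fun _ a => a.1)
    have m := (zero_kdD hs hn hx).1 h
    have g := d4.mono fun k a => And.intro ((zero_kdD hs hn (d1 k)).1 a.1)
      ((mem_obs hs.fits (mt_all ((zero_kdD hs hn (d1 k)).1 a.1))).1 a.2)
    have t := (analyticAt_μG x).continuousAt.tendsto.comp d2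
    refine ⟨h, (mem_obs hs.fits (mt_all m)).2 ⟨hn.cuts.obs_lim hs.inv hs.reg hs.fits
      (g.mono fun _ a => a.1.2.1) m.2.1 d2.fst_nhds (g.mono fun _ a => a.2.1) d3.fst_nhds,
      hn.cuts'.obs_lim hs.inv hs.reg (hs.re n).fits (g.mono fun _ a => a.1.2.2.1) m.2.2.1 t
        (g.mono fun _ a => a.2.2.1) d3.snd_nhds.fst_nhds, fun p₀ hp => ?_⟩⟩
    obtain ⟨p, a, b⟩ := hn.cuts'.exists_gr (.of_forall fun k => (d1 k).1.1.mem') hx.1.1.mem'
      t.snd_nhds hp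
    exact Rl.lim (tends_pd d2.fst_nhds (tendsto_lpt d2.snd_nhds b)) d2.snd_nhds b d3
      (g.mono fun _ a => a.2.1.1) (g.mono fun _ a => a.2.2.1.1)
      ((g.and a).mono fun _ a => a.1.2.2.2 _ a.2)
  · rw [finrank_obs hs hn ((zero_kdD hs hn hx).1 h), show finrank ℂ (obsM F e x.1) = _ from
      o₁.obs_rank x hx h.1, show finrank ℂ (vanM F e (μG x)) = _ from o₂.fam.rank x hx]
    omega
  · have m := (zero_kdD hs hn hx).1 h
    refine (mem_obs hs.fits (mt_all m)).2 ⟨o₁.cone x hx h.1 _ y r (fun k => (u k).1) d1 d2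
      (fun k => (d3 k).1) d4.fst_nhds, o₂.cone x hx h.2.1 _ y r (fun k => (u k).2.1) d1 d2
      (fun k => (d3 k).2.1) d4.snd_nhds.fst_nhds, fun p₀ hp => ?_⟩
    have t := (analyticAt_μG x).continuousAt.tendsto.comp d2
    obtain ⟨p, a, b⟩ := hn.cuts'.exists_gr (.of_forall fun k => (d1 k).1.1.mem') hx.1.1.mem'
      t.snd_nhds hp
    exact Rl.lim (tends_dv d2 b m.2.2.2) d2.snd_nhds b d4 (.of_forall fun k =>
      add_mem (Submodule.smul_mem _ _ (o₁.mem _ (d1 k))) (d3 k).1.1) (.of_forall fun k =>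
      add_mem (Submodule.smul_mem _ _ (o₂.mem _ (d1 k))) (d3 k).2.1.1)
      (a.mono fun k g => (rl_s (d1 k).1.2.2 _).smul_add _ (d1 k).1.1 g (d3 k))

theorem tt₂ (hT : Lev F T) : Tt (ch.kdD ν κ κ' n F e) (ch.kdL ν κ κ' n F e) (actG F.toWt) (ρ₂ F)
    (p₂ F) (q₂ F) (ZD F T) (ZL F T) (ch.OD ν κ κ' n F e) (LinearMap.fst ℂ _ _) (E₂ F e)
    fun z => lfX F.mov z.1.2 z.2 := by
  have hc : ContinuousOn (fun z : ch.WG n ν κ κ' Λ => lfX F.mov z.1.2 z.2) (ZL F T) :=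
    (continuousOn_lfX hn).mono fun _ h => ⟨h.1.1.1, h.2⟩
  refine ⟨⟨fun _ h => h.1, fun _ _ _ _ => rfl, fun x _ w h => ?_, fun x _ => ?_, fun x _ _ w h => ?_⟩,
    fun _ => ZD_iff₂ hn hT, hc, fun _ _ => E₂_mem hs.fits, fun v => (continuous_E₂ v).continuousOn,
    fun _ _ _ ha => E₂_act hs.inv ha, fun x hx v w y c u d1 d2 d3 d4 => ?_,
    fun _ hx _ => inj_E₂ hs hn (ZD_mono hT.adm hx),
    fun x hx w a b => ker_DL hs hn (ZD_mono hT.adm hx) a
      ((congrArg (fun y => w.1 ∈ vanM F e y) (p₂_fst F x)).mp b)⟩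
  · exact (congrArg (fun y => w.1 ∈ vanM F e y) (p₂_fst F x)).mpr h.1
  · exact (congrArg (fun y => sctF F e x.1 - sctF F e y ∈ vanM F e y) (p₂_fst F x)).mpr
      ((sub_self (sctF F e x.1)).symm ▸ zero_mem _)
  · exact (congrArg (fun y => w.1 ∈ obsM F e y) (p₂_fst F x)).mpr (mem_obsD.1 h).1
  obtain ⟨δ, hδ⟩ : ∃ δ : ℕ → (ch.re n).Fm F.mov (ch.re n).hf,
    ∀ k, q₂ F (y k) - lfX F.mov (p₂ F (y k)).1.2 (p₂ F (y k)).2 = δ k := ⟨_, fun _ => rfl⟩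
  obtain ⟨y', a, b⟩ : ∃ y' : ℕ → ch.WG n ν κ κ' Λ,
      (∀ k, y' k ∈ ZD F T) ∧ ∀ k, y' k + ι₂ F (δ k) = y k :=
    ⟨_, fun k => ZL.lf hn hT (d1 k).2.1, fun k => by
      rw [add_assoc, ← map_add, ← hδ, add_sub_cancel]
      exact spt₂.add _⟩
  obtain ⟨x1, x2⟩ := (ZD_iff₂ hn hT).1 hx
  have t1 : Tendsto δ atTop (𝓝 0) := by
    have := (((q₂ (ch := ch) (n := n) (ν := ν) (κ := κ) (κ' := κ') F).continuous.tendsto x).comp
      d2).sub ((hc _ x1).tendsto.comp (tendsto_nhdsWithin_iff.2 ⟨((p₂ (ch := ch) (n := n) (ν := ν)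
        (κ := κ) (κ' := κ') F).continuous.tendsto x).comp d2,
        .of_forall fun k => (d1 k).2.1⟩))
    rw [x2, sub_self] at this
    exact this.congr hδ
  have t2 : Tendsto y' atTop (𝓝 x) := by
    have := d2.sub (((ι₂ (ch := ch) (n := n) (ν := ν) (κ := κ) (κ' := κ') F).continuous.tendsto' _ _
      (map_zero _)).comp t1)
    rw [sub_zero] at this
    exact this.congr fun k => sub_eq_of_eq_add (b k).symm
  simp only [hδ] at d3
  have t3 := tendsto_dSc (e := e) ((analyticAt_μG x).continuousAt.tendsto.comp t2) t1 d3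
  have t4 := RepP.tendsto_fd (P := ⊤) (ev := E₂ F e) (fun v _ => continuous_E₂ v)
    (.of_forall fun _ => trivial) trivial d3 d2
  refine van_lim hn (fun k => (d1 k).1.1.1) hx.1.1 d2 (d4.sub ((tendsto_const_nhds (x := 0)).prodMk_nhds
    (t3.prodMk_nhds t4.snd_nhds.snd_nhds))) (.of_forall fun k => ?_)
  obtain ⟨u1, u2, u3⟩ := mem_van.1 (d1 k).2.2
  refine ⟨sub_mem (add_mem (Submodule.smul_mem _ _ (sctF_mem_vanM hs.fits
    (mem_of_eq_of_mem (p₂_fst F _).symm (d1 k).2.1.2))) u1) (zero_mem _), ?_, ?_⟩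
  · change c k • sctF F e (μG (y k)) + (u k).2.1 -
      c k • (sctF F e (μG (y' k) + (0, ιX (δ k))) - sctF F e (μG (y' k))) ∈ vanM F e (μG (y k))
    rw [← μG_add, b, smul_sub, add_sub_right_comm, sub_sub_cancel]
    refine add_mem (Submodule.smul_mem _ _ ?_) u2
    rw [← b, van_add]
    exact sctF_mem_vanM (hs.re n).fits (a k).2.2.1
  · change c k • mm F.mov (y k).1.2 (y k).2 + (u k).2.2 - (E₂ F e (y k) (c k • δ k)).2.2 = 0
    rw [u3, add_zero, map_smul, ← b, mm_add (e := e), (a k).2.2.2, zero_add]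
    exact sub_self _

end Vale.Agent.P269.Ch
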