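import Vale.Agent.P287Q.G.Glu.Eqv
import Vale.Agent.P287Q.G.Glu.Diag0
import Vale.Agent.P269.Glu.VrA

set_option linter.unusedSectionVars false

/-!
# The matching conditions at the labelled nodes
-/

namespace Vale.Agent.P269.Ch

open P291Z Set Function Topology Filter Module Base Cv Holo Vir KD

variable {S Λ R J K ι ν κ κ' : Type} [Fintype S] [Fintype Λ] [Fintype R] [Fintype J]
  [Fintype K] [Fintype ι] [DecidableEq ι] [Fintype ν] [Fintype κ] [Fintype κ']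
  {ch : Ch ι J} {n : Nm ι J} {F : Fam S Λ R J K} {e : K → ι → ℕ} {K₀ : RD R} {ℓ : R → ι → ℤ}
  {z : ch.WG n ν κ κ' Λ} {a : ch.AG n ν κ κ' S}

namespace PwJ

variable (ch κ') in
/-- The values of jumps. -/
abbrev PV : Type := κ' → ∀ j, ch.Th j →L[ℂ] ℂ

theorem PV.ext {Y Y' : PV κ' ch} (h : ∀ q j μ, Y q j μ = Y' q j μ) : Y = Y' :=
  funext₂ fun q j => ContinuousLinearMap.ext (h q j)

/-- The labelled node. -/
noncomputable def ndc (z : ch.WG n ν κ κ' Λ) (q : κ') : V ch.M := apV z.2.2.1 (z.2.1.p (nq q false))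

/-- Multiples of the evaluation at the nodes. -/
noncomputable def CV (z : ch.WG n ν κ κ' Λ) : (κ' → J → ℂ) →ₗ[ℂ] PV κ' ch where
  toFun η q j := -η q j • evL (ch.b j) (ndc z q)
  map_add' _ _ := PV.ext fun _ _ _ => (congrArg (· * _) (neg_add _ _)).trans (add_mul _ _ _)
  map_smul' _ _ := PV.ext fun _ _ _ => (congrArg (· * _) (mul_neg _ _).symm).trans (mul_assoc _ _ _)

theorem CV_apply (η : κ' → J → ℂ) (q j μ) : CV z η q j μ = -η q j * val μ (ndc z q) := rfl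

variable (F) in
/-- The jumps. -/
noncomputable def BV (z : ch.WG n ν κ κ' Λ) : ch.Fm F.mov (ch.re n).hf →ₗ[ℂ] PV κ' ch where
  toFun v q j := jmp z.2.1 q (some j) ∘L Fm.ex v j
  map_add' v w := funext₂ fun q j => by
    rw [map_add, Pi.add_apply, ContinuousLinearMap.comp_add]; rfl
  map_smul' c v := funext₂ fun q j => by
    rw [map_smul, Pi.smul_apply, ContinuousLinearMap.comp_smul]; rfl

theorem BV_apply (v q j μ) : BV F z v q j μ = jmpF z.2.1 q v j μ := rfl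

variable (ch κ' F) in
/-- The jumps of movable fields. -/
noncomputable abbrev PM : Submodule ℂ (PV κ' ch) := .pi univ fun _ => .pi F.movᶜ fun _ => ⊥

theorem mem_PM {Y : PV κ' ch} : Y ∈ PM κ' ch F ↔ ∀ q, ∀ j ∉ F.mov, ∀ μ, Y q j μ = 0 :=
  ⟨fun h q j hj => DFunLike.congr_fun (h q trivial j hj : Y q j = 0),
    fun h q _ j hj => (ContinuousLinearMap.ext (h q j hj) : Y q j = 0)⟩

variable (ch n ν κ κ' F) in
/-- The data of the diagonals with values in the jumps. -/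
noncomputable def kV : KD (ch.AG n ν κ κ' S) (ch.WG n ν κ κ' Λ) (PV κ' ch) where
  ρ a Y q j := (F.cS a.1.1 j * chr (ch.a (some j)) (a.2.2.2 q)) • Y q j ∘L sub a.1.2 _
  P₀ := PM κ' ch F
  van _ := ⊥
  obs z := ((F.kdg κ').obs (μD z)).map (CV z)
  s z := CV z ((F.kdg κ').s (μD z))

theorem kV_ρ (Y : PV κ' ch) (q j μ) : (kV ν κ κ' ch n F).ρ a Y q j μ =
    F.cS a.1.1 j * chr (ch.a (some j)) (a.2.2.2 q) * Y q j (sub a.1.2 _ μ) := rfl

theorem kV_mul (a b : ch.AG n ν κ κ' S) (Y : PV κ' ch) : (kV ν κ κ' ch n F).ρ (a * b) Y =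
    (kV ν κ κ' ch n F).ρ a ((kV ν κ κ' ch n F).ρ b Y) := PV.ext fun q j μ => by
  have h1 : (a * b).1.1 = a.1.1 * b.1.1 := rfl
  have h2 : (a * b).2.2.2 q = a.2.2.2 q * b.2.2.2 q := rfl
  have h3 : (a * b).1.2 = a.1.2 * b.1.2 := rfl
  rw [kV_ρ, kV_ρ, kV_ρ, h1, h2, h3, sub_mul, chr_mul, Wt.cS, prod_zpow_mul, Wt.cS, Wt.cS]
  ring

theorem kV_cont (Y : PV κ' ch) :
    Continuous fun g : (ch.AG n ν κ κ' S)ˣ => (kV ν κ κ' ch n F).ρ g Y :=
  continuous_pi fun q => continuous_pi fun j => continuous_clm_apply.2 fun μ =>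
    continuous_iff_continuousAt.2 fun u => by
      obtain ⟨h1, ⟨h2, -⟩, -, h3⟩ := GlA.an_G u.1
      have h4 : AnalyticAt ℂ (fun a : ch.AG n ν κ κ' S => F.cS a.1.1 j *
          chr (ch.a (some j)) (a.2.2.2 q) * Y q j (pbT a.1.2.1 _ μ)) u.1 :=
        ((an_prod_zpow h1 (ne_S (AP.isUnit_iff.1 u.isUnit).1) _).mul
          ((analyticAt_chr _).comp (analyticAt_pi_iff.1 h3 q))).mul (an_apply analyticAt_const
            (an_apply (GlA.an_pbT h2 _) analyticAt_const))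
      exact h4.continuousAt.comp Units.continuous_val.continuousAt

theorem rep_kV : IsRepOn (kV ν κ κ' ch n F).ρ (kV ν κ κ' ch n F).P₀ where
  mem a _ Y hY := mem_PM.2 fun q j hj μ => by rw [kV_ρ, mem_PM.1 hY q j hj, mul_zero]
  add a _ Y _ Y' _ := PV.ext fun q j μ => by
    simp only [kV_ρ, Pi.add_apply, _root_.add_apply, mul_add]
  smul a _ c Y _ := PV.ext fun q j μ => by
    simp only [kV_ρ, Pi.smul_apply, _root_.smul_apply, smul_eq_mul]
    ring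
  one Y _ := PV.ext fun q j μ => by
    change F.cS 1 j * chr _ 1 * Y q j μ = _
    simp [Wt.cS]
  mul a b _ _ Y _ := kV_mul a b Y
  cont Y _ := kV_cont Y

theorem ndc_ne (h : Gl z.1.2 z.2) (q : κ') (i : ι) : ndc z q i ≠ 0 :=
  crv_ne (h.apV_mem (h.mem'.2.2.2.1 _).1) i

theorem CV_inj (h : Gl z.1.2 z.2) {η : κ' → J → ℂ} (h0 : CV z η = 0) : η = 0 :=
  funext₂ fun q j => by
    obtain ⟨μ, hμ⟩ := exists_val_one (a := ch.b j) (ndc_ne h q)
    have := DFunLike.congr_fun (congrFun₂ h0 q j) μ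
    rw [CV_apply, hμ, mul_one] at this
    exact neg_eq_zero.1 this

theorem CV_mem {η : κ' → J → ℂ} (h : η ∈ (F.kdg κ').P₀) : CV z η ∈ PM κ' ch F :=
  mem_PM.2 fun q j hj _ => mul_eq_zero_of_left (neg_eq_zero.2 (h q trivial j hj)) _

theorem continuous_ndc (q : κ') : Continuous fun z : ch.WG n ν κ κ' Λ => ndc z q :=
  continuous_iff_continuousAt.2 fun z =>
    have h := Lb.an_iff.1 (analyticAt_snd (𝕜 := ℂ) (p := z))
    (AnalyticAt.pi fun i =>
      an_apply (h.2.1 i) (analyticAt_pi_iff.1 (W.an_p h.1 (nq q false)) i)).continuousAt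

theorem continuous_CV (η : κ' → J → ℂ) : Continuous fun z : ch.WG n ν κ κ' Λ => CV z η :=
  continuous_pi fun q => continuous_pi fun _ => continuous_clm_apply.2 fun _ =>
    continuous_const.mul (continuous_val₂.comp (continuous_const.prodMk
      (continuous_ndc q)))

theorem ndc_act (ha : IsUnit a) (q : κ') :
    ndc (actG F.toWt a z) q = a.2.2.2 q • fun i => a.1.2.1 i (ndc z q i) := funext fun i =>
  (map_smul _ _ _).trans (congrArg (a.2.2.2 q i • ·) (actLb_V (isUnit_dupF (isUnit_θG ha)) i _))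

theorem CV_act (hw : ch.HasWt F ℓ) (ha : IsUnit a) (η : κ' → J → ℂ) :
    CV (actG F.toWt a z) ((F.kdg κ').ρ (θD ℓ a) η) = (kV ν κ κ' ch n F).ρ a (CV z η) :=
  PV.ext fun q j μ => by
    have b := (Cv.isUnit_iff.1 (AP.isUnit_iff.1 ha).2).2.2 q
    have c : ∏ r, (∏ i, a.2.2.2 q i ^ ℓ r i) ^ F.w j r = ∏ i, a.2.2.2 q i ^ ch.wd j i := by
      simp only [show ∀ i, ch.wd j i = _ from hw j, ← Finset.prod_zpow, ← zpow_mul,
        zpow_sum_ne (b _), mul_comm]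
      exact Finset.prod_comm
    rw [kV_ρ, CV_apply, CV_apply, ndc_act ha, Base.val_smul, chr_wd b, ← c]
    change -(F.cS a.1.1 j * (∏ r, (∏ i, a.2.2.2 q i ^ ℓ r i) ^ F.w j r) * η q j) *
      (_ * val (sub a.1.2 _ μ) (ndc z q)) = _
    ring

theorem BV_eq_zero {v} : BV F z v = 0 ↔ ∀ q, jmpF z.2.1 q v = 0 :=
  ⟨fun h q => funext fun j => LinearMap.ext fun μ => DFunLike.congr_fun (congrFun₂ h q j) μ,
    fun h => PV.ext fun q j μ => DFunLike.congr_fun (congrFun (h q) j) μ⟩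

theorem van_eq : (ch.kdJ ν κ κ' n F e).van z = ⊤ ⊓ (⊥ : Submodule ℂ _).comap (BV F z) :=
  Submodule.ext fun v => by
    simp only [kdJ, Submodule.mem_iInf, LinearMap.mem_ker, top_inf_eq, Submodule.mem_comap,
      Submodule.mem_bot, BV_eq_zero]

theorem BV_range (h : Gl z.1.2 z.2) (ha : ∀ l, ch.a l ≠ 0) :
    (⊤ : Submodule ℂ _).map (BV F z) = PM κ' ch F := by
  refine le_antisymm ?_ fun Y hY => ?_
  · rintro _ ⟨v, -, rfl⟩
    refine mem_PM.2 fun q j hj μ => ?_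
    rw [BV_apply, uF_apply, Fm.ex_not v hj]
    exact map_zero _
  · choose g hg using fun j => (LinearMap.pi fun q => (jmp z.2.1 q (some j)).toLinearMap :
      (ch.re n).E (some j) →ₗ[ℂ] κ' → ℂ).exists_rightInverse_of_surjective
        (LinearMap.range_eq_top.2 (h.jmp_surj ha (some j)))
    let v : ch.Fm F.mov (ch.re n).hf := fun j => LinearMap.toContinuousLinearMap (g j) ∘L
      ContinuousLinearMap.pi fun q => Y q j
    refine ⟨v, trivial, PV.ext fun q j μ => ?_⟩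
    rw [BV_apply, uF_apply]
    by_cases hj : j ∈ F.mov
    · rw [Fm.ex_mem _ hj]
      exact congrFun (LinearMap.congr_fun (hg j) _) q
    · rw [Fm.ex_not _ hj, mem_PM.1 hY q j hj]
      exact map_zero _

theorem BV_act (ha : IsUnit a) (h : Gl z.1.2 z.2) (v) :
    BV F (actG F.toWt a z) (ρH F a v) = (kV ν κ κ' ch n F).ρ a (BV F z v) :=
  PV.ext fun q j μ => jmpF_act ha h.mem' q v j μ

theorem continuousOn_BV {O : Set (ch.WG n ν κ κ' Λ)} (h : ∀ z ∈ O, Gl z.1.2 z.2) (v) :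
    ContinuousOn (fun z => BV F z v) O :=
  continuousOn_pi.2 fun q => continuousOn_pi.2 fun j =>
    ((continuousOn_jmp q (some j)).comp (f := fun z : ch.WG n ν κ κ' Λ => z.2.1)
      (fun z _ => (Lb.an_iff.1 (analyticAt_snd (𝕜 := ℂ) (p := z))).1.continuousAt.continuousWithinAt)
      fun z hz => (h z hz).mem').clm_comp continuousOn_const

theorem yv_eq (h : Gl z.1.2 z.2) (hz : μG z ∈ (ch.re n).solF ν (κ ⊕ κ') F) (m j) :
    yv z.2.1 (ptz z.2.1 m) j = fld z.2.1 (z.2.1.p m) j • tvZ (z.2.1.p m) j :=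
  LinearMap.ext (val_fld (((mem_solF.1 hz).2 _ (h.mem'.2.2.2.1 m).1).1 j) _ (ptz_mem h.mem' m))

/-- the jump of the mismatch -/
theorem BV_mm (hz : z ∈ ch.OJ ν κ κ' n F) :
    BV F z (mm F.mov z.1.2 z.2) = (kV ν κ κ' ch n F).s z := PV.ext fun q j μ => by
  have h := hz.1.1.1
  change jmp z.2.1 q (some j) (Fm.ex (mm F.mov z.1.2 z.2) j μ) =
    -(fld z.2.1 (z.2.1.p (nq q false)) j - fld z.2.1 (z.2.1.p (nq q true)) j) * val μ (ndc z q)
  by_cases hj : j ∈ F.mov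
  · have k := fun m => LinearMap.congr_fun (yv_eq h hz.2 m j) (pbT z.2.2.1 _ μ)
    rw [Fm.ex_mem _ hj]
    refine (map_sub _ _ _).trans ((congrArg₂ (· - ·) (DFunLike.congr_fun (h.jmp_comp q (some j)) _)
      (congrArg₂ (· - ·) (k _) (k _))).trans ?_)
    change 0 - (_ * val μ (ndc z q) - _ * val μ (apV z.2.2.1 _)) = _
    rw [← h.node, ndc]
    ring
  · rw [Fm.ex_not _ hj, show fld z.2.1 (z.2.1.p (nq q false)) j = fld z.2.1 (z.2.1.p (nq q true)) j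
      from hz.1.1.2.1.2.2.2.2 j hj (.inr q), sub_self, neg_zero, zero_mul]
    exact map_zero _

theorem rel_pdL {ν' κ₁ : Type} [Fintype ν'] [Fintype κ₁] (h : ch.Fits F e)
    {x : (ch.re n).WF ν' κ₁ Λ} {p : (ch.re n).Pt} {y : J → ℂ}
    (hy : ∀ j, yv x.2 p j = y j • tvZ p.1 j) (φ : HV n.M ch.M) :
    (pdL F e x φ p).Rel pwT F.mov (F.jac (x.1, y)) := fun k ζ j hj =>
  (congrArg (_ * ·) ((tvZ_pwT _ _ _).trans (tvZ_pwT (ch := ch.re n) _ _ _).symm)).trans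
    (Fits.rel (ch := ch.re n) ⟨h.wt, h.le, h.ne⟩ hy k (fun i => ζ i ∘L φ i) j hj)

theorem dEq_zero (h : ch.Fits F e) (hG : Gl z.1.2 z.2) (hz : μG z ∈ (ch.re n).solF ν (κ ⊕ κ') F)
    (q : κ') {Y : ∀ j, ch.Th j →ₗ[ℂ] ℂ} (hY : ∀ j ∉ F.mov, Y j = 0) :
    (pdL F e (μG z) z.2.2.1 (ptz z.2.1 (nq q false))).dEq pwT Y = 0 ↔
      ∃ η ∈ F.vert ((μD z q).1, (μD z q).2.1), Y = fun j => η j • tvZ (ndc z q) j := by
  have r := rel_pdL h (x := μG z) (yv_eq hG hz (nq q false)) z.2.2.1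
  refine ⟨fun h0 => ?_, ?_⟩
  · obtain ⟨η, b, rfl⟩ := PD.exists_eta (fun j _ => tvZ_ne (ndc_ne hG q) j) hY (congrArg Prod.fst h0)
    exact ⟨η, Fam.mem_vert.2 ⟨b, congrFun (PD.nrm_injective (fun k => (exists_Zt (ndc_ne hG q)).imp
      fun ζ c => Finset.prod_ne_zero_iff.2 fun i _ => pow_ne_zero _ ((c i).trans_ne one_ne_zero))
        (((r.dEq_tv b).symm.trans h0).trans (map_zero _).symm))⟩, rfl⟩
  · rintro ⟨η, b, rfl⟩
    exact (r.dEq_tv (Fam.mem_vert.1 b).1).trans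
      ((congrArg _ (funext (Fam.mem_vert.1 b).2)).trans (map_zero _))

theorem obs_eq (h : ch.Fits F e) (hG : Gl z.1.2 z.2) (hz : μG z ∈ (ch.re n).solF ν (κ ⊕ κ') F) :
    (ch.kdJ ν κ κ' n F e).obs z = ⊤ ⊓ ((kV ν κ κ' ch n F).obs z).comap (BV F z) :=
  Submodule.ext fun v => by
    have k : ∀ q, (jmpP F e z q ∘ₗ LinearMap.inr ℂ _ _) v = 0 ↔ _ := fun q =>
      (Eq.congr_left (by simp [jmpP])).trans (dEq_zero h hG hz q (Y := jmpF z.2.1 q v)
        fun j hj => LinearMap.ext fun μ => by rw [uF_apply, Fm.ex_not _ hj]; exact map_zero _)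
    simp only [kdJ, Submodule.mem_iInf, LinearMap.mem_ker, top_inf_eq, Submodule.mem_comap, k]
    refine ⟨fun b => ?_, fun ⟨η, b, c⟩ q => ⟨-η q, neg_mem (b q trivial), funext fun j =>
      LinearMap.ext fun μ => (DFunLike.congr_fun (congrFun₂ c q j) μ).symm⟩⟩
    choose η b c using b
    refine ⟨-η, fun q _ => neg_mem (b q), PV.ext fun q j μ => ?_⟩
    rw [BV_apply, c q, CV_apply, Pi.neg_apply, Pi.neg_apply, neg_neg]
    rfl

theorem ivt_OJ (hF : F.Inv) :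
    Ivt (actG F.toWt : ch.AG n ν κ κ' S → _) (ch.OJ ν κ κ' n F) := fun a ha z h =>
  ⟨ivt_Zn (T := (ch.re n).adm ν (κ ⊕ κ') F) (fun _ hs _ => actF_mem_adm hF hs) a ha z h.1,
    ivt_μG (T := (ch.re n).solF ν (κ ⊕ κ') F) (fun _ hs _ => actF_mem_solF hF hs) a ha z h.2⟩

theorem ok_kV (hs : ch.Std F e K₀ ℓ) : (kV ν κ κ' ch n F).Ok (actG F.toWt) (ch.OJ ν κ κ' n F) 0
    (Fintype.card κ' * F.dv K₀) :=
  ((Fam.ok_kdg hs.inv hs.reg).pb' (eqM_D hs.inv (hs.re n).cuts hs.wt)).map (B := CV) rep_kV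
    (ivt_OJ hs.inv) (fun _ _ _ => CV_mem) (fun η _ => (continuous_CV η).continuousOn)
    (fun _ _ _ ha η _ => CV_act hs.wt ha η) (fun _ h _ _ => CV_inj h.1.1.1)
    (fun _ _ => (Submodule.map_bot _).symm) (fun _ _ => rfl) fun _ _ _ => rfl

end PwJ

open PwJ

theorem PwJ.continuous_mm : Continuous (ch.kdJ ν κ κ' n F e).s :=
  (continuous_snd.comp (continuous_snd.comp (continuous_sD (e := e)))).congr fun _ => rfl

variable (hs : ch.Std F e K₀ ℓ) (hn : ch.GN n κ')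
include hs hn

theorem zero_kdJ (hz : z ∈ ch.OJ ν κ κ' n F) :
    (ch.kdJ ν κ κ' n F e).s z ∈ (ch.kdJ ν κ κ' n F e).van z ↔ Mtd (μG z) := by
  rw [van_eq]
  refine (and_iff_right trivial).trans ((Eq.congr_left (BV_mm hz)).trans
    ⟨fun h q => Prod.ext rfl (Fam.kdg_zero.1 (CV_inj hz.1.1.1 h) q), fun h => ?_⟩)
  exact (congrArg (CV z) (Fam.kdg_zero.2 fun q => congrArg Prod.snd (h q))).trans (map_zero _)

theorem ok_kdJ : ∃ v, (ch.kdJ ν κ κ' n F e).Ok (actG F.toWt) (ch.OJ ν κ κ' n F) v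
    (Fintype.card κ' * F.dv K₀) :=
  have : FiniteDimensional ℂ (ch.kdJ ν κ κ' n F e).P₀ :=
    FiniteDimensional.finiteDimensional_submodule _
  ⟨_, (ok_kV hs).comap (D := ch.kdJ ν κ κ' n F e) (B := BV F) rep_ρH (ivt_OJ hs.inv)
    (fun _ h => BV_range h.1.1.1 hs.cuts.ne) (fun v _ => continuousOn_BV (fun _ h => h.1.1.1) v)
    (fun _ h _ ha v _ => BV_act ha h.1.1.1 v) (fun _ _ => van_eq) (fun _ _ => trivial)
    continuous_mm.continuousOn (fun _ _ _ ha => mm_act ha F.mov)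
    (fun _ h => sub_eq_zero.2 (BV_mm h)) fun _ h _ => obs_eq hs.fits h.1.1.1 h.2⟩

/-- the matching conditions are the pull-back of the diagonals -/
theorem vr_kdJ {Z O : Set (ch.WG n ν κ κ' Λ)} (hO : O ⊆ ch.OJ ν κ κ' n F) {v v' : ℕ}
    (h : (ch.kdJ ν κ κ' n F e).Gd (actG F.toWt) Z O v (Fintype.card κ' * F.dv K₀))
    (h' : ((F.kdg κ').pb (θD ℓ) μD).Gd (actG F.toWt) Z O v' (Fintype.card κ' * F.dv K₀)) :
    (ch.kdJ ν κ κ' n F e).vr (actG F.toWt) Z O = ((F.kdg κ').pb (θD ℓ) μD).vr (actG F.toWt) Z O := by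
  have g : ∀ x ∈ O, Gl x.1.2 x.2 := fun x hx => (hO hx).1.1.1
  have hV : (kV ν κ κ' ch n F).Gd (actG F.toWt) Z O 0 (Fintype.card κ' * F.dv K₀) :=
    ⟨⟨h'.dom.sub, h'.dom.opn, h'.dom.isAct, h'.dom.orb, fun x hx => Iff.trans
      ⟨CV_inj (g x hx), fun b => (congrArg (CV x) b).trans (map_zero _)⟩ (h'.dom.zero x hx)⟩,
      (ok_kV hs).mono hO⟩
  refine (h.vr_congr hV (B := BV F) ⟨fun x hx w _ => (BV_range (g x hx) hs.cuts.ne).le ⟨w, trivial, rfl⟩,
    fun w _ => continuousOn_BV g w, fun x hx _ ha w _ => BV_act ha (g x hx) w,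
    fun x _ w hw => (van_eq.le hw).2, fun x hx => sub_eq_zero.2 (BV_mm (hO hx)),
    fun x hx _ w hw => ((obs_eq hs.fits (g x hx) (hO hx).2).le hw).2⟩
    fun x _ w _ b => van_eq.ge ⟨trivial, b⟩).trans (h'.vr_congr hV (B := CV)
      ⟨fun _ _ _ => CV_mem, fun η _ => (continuous_CV η).continuousOn,
        fun _ _ _ ha η _ => CV_act hs.wt ha η, fun x _ w hw => (congrArg (CV x) hw).trans (map_zero _),
        fun _ _ => sub_self _, fun _ _ _ w hw => ⟨w, hw, rfl⟩⟩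
      fun x hx w _ => CV_inj (g x (h'.dom.sub hx))).symm

end Vale.Agent.P269.Ch
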