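import Vale.Agent.P287Q.G.Glu.Diag
import Vale.Agent.P287Q.G.Glu.PwJ
import Vale.Agent.P287Q.G.Glu.PwS0
import Vale.Agent.P287Q.G.Vir.Ker

set_option linter.unusedSectionVars false

/-!
# The data of the normalised curve with matching conditions
-/

namespace Vale.Agent.P269.Ch

open P291Z Set Function Topology Filter Module Base Cv Holo Vir KD PwS

variable {S Λ R J K ι ν κ κ' : Type} [Fintype S] [Fintype Λ] [Fintype R] [Fintype J]
  [Fintype K] [Fintype ι] [DecidableEq ι] [Fintype ν] [Fintype κ] [Fintype κ']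
  {ch : Ch ι J} {n : Nm ι J} {F : Fam S Λ R J K} {e : K → ι → ℕ} {K₀ : RD R} {ℓ : R → ι → ℤ}
  {T : Set ((ch.re n).WF ν (κ ⊕ κ') Λ)} {z : ch.WG n ν κ κ' Λ}

namespace PwS

variable {O : Set (ch.WG n ν κ κ' Λ)} {f : (ch.re n).P K × ch.Fm F.mov (ch.re n).hf}

theorem jmpP_apply (z : ch.WG n ν κ κ' Λ) (q : κ') (f : (ch.re n).P K × ch.Fm F.mov (ch.re n).hf) :
    jmpP F e z q f = resF K z.2.2.1 (evZ (ptz z.2.1 (nq q false)) f.1) -
      resF K z.2.2.1 (evZ (ptz z.2.1 (nq q true)) f.1) +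
      (ddY F e z.1.1 (apV z.2.2.1 (z.2.1.p (nq q false))) (Yb z.2 (nq q false)) 0).dEq pwT
        (jmpF z.2.1 q f.2) :=
  congrArg₂ (· + ·) (map_sub (resF K z.2.2.1) _ _)
    (congrArg (fun d => PD.dEq d pwT (jmpF z.2.1 q f.2)) (pdL_ptz z.1.1 _))

theorem continuous_jmpP (hO : ∀ z ∈ O, z.2.1 ∈ (ch.re n).base _) (q : κ')
    (hf : f ∈ (ch.kdS ν κ κ' n F e).P₀) : Continuous fun z : O => jmpP F e z.1 q f :=
  continuous_iff_continuousAt.2 fun z => by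
    have h0 := fun a : O => hO _ a.2
    have h1 : Tendsto (fun a : O => a.1.2) (𝓝 z) (𝓝 z.1.2) :=
      (continuous_snd.comp continuous_subtype_val).tendsto z
    simp only [ContinuousAt, jmpP_apply]
    exact ((tendsto_resF h0 (h0 z) h1 hf.1 _).sub (tendsto_resF h0 (h0 z) h1 hf.1 _)).add
      (tendsto_dEq (tends_ddY ((continuous_fst.comp (continuous_fst.comp
        continuous_subtype_val)).tendsto z) (tendsto_apV h1 _) (tendsto_Yb h0 (h0 z) h1 _)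
        fun _ _ => tendsto_const_nhds) _ (tendsto_jmpF h0 (h0 z) h1 tendsto_const_nhds q))

theorem jmpP_sec (h : Gl z.1.2 z.2) (hm : ∀ j ∉ F.mov, Mt z.1.2 z.2 j) (q : κ') (c : ℂ) :
    jmpP F e z q (c • (ch.kdS ν κ κ' n F e).s z) =
      (ddY F e z.1.1 (apV z.2.2.1 (z.2.1.p (nq q false))) (Yb z.2 (nq q false)) 0).dEq pwT
        (c • jmpF z.2.1 q (mm F.mov z.1.2 z.2)) -
      (ddY F e z.1.1 (apV z.2.2.1 (z.2.1.p (nq q false))) (Yb z.2 (nq q false))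
        (jmpF z.2.1 q (mm F.mov z.1.2 z.2))).dEq pwT (c • jmpF z.2.1 q (mm F.mov z.1.2 z.2)) := by
  rw [map_smul, map_smul, map_smul, ← smul_sub, jmpP_apply]
  refine congrArg _ ((congrArg (· + _) (congrArg₂ (· - ·) (resF_sct z.1.1 _)
    (resF_sct z.1.1 _))).trans ?_)
  rw [← h.node q, ← sub_add_cancel (Yb z.2 (nq q true)) (Yb z.2 (nq q false)), ← jmpF_mm h hm,
    add_comm (jmpF z.2.1 q _), eqY_add, sub_add_cancel_left, neg_add_eq_sub]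
  rfl

theorem jmpP_van (h : z.2.1 ∈ (ch.re n).base _) (hf : f ∈ (ch.kdS ν κ κ' n F e).van z) (q : κ') :
    jmpP F e z q f = 0 := by
  obtain ⟨a, b⟩ := mem_vanS.1 hf
  rw [jmpP_apply, b, map_zero, (mem_vanM.1 a).2 _ (ptz_mem h _), (mem_vanM.1 a).2 _ (ptz_mem h _),
    sub_self, add_zero]

theorem exists_obs (ha : ∀ l, ch.a l ≠ 0) (h : Gl z.1.2 z.2) (hm : ∀ j ∉ F.mov, Mt z.1.2 z.2 j)
    (h0 : ∀ q, jmpF z.2.1 q (mm F.mov z.1.2 z.2) = 0) {f : (ch.re n).P K}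
    (hf : f ∈ obsM F e (μG z)) : ∃ v, (f, v) ∈ (ch.kdS ν κ κ' n F e).obs z := by
  choose Y h1 h2 using fun m => PD.mem_Im.1 ((mem_obsM.1 hf).2 _ (ptz_mem h.mem' m))
  obtain ⟨v, hv⟩ := exists_jmpF (A := F.mov) h ha
    (Y := fun q => (fun j => Y (nq q true) j ∘ₗ (P269.pbT z.2.2.1 _).toLinearMap) -
      fun j => Y (nq q false) j ∘ₗ (P269.pbT z.2.2.1 _).toLinearMap) fun q j c => by
      rw [Pi.sub_apply, h1 _ j c, h1 _ j c, sub_self]
  have h3 := fun m => (congrArg (resF K z.2.2.1) (h2 m)).symm.trans ((resF_dEq _ _ _ _).trans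
    (congrArg (fun d => PD.dEq d pwT _) (pdL_ptz z.1.1 m)))
  refine ⟨v, mem_obsS.2 ⟨hf, fun q => ?_⟩⟩
  rw [jmpP_apply, hv, map_sub]
  refine (congrArg (· + _) (congrArg₂ (· - ·) (h3 _) (h3 _))).trans ?_
  rw [← h.node q, sub_eq_zero.1 ((jmpF_mm h hm q).symm.trans (h0 q)), sub_add_sub_cancel, sub_self]

theorem isClosed_jmpF (hO : ∀ z ∈ O, z.2.1 ∈ (ch.re n).base _) : IsClosed
    {p : O × (ch.re n).P K × ch.Fm F.mov (ch.re n).hf | ∀ q, jmpF p.1.1.2.1 q p.2.2 = 0} := by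
  simp only [funext_iff, LinearMap.ext_iff, ofPred_forall]
  exact isClosed_iInter fun q => isClosed_iInter fun j => isClosed_iInter fun μ =>
    isClosed_eq (continuous_iff_continuousAt.2 fun p => tendsto_jmpF (fun a => hO _ a.1.2)
      (hO _ p.1.2) ((continuous_snd.comp (continuous_subtype_val.comp continuous_fst)).tendsto p)
      (continuous_snd.snd.tendsto p) q j μ) continuous_const

instance fin_P : FiniteDimensional ℂ (ch.kdS ν κ κ' n F e).P₀ :=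
  Module.Finite.iff_fg.2 ((Module.Finite.iff_fg.1 fin_polF).prod Module.Finite.fg_top)

theorem cone_jmpP (hO : ∀ z ∈ O, Gl z.1.2 z.2 ∧ ∀ j ∉ F.mov, Mt z.1.2 z.2 j) (hz : z ∈ O)
    (hF : (ch.re n).Fits F e)
    (h0 : ∀ q, jmpF z.2.1 q (mm F.mov z.1.2 z.2) = 0) {y : ℕ → ch.WG n ν κ κ' Λ} {c : ℕ → ℂ}
    {u : ℕ → _} (h1 : ∀ k, y k ∈ O) (h2 : Tendsto y atTop (𝓝 z))
    (h3 : ∀ k, u k ∈ (ch.kdS ν κ κ' n F e).van (y k)) (hf : f ∈ (ch.kdS ν κ κ' n F e).P₀)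
    (h4 : Tendsto (fun k => c k • (ch.kdS ν κ κ' n F e).s (y k) + u k) atTop (𝓝 f)) (q : κ') :
    jmpP F e z q f = 0 := by
  have a0 := fun k => (hO _ (h1 k)).1.mem'
  have a1 := (hO _ hz).1.mem'
  have a2 := h2.snd_nhds
  have a3 := VrA.tendsto₂ (B := fun x : O => jmpP F e x.1 q)
    (fun _ => continuous_jmpP (fun x hx => (hO x hx).1.mem') q)
    (fun k => add_mem (Submodule.smul_mem _ (c k) ⟨hF.sctF_mem _, trivial⟩) ⟨(h3 k).1.1, trivial⟩)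
    hf (VrA.tendsto_mk h1 hz h2) h4
  have a4 : ∀ j μ, Tendsto (fun k => (c k • jmpF (y k).2.1 q (mm F.mov (y k).1.2 (y k).2)) j μ)
      atTop (𝓝 (jmpF z.2.1 q f.2 j μ)) := fun j μ =>
    (tendsto_jmpF a0 a1 a2 h4.snd_nhds q j μ).congr fun k => by
      rw [Prod.snd_add, map_add, (mem_vanS.1 (h3 k)).2, add_zero, Prod.smul_snd, map_smul]
      rfl
  have a5 : ∀ j μ, Tendsto (fun k => jmpF (y k).2.1 q (mm F.mov (y k).1.2 (y k).2) j μ)
      atTop (𝓝 ((0 : ∀ j, ch.Th j →ₗ[ℂ] ℂ) j μ)) := fun j μ => h0 q ▸ tendsto_jmpF a0 a1 a2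
    ((analyticAt_mm F.mov (z.1.2, z.2)).continuousAt.tendsto.comp
      (h2.fst_nhds.snd_nhds.prodMk_nhds a2)) q j μ
  have a6 := fun {Y Y₀} => tends_ddY (F := F) (e := e) (Y' := Y) (Y₀' := Y₀) h2.fst_nhds.fst_nhds
    (tendsto_apV a2 (nq q false)) (tendsto_Yb a0 a1 a2 (nq q false))
  refine (tendsto_nhds_unique a3 (((tendsto_dEq (a6 fun _ _ => tendsto_const_nhds) pwT a4).sub
    (tendsto_dEq (a6 a5) pwT a4)).congr fun k => ?_)).trans (sub_self _)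
  rw [map_add, jmpP_van (a0 k) (h3 k), add_zero, jmpP_sec (hO _ (h1 k)).1 (hO _ (h1 k)).2]

theorem mem_OJ (hz : z ∈ ch.OS ν κ κ' n F e) (h : μG z ∈ (ch.re n).solF ν (κ ⊕ κ') F) :
    z ∈ ch.OJ ν κ κ' n F := ⟨⟨⟨hz.1.1, hz.1.2.1.1, hz.1.2.2⟩, hz.2⟩, h⟩

theorem mem_vanJ {v} : v ∈ (ch.kdJ ν κ κ' n F e).van z ↔ ∀ q, jmpF z.2.1 q v = 0 :=
  Submodule.mem_iInf _

theorem mem_obsJ {v} : v ∈ (ch.kdJ ν κ κ' n F e).obs z ↔ (0, v) ∈ (ch.kdS ν κ κ' n F e).obs z :=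
  (Submodule.mem_iInf _).trans (mem_obsS.trans (and_iff_right (zero_mem _))).symm

theorem van_le : (ch.kdS ν κ κ' n F e).van z ≤ (ch.kdS ν κ κ' n F e).P₀ :=
  fun _ hf => ⟨hf.1.1, trivial⟩

theorem obs_le : (ch.kdS ν κ κ' n F e).obs z ≤ (ch.kdS ν κ κ' n F e).P₀ :=
  fun _ hf => ⟨hf.1.1.1, trivial⟩

theorem rank_van (ha : ∀ l, ch.a l ≠ 0) (h : Gl z.1.2 z.2) :
    finrank ℂ ((ch.kdS ν κ κ' n F e).van z) = finrank ℂ (vanM F e (μG z)) + vJ ch n κ' F.mov :=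
  have := Submodule.finiteDimensional_of_le (van_le (F := F) (e := e) (z := z))
  (finrank_split _).trans (congrArg₂ (· + ·)
    (congrArg (fun U : Submodule ℂ _ => finrank ℂ U) (Submodule.prod_map_fst _ _))
    ((congrArg (fun U : Submodule ℂ _ => finrank ℂ U) (Submodule.prod_comap_inr _ _)).trans
      (finrank_ker h ha)))

theorem rank_obs (ha : ∀ l, ch.a l ≠ 0) (h : Gl z.1.2 z.2) (hm : ∀ j ∉ F.mov, Mt z.1.2 z.2 j)
    (h0 : ∀ q, jmpF z.2.1 q (mm F.mov z.1.2 z.2) = 0) : finrank ℂ ((ch.kdS ν κ κ' n F e).obs z) =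
      finrank ℂ (obsM F e (μG z)) + finrank ℂ ((ch.kdJ ν κ κ' n F e).obs z) :=
  have := Submodule.finiteDimensional_of_le (obs_le (F := F) (e := e) (z := z))
  (finrank_split _).trans (congrArg₂ (· + ·)
    (congrArg (fun U : Submodule ℂ _ => finrank ℂ U) (le_antisymm
      (fun _ ⟨_, hf, a⟩ => mem_of_eq_of_mem a.symm hf.1.1) fun _ hf =>
        let ⟨_, a⟩ := exists_obs ha h hm h0 hf; ⟨_, a, rfl⟩))
    (congrArg (fun U : Submodule ℂ _ => finrank ℂ U) (Submodule.ext fun _ => mem_obsJ.symm)))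

theorem van_act {a : ch.AG n ν κ κ' S} (ha : IsUnit a) (h : z.2.1 ∈ (ch.re n).base _)
    (hf : f ∈ (ch.kdS ν κ κ' n F e).van z) :
    (ch.kdS ν κ κ' n F e).ρ a f ∈ (ch.kdS ν κ κ' n F e).van (actG F.toWt a z) := by
  have a1 : ρF F (θG a) f.1 ∈ vanM F e (actF F.toWt (θG a) (μG z)) := vanM_actF (isUnit_θG ha) hf.1
  have a2 : ∀ q, jmpF (actG F.toWt a z).2.1 q (ρH F a f.2) = 0 := fun q => funext fun j =>
    LinearMap.ext fun μ => by
      rw [jmpF_act ha h, (mem_vanS.1 hf).2]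
      exact mul_zero _
  rw [← μG_actG] at a1
  exact mem_vanS.2 ⟨a1, a2⟩

theorem continuous_s : Continuous (ch.kdS ν κ κ' n F e).s :=
  (continuous_sctF.comp (continuous_iff_continuousAt.2 fun z =>
    (analyticAt_μG z).continuousAt)).prodMk ((continuous_iff_continuousAt.2 fun z =>
      (analyticAt_mm F.mov z).continuousAt).comp (continuous_fst.snd.prodMk continuous_snd))

variable {v r : ℕ} (N : (ch.kdN ν κ κ' n F e).Ok (actG F.toWt) O v r)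
  (hO : ∀ z ∈ O, z.2.1 ∈ (ch.re n).base _)
include N hO

theorem isClosed_van : IsClosed {p : O × (ch.re n).P K × ch.Fm F.mov (ch.re n).hf |
    p.2 ∈ (ch.kdS ν κ κ' n F e).van p.1} :=
  VrA.clo_iff ((N.fam.closed.preimage (continuous_fst.prodMk continuous_snd.fst)).inter
    (isClosed_jmpF hO)) fun _ => mem_vanS.symm

theorem isClosed_obs : IsClosed {p : O × (ch.re n).P K × ch.Fm F.mov (ch.re n).hf |
    (ch.kdS ν κ κ' n F e).s p.1 ∈ (ch.kdS ν κ κ' n F e).van p.1 ∧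
      p.2 ∈ (ch.kdS ν κ κ' n F e).obs p.1} :=
  VrA.clo_iff ((((isClosed_van N hO).preimage (continuous_fst.prodMk (continuous_s.comp
    (continuous_subtype_val.comp continuous_fst)))).inter (N.obs_closed.preimage
      (continuous_fst.prodMk continuous_snd.fst))).inter (isClosed_iInter fun q =>
        VrA.isClosed_comap (B := fun x : O => jmpP F e x.1 q) (fun _ => continuous_jmpP hO q)
          (isClosed_eq continuous_snd (continuous_const (y := 0)))))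
    fun _ => ⟨fun a => ⟨a.1.1, mem_obsS.2 ⟨a.1.2.2, fun q => (mem_iInter.1 a.2 q).2⟩⟩, fun a =>
      ⟨⟨a.1, a.1.1, a.2.1.1⟩, mem_iInter.2 fun q => ⟨obs_le a.2, (mem_obsS.1 a.2).2 q⟩⟩⟩

end PwS

variable (hs : ch.Std F e K₀ ℓ) (hn : ch.GN n κ')
include hs hn

theorem zero_kdS (hz : z ∈ ch.OS ν κ κ' n F e) :
    (ch.kdS ν κ κ' n F e).s z ∈ (ch.kdS ν κ κ' n F e).van z ↔
      μG z ∈ (ch.re n).solF ν (κ ⊕ κ') F ∧ Mtd (μG z) :=
  mem_vanS.trans ((and_congr_left' ((hs.re n).zero hz.1.2.1)).trans (and_congr_right fun h =>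
    (mem_vanJ (e := e)).symm.trans (zero_kdJ hs hn (mem_OJ hz h))))

theorem ok_kdS : ∃ v, (ch.kdS ν κ κ' n F e).Ok (actG F.toWt) (ch.OS ν κ κ' n F e) v
    (Fintype.card κ' * F.dv K₀ + ((ch.re n).rk F ℓ K₀).toNat) := by
  obtain ⟨v, hv⟩ := (hs.re n).ok (ν := ν) (κ := κ ⊕ κ')
  have N : (ch.kdN ν κ κ' n F e).Ok (actG F.toWt) (ch.OS ν κ κ' n F e) v _ :=
    hv.pb' (eqM_μG.mono (subset_univ _) fun z hz => hz.1.2.1)
  obtain ⟨v', D⟩ := ok_kdJ (ν := ν) (κ := κ) hs hn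
  have b : ∀ z ∈ ch.OS ν κ κ' n F e, z.2.1 ∈ (ch.re n).base _ := fun z hz => hz.1.1.mem'
  refine ⟨v + vJ ch n κ' F.mov, fin_P, rep_kdS, ⟨fun z _ f hf => van_le hf, isClosed_van N b,
    fun z hz => (rank_van hn.num.a_ne hz.1.1).trans (congrArg (· + _) (N.fam.rank z hz)),
    fun z hz a ha f hf => van_act ha (b z hz) hf⟩, fun z hz => ⟨N.mem z hz, trivial⟩,
    continuous_s.continuousOn, fun z hz a ha => Prod.ext (N.eqv z hz a ha) (mm_act ha _),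
    isClosed_obs N b, fun z hz h0 => ?_, fun z hz _ a ha f hf => obsS_act hs ha (b z hz) hf,
    fun z hz _ f hf => mem_obsS.2 ⟨vanM_le_obsM hf.1, jmpP_van (b z hz) hf⟩,
    fun z _ _ f hf => obs_le hf, fun z hz h0 f y c u h1 h2 h3 h4 => ?_⟩
  · have a1 := mem_OJ hz (((hs.re n).zero hz.1.2.1).1 h0.1)
    have a2 := D.obs_rank z a1 h0.2
    have a3 : finrank ℂ (obsM F e (μG z)) = _ := N.obs_rank z hz h0.1
    have a4 : finrank ℂ ((ch.kdJ ν κ κ' n F e).van z) = _ := finrank_ker hz.1.1 hn.num.a_ne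
    have a5 := D.fam.rank z a1
    have a6 := rank_obs (e := e) hn.num.a_ne hz.1.1 hz.1.2.2 (mem_vanS.1 h0).2
    omega
  · have a := N.cone z hz h0.1 f.1 y c (fun k => (u k).1) h1 h2 (fun k => (h3 k).1) h4.fst_nhds
    exact mem_obsS.2 ⟨a, cone_jmpP (fun z hz => ⟨hz.1.1, hz.1.2.2⟩) hz (hs.re n).fits
      (mem_vanS.1 h0).2 h1 h2 h3 ⟨a.1, trivial⟩ h4⟩

theorem lin_SN : (ch.kdS ν κ κ' n F e).Lin (ch.kdN ν κ κ' n F e) id id univ (LinearMap.fst ℂ _ _) :=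
  have _ := hs
  have _ := hn
  ⟨fun _ h => h.1, fun _ _ _ _ => rfl, fun _ _ _ h => h.1,
    fun _ _ => mem_of_eq_of_mem (sub_self _) (zero_mem _), fun _ _ _ _ h => h.1.1⟩

theorem lin_JS : (ch.kdJ ν κ κ' n F e).Lin (ch.kdS ν κ κ' n F e) id id (ch.OJ ν κ κ' n F)
    (LinearMap.inr ℂ _ _) :=
  have _ := hn
  ⟨fun _ _ => ⟨zero_mem _, trivial⟩, fun _ _ _ _ =>
    Prod.ext (P_ext (fun _ _ _ => (mul_zero _).symm) fun _ _ _ => (mul_zero _).symm) rfl,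
    fun _ _ _ h => ⟨zero_mem _, h⟩, fun _ h => ⟨sub_mem (zero_mem _)
      (sctF_mem_vanM (hs.re n).fits h.2), mem_of_eq_of_mem (sub_self _) (zero_mem _)⟩,
    fun _ _ _ _ h => mem_obsJ.1 h⟩

theorem inj_JS : (ch.kdJ ν κ κ' n F e).Inj (ch.kdS ν κ κ' n F e) id univ (LinearMap.inr ℂ _ _) :=
  have _ := hs
  have _ := hn
  fun _ _ _ _ h => h.2

theorem srj_SN : (ch.kdS ν κ κ' n F e).Srj (ch.kdN ν κ κ' n F e) id
    (ZS F ((ch.re n).adm ν (κ ⊕ κ') F)) (LinearMap.fst ℂ _ _) := fun _ hz _ hf =>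
  let ⟨_, a⟩ := exists_obs hn.num.a_ne hz.1.1.1.1 hz.1.1.1.2.2
    (mem_vanJ.1 ((zero_kdJ hs hn hz.1).2 hz.2)) hf
  ⟨_, a, mem_of_eq_of_mem (sub_self _) (zero_mem _)⟩

end Vale.Agent.P269.Ch
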