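import Vale.Agent.P287Q.G.Glu.MainB
import Vale.Agent.P287Q.G.Glu.PwS
import Vale.Agent.P287Q.G.Glu.PwD
import Vale.Agent.P287Q.G.Glu.PwE

set_option linter.unusedSectionVars false
set_option linter.style.haveILetI false

/-!
# Gluing: the virtual class of the labelled space
-/

namespace Vale.Agent.P269.Ch.GH

open P291Z Set Function Topology Filter Module Holo KD GlM

variable {S Λ R J K ι ν κ κ' : Type} [Fintype S] [Fintype Λ] [Fintype R] [Fintype J]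
  [Fintype K] [Fintype ι] [DecidableEq ι] [Fintype ν] [Fintype κ] [Fintype κ']
  {ch : Ch ι J} {n : Nm ι J} {F : Fam S Λ R J K} {e : K → ι → ℕ} {K₀ : RD R} {ℓ : R → ι → ℤ}
  {T M : Set ((ch.re n).WF ν (κ ⊕ κ') Λ)} {N : ℕ} {U : Set (ch.WF ν κ Λ)}
  (h : ch.GH n F e K₀ ℓ T M N)
include h

theorem eqM_lf : EqM (actG F.toWt : ch.AG n ν κ κ' S → _) (actF F.toWt) (ZL F T)
    ((ch.re n).solF ν (κ ⊕ κ') F ∩ T) θG (lf F) :=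
  (eqM_μG.mono (S₀ := ZD F T) (S₀' := _ ∩ T) (subset_univ _) fun _ a => ⟨a.2.2.1, a.1.2.1⟩).comp (tt_lift (tt₂ h.std h.num h.lev)
    spt₂ (fun _ a => q₂_eq_zero.2 a.1.2) (ivt_ZD h.std.inv h.lev.inv))

theorem eqM_N : EqM (actG F.toWt : ch.AG n ν κ κ' S → _) (actF F.toWt) (ZN F T)
    ((ch.re n).solF ν (κ ⊕ κ') F ∩ T) θG μG :=
  eqM_μG.mono (subset_univ _) fun _ a => ⟨a.2, a.1.1.2.1⟩

theorem sub_OJ : (ZN F T : Set (ch.WG n ν κ κ' Λ)) ⊆ ch.OJ ν κ κ' n F := fun _ a =>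
  ⟨⟨⟨a.1.1.1, h.lev.adm a.1.1.2.1, a.1.1.2.2⟩, a.1.2⟩, a.2⟩

theorem lf_p₂ {z : ch.WG n ν κ κ' Λ} (hz : z ∈ ZD F T) : lf F (p₂ F z) = μG (p₁ F z) := by
  rw [lf, ← ((ZD_iff₂ h.num h.lev).1 hz).2, spt₂.add, μG_p₁]

/-- the normalised curves -/
theorem exists_N [Nice (ModS F T)] {U' : Set ((ch.re n).WF ν (κ ⊕ κ') Λ)} (hU' : Pr F U') :
    ∃ (v : ℕ) (g : (ch.kdN ν κ κ' n F e).Gd (actG F.toWt) (ZN F T)
      (Zn F T ∩ μG ⁻¹' (T ∩ U' ∩ (ch.re n).dom ν _ F e)) v ((ch.re n).rk F ℓ K₀).toNat),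
      Prp (actG F.toWt : ch.AG n ν κ κ' S → _) (Zn F T ∩ μG ⁻¹' (T ∩ U' ∩ (ch.re n).dom ν _ F e)) ∧
      Cyc (actG F.toWt : ch.AG n ν κ κ' S → _) (Zn F T ∩ μG ⁻¹' (T ∩ U' ∩ (ch.re n).dom ν _ F e))
        (Zn F T ∩ μG ⁻¹' (M ∩ U' ∩ (ch.re n).dom ν _ F e))
        (N - finrank ℂ ((ch.re n).AF ν (κ ⊕ κ') S)) ∧ IsHomeomorph h.eqM_N.map ∧
      res h.eqM_N.map (virF F e T) = (ch.kdN ν κ κ' n F e).vr (actG F.toWt) (ZN F T) _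
        (g.fu (N - finrank ℂ ((ch.re n).AF ν (κ ⊕ κ') S))) := by
  have a := h.vd hU'
  obtain ⟨v, b⟩ := (h.std.re n).ok (ν := ν) (κ := κ ⊕ κ')
  have c : ((ch.re n).kd ν (κ ⊕ κ') F e).Gd _ _ _ _ _ := ⟨a.dom.self, b.mono inter_subset_right⟩
  obtain ⟨k, i, d, -, -, f⟩ := c.exists_isKP
  rw [show virF F e T = _ from (a.virF_eq d).trans (LinearMap.congr_fun f _).symm]
  exact ⟨v, bun_vr h.bun (ivt_Zn h.lev.inv) h.lev.inv h.sur c (fun _ s => s.1.1)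
    ((hU'.prp_lev h.lev).mono inter_subset_left) a.cyc
    (Set.ext fun _ => and_congr_right fun s => (and_iff_left s.1.2.1).symm) h.eqM_N⟩

variable (hU : Pr F U)
include hU

theorem exists_D {U' : Set ((ch.re n).WF ν (κ ⊕ κ') Λ)} (hU' : Pr F U') :
    ∃ (O : Set (ch.WG n ν κ κ' Λ)) (v : ℕ), O ⊆ ch.OD ν κ κ' n F e ∧
      (ch.kdD ν κ κ' n F e).Gd (actG F.toWt) (ZD F T) O v
        (finrank ℂ ((ch.re n).Fm F.mov (ch.re n).hf) + (ch.rk F ℓ K₀).toNat) ∧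
      (∃ V, IsOpen V ∧ O = p₁ F ⁻¹' (Zn F T ∩ μG ⁻¹' (T ∩ U' ∩ (ch.re n).dom ν _ F e)) ∩ V) ∧
      ∃ V, IsOpen V ∧ O = p₂ F ⁻¹' OF F e T U ∩ V := by
  obtain ⟨V, a, b⟩ := h.std.exists_OF h.num hU.opn
  obtain ⟨V', c, d⟩ := (h.std.re n).dom_open (ν := ν) (κ := κ ⊕ κ')
  obtain ⟨v, f⟩ := ok_kdD h.std h.num (ν := ν) (κ := κ)
  have g : IsOpen (μG ⁻¹' (U' ∩ V') : Set (ch.WG n ν κ κ' Λ)) :=
    (hU'.opn.inter c).preimage (continuous_iff_continuousAt.2 fun z => (analyticAt_μG z).continuousAt)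
  have k : ∀ z ∈ (Zb F T : Set (ch.WG n ν κ κ' Λ)),
      μG z ∈ T ∩ U' ∩ (ch.re n).dom ν _ F e ↔ μG z ∈ U' ∩ V' := fun z s =>
    ⟨fun t => ⟨t.1.2, (d.le t.2).2⟩, fun t => ⟨⟨s.2.1, t.1⟩, d.ge ⟨h.lev.adm s.2.1, t.2⟩⟩⟩
  have l : Zb F T ∩ (Prod.fst ⁻¹' (U ∩ ch.dom ν κ F e) ∩ μG ⁻¹' (T ∩ U' ∩ (ch.re n).dom ν _ F e)) =
      Zb F T ∩ (V ∩ μG ⁻¹' (U' ∩ V')) :=
    Set.ext fun z => and_congr_right fun s => and_congr (b T h.lev z s) (k z s)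
  have m : Zb F T ∩ (V ∩ μG ⁻¹' (U' ∩ V')) ⊆ ch.OD ν κ κ' n F e := fun z s =>
    ⟨⟨s.1.1, ((k z s.1).2 s.2.2).2, s.1.2.2⟩, ((b T h.lev z s.1).2 s.2.1).2⟩
  refine ⟨_, v, m, gd_of (l ▸ Ivt.inter' (ivt_Zb h.lev.inv) (Ivt.inter'
      (ivt_fst (Ivt.inter' hU.inv (ivt_dom h.std.inv)))
      (ivt_μG (Ivt.inter' (hU'.ivt h.lev) (ivt_dom h.std.inv)))))
    (hU.prp_Zb h.num h.std.inv h.lev fun z s => ⟨s.1, ((b T h.lev z s.1).2 s.2.1).1⟩)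
    (h.pcy_Zb.lc.inter (a.inter g).isLocallyClosed) (fun z s => l.le ⟨s.1, ⟨hU.sol s.2.1, mem_dom s.2.1
      (Zb.adm h.num h.std.inv h.lev.adm s.1)⟩, ⟨s.1.2.1, hU'.sol s.2.2.1⟩,
      mem_dom s.2.2.1 (h.lev.adm s.1.2.1)⟩)
    (fun z s => (zero_kdD h.std h.num (m s)).trans
      ⟨fun t => ⟨s.1, t.2⟩, fun t => ⟨⟨s.1.1, h.lev.adm s.1.2.1, s.1.2.2⟩, t.2⟩⟩) (f.mono m),
    ⟨V, a, Set.ext fun z => ?_⟩, _, g, Set.ext fun z => ?_⟩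
  · exact ⟨fun s => ⟨⟨Zb_eq₁.le s.1, pre_of_eq (μG_p₁ z) ((k z s.1).2 s.2.2)⟩, s.2.1⟩,
      fun s => have t := Zb_eq₁.ge s.1.1
        ⟨t, s.2, (k z t).1 (pre_of_eq (μG_p₁ z).symm s.1.2)⟩⟩
  · exact ⟨fun s => ⟨⟨(Zb_eq₂ h.lev).le s.1, pre_of_eq (fst_p₂ z) ((b T h.lev z s.1).2 s.2.1)⟩,
      s.2.2⟩, fun s => have t := (Zb_eq₂ h.lev).ge s.1.1
        ⟨t, (b T h.lev z t).1 (pre_of_eq (fst_p₂ z).symm s.1.2), s.2⟩⟩

theorem core [Nice (ModS F T)] : ∃ (v vJ : ℕ)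
    (hL : (ch.kdL ν κ κ' n F e).Gd (actG F.toWt) (ZL F T) (OF F e T U) v (ch.rk F ℓ K₀).toNat)
    (hJ : (ch.kdJ ν κ κ' n F e).Gd (actG F.toWt) (ZS F T) (ZN F T) vJ (Fintype.card κ' * F.dv K₀)),
    haveI := hJ.nice
    IsHomeomorph h.eqM_N.map ∧ IsClosedEmbedding h.eqM_lf.map ∧
    range h.eqM_lf.map = h.eqM_N.map '' range (Quo.incl _ hJ.dom.sub) ∧
    ∀ t, supp (δ (pull h.eqM_N.map t)) = ∅ →
      supp (pull h.eqM_N.map t) ⊆ range (Quo.incl _ hJ.dom.sub) →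
      (ch.kdJ ν κ κ' n F e).vr (actG F.toWt) (ZS F T) (ZN F T) =
        gys (Quo.incl _ hJ.dom.sub) (pull h.eqM_N.map t) →
      supp (δ t) = ∅ ∧ supp t ⊆ range h.eqM_lf.map ∧
        (ch.kdL ν κ κ' n F e).vr (actG F.toWt) (ZL F T) _ (hL.fu (ch.dL ν κ κ' n F N)) =
          gys h.eqM_lf.map t (virF F e T) := by
  obtain ⟨U', hU'⟩ := h.pr'
  obtain ⟨v, hL⟩ := h.gd hU
  obtain ⟨vN, hN, pN, cN, a, b⟩ := h.exists_N hU'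
  obtain ⟨O, vD, c, hD, o₁, o₂⟩ := h.exists_D hU hU'
  obtain ⟨vS, d⟩ := ok_kdS h.std h.num (ν := ν) (κ := κ)
  obtain ⟨vJ, f⟩ := ok_kdJ h.std h.num (ν := ν) (κ := κ)
  have g : Zn F T ∩ μG ⁻¹' (T ∩ U' ∩ (ch.re n).dom ν _ F e) ⊆ ch.OS ν κ κ' n F e := fun _ s =>
    ⟨⟨s.1.1.1, s.2.2, s.1.1.2.2⟩, s.1.2⟩
  have hS := gd_of (Z := ZS F T) hN.ivt pN hN.lc (fun _ s => hN.dom.sub s.1)
    (fun _ s => (zero_kdS h.std h.num (g s)).trans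
      ⟨fun t => ⟨⟨s.1, t.1⟩, t.2⟩, fun t => ⟨t.1.2, t.2⟩⟩) (d.mono g)
  have hJ := gd_of (Z := ZS F T) hN.ivtZ (pN.mono hN.dom.sub) hN.lcZ (fun _ s => s.1)
    (fun _ s => (zero_kdJ h.std h.num (h.sub_OJ s)).trans (and_iff_right s).symm) (f.mono h.sub_OJ)
  haveI := hL.niceZ
  haveI := hS.niceZ
  haveI := hD.niceZ
  haveI := hJ.nice
  obtain ⟨k, l, m⟩ := chain spt₁ spt₂ hD hL hS hN hJ (h.cyc hU) cN
    (fun _ s => q₁_eq_zero.2 s.1.2) (fun _ s => q₂_eq_zero.2 s.1.2) o₁ o₂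
    ((tt₁ h.std h.num h.lev).mono c) ((tt₂ h.std h.num h.lev).mono c)
    (fun ⟨_, s⟩ => rk_glue h.std h.num ⟨⟨s.1.1, h.lev.adm s.1.2.1, s.1.2.2⟩, s.2⟩) rfl rfl
    (fun ⟨z, s⟩ => by
      have t := h.dim hU ⟨_, hL.dom.sub ((ZD_iff₂ h.num h.lev).1 s).1⟩
      have u := (h.cyc' hU').2 ⟨_, s.1.2.1, hU'.sol s.2.2.1⟩
      omega)
    ((lin_SN h.std h.num).mono (subset_univ _)) ((lin_JS h.std h.num).mono h.sub_OJ)
    (fun x _ => inj_JS h.std h.num x trivial)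
    (fun x s => srj_SN h.std h.num x ⟨h.sub_OJ s.1, s.2⟩) fun _ => rfl
  have s := fun x => Quot.inductionOn (motive := fun x => h.eqM_lf.map (EqM.map _ x) =
    h.eqM_N.map (Quo.incl _ hJ.dom.sub (EqM.map _ x))) x fun x =>
      show h.eqM_lf.map ((tt_eqM ((tt₂ h.std h.num h.lev).mono c) spt₂).map (Quo.mk _ x)) =
        h.eqM_N.map (Quo.incl _ hJ.dom.sub
          ((tt_eqM ((tt₁ h.std h.num h.lev).mono c) spt₁).map (Quo.mk _ x))) from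
      congrArg (Quo.mk _) (Subtype.ext (h.lf_p₂ x.2))
  obtain ⟨t, u⟩ := emb k l hJ.isClosedEmbedding a s
  refine ⟨v, vJ, hL, hJ, a, t, u, fun r w x y => ?_⟩
  obtain ⟨z₁, z₂, z₃⟩ := gys_eq k l hJ.isClosedEmbedding a s w x
  exact ⟨z₁, z₂, z₃ _ _ (by rw [m, y, b])⟩

omit hU in
theorem nice : Nice (ModS F T) := h.pr'.elim fun _ a => (h.vd a).nice (h.std.re n)

omit hU in
theorem exists_out (x : (ZN F T : Set (ch.WG n ν κ κ' Λ))) : ∃ a : ch.AG n ν κ κ' S, IsUnit a ∧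
    μG (actG F.toWt a x) = (Quo.out (h.eqM_N.map (Quo.mk _ x))).1 := by
  haveI := isActF_of (Ivt.inter' (ivt_solF h.std.inv) h.lev.inv)
  obtain ⟨g, a⟩ := Holo.Sp.exists_smul_out (act := actF F.toWt) (Holo.Sp.of _ _ (h.eqM_N.maps x.2))
  obtain ⟨b, c, d⟩ := θG_usurj (ch := ch) g.1 g.isUnit
  exact ⟨b, c, μG_actG.trans ((congrArg (actF F.toWt · _) d).trans (congrArg Subtype.val a))⟩

/-- **the labelled solutions are the matched solutions on the normalised curve** -/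
theorem emb : IsClosedEmbedding h.eqM_lf.map ∧ range h.eqM_lf.map = {y | Mtd (Quo.out y).1} := by
  haveI := h.nice
  obtain ⟨v, vJ, hL, hJ, a, b, c, -⟩ := h.core hU
  refine ⟨b, c.trans (Set.ext fun y => ?_)⟩
  obtain ⟨y, rfl⟩ := a.surjective y
  obtain ⟨x, rfl⟩ := Quot.exists_rep y
  obtain ⟨s, d, f⟩ := h.exists_out x
  haveI := hJ.dom.isAct
  haveI := hJ.isActZ
  refine (a.injective.mem_set_image.trans ((Quo.mk_mem_range hJ.dom.sub (x := x)).trans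
    ((Ivt.mem_iff (act := actG F.toWt) (S := ZN F T) ((inter_eq_right.2 hJ.dom.sub).symm ▸ hJ.ivtZ)
      d.unit x).symm.trans ?_)))
  exact (and_iff_right (hJ.ivt s d x x.2)).trans (iff_of_eq (congrArg Mtd f))

/-- **gluing** -/
theorem isV [DecidableEq R] [Nice (ModS F T)] (hF : F.Good) {l : List κ'} (hl : l.Nodup)
    (hl' : ∀ a, a ∈ l) :
    supp (δ (F.dgL ((ch.re n).solF ν (κ ⊕ κ') F ∩ T) l)) = ∅ ∧
      supp (F.dgL _ l) ⊆ range h.eqM_lf.map ∧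
      (ch.kdL ν κ κ' n F e).IsV (actG F.toWt) (ZL F T) (Zf F T)
        (gys h.eqM_lf.map (F.dgL _ l) (virF F e T)) := by
  obtain ⟨v, vJ, hL, hJ, a, -, -, b⟩ := h.core hU
  have c := (eqM_D h.std.inv h.num.cuts' (h.std.re n).wt).mono h.sub_OJ fun _ s =>
    (eqM_D h.std.inv h.num.cuts' (h.std.re n).wt).maps (h.sub_OJ s)
  have d : ((F.kdg κ').pb (θD ℓ) μD).Gd (actG F.toWt) (ZS F T) (ZN F T) 0 _ :=
    ⟨⟨hJ.dom.sub, hJ.dom.opn, hJ.dom.isAct, hJ.dom.orb, fun z s => ⟨fun t => ⟨s, fun q =>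
      Prod.ext rfl (sub_eq_zero.1 (congrFun t q))⟩, fun t => funext fun q =>
        sub_eq_zero.2 (congrArg Prod.snd (t.2 q))⟩⟩, (Fam.ok_kdg h.std.inv h.std.reg).pb' c⟩
  have f : ∀ q (y : ModS F T), vl2 (Quo.out y).1 (nq q false) (nq q true) ∈ F.cone2 := fun q y => by
    obtain ⟨y, rfl⟩ := a.surjective y
    obtain ⟨x, rfl⟩ := Quot.exists_rep y
    obtain ⟨s, t, u⟩ := h.exists_out x
    exact (congrArg (vl2 · _ _) u).subst (motive := (· ∈ F.cone2)) (c.maps (hJ.ivt s t x x.2) q trivial)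
  haveI := hJ.nice
  obtain ⟨g, k, m⟩ := Fam.vr_diag hF h.std.reg c d
    (ev := fun q y => Quo.mk F.act2 ⟨_, f q (h.eqM_N.map y)⟩) (fun q x => by
      obtain ⟨s, t, u⟩ := h.exists_out x
      exact (Quot.sound ⟨_, (Pi.isUnit_iff.1 (c.isUnit t)) q,
        (congrArg (vl2 · _ _) u).symm.trans (congrFun (c.eqv s t x x.2) q)⟩).symm) hl hl'
  have r : (l.map fun q => pull (fun y => Quo.mk F.act2 ⟨_, f q (h.eqM_N.map y)⟩) F.diag).prod =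
      pull h.eqM_N.map (F.dgL _ l) := by
    rw [Fam.dgL, map_list_prod, List.map_map, List.map_map]
    exact congrArg List.prod (List.map_congr_left fun q _ =>
      ((congrArg _ (dif_pos (f q))).trans (pull_pull _ _ _)).symm)
  rw [r] at g k m
  obtain ⟨s, t, u⟩ := b _ g k ((vr_kdJ h.std h.num h.sub_OJ hJ d).trans m)
  obtain ⟨V, w, x⟩ := h.std.exists_OF h.num hU.opn
  exact ⟨s, t, u ▸ hL.isV ⟨V, w, Set.ext fun z => and_congr_right fun y => x T h.lev z y.1⟩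
    (hL.dom.isFund (h.cyc hU))⟩

end Vale.Agent.P269.Ch.GH
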