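import Vale.Agent.P287Q.G.Glu.NdM0

/-!
# Curves with persistent nodes form a torus bundle
-/

set_option linter.unusedSectionVars false

namespace Vale.Agent.P269.Nd

open P291Z Set Function Topology Filter Module Orb Holo Ch Ch.KD Base

variable {S Λ R J K I ι ν κ ε : Type} [Fintype S] [Fintype Λ] [Fintype R] [Fintype J] [Fintype K]
  [Fintype I] [Fintype ι] [DecidableEq ι] [Fintype ν] [Fintype κ] [Fintype ε] {ch : Ch ι J}
  {F : Fam S Λ R J K} {Z₀ : Set J} {φ : I → J} {ℓ : R → ι → ℤ} {x : ch.WF ν (κ ⊕ ε) Λ}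
  {x' : ch.WF (ν ⊕ ε × Bool) κ Λ} {z : ch.WF (ν ⊕ ε × Bool) κ Λ × (ε × R → ℂ)}
  {a : ch.AF (ν ⊕ ε × Bool) κ S}

section adm

variable {y : ch.WF ν κ Λ} {j : J}

theorem p_mem (hy : y ∈ ch.adm ν κ F) (n : Mk ν κ) : y.2.p n ∈ crv y.2 := (hy.1.2.1.2.2.2.1 n).1

theorem vl_adm {a : ch.AF ν κ S} (ha : IsUnit a) (hy : y ∈ ch.adm ν κ F) (hj : j ∉ F.mov)
    (n : Mk ν κ) : (vl (actF F.toWt a y) n).2 j =
      chz (F.wt j) a.1 * chz (ch.wd j) ((dup a.2).2.2 n) * (vl y n).2 j :=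
  fld_actF_p ha (p_mem hy n) (hy.2.1 j hj _ (p_mem hy n))

theorem holOn_vl (hy : y ∈ ch.adm ν κ F) (hj : j ∉ F.mov) (n : Mk ν κ) :
    HolOn (ch.adm ν κ F) (fun s => (vl s n).2 j) y :=
  holOn_fld (q := Prod.snd) hy (.of_an analyticAt_snd) hy.1.2.1.1 (.of_an (W.an_p analyticAt_snd n))
    (.of_forall fun _ hs => ⟨p_mem hs n, hs.2.1 j hj _ (p_mem hs n)⟩)

end adm

variable (ch ν κ ε Λ R) in
/-- Smooth points with invertible identifications. -/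
def Bu : Set (ch.WF (ν ⊕ ε × Bool) κ Λ × (ε × R → ℂ)) := {z | z.1.2 ∈ ch.base _ ∧ ∀ q, z.2 q ≠ 0}

theorem cM_ne (ha : IsUnit a) (q : ε × R) : cM ℓ q a ≠ 0 :=
  div_ne_zero (chz_ne_zero (tor_neF ha _)) (chz_ne_zero (tor_neF ha _))

theorem act_mem_Bu {W : Wt S Λ R J} (ha : IsUnit a) (hz : z ∈ Bu Λ R ν κ ε ch) :
    actV (actF W) (cM ℓ) a z ∈ Bu Λ R ν κ ε ch :=
  ⟨Cv.act_mem_base hz.1 (isUnit_dupF ha), fun q => mul_ne_zero (cM_ne ha q) (hz.2 q)⟩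

theorem holOn_sM (hc : Num₀ ch) (hz : z ∈ Bu Λ R ν κ ε ch) : HolOn (Bu Λ R ν κ ε ch) (sM ℓ) z := by
  obtain ⟨l, hl⟩ := hc.cut
  have a : ∀ n, HolOn (Bu Λ R ν κ ε ch) (fun y => rsd y.1.2 n) z := fun n =>
    (holOn_rsd hl hz.1 n).comp (F := fun y : ch.WF (ν ⊕ ε × Bool) κ Λ × (ε × R → ℂ) => y.1.2)
      (.of_an (analyticAt_snd.comp analyticAt_fst)) hz (.of_forall fun _ b => b.1)
  have b : ∀ e, HolOn (Bu Λ R ν κ ε ch) (fun y => tt y e) z := fun e => .pi fun o => by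
    cases o
    · exact ((a (mq e false)).prod (a (mq e true))).comp_an
        (G := fun p : ℂ × ℂ => p.1 / ((-1) ^ ch.k * p.2)) hz (analyticAt_fst.div
          (analyticAt_const.mul analyticAt_snd) (mul_ne_zero sg_ne (rsd_ne hz.1 _)))
    · exact .of_an ((analyticAt_pi_iff.1 analyticAt_snd _).inv (hz.2 _))
  exact .pi fun e => (b e).comp_an (G := co ch ℓ) hz (analyticAt_pi_iff.2 fun i =>
    an_prod_zpow analyticAt_id (tt_ne hz.1 hz.2 e) _)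

section lat

variable {W : Wt S Λ R J} (hl : ch.Lat W ℓ)
include hl

theorem tM_sM_act (ha : IsUnit a) (hz : z ∈ Bu Λ R ν κ ε ch) :
    tM (sM ℓ (actV (actF W) (cM ℓ) a z)) * a = θu (θd a) * tM (sM ℓ z) := by
  refine tM_comm fun e => ?_
  have b : ∀ b i, aB a e b i ≠ 0 := fun b => tor_neF ha _
  rw [← co_chz hl (b true), ← co_chz hl (b false), sM_eq, sM_eq, ← co_mul, ← co_mul]
  refine congrArg _ (funext fun o => ?_)
  cases o with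
  | none =>
    have c := chz_ne_zero (χ := ch.χ) (b true)
    have d := rsd_ne hz.1 (mq e true)
    have f := sg_ne (ch := ch)
    change rsd (actF W a z.1).2 _ / (_ * rsd (actF W a z.1).2 _) * chz ch.χ (aB a e true) =
      chz ch.χ (aB a e false) * (rsd z.1.2 _ / (_ * rsd z.1.2 _))
    rw [rsd_actF ha hz.1, rsd_actF ha hz.1]
    change chz ch.χ (aB a e false) * _ / (_ * (chz ch.χ (aB a e true) * _)) * _ = _
    field_simp
  | some r =>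
    have c := chz_ne_zero (χ := ℓ r) (b true)
    change (chz (ℓ r) (aB a e true) / chz (ℓ r) (aB a e false) * z.2 (e, r))⁻¹ *
      chz (ℓ r) (aB a e true) = chz (ℓ r) (aB a e false) * (z.2 (e, r))⁻¹
    field_simp

theorem gM_act (ha : IsUnit a) (hz : z ∈ Bu Λ R ν κ ε ch) :
    gM W ℓ (actV (actF W) (cM ℓ) a z) = actF W (θd a) (gM W ℓ z) := by
  rw [← dW_uW (actF W (θd a) _), uW_act, uW_gM, ← actF_mul, ← tM_sM_act hl ha hz, actF_mul]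
  rfl

theorem cM_tM (s : ε → ι → ℂ) (q : ε × R) :
    cM ℓ q (tM s : ch.AF (ν ⊕ ε × Bool) κ S) = chz (ℓ q.2) (s q.1) :=
  (congrArg (_ / ·) chz_one).trans (div_one _)

theorem cM_inv (hz : z ∈ Bu Λ R ν κ ε ch) (q : ε × R) :
    cM ℓ q (tM (sM ℓ z)⁻¹ : ch.AF (ν ⊕ ε × Bool) κ S) = z.2 q := by
  have b := chz_sM hl hz.1 hz.2 q.1 q.2
  rw [cM_tM hl, ← inv_inv (z.2 q), ← b]
  simp [chz]

theorem eq_tM (ha : IsUnit a) (h1 : θd a = 1) (hz : z ∈ Bu Λ R ν κ ε ch) :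
    a = tM ((sM ℓ (actV (actF W) (cM ℓ) a z))⁻¹ * sM ℓ z) := by
  have b := act_mem_Bu (W := W) (ℓ := ℓ) ha hz
  have c := tM_sM_act hl ha hz
  rw [h1, show θu (1 : ch.AF ν (κ ⊕ ε) S) = 1 from rfl, one_mul] at c
  rw [tM_mul, ← c, ← mul_assoc, tM_inv (sM_ne b.1 b.2), one_mul]

end lat

variable [DecidableEq R] [DecidableEq I] {e : K → ι → ℕ} {K₀ : RD R} {n : J → I → ℤ}
  {ψ : J → (Λ → ℂ) → ℂ} (h : Cx F Z₀ φ ch e K₀ ℓ n ψ)
include h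

theorem Cx.nm (i : I) : φ i ∉ F.mov := (h.sh.free i).1

theorem Cx.nz {j : J} (hj : j ∈ Z₀) : j ∉ F.mov := disjoint_left.1 h.nice.zer_base hj

theorem Cx.ivt' : Ivt (actF F.toWt) (BM' ch ν κ ε F Z₀ φ) := fun _ ha _ hx =>
  ⟨actF_mem_adm h.std.inv ha hx.1, fun q b => ⟨fun j hj => by
    rw [vl_adm ha hx.1 (h.nz hj), (hx.2 q b).1 j hj, mul_zero], fun i => by
    rw [vl_adm ha hx.1 (h.nm i)]
    exact mul_ne_zero (mul_ne_zero (chz_ne_zero (ne_S ha)) (chz_ne_zero (tor_neF ha _)))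
      ((hx.2 q b).2 i)⟩⟩

theorem Cx.ivt : Ivt (actF F.toWt) (BM0 ch ν κ ε F Z₀ φ) := fun a ha x hx =>
  ⟨actF_mem_adm h.std.inv ha hx.1,
    mem_preimage.2 (mem_of_eq_of_mem (uW_act _ a x) (h.ivt' _ (isUnit_θu ha) _ hx.2))⟩

theorem Cx.mem_cone (hx : x' ∈ ch.solF _ κ F) {q : ε} {b : Bool}
    (hv : ∀ j ∈ Z₀, (vl x' (mq q b)).2 j = 0) : vl x' (mq q b) ∈ (F.sub F.B Z₀).cone :=
  have a := ((mem_solF.1 hx).2 _ (hx.2.1.2.2.2.1 (mq q b)).1).2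
  ⟨a.1, ⟨a.2.1.1, a.2.1.2.1, hv⟩, a.2.2⟩

theorem Cx.mem_BM' (hx : x' ∈ ch.solF _ κ F) (ha : x' ∈ ch.adm _ κ F)
    (hv : ∀ q b, ∀ j ∈ Z₀, (vl x' (mq q b)).2 j = 0) : x' ∈ BM' ch ν κ ε F Z₀ φ :=
  ⟨ha, fun q b => ⟨hv q b, fun i =>
    h.sh.ne _ (h.nm i) (h.sh.free i).2.1 rfl _ (h.mem_cone hx (hv q b))⟩⟩

/-- the condition that the free fields do not vanish is open -/
theorem Cx.open_BM' : ∃ U, IsOpen U ∧ BM' ch ν κ ε F Z₀ φ =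
    {x | x ∈ ch.adm _ κ F ∧ ∀ q b, ∀ j ∈ Z₀, (vl x (mq q b)).2 j = 0} ∩ U := by
  have a : ContinuousOn (fun (x : ch.WF (ν ⊕ ε × Bool) κ Λ) (k : ε × Bool × I) =>
      (vl x (mq k.1 k.2.1)).2 (φ k.2.2)) (ch.adm _ κ F) :=
    continuousOn_pi.2 fun k x hx => (holOn_vl hx (h.nm _) _).tendsto hx
  obtain ⟨U, b, c⟩ := continuousOn_iff'.1 a (univ.pi fun _ => {0}ᶜ)
    (isOpen_set_pi finite_univ fun _ _ => isOpen_compl_singleton)
  exact ⟨U, b, Set.ext fun x => ⟨fun d => ⟨⟨d.1, fun q b => (d.2 q b).1⟩,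
    (c.le ⟨fun k _ => (d.2 k.1 k.2.1).2 k.2.2, d.1⟩).1⟩, fun d => ⟨d.1.1, fun q b =>
    ⟨d.1.2 q b, fun i => (c.ge ⟨d.2, d.1.1⟩).1 (q, b, i) trivial⟩⟩⟩⟩

theorem Cx.rM_act (ha : IsUnit a) (hx : x' ∈ BM' ch ν κ ε F Z₀ φ) (b : ε × I) :
    (∏ q, cM ℓ q a ^ blk (fun i => F.w (φ i)) b q) * rM φ b (actF F.toWt a x') = rM φ b x' := by
  obtain ⟨q, i⟩ := b
  have c : ∀ b i, aB a q b i ≠ 0 := fun b => tor_neF ha _
  have d := chz_ne_zero (χ := F.wt (φ i)) (ne_S ha)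
  have f := chz_ne_zero (χ := ch.wd (φ i)) (c true)
  have g := chz_ne_zero (χ := ch.wd (φ i)) (c false)
  have k := (hx.2 q true).2 i
  rw [prod_blk]
  simp only [cM_eq, div_zpow, Finset.prod_div_distrib, ← chz_wd h.lat (c _)]
  change _ * ((vl _ (mq q false)).2 _ / (vl _ (mq q true)).2 _) =
    (vl _ (mq q false)).2 _ / (vl _ (mq q true)).2 _
  rw [vl_adm ha hx.1 (h.nm i), vl_adm ha hx.1 (h.nm i)]
  change _ * (_ * chz _ (aB a q false) * _ / (_ * chz _ (aB a q true) * _)) = _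
  field_simp

open Classical in
theorem Cx.lab {σ : I → R → ℂ} (hσ : ∀ i i', ∑ r, F.w (φ i') r * σ i r = if i = i' then 1 else 0) :
    Lab (blk fun i => F.w (φ i)) (blk σ) (rM φ) (actF F.toWt) (cM ℓ) (BM' ch ν κ ε F Z₀ φ) := by
  refine ⟨chr_cM ℓ, h.ivt', fun ⟨q, i⟩ ⟨q', i'⟩ => ?_, fun b x hx => ?_,
    fun b x hx => div_ne_zero ((hx.2 _ _).2 _) ((hx.2 _ _).2 _), fun a ha x hx => h.rM_act ha hx⟩
  · rw [Fintype.sum_prod_type, Finset.sum_eq_single q (fun b _ hb => by simp [blk, hb.symm])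
      (by simp)]
    by_cases c : q' = q
    · simp [blk, c, hσ]
    · simp [blk, c, Ne.symm c]
  · exact (((holOn_vl hx.1 (h.nm b.2) (mq b.1 false)).prod
      (holOn_vl hx.1 (h.nm b.2) (mq b.1 true))).comp_an (G := fun p : ℂ × ℂ => p.1 / p.2) hx.1
        (analyticAt_fst.div analyticAt_snd ((hx.2 _ _).2 _))).mono (.of_forall fun _ c => c.1)

theorem Cx.ivt0 : Ivt (actV (actF F.toWt) (cM ℓ))
    (N0 (blk fun i => F.w (φ i)) (rM φ) (BM' ch ν κ ε F Z₀ φ)) := fun a ha z hz => by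
  refine ⟨h.ivt' a ha _ hz.1, fun q => mul_ne_zero (cM_ne ha q) (hz.2.1 q), fun b => ?_⟩
  rw [← hz.2.2 b, rho, rho, ← h.rM_act ha hz.1 b, ← mul_assoc, mul_comm (∏ q, z.2 q ^ _),
    ← prod_zpow_mul]
  rfl

theorem Cx.agree (hx : x' ∈ BM' ch ν κ ε F Z₀ φ) {q : ε}
    (hφ : ∀ i, (vl x' (mq q false)).2 (φ i) = (vl x' (mq q true)).2 (φ i)) {j : J}
    (hj : j ∉ F.mov) : (vl x' (mq q false)).2 j = (vl x' (mq q true)).2 j := by
  by_cases a : j ∈ Z₀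
  · rw [(hx.2 q _).1 j a, (hx.2 q _).1 j a]
  have b := fun c => (h.sh.E _ hx.1.1.1 _ (hx.2 q c).1 fun _ i _ => (hx.2 q c).2 i).1
    (hx.1.2.2.1 _ (p_mem hx.1 _)) j hj a
  simp only [b, hφ]

theorem Cx.maps : MapsTo (gM F.toWt ℓ) (N0 (blk fun i => F.w (φ i)) (rM φ) (BM' ch ν κ ε F Z₀ φ))
    (BM0 ch ν κ ε F Z₀ φ) := fun z hz => by
  have a := hz.1.1.1.2.1
  have b : uW (gM F.toWt ℓ z) ∈ BM' ch ν κ ε F Z₀ φ :=
    mem_of_eq_of_mem (uW_gM _ z) (h.ivt' _ (isUnit_tM (sM_ne a hz.2.1)) _ hz.1)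
  refine ⟨mem_adm_iff.2 ⟨gM_mem_baseF h.lat h.std.inv hz.1.1.1 hz.2.1, b.1, fun j hj q =>
    h.agree b (fun i => ?_) hj⟩, b⟩
  obtain ⟨c, d⟩ := vl_gM h.lat a hz.2.1 q (hz.1.1.2.1 _ (h.nm i))
  refine (congrArg (·.2 (φ i)) c).trans (Eq.trans ?_ d.symm)
  have f := (rho_blk _ z q i).symm.trans (hz.2.2 (q, i))
  have g := prod_zpow_ne (fun r => hz.2.1 (q, r)) (F.w (φ i))
  have k := (hz.1.2 q true).2 i
  change (∏ r, z.2 (q, r) ^ F.w (φ i) r) * ((vl _ (mq q false)).2 _ / (vl _ (mq q true)).2 _) = 1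
    at f
  change _ = (∏ s, (1 : ℂ) ^ F.wt (φ i) s) * (∏ r, (z.2 (q, r))⁻¹ ^ F.w (φ i) r) *
    (vl _ (mq q true)).2 _
  simp only [one_zpow, Finset.prod_const_one, one_mul, inv_zpow, Finset.prod_inv_distrib]
  field_simp at f ⊢
  exact f

theorem Cx.mem_N0 (hx : x ∈ BM0 ch ν κ ε F Z₀ φ) : (uW x, fun _ => 1) ∈
    N0 (blk fun i => F.w (φ i)) (rM φ) (BM' ch ν κ ε F Z₀ φ) :=
  ⟨hx.2, fun _ => one_ne_zero, fun b => (congrArg₂ (· * ·) (Finset.prod_eq_one fun _ _ => one_zpow _)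
    ((div_eq_one_iff_eq ((hx.2.2 _ _).2 _)).2 ((mem_adm_iff.1 hx.1).2.2 _ (h.nm b.2) b.1))).trans
      (one_mul _)⟩

/-- **The torus bundle.** -/
theorem Cx.bun : Bun (actV (actF F.toWt) (cM ℓ)) (actF F.toWt)
    (N0 (blk fun i => F.w (φ i)) (rM φ) (BM' ch ν κ ε F Z₀ φ)) (BM0 ch ν κ ε F Z₀ φ) θd
    (gM F.toWt ℓ) := by
  have u : N0 (blk fun i => F.w (φ i)) (rM φ) (BM' ch ν κ ε F Z₀ φ) ⊆ Bu Λ R ν κ ε ch :=
    fun z hz => ⟨hz.1.1.1.2.1, hz.2.1⟩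
  have v : ∀ z ∈ Bu Λ R ν κ ε ch, ∀ q i, sM ℓ z q i ≠ 0 := fun z hz => sM_ne hz.1 hz.2
  have w : ∀ z ∈ Bu Λ R ν κ ε ch, IsUnit (tM (sM ℓ z)⁻¹ : ch.AF (ν ⊕ ε × Bool) κ S) :=
    fun z hz => isUnit_tM fun q i => inv_ne_zero (v z hz q i)
  have k : ∀ z ∈ Bu Λ R ν κ ε ch, actV (actF F.toWt) (cM ℓ) (tM (sM ℓ z)⁻¹)
      (uW (gM F.toWt ℓ z), fun _ => 1) = z := fun z hz => Prod.ext (by
    rw [uW_gM, actV, ← actF_mul, tM_inv (v z hz), actF_one])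
    (funext fun q => (mul_one _).trans (cM_inv h.lat hz q))
  refine ⟨⟨rfl, fun _ _ => rfl, fun a => ⟨_, θd_θu a⟩, fun b hb => ⟨_, isUnit_θu hb, θd_θu b⟩, h.maps,
    fun z hz => ?_, fun a ha z hz => gM_act h.lat ha (u hz), fun z hz z' hz' c => ?_,
    fun z hz a ha c d => ?_⟩, fun z hz y a c d f => ?_, fun z hz => ?_⟩
  · obtain ⟨Φ, a, b⟩ := ((holOn_sM (ℓ := ℓ) h.num (u hz)).prod (.of_an analyticAt_fst)).comp_an
      (G := fun p => dW (actF F.toWt (tM p.1) p.2)) (u hz)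
      (an_dW (an_actF (x := Prod.snd) (an_tM analyticAt_fst) analyticAt_snd fun _ => one_ne_zero))
    exact ⟨Φ, a, eventually_nhdsWithin_iff.2 (b.mono fun _ c d => c (u d))⟩
  · have := (chr_cM (ch := ch) (ν := ν) (κ := κ) (S := S) (ε := ε) ℓ).hm
    refine ⟨tM ((sM ℓ z')⁻¹ * sM ℓ z), isUnit_tM fun q i =>
      mul_ne_zero (inv_ne_zero (v _ (u hz') q i)) (v _ (u hz) q i), θd_tM _, Prod.ext ?_
      (funext fun q => ?_)⟩
    · refine Eq.trans ?_ (congrArg Prod.fst (k z' (u hz')))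
      rw [← c, uW_gM, tM_mul]
      exact actF_mul _ _ _
    · change cM ℓ q _ * _ = _
      rw [tM_mul, (this q).mul _ _ (w _ (u hz')) (isUnit_tM (v _ (u hz))), cM_inv h.lat (u hz'),
        cM_tM h.lat, chz_sM h.lat (u hz).1 hz.2.1, inv_mul_cancel_right₀ (hz.2.1 q)]
  · have f := eq_tM h.lat ha c (u hz)
    rwa [d, tM_mul, tM_inv (v _ (u hz))] at f
  · have g := (holOn_sM (ℓ := ℓ) h.num (u hz)).tendsto (u hz)
    have g₁ := g.comp (tendsto_inf.2 ⟨d, tendsto_principal.2 (.of_forall fun m => u (c m).1)⟩)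
    have g₂ := g.comp (tendsto_inf.2 ⟨f, tendsto_principal.2 (.of_forall fun m =>
      act_mem_Bu (c m).2.1 (u (c m).1))⟩)
    rw [funext fun m => eq_tM h.lat (c m).2.1 (c m).2.2 (u (c m).1), ← tM_inv (v _ (u hz)), ← tM_mul]
    refine (an_tM analyticAt_id).continuousAt.tendsto.comp (Tendsto.mul ?_ g₁)
    exact tendsto_pi_nhds.2 fun q => tendsto_pi_nhds.2 fun i =>
      (tendsto_pi_nhds.1 (tendsto_pi_nhds.1 g₂ q) i).inv₀ (v _ (u hz) q i)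
  · refine ⟨fun y => actV (actF F.toWt) (cM ℓ) (tM (sM ℓ z)⁻¹) (uW y, fun _ => 1),
      (an_actF analyticAt_const (an_uW analyticAt_id) fun _ => one_ne_zero).prod
        (analyticAt_const (v := fun i => cM ℓ i (tM (sM ℓ z)⁻¹) * 1)),
      k z (u hz), eventually_nhdsWithin_of_forall fun y hy =>
        ⟨h.ivt0 _ (w z (u hz)) _ (h.mem_N0 hy), ?_⟩⟩
    rw [gM_act h.lat (w z (u hz)) (u (h.mem_N0 hy)), θd_tM, actF_one, gM_uW hy.1.1]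

end Vale.Agent.P269.Nd
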