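import Vale.Agent.P287Q.G.Glu.NdB
import Vale.Agent.P287Q.G.Glu.NdCg
import Vale.Agent.P287Q.G.Glu.NdM
import Vale.Agent.P287Q.G.Bas.Lv

/-!
# Persistent nodes as pairs of marked points: the virtual classes of the total spaces
-/

set_option linter.unusedSectionVars false
set_option linter.style.haveILetI false

namespace Vale.Agent.P269.Nd

open P291Z Set Function Topology Filter Module Orb Holo Ch Ch.KD NG

variable {S Λ R J K I ι ν κ ε : Type} [Fintype S] [Fintype Λ] [Fintype R] [Fintype J] [Fintype K]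
  [Fintype I] [Fintype ι] [DecidableEq ι] [Fintype ν] [Fintype κ] [Fintype ε] {ch : Ch ι J}
  {F : Fam S Λ R J K} {Z₀ : Set J} {φ : I → J} {ℓ : R → ι → ℤ}
  {T O M : Set (ch.WF ν (κ ⊕ ε) Λ)} {T' O' M' : Set (ch.WF (ν ⊕ ε × Bool) κ Λ)} {d d' : ℕ}

theorem NdT.mapsTo (hT : NdT F Z₀ T T') :
    MapsTo uW (ch.solF ν (κ ⊕ ε) F ∩ T) (ch.solF _ κ F ∩ T') :=
  fun x hx => ⟨(mem_solF_iff.1 hx.1).2, hT.maps x hx⟩

/-- The map that forgets the identifications at the nodes. -/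
noncomputable def NdT.π (hT : NdT F Z₀ T T') : C(ModS F T, ModS F T') :=
  (bc_uW hT.mapsTo).toEqM.map

variable (F Z₀ φ T') in
/-- The neighbourhood of the torus bundle over the solutions. -/
abbrev YM : Set (ch.WF (ν ⊕ ε × Bool) κ Λ × (ε × R → ℂ)) :=
  (ch.solF _ κ F ∩ T') ×ˢ univ ∩ NM ch ν κ ε F Z₀ φ

variable (F φ ℓ) in
/-- Its product structure. -/
noncomputable abbrev fM (σ : I → R → ℂ) : ch.WF (ν ⊕ ε × Bool) κ Λ × (ε × R → ℂ) →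
    ch.WF ν (κ ⊕ ε) Λ × (ε × I → ℂ) :=
  lf (blk fun i => F.w (φ i)) (blk σ) (rM φ) (gM F.toWt ℓ)

variable (ch ν κ ε F ℓ) in
/-- The action on the total space over the pairs of marked points. -/
noncomputable abbrev aU := actV (actF (ch := ch) (ν := ν ⊕ ε × Bool) (κ := κ) F.toWt) (cM ℓ)

variable (ch ν κ ε F I) in
/-- The action on the total space over the nodes. -/
noncomputable abbrev aD :=
  actV (actF (ch := ch) (ν := ν) (κ := κ ⊕ ε) F.toWt) fun (_ : ε × I) _ => (1 : ℂ)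

variable [DecidableEq R] [DecidableEq I] {e : K → ι → ℕ} {K₀ : RD R} {n : J → I → ℤ}
  {ψ : J → (Λ → ℂ) → ℂ} {σ : I → R → ℂ} (h : Cx F Z₀ φ ch e K₀ ℓ n ψ) (hT : NdT F Z₀ T T')
  (hv : Vd F e T O M d) (hv' : Vd F e T' O' M' d')
  (hσ : ∀ i i', ∑ r, F.w (φ i') r * σ i r = if i = i' then 1 else 0)
  {y : ch.WF (ν ⊕ ε × Bool) κ Λ × (ε × R → ℂ)}

include h hT hv' in
theorem Cx.sub_BM' : ch.solF _ κ F ∩ T' ⊆ BM' ch ν κ ε F Z₀ φ := fun x hx =>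
  h.mem_BM' hx.1 (hv'.adm hx.2) (hT.van x hx.2)

include h hT hv hv' in
theorem Cx.shrink : ∃ U, Vd F e T (O ∩ U) (M ∩ U) d ∧ O ∩ U ⊆ BM0 ch ν κ ε F Z₀ φ := by
  obtain ⟨U₀, a, b⟩ := h.open_BM' (ν := ν) (κ := κ) (ε := ε)
  obtain ⟨U, c, i, s, k⟩ := exists_loc (Z := ch.solF ν (κ ⊕ ε) F ∩ T) hv.inv
    (S' := T ∩ BM0 ch ν κ ε F Z₀ φ) (fun a ha x hx => ⟨hv.inv a ha x hx.1, h.ivt a ha x hx.2⟩)
    fun x hx => by
      filter_upwards [hT.loc x ⟨hx.1, hv.adm hx.2⟩ (hT.maps x hx), continuous_uW.continuousAt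
        (a.mem_nhds (b.le (h.sub_BM' hT hv' (hT.mapsTo hx))).2)] with y h1 h2
      exact ⟨fun t => ⟨t, hv.adm t, b.ge ⟨⟨hv'.adm (h1.1 t).2, hT.van _ (h1.1 t).2⟩, h2⟩⟩, And.left⟩
  obtain ⟨V, -, rfl⟩ := hv.dom.opn
  exact ⟨U, hv.inter c s fun a ha x hx => i a ha x hx.2, fun x hx => (k.le ⟨hx.1.1, hx.2⟩).1.2⟩

include h hσ

theorem Cx.bunM : Bun (aU ν κ ε ch F ℓ) (aD I ν κ ε ch F) (NM ch ν κ ε F Z₀ φ)
    (BM0 ch ν κ ε F Z₀ φ ×ˢ univ) θd (fM F φ ℓ σ) := by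
  classical
  exact (h.lab hσ).bun h.bun

theorem Cx.lab_mem (hy : y ∈ NM ch ν κ ε F Z₀ φ) : Nd.lab (blk fun i => F.w (φ i)) (blk σ) (rM φ) y ∈
    N0 (blk fun i => F.w (φ i)) (rM φ) (BM' ch ν κ ε F Z₀ φ) := by
  classical
  exact (h.lab hσ).lab_mem hy

theorem Cx.ivtN : Ivt (aU ν κ ε ch F ℓ) (NM ch ν κ ε F Z₀ φ) := by
  classical
  exact (h.lab hσ).ivt1

theorem Cx.openN : ∃ U, IsOpen U ∧ NM ch ν κ ε F Z₀ φ = BM' ch ν κ ε F Z₀ φ ×ˢ univ ∩ U := by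
  classical
  exact (h.lab hσ).open1

theorem Cx.uW_fM (hy : y ∈ NM ch ν κ ε F Z₀ φ) :
    ∃ a, IsUnit a ∧ uW (fM F φ ℓ σ y).1 = actF F.toWt a y.1 :=
  have a := h.lab_mem hσ hy
  ⟨_, isUnit_tM (sM_ne (ℓ := ℓ) a.1.1.1.2.1 a.2.1), uW_gM _ _⟩

include hT hv'

theorem Cx.eqM_f : EqM (aU ν κ ε ch F ℓ) (aD I ν κ ε ch F) (YM F Z₀ φ T')
    ((ch.solF ν (κ ⊕ ε) F ∩ T) ×ˢ univ) θd (fM F φ ℓ σ) :=
  (h.bunM hσ).toEt.eqM.mono inter_subset_right fun y hy => by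
    obtain ⟨a, ha, e⟩ := h.uW_fM hσ hy.2
    have b := ((h.bunM hσ).maps hy.2).1.1
    have c := mem_solF_iff.2 ⟨b.1, e ▸ actF_mem_solF h.std.inv ha hy.1.1.1⟩
    have k : uW (fM F φ ℓ σ y).1 ∈ T' := e ▸ hv'.inv a ha _ hy.1.1.2
    exact ⟨⟨c, (hT.loc _ ⟨c, b⟩ k).self_of_nhds.2 ⟨b, k⟩⟩, trivial⟩

theorem Cx.openY : ∃ U, IsOpen U ∧ YM F Z₀ φ T' = (ch.solF _ κ F ∩ T') ×ˢ univ ∩ U :=
  let ⟨U, a, b⟩ := h.openN hσ
  ⟨U, a, Set.ext fun _ => and_congr_right fun c =>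
    b ▸ and_iff_right ⟨h.sub_BM' hT hv' c.1, trivial⟩⟩

include hv

/-- **the virtual classes of the total spaces agree** -/
theorem Cx.vir_tot (hO : O ⊆ BM0 ch ν κ ε F Z₀ φ) {n₀ n₁ : ℕ}
    (g : (ch.kd ν (κ ⊕ ε) F e).Gd (actF F.toWt) (ch.solF _ _ F ∩ T) O n₀ (ch.rk F ℓ K₀).toNat)
    (g' : (ch.kd _ κ F e).Gd (actF F.toWt) (ch.solF _ _ F ∩ T') O' n₁ (ch.rk F ℓ K₀).toNat)
    [Nice (Quo (aD I ν κ ε ch F) ((ch.solF _ _ F ∩ T) ×ˢ univ))]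
    [Nice (Quo (aU ν κ ε ch F ℓ) ((ch.solF _ _ F ∩ T') ×ˢ univ))] :
    IsOpenEmbedding (Quo.incl (aU ν κ ε ch F ℓ) (inter_subset_left : YM F Z₀ φ T' ⊆ _)) ∧
      IsOpenEmbedding (h.eqM_f hT hv' hσ).map ∧
      res (Quo.incl _ (inter_subset_left : YM F Z₀ φ T' ⊆ _))
          (((ch.kd _ κ F e).pb id Prod.fst).vr _ _ _
            (((chr_cM ℓ).gd g').fu (d' + Fintype.card (ε × R)))) =
        res (h.eqM_f hT hv' hσ).map (((ch.kd ν (κ ⊕ ε) F e).pb id Prod.fst).vr _ _ _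
          ((chr_one.gd g).fu (d + Fintype.card (ε × I)))) := by
  haveI := (chr_cM (ch := ch) (ν := ν) (κ := κ) (ε := ε) (S := S) ℓ).isAct_univ
    (act := actF F.toWt)
  haveI := (chr_one (α := ε × I)).isAct_univ (act := actF (ch := ch) (ν := ν) (κ := κ ⊕ ε) F.toWt)
  obtain ⟨U₀, a, b⟩ := h.open_BM' (ν := ν) (κ := κ) (ε := ε)
  obtain ⟨U, a', b'⟩ := h.openN (ν := ν) (κ := κ) (ε := ε) hσ
  obtain ⟨V, c, rfl⟩ := hv.dom.opn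
  obtain ⟨V', c', rfl⟩ := hv'.dom.opn
  have l := fun O => lin_gM (F := F) (ℓ := ℓ) e
    (Nd.lab (blk fun i => F.w (φ i)) (blk σ) (rM (ch := ch) (ν := ν) (κ := κ) (ε := ε) φ)) O
  refine vr_bun (chr_one.gd g) ((chr_cM ℓ).gd g') (cyc_tot hv.cyc) (cyc_tot hv'.cyc) (h.bunM hσ)
    (h.ivtN hσ) (ivt_tot h.ivt) (prod_mono_left hO)
    ⟨U ∩ Prod.fst ⁻¹' U₀, a'.inter (a.preimage continuous_fst),
      fun y hy => ⟨(b'.le hy.2).2, (b.le hy.2.1).2⟩, fun y hy => b'.ge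
        ⟨⟨b.ge ⟨⟨hv'.adm hy.1.1.1, hT.van _ hy.1.1.1⟩, hy.2.2⟩, trivial⟩, hy.2.1⟩⟩
    (h.openY hT hv' hσ) (fun x hx => ?_) (L := LinearMap.id)
    ⟨(l ∅).1.mem, (l ∅).1.eqv, (l _).1.van, (l _).1.sec, (l _).1.obs⟩ (l _).2 (fun _ => rfl) _
  have m := ((h.eqM_f hT hv' hσ).maps hx).1
  have t := ((h.bunM hσ).toEt.continuousOn x hx.2).fst
  refine (eventually_nhdsWithin_iff.1 ?_)
  filter_upwards [t (hT.loc _ ⟨m.1, hv.adm m.2⟩ (hT.maps _ m)), t (c.mem_nhds (g.dom.sub m).2),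
    nhdsWithin_le_nhds (continuous_fst.continuousAt (c'.mem_nhds (g'.dom.sub hx.1.1).2)),
    self_mem_nhdsWithin] with y h1 h2 h3 hy
  obtain ⟨s, hs, k⟩ := h.uW_fM hσ hy
  have h4 : (fM F φ ℓ σ y).1 ∈ T ↔ y.1 ∈ T' := h1.trans
    ((and_iff_right ((h.bunM hσ).maps hy).1.1).trans (k ▸ act_mem_iff hv'.inv hs _))
  exact ⟨fun u => ⟨⟨h4.2 u.1.1, h2⟩, trivial⟩, fun u => ⟨⟨h4.1 u.1.1, h3⟩, trivial⟩⟩

end Vale.Agent.P269.Nd
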