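import Vale.Agent.P287Q.G.Glu.FpA
import Vale.Agent.P269.Glu.FpB0
import Vale.Agent.P269.Glu.Fnd
import Vale.Agent.P269.Orb.TZ

set_option linter.unusedSectionVars false
set_option linter.style.haveILetI false

/-!
# Fibre products of actions: the fundamental class
-/

namespace Vale.Agent.P269

open Set Function Topology Filter Module P291Z Holo Ch Ch.KD

variable {A A₀ A₁ A₂ W₀ W₁ U : Type} [NormedRing A] [NormedAlgebra ℂ A] [NormedRing A₀]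
  [NormedAlgebra ℂ A₀] [NormedRing A₁] [NormedAlgebra ℂ A₁] [NormedRing A₂] [NormedAlgebra ℂ A₂]
  [NormedAddCommGroup W₀] [NormedSpace ℂ W₀]
  [NormedAddCommGroup W₁] [NormedSpace ℂ W₁] [NormedAddCommGroup U] [NormedSpace ℂ U]
  [FiniteDimensional ℂ A] [FiniteDimensional ℂ A₀] [FiniteDimensional ℂ A₁] [FiniteDimensional ℂ A₂]
  [FiniteDimensional ℂ W₀] [FiniteDimensional ℂ W₁] [FiniteDimensional ℂ U]
  {act : A → W₁ × U → W₁ × U} {act₁ : A₁ → W₁ → W₁} {act₂ : A₂ → W₀ × U → W₀ × U}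
  {act₀ : A₀ → W₀ → W₀} {θ₁ : CL A A₁} {θ₂ : CL A A₂} {τ₁ : CL A₁ A₀} {τ₂ : CL A₂ A₀}
  {π : W₁ →L[ℂ] W₀} {B : Set W₀} {O₁ M₁ : Set W₁} {O₂ M₂ Z₂ : Set (W₀ × U)} {b d d₁ d₂ : ℕ}

namespace FpB

theorem lh_mk [IsAct act₁ O₁] (ho : Orb.Orb A₁ˣ (Holo.Sp act₁ O₁))
    {φ : (Fin d → ℂ) → Holo.Sp act₁ O₁} (h : Orb.IsSlice A₁ˣ Holo.Sp.val φ)
    (hf : Fre act₁ (φ 0).val) : LH (Holo.Sp.mk ∘ φ) 0 :=
  haveI := ho.proper
  LH.quot Holo.Sp.isOpenQuotientMap_mk (fun _ _ => Holo.Sp.mk_eq_iff) h.1 (Holo.Sp.free_iff.1 hf)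

/-- a chart of the orbit space at a free point, with its analytic coordinates -/
theorem exists_crd [IsAct act₁ O₁] (c : Cyc act₁ O₁ M₁ d) (ho : Orb.Orb A₁ˣ (Holo.Sp act₁ O₁))
    {x : W₁} (hx : x ∈ M₁) (hf : Fre act₁ x) :
    ∃ (ψ : (Fin d → ℂ) → Quo act₁ O₁) (w : W₁ → Fin d → ℂ), LH ψ 0 ∧
      Orb.Val (fnd act₁ O₁ d) ψ 1 ∧ AnalyticAt ℂ w x ∧ w x = 0 ∧
      ∀ᶠ ξ in 𝓝 x, ∀ h : ξ ∈ O₁, ψ (w ξ) = (Holo.Sp.of act₁ ξ h).mk := by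
  obtain ⟨φ, h1, rfl, -, -⟩ := c.exists_slice ho hx
  obtain ⟨w, κ, a1, a2, -, a4⟩ := h1.exists_coord
  refine ⟨Holo.Sp.mk ∘ φ, w, lh_mk ho h1 hf, ?_, a1, ?_, ?_⟩
  · have := c.val ho h1
    rwa [Orb.stab_eq_one (Holo.Sp.free_iff.1 hf), Nat.cast_one] at this
  · have := a2.self_of_nhds
    rwa [one_smul] at this
  · rw [Holo.Sp.isEmbedding_val.isInducing.nhds_eq_comap, eventually_comap] at a4
    exact a4.mono fun ξ hξ h => Holo.Sp.mk_eq_iff.2 ⟨_, hξ (.of act₁ ξ h) rfl⟩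

theorem holOrb (h : BsOk act₀ B b) [IsAct act₀ B] :
    Orb.HolOrb A₀ˣ (Holo.Sp.val : Holo.Sp act₀ B → W₀) b :=
  holOrb_of_orb h.orb fun x => (h.mf x x.2).2

/-- a chart of the base -/
theorem exists_base (h : BsOk act₀ B b) [IsAct act₀ B] (l : Holo.Sp act₀ B) :
    ∃ (σ : (Fin b → ℂ) → Holo.Sp act₀ B) (R : W₀ → A₀ × (Fin b → ℂ)) (κ : A₀ → A₀ˣ), σ 0 = l ∧
      LH (Holo.Sp.mk ∘ σ) 0 ∧ Orb.Val (fnd act₀ B b) (Holo.Sp.mk ∘ σ) 1 ∧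
      AnalyticAt ℂ (fun p : A₀ × (Fin b → ℂ) => (κ p.1 • σ p.2).val) 0 ∧
      AnalyticAt ℂ R l.val ∧ R l.val = 0 ∧
      ∀ᶠ ξ in 𝓝 l.val, ξ ∈ B → (κ (R ξ).1 • σ (R ξ).2).val = ξ := by
  haveI := FiniteDimensional.complete ℂ A₀
  haveI := FiniteDimensional.complete ℂ W₀
  obtain ⟨σ, rfl, h1⟩ := Holo.Sp.exists_slK (x := l) (h.mf _ l.val_mem).2
    (h.orb.finite_stabilizer l) rfl
  have h2 := isSlice_iff.2 (h1.isSl isExp_expU)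
  have hf := h.free _ (σ 0).val_mem
  obtain ⟨R, a1, a2, -, a3, -⟩ := IsParam.exists_inv h1
  simp only [isExp_expU.zero, one_smul] at a1 a2 a3
  refine ⟨σ, R, expU, rfl, lh_mk h.orb h2 hf, ?_, IsParam.an h1, a1, a2, ?_⟩
  · have := (holOrb h).val Orb.isQuo_sp h2
    rwa [Orb.stab_eq_one (Holo.Sp.free_iff.1 hf), Nat.cast_one] at this
  · rw [Holo.Sp.isEmbedding_val.isInducing.nhds_eq_comap, eventually_comap] at a3
    exact a3.mono fun ξ hξ h => congrArg Holo.Sp.val (hξ (.of act₀ ξ h) rfl)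

variable (h : Fp act act₁ act₂ act₀ θ₁ θ₂ τ₁ τ₂ π) (hB : BsOk act₀ B b)
include h hB

theorem fre₁ [IsAct act₂ univ] {y : W₁ × U} (hy : π y.1 ∈ B) (hf : Fre act y) :
    Fre act₁ y.1 := fun a ha e => by
  have h1 := hB.free _ hy _ (h.k₁.isUnit ha) ((h.p₁ a ha _).symm.trans (congrArg π e))
  obtain ⟨g, h2, rfl, h3⟩ := h.ulift ha isUnit_one (h1.trans h.k₂.one.symm)
  have h4 := h.e₂ g h2 y
  rw [h3, IsAct.one (act := act₂) (S := univ) _ trivial] at h4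
  rw [hf g h2 (Prod.ext ((h.e₁ g h2 y).trans e) (congrArg Prod.snd h4 :)), h.h₁.one]

theorem fre₂ [IsAct act₁ univ] {y : W₁ × U} (hy : π y.1 ∈ B) (hf : Fre act y) :
    Fre act₂ (fp₂ π y) := fun a ha e => by
  have h1 := hB.free _ hy _ (h.k₂.isUnit ha) ((h.p₂ a ha _).symm.trans (congrArg Prod.fst e))
  obtain ⟨g, h2, h3, rfl⟩ := h.ulift isUnit_one ha (h.k₁.one.trans h1.symm)
  have h4 := h.e₁ g h2 y
  rw [h3, IsAct.one (act := act₁) (S := univ) _ trivial] at h4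
  rw [hf g h2 (Prod.ext h4 (congrArg Prod.snd ((h.e₂ g h2 y).trans e) :)), h.h₂.one]

/-- moving the base point -/
theorem mk_move [IsAct act₀ B] [IsAct act₂ O₂] {g g' : A₀ˣ} {l l' : Holo.Sp act₀ B} {u u' : U}
    (h1 : ((g • l).val, u) ∈ O₂) (h2 : ((g' • l).val, u') ∈ O₂) (h3 : ((g • l').val, u) ∈ O₂)
    (h4 : ((g' • l').val, u') ∈ O₂) (e : (Holo.Sp.of act₂ _ h1).mk = (Holo.Sp.of act₂ _ h2).mk) :
    (Holo.Sp.of act₂ _ h3).mk = (Holo.Sp.of act₂ _ h4).mk := by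
  obtain ⟨a, ha⟩ := Holo.Sp.mk_eq_iff.1 e
  obtain ⟨e1, e2⟩ := Prod.ext_iff.1 (congrArg Holo.Sp.val ha)
  obtain ⟨c, hc⟩ := h.k₂.isUnit a.isUnit
  have k1 : ∀ l : Holo.Sp act₀ B, (act₂ a ((g • l).val, u)).1 = ((c * g) • l).val := fun l => by
    rw [h.p₂ _ a.isUnit, mul_smul, ← hc]; rfl
  have k2 : g'⁻¹ * (c * g) = 1 := Holo.Sp.free_iff.1 (hB.free _ l.val_mem) _ (by
    rw [mul_smul, Holo.Sp.ext ((k1 l).symm.trans e1), inv_smul_smul])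
  rw [inv_mul_eq_one] at k2
  exact Holo.Sp.mk_eq_iff.2 ⟨a, Holo.Sp.ext (Prod.ext
    ((k1 l').trans (congrArg (fun g => (g • l').val) k2.symm)) ((h.ind _ a.isUnit _ _ u).trans e2))⟩

end FpB

theorem BsOk.nice (h : BsOk act₀ B b) : Nice (Quo act₀ B) :=
  haveI := h.isAct
  nice_of_orb h.orb

/-- **the class of the diagonal exists** -/
theorem BsOk.exists_isDB (h : BsOk act₀ B b) [IsAct act₀ B] [Nice (Quo act₀ B)] :
    ∃ Δ, IsDB act₀ B b Δ :=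
  let ⟨Δ, h1, h2⟩ := FpB.exists_diag ((FpB.holOrb h).ori Orb.isQuo_sp) fun y =>
    let ⟨l, e⟩ := Holo.Sp.surjective_mk y
    let ⟨_, _, _, a1, a2, a3, _⟩ := FpB.exists_base h l
    ⟨_, (congrArg Holo.Sp.mk a1).trans e, a2, a3⟩
  ⟨Δ, h1, h2⟩

/-- **the fundamental class of a fibre product** -/
theorem Fp.fnd_eq (h : Fp act act₁ act₂ act₀ θ₁ θ₂ τ₁ τ₂ π) [IsAct act univ] [IsAct act₁ univ]
    [IsAct act₂ univ] [IsAct act₀ univ] (hB : BsOk act₀ B b) [IsAct act₀ B] [Nice (Quo act₀ B)]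
    {Δ : Coch (Quo act₀ B × Quo act₀ B)} (hΔ : IsDB act₀ B b Δ) [IsAct act₁ O₁] [IsAct act₂ O₂]
    [IsAct act (fpS π O₁ O₂)] [Nice (Quo act₁ O₁)] [Nice (Quo act₂ O₂)]
    (o₁ : Orb.Orb A₁ˣ (Holo.Sp act₁ O₁)) (o₂ : Orb.Orb A₂ˣ (Holo.Sp act₂ O₂)) (m₁ : MapsTo π O₁ B)
    (m₂ : MapsTo Prod.fst O₂ B) (c₁ : Cyc act₁ O₁ M₁ d₁) (c₂ : Cyc act₂ O₂ M₂ d₂)
    (c : Cyc act (fpS π O₁ O₂) (fpS π M₁ M₂) d) (hd : (fpS π O₁ O₂).Nonempty → d + b = d₁ + d₂)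
    (p : PrB B Z₂) (hM : ∃ V, IsOpen V ∧ M₂ = Z₂ ∩ V) :
    gys (fun z : Quo act (fpS π O₁ O₂) => (h.eqM₁.map z, h.eqM₂.map z))
      (pull (Prod.map (h.eqB₁ m₁).map (h.eqB₂ m₂).map) Δ)
      (cross Prod.fst Prod.snd (fnd act₁ O₁ d₁) (fnd act₂ O₂ d₂)) = fnd act (fpS π O₁ O₂) d := by
  rcases (fpS π O₁ O₂).eq_empty_or_nonempty with h0 | h0
  · haveI : IsEmpty (Quo act (fpS π O₁ O₂)) := ⟨fun z =>
      let ⟨x, _⟩ := Holo.Sp.surjective_mk z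
      h0.le x.val_mem⟩
    exact Orb.BM_eq_of_isEmpty _ _
  have hd := hd h0
  have ho := h.orb o₁ o₂
  haveI := nice_of_orb ho
  obtain ⟨i1, i2⟩ := h.isClosedEmbedding hB (O₁ := O₁) (O₂ := O₂) IsAct.mem IsAct.mem m₁ m₂
  obtain ⟨V, hV, rfl⟩ := hM
  refine c.eq_of_ptVal' ho ?_ (c.deg ho) (dimLt_empty _)
    fun y hy _ hf => ⟨1, ?_, c.ptVal ho hf⟩
  · have := (BM.IsDeg.cross MultB.isHomeomorph_prod (c₁.deg o₁) (c₂.deg o₂)).gys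
      (fun z : Quo act (fpS π O₁ O₂) => (h.eqM₁.map z, h.eqM₂.map z))
      (hΔ.co.deg.pull (Prod.map (h.eqB₁ m₁).map (h.eqB₂ m₂).map))
    rwa [show (2 * d₁ + 2 * d₂ - 2 * b : ℤ) = 2 * d by omega] at this
  obtain ⟨φ, a1, a2, -, a3⟩ := c.exists_slice ho hy
  obtain rfl := Holo.Sp.ext a2
  have hl := m₁ (φ 0).val_mem.1
  obtain ⟨ψ₁, w₁, b1, b2, b3, b4, b5⟩ := FpB.exists_crd c₁ o₁ hy.1 (FpB.fre₁ h hB hl hf)
  obtain ⟨ψ₂, w₂, g1, g2, g3, g4, g5⟩ := FpB.exists_crd c₂ o₂ hy.2 (FpB.fre₂ h hB hl hf)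
  obtain ⟨σ, R, κ, s1, s2, s3, s4, s5, s6, s7⟩ := FpB.exists_base hB (.of act₀ _ hl)
  have x1 : AnalyticAt ℂ (fun v => (φ v).val.1) 0 := analyticAt_fst.comp a1.2.1
  have x2 : AnalyticAt ℂ (fun v => π (φ v).val.1) 0 := (π.analyticAt _).comp x1
  let ρ : (Fin d → ℂ) → A₀ × (Fin b → ℂ) := fun v => R (π (φ v).val.1)
  have r1 : AnalyticAt ℂ ρ 0 := s5.comp_of_eq x2 rfl
  have r0 : ρ 0 = 0 := s6
  have r2 : ∀ᶠ v in 𝓝 0, (κ (ρ v).1 • σ (ρ v).2).val = π (φ v).val.1 :=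
    (x2.continuousAt.eventually s7).mono fun v hv => hv (m₁ (φ v).val_mem.1)
  let η : (Fin d → ℂ) × (Fin b → ℂ) → W₀ × U := fun q =>
    ((κ (ρ q.1).1 • σ ((ρ q.1).2 + q.2)).val, (φ q.1).val.2)
  have r3 : AnalyticAt ℂ (fun q : (Fin d → ℂ) × (Fin b → ℂ) => ρ q.1) 0 :=
    r1.comp_of_eq analyticAt_fst rfl
  have n1 : AnalyticAt ℂ η 0 := (s4.comp_of_eq ((analyticAt_fst.comp r3).prod
    ((analyticAt_snd.comp r3).add analyticAt_snd)) (by simp [r0])).prod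
      ((analyticAt_snd.comp a1.2.1).comp_of_eq analyticAt_fst rfl)
  have n2 : ∀ᶠ v in 𝓝 0, η (v, 0) = fp₂ π (φ v).val :=
    r2.mono fun v hv => Prod.ext (by simpa only [η, add_zero, fp₂] using hv) rfl
  have n0 : η 0 = fp₂ π (φ 0).val := n2.self_of_nhds
  have n3 : Tendsto η (𝓝 0) (𝓝 (fp₂ π (φ 0).val)) := n0 ▸ n1.continuousAt.tendsto
  have n4 : ∀ᶠ q in 𝓝 0, ∃ k : η q ∈ O₂, ψ₂ (w₂ (η q)) = (Holo.Sp.of act₂ _ k).mk := by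
    filter_upwards [n3.eventually g5, n3.eventually (hV.mem_nhds hy.2.2)] with q k1 k2
    exact ⟨c₂.sub ⟨(p _ (a3 q.1).2.1).2 _ (Holo.Sp.val_mem _), k2⟩, k1 _⟩
  have t0 : Tendsto (fun q : (Fin d → ℂ) × (Fin b → ℂ) => (q.1, (0 : Fin b → ℂ))) (𝓝 0) (𝓝 0) :=
    (continuous_fst.prodMk continuous_const).tendsto 0
  have n5 : ∀ᶠ v in 𝓝 0, ψ₁ (w₁ (φ v).val.1) = (Holo.Sp.of act₁ _ (φ v).val_mem.1).mk :=
    (x1.continuousAt.eventually b5).mono fun v hv => hv _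
  have D : FpB.Dat (fun z : Quo act (fpS π O₁ O₂) => (h.eqM₁.map z, h.eqM₂.map z))
      (h.eqB₁ m₁).map (h.eqB₂ m₂).map (fnd act₁ O₁ d₁) (fnd act₂ O₂ d₂) (Holo.Sp.mk ∘ φ)
      (Holo.Sp.mk ∘ σ) ψ₁ ψ₂ (fun v => w₁ (φ v).val.1) (fun q => w₂ (η q)) fun v => (ρ v).2 := by
    refine ⟨hd, i1, map_continuous _, map_continuous _, fun x hx => i2.ge hx, FpB.lh_mk ho a1 hf,
      s2, b1, g1, b2, g2, b3.comp_of_eq x1 rfl, g3.comp_of_eq n1 n0, b4,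
      (congrArg w₂ n0).trans g4, (analyticAt_snd.comp r1).continuousAt.tendsto.mono_right
        (congrArg (fun z => 𝓝 z.2) r0).le, congrArg Prod.snd r0, ?_, ?_, ?_, ?_⟩
    · filter_upwards [n5, n2, ((continuous_id.prodMk continuous_const).tendsto 0).eventually n4]
        with v k1 k2 ⟨_, k3⟩
      exact Prod.ext k1.symm (k3.trans (congrArg Holo.Sp.mk
        (Holo.Sp.ext (y := .of act₂ _ (φ v).val_mem.2) k2))).symm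
    · filter_upwards [n5, r2] with v k1 k2
      exact (congrArg _ k1).trans ((congrArg Holo.Sp.mk (Holo.Sp.ext
        (x := .of act₀ _ (m₁ (φ v).val_mem.1)) k2.symm)).trans (Holo.Sp.mk_smul _ _))
    · filter_upwards [n4] with q ⟨_, k1⟩
      exact (congrArg _ k1).trans (Holo.Sp.mk_smul (κ (ρ q.1).1) _)
    · filter_upwards [tendsto_fst.eventually (n4.and (t0.eventually n4)),
        tendsto_snd.eventually (n4.and (t0.eventually n4))]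
        with q ⟨⟨k1, k2⟩, k3, k4⟩ ⟨⟨l1, l2⟩, l3, l4⟩ e1 e2 e3
      rw [k2, l2] at e3
      rw [k4, l4]
      simp only [η, e1, e2] at k1 k3 e3 ⊢
      exact FpB.mk_move h hB _ _ _ _ e3
  exact PtVal.of_slice ho a1 fun a c k1 k2 k3 =>
    (one_mul _).symm.trans ((D.val hΔ.co hΔ.gys s3 a c k1 k2 k3).trans (one_mul c).symm)

end Vale.Agent.P269
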