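import Vale.Agent.P287Q.G.Glu.PrBip
import Vale.Agent.P287Q.G.Glu.PrCrv
import Vale.Agent.P287Q.G.Glu.Gl0

set_option linter.unusedSectionVars false

/-!
# Decompositions: direct sums of curves
-/

namespace Vale.Agent.P269.Ch

open P291Z Set Function Topology Filter Module Base Cv Holo Vir GlP

variable {S Λ R J K ι ν κ ν₁ κ₁ ν₂ κ₂ : Type} [Fintype S] [Fintype Λ] [Fintype R] [Fintype J]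
  [Fintype K] [Fintype ι] [DecidableEq ι] [Fintype ν] [Fintype κ]
  [Fintype ν₁] [Fintype κ₁] [Fintype ν₂] [Fintype κ₂] {ch : Ch ι J} {n₁ n₂ : Nm ι J}
  {s : Sv ν κ ν₁ κ₁ ν₂ κ₂} {A : Set J} {F : Fam S Λ R J K}

namespace PrS

theorem ne_slot {a : ι → ℕ} (ha : a ≠ 0) : Nonempty (Σ i, Fin (a i)) :=
  let ⟨i, h⟩ := ne_iff.1 ha; ⟨⟨i, 0, Nat.pos_of_ne_zero h⟩⟩

theorem lead_congr {x : ch.W ν} {γ γ' : ℂ → V ch.M} (e : γ =ᶠ[𝓝 0] γ') {ρ : ℂ} (h : Lead x γ ρ) :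
    Lead x γ' ρ := by
  obtain ⟨f, a, b, c⟩ := h
  refine ⟨f, a, b, ?_⟩
  filter_upwards [c, e, e.deriv] with t c e' d
  rwa [← e', ← d, ← e.self_of_nhds]

theorem cross_congr {M : ι → ℕ} {o : ι} {C : Set (V M)} {c : V M} {γ₁ γ₂ δ₁ δ₂ : ℂ → V M}
    (h : IsCross o C c γ₁ γ₂) (e₁ : γ₁ =ᶠ[𝓝 0] δ₁) (e₂ : γ₂ =ᶠ[𝓝 0] δ₂) : IsCross o C c δ₁ δ₂ :=
  ⟨h.1.congr' e₁, h.2.1.congr' e₂, e₁.self_of_nhds ▸ h.2.2.1, e₂.self_of_nhds ▸ h.2.2.2.1,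
    e₁.deriv_eq ▸ e₂.deriv_eq ▸ h.2.2.2.2⟩

variable (b : ch.Bip n₁ n₂)

theorem apV_ne {c : V n₁.M} (hc : ∀ i, c i ≠ 0) (i : ι) : apV b.φ₁ c i ≠ 0 :=
  fun e => hc i (b.φ₁_inj i (e.trans (map_zero _).symm))

theorem apV_inj : Injective (apV b.φ₁) := LeftInverse.injective b.apV_ψφ₁₁

theorem E_ext {l : Option J} {v v' : ch.E l} (e₁ : b.r₁ l v = b.r₁ l v') (e₂ : b.r₂ l v = b.r₂ l v') :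
    v = v' := by rw [← b.er l v, e₁, e₂, b.er]

variable {b} {x : ch.W (Mk ν κ)} {y₁ : (ch.re n₁).W (Mk ν₁ κ₁)} {y₂ : (ch.re n₂).W (Mk ν₂ κ₂)}

theorem surj_of (l₁ : Lk x ((y₁, b.φ₁, b.r₁) : ch.Lb n₁ _)) (h : ∀ l, Surjective (x.Q l)) (l) :
    Surjective (y₁.Q l) := fun v =>
  let ⟨μ, e⟩ := h l (b.e₁ l v)
  ⟨_, (l₁.Q l μ).symm.trans ((congrArg _ e).trans (b.re₁₁ l v))⟩

theorem i_mem (l₁ : Lk x ((y₁, b.φ₁, b.r₁) : ch.Lb n₁ _)) {z : (ch.re n₁).Pt} (hz : z ∈ gr y₁) :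
    b.i₁ z ∈ gr x := lk_mem l₁ hz (apV_ne b hz.1)

section

variable (l₁ : Lk x ((y₁, b.φ₁, b.r₁) : ch.Lb n₁ _)) (l₂ : Lk x ((y₂, b.φ₂, b.r₂) : ch.Lb n₂ _))
include l₁ l₂

theorem Q_eq (l μ) : x.Q l μ = b.e₁ l (y₁.Q l (pbT b.φ₁ _ μ)) + b.e₂ l (y₂.Q l (pbT b.φ₂ _ μ)) :=
  (b.er l _).symm.trans (congrArg₂ _ (congrArg _ (l₁.Q l μ)) (congrArg _ (l₂.Q l μ)))

theorem Q_pb (hc : ch.Cuts) (l μ) : x.Q l (pbT b.ψ₁ _ μ) = b.e₁ l (y₁.Q l μ) := by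
  have := ne_slot (hc.ne l)
  rw [Q_eq l₁ l₂, b.pbT_φψ₁₁, b.pbT_φψ₂₁, map_zero, map_zero, add_zero]

theorem one_zero (hc : ch.Cuts) {z : ch.Pt} (hz : z ∈ gr x) :
    apV b.ψ₂ z.1 = 0 ∨ apV b.ψ₁ z.1 = 0 := by
  by_contra k
  obtain ⟨⟨i₂, k₂⟩, i₁, k₁⟩ := (not_or.1 k).imp ne_iff.1 ne_iff.1
  obtain ⟨l, hl⟩ := hc.cut
  have : ∀ q : Σ i, Fin (ch.a l i), ∃ ζ : (Fin (ch.M q.1) → ℂ) →L[ℂ] ℂ, ζ (z.1 q.1) = 1 ∧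
      ((q.2 : ℕ) = 0 → b.ψ₁ _ (z.1 q.1) ≠ 0 → ∀ v, ζ (b.φ₂ _ v) = 0) ∧
        ((q.2 : ℕ) = 1 → b.ψ₂ _ (z.1 q.1) ≠ 0 → ∀ v, ζ (b.φ₁ _ v) = 0) := fun q => by
    by_cases a : (q.2 : ℕ) = 0 ∧ b.ψ₁ _ (z.1 q.1) ≠ 0
    · obtain ⟨ζ, e⟩ := exists_dual_one a.2
      exact ⟨ζ ∘L b.ψ₁ _, e, fun _ _ v => (congrArg ζ (b.ψφ₁₂ _ v)).trans (map_zero ζ),
        fun d => absurd (a.1.symm.trans d) zero_ne_one⟩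
    by_cases a' : (q.2 : ℕ) = 1 ∧ b.ψ₂ _ (z.1 q.1) ≠ 0
    · obtain ⟨ζ, e⟩ := exists_dual_one a'.2
      exact ⟨ζ ∘L b.ψ₂ _, e, fun c d => absurd ⟨c, d⟩ a,
        fun _ _ v => (congrArg ζ (b.ψφ₂₁ _ v)).trans (map_zero ζ)⟩
    obtain ⟨ζ, e⟩ := exists_dual_one (hz.1 q.1)
    exact ⟨ζ, e, fun c d => absurd ⟨c, d⟩ a, fun c d => absurd ⟨c, d⟩ a'⟩
  choose ζ e a₁ a₂ using this
  let μ : Tens ch.M (ch.a l) :=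
    (ContinuousMultilinearMap.mkPiAlgebra ℂ _ ℂ).compContinuousLinearMap ζ
  have d₁ : pbT b.φ₁ _ μ = 0 := ContinuousMultilinearMap.ext fun w => Finset.prod_eq_zero
    (Finset.mem_univ _) (a₂ ⟨i₂, 1, by have := hl i₂; omega⟩ rfl k₂ (w _))
  have d₂ : pbT b.φ₂ _ μ = 0 := ContinuousMultilinearMap.ext fun w => Finset.prod_eq_zero
    (Finset.mem_univ _) (a₁ ⟨i₁, 0, by have := hl i₁; omega⟩ rfl k₁ (w _))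
  have d := hz.2 l μ
  rw [Q_eq l₁ l₂, d₁, d₂, map_zero, map_zero, map_zero, map_zero, add_zero, map_zero] at d
  exact zero_ne_one (d.trans (Finset.prod_eq_one fun q _ => e q))

theorem mem_left (hc : ch.Cuts) (h₂ : ∀ l, Surjective (y₂.Q l)) {z : ch.Pt} (hz : z ∈ gr x)
    (k : apV b.ψ₂ z.1 = 0) : z ∈ b.i₁ '' gr y₁ := by
  have e : apV b.φ₁ (apV b.ψ₁ z.1) = z.1 := funext fun i =>
    ((congrArg _ ((congrArg _ (congrFun k i)).trans (map_zero _))).trans (add_zero _)).symm.trans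
      (b.φψ i _)
  refine ⟨b.j₁ z, ⟨fun i a => hz.1 i ((congrFun e i).symm.trans ((congrArg _ a).trans (map_zero _))),
    fun l μ => (congrArg (z.2 l) (Q_pb l₁ l₂ hc l μ).symm).trans (hz.2 l _)⟩,
    Prod.ext e (funext fun l => ContinuousLinearMap.ext fun v => ?_)⟩
  obtain ⟨μ, a⟩ := h₂ l (b.r₂ l v)
  have := ne_slot (hc.ne l)
  have d : z.2 l (b.e₂ l (b.r₂ l v)) = 0 :=
    a ▸ (congrArg (z.2 l) (Q_pb (b := b.symm) l₂ l₁ hc l μ).symm).trans ((hz.2 l _).trans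
      ((congrArg (val μ) k).trans μ.map_zero))
  exact ((congrArg (z.2 l) (b.er l v).symm).trans (by rw [map_add, d, add_zero]; rfl)).symm

theorem gr_eq (hc : ch.Cuts) (h₁ : ∀ l, Surjective (y₁.Q l)) (h₂ : ∀ l, Surjective (y₂.Q l)) :
    gr x = b.i₁ '' gr y₁ ∪ b.symm.i₁ '' gr y₂ :=
  Subset.antisymm (fun _ hz => (one_zero l₁ l₂ hc hz).imp (mem_left l₁ l₂ hc h₂ hz)
      (mem_left (b := b.symm) l₂ l₁ hc h₁ hz))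
    (union_subset (image_subset_iff.2 fun _ => i_mem l₁)
      (image_subset_iff.2 fun _ => i_mem (b := b.symm) l₂))

theorem surj (hc : ch.Cuts) (h₁ : ∀ l, Surjective (y₁.Q l)) (h₂ : ∀ l, Surjective (y₂.Q l)) (l) :
    Surjective (x.Q l) := fun v => by
  obtain ⟨μ₁, a₁⟩ := h₁ l (b.r₁ l v)
  obtain ⟨μ₂, a₂⟩ := h₂ l (b.r₂ l v)
  obtain ⟨μ, rfl, rfl⟩ := b.exists_tens (hc.ne l) μ₁ μ₂
  exact ⟨μ, by rw [Q_eq l₁ l₂, a₁, a₂, b.er]⟩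

end

variable (b s x y₁ y₂) in
/-- A weak form of `Du`. -/
structure Wk : Prop where
  one : Lk x ((y₁, b.φ₁, b.r₁) : ch.Lb n₁ _)
  two : Lk x ((y₂, b.φ₂, b.r₂) : ch.Lb n₂ _)
  crv : crv x = b.un (crv y₁) (crv y₂)
  surj : ∀ l, Surjective (x.Q l)
  p₁ : ∀ q, x.p (s.mk₁ q) = apV b.φ₁ (y₁.p q)
  p₂ : ∀ q, x.p (s.mk₂ q) = apV b.φ₂ (y₂.p q)

namespace Wk

variable (h : Wk s b x y₁ y₂)
include h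

theorem symm : Wk s.symm b.symm x y₂ y₁ :=
  ⟨h.two, h.one, h.crv.trans b.un_symm.symm, h.surj, s.symm_mk₁ ▸ h.p₂, s.symm_mk₂ ▸ h.p₁⟩

theorem isBranch_iff {γ : ℂ → V n₁.M} :
    IsBranch ch.o (Ch.crv x) (fun t => apV b.φ₁ (γ t)) ↔ IsBranch ch.o (Ch.crv y₁) γ :=
  h.crv ▸ b.isBranch_iff (fun _ => crv_ne) fun _ => crv_ne

theorem isNode_iff {c : V n₁.M} : IsNode ch.o (Ch.crv x) (apV b.φ₁ c) ↔ IsNode ch.o (Ch.crv y₁) c :=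
  h.crv ▸ b.isNode_iff (fun _ => crv_ne) fun _ => crv_ne

theorem isCross_iff {c : V n₁.M} {γ γ' : ℂ → V n₁.M} :
    IsCross ch.o (Ch.crv x) (apV b.φ₁ c) (fun t => apV b.φ₁ (γ t)) (fun t => apV b.φ₁ (γ' t)) ↔
      IsCross ch.o (Ch.crv y₁) c γ γ' :=
  h.crv ▸ b.isCross_iff (fun _ => crv_ne) fun _ => crv_ne

theorem branch {γ : ℂ → V ch.M} (hγ : IsBranch ch.o (Ch.crv x) γ)
    (e : γ 0 ∈ apV b.φ₁ '' Ch.crv y₁) :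
    ∃ δ, IsBranch ch.o (Ch.crv y₁) δ ∧ γ =ᶠ[𝓝 0] fun t => apV b.φ₁ (δ t) :=
  ⟨_, b.branch_left (fun _ => crv_ne) (fun _ => crv_ne) (h.crv ▸ hγ) e⟩

theorem cases {c : V ch.M} (hc : c ∈ Ch.crv x) :
    c ∈ apV b.φ₁ '' Ch.crv y₁ ∨ c ∈ apV b.symm.φ₁ '' Ch.crv y₂ := (h.crv ▸ hc :)

theorem orb₁ {c : V n₁.M} {q} {t : ι → ℂ} : apV b.φ₁ c = t • x.p (s.mk₁ q) ↔ c = t • y₁.p q := by
  rw [h.p₁, ← apV_smul, (apV_inj b).eq_iff]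

theorem orb₂ {c : V n₁.M} (hc : ∀ i, c i ≠ 0) (q) (t : ι → ℂ) : apV b.φ₁ c ≠ t • x.p (s.mk₂ q) :=
  fun e => hc ch.o (congrFun ((b.apV_ψφ₁₁ c).symm.trans (by
    rw [e, h.p₂, ← apV_smul, b.apV_ψφ₁₂])) _)

theorem sp_iff {c : V n₁.M} (hc : ∀ i, c i ≠ 0) :
    Rel.Sp (Ch.crv x) x.p (apV b.φ₁ c) ↔ Rel.Sp (ch := ch.re n₁) (Ch.crv y₁) y₁.p c := by
  refine or_congr h.isNode_iff ⟨fun ⟨q, t, e⟩ => ?_, fun ⟨q, t, e⟩ => ⟨_, t, h.orb₁.2 e⟩⟩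
  obtain ⟨q, rfl⟩ | ⟨q, rfl⟩ := s.mk_cases q
  exacts [⟨q, t, h.orb₁.1 e⟩, absurd e (h.orb₂ hc q t)]

theorem lead_iff {γ : ℂ → V n₁.M} (hγ : IsBranch ch.o (Ch.crv y₁) γ) {ρ : ℂ} :
    Lead x (fun t => apV b.φ₁ (γ t)) ρ ↔ Lead y₁ γ ρ := by
  rw [Rel.lead_iff, Rel.lead_iff, h.sp_iff (crv_ne hγ.mem.self_of_nhds)]
  refine exists_congr fun f => and_congr_right fun _ => and_congr_right fun _ =>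
    eventually_congr ?_
  filter_upwards [hγ.mem, hγ.holo.eventually_analyticAt] with t a d
  rw [(hasDerivAt_apV _ d.differentiableAt.hasDerivAt).deriv]
  refine ⟨fun k u hu μ => ?_, fun k u hu μ => ?_⟩
  · obtain ⟨μ, rfl⟩ : ∃ μ', pbT b.φ₁ ch.slot μ' = μ := ⟨_, b.pbT_φψ₁₁ μ⟩
    exact (congrArg (u none) (h.one.Ξ μ).symm).trans ((k _ (i_mem h.one hu) μ).trans
      (congrArg _ (wedge_pbT b.φ₁ μ _ _).symm))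
  · obtain ⟨v, hv⟩ := mem_crv.1 a
    rw [← wedge_pbT, ← gr_unique (i_mem h.one hv) hu (h.surj _)]
    exact (congrArg (v none) (h.one.Ξ μ)).trans (k v hv _)

theorem mem_crv {c : V n₁.M} (hc : c ∈ Ch.crv y₁) : apV b.φ₁ c ∈ Ch.crv x :=
  h.crv ▸ .inl ⟨c, hc, rfl⟩

theorem lead_iff' {γ : ℂ → V ch.M} {δ : ℂ → V n₁.M} (hδ : IsBranch ch.o (Ch.crv y₁) δ)
    (e : γ =ᶠ[𝓝 0] fun t => apV b.φ₁ (δ t)) {ρ : ℂ} : Lead x γ ρ ↔ Lead y₁ δ ρ :=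
  Iff.trans ⟨lead_congr e, lead_congr e.symm⟩ (h.lead_iff hδ)

section

variable (h₁ : y₁ ∈ (ch.re n₁).base _)
include h₁

theorem b4 (q) : x.p (s.mk₁ q) ∈ Ch.crv x ∧ ¬IsNode ch.o (Ch.crv x) (x.p (s.mk₁ q)) :=
  h.p₁ q ▸ ⟨h.mem_crv (h₁.2.2.2.1 q).1, mt h.isNode_iff.1 (h₁.2.2.2.1 q).2⟩

theorem b5 (q n) (t : ι → ℂ) (e : x.p (s.mk₁ q) = t • x.p n) : s.mk₁ q = n := by
  rw [h.p₁] at e
  obtain ⟨n, rfl⟩ | ⟨n, rfl⟩ := s.mk_cases n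
  exacts [congrArg _ (h₁.2.2.2.2.1 _ _ t (h.orb₁.1 e)),
    absurd e (h.orb₂ (crv_ne (h₁.2.2.2.1 q).1) n t)]

theorem b6 {γ : ℂ → V ch.M} (hγ : IsBranch ch.o (Ch.crv x) γ) (e : γ 0 ∈ apV b.φ₁ '' Ch.crv y₁) :
    ∃ ρ ≠ 0, Lead x γ ρ :=
  let ⟨δ, a, d⟩ := h.branch hγ e
  (h₁.2.2.2.2.2.1 δ a).imp fun _ k => ⟨k.1, (h.lead_iff' a d).2 k.2⟩

theorem b7 {c γ₁ γ₂ ρ₁ ρ₂} (k : IsCross ch.o (Ch.crv x) c γ₁ γ₂) (a₁ : Lead x γ₁ ρ₁)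
    (a₂ : Lead x γ₂ ρ₂) (e : c ∈ apV b.φ₁ '' Ch.crv y₁) : ρ₁ = (-1) ^ ch.k * ρ₂ := by
  obtain ⟨δ₁, c₁, d₁⟩ := h.branch k.1 (k.2.2.1.symm ▸ e)
  obtain ⟨δ₂, c₂, d₂⟩ := h.branch k.2.1 (k.2.2.2.1.symm ▸ e)
  obtain ⟨c, -, rfl⟩ := e
  exact h₁.2.2.2.2.2.2 c δ₁ δ₂ _ _ (h.isCross_iff.1 (cross_congr k d₁ d₂))
    ((h.lead_iff' c₁ d₁).1 a₁) ((h.lead_iff' c₂ d₂).1 a₂)

end

theorem mem_base (hN : ch.QN n₁ n₂) (h₁ : y₁ ∈ (ch.re n₁).base _) (h₂ : y₂ ∈ (ch.re n₂).base _) :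
    x ∈ ch.base _ := by
  refine ⟨h.surj, fun l μ k => E_ext b ?_ ?_, h.crv ▸ b.isCurve_un hN.g hN.m h₁.2.2.1 h₂.2.2.1,
    fun q => ?_, fun q n t e => ?_, fun γ hγ => (h.cases hγ.mem.self_of_nhds).elim (h.b6 h₁ hγ)
      (h.symm.b6 h₂ hγ), fun c γ₁ γ₂ ρ₁ ρ₂ k a₁ a₂ =>
        (h.cases (k.2.2.1 ▸ k.1.mem.self_of_nhds)).elim (h.b7 h₁ k a₁ a₂) (h.symm.b7 h₂ k a₁ a₂)⟩
  · exact (h.one.Q l μ).trans ((h₁.2.1 l _ fun c hc => k _ (h.mem_crv hc)).trans (map_zero _).symm)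
  · exact (h.two.Q l μ).trans
      ((h₂.2.1 l _ fun c hc => k _ (h.symm.mem_crv hc)).trans (map_zero _).symm)
  · obtain ⟨q, rfl⟩ | ⟨q, rfl⟩ := s.mk_cases q
    exacts [h.b4 h₁ q, s.symm_mk₁ ▸ h.symm.b4 h₂ q]
  · obtain ⟨q, rfl⟩ | ⟨q, rfl⟩ := s.mk_cases q
    exacts [h.b5 h₁ q n t e, s.symm_mk₁ ▸ h.symm.b5 h₂ q n t (s.symm_mk₁.symm ▸ e)]

theorem mem_left (hc : ch.Cuts) (hx : x ∈ ch.base _)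
    (c : IsCurve ch.o n₁.g n₁.m (Ch.crv y₁)) : y₁ ∈ (ch.re n₁).base _ := by
  refine ⟨surj_of h.one h.surj, fun l μ k => ?_, c, fun q => ?_,
    fun q n t e => s.mk₁_inj (hx.2.2.2.2.1 _ _ t (h.p₁ q ▸ h.orb₁.2 e)),
    fun γ hγ => (hx.2.2.2.2.2.1 _ (h.isBranch_iff.2 hγ)).imp fun _ k => ⟨k.1, (h.lead_iff hγ).1 k.2⟩,
    fun c γ₁ γ₂ ρ₁ ρ₂ k a₁ a₂ => hx.2.2.2.2.2.2 _ _ _ _ _ (h.isCross_iff.2 k)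
      ((h.lead_iff k.1).2 a₁) ((h.lead_iff k.2.1).2 a₂)⟩
  · have := ne_slot (hc.ne l)
    rw [← b.re₁₁ l (y₁.Q l μ), ← Q_pb h.one h.two hc, hx.2.1 l _ fun c hc => ?_, map_zero]
    obtain ⟨c, a, rfl⟩ | ⟨c, -, rfl⟩ := h.cases hc
    exacts [(congrArg (val μ) (b.apV_ψφ₁₁ c)).trans (k c a),
      (congrArg (val μ) (b.apV_ψφ₁₂ c)).trans μ.map_zero]
  · obtain ⟨a, d⟩ := hx.2.2.2.1 (s.mk₁ q)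
    rw [h.p₁] at a d
    have : Nonempty ι := ⟨ch.o⟩
    exact ⟨(b.mem_un (fun _ => crv_ne) (fun _ => crv_ne) fun i e => crv_ne a i
      ((congrArg (b.φ₁ i) e).trans (map_zero _))).1 (h.crv ▸ a), mt h.isNode_iff.2 d⟩

end Wk

end PrS

open PrS

namespace Bip

variable (b : ch.Bip n₁ n₂) {y₁ : (ch.re n₁).W (Mk ν₁ κ₁)} {y₂ : (ch.re n₂).W (Mk ν₂ κ₂)}
  (v : ∀ j, ch.Th j →L[ℂ] ch.E (some j))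

theorem gr_sm (hc : ch.Cuts) (h₁ : ∀ l, Surjective (y₁.Q l)) (h₂ : ∀ l, Surjective (y₂.Q l)) :
    gr (b.sm s y₁ y₂ v) = b.i₁ '' gr y₁ ∪ b.symm.i₁ '' gr y₂ :=
  gr_eq (b.lk₁ y₁ y₂ v) (b.lk₂ y₁ y₂ v) hc h₁ h₂

theorem crv_sm (hc : ch.Cuts) (h₁ : ∀ l, Surjective (y₁.Q l)) (h₂ : ∀ l, Surjective (y₂.Q l)) :
    crv (b.sm s y₁ y₂ v) = b.un (crv y₁) (crv y₂) := by
  simp only [crv, b.gr_sm v hc h₁ h₂, un, image_union, image_image]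
  rfl

theorem surj_of_sm (h : ∀ l, Surjective ((b.sm s y₁ y₂ v).Q l)) :
    (∀ l, Surjective (y₁.Q l)) ∧ ∀ l, Surjective (y₂.Q l) :=
  ⟨surj_of (b.lk₁ y₁ y₂ v) h, surj_of (b := b.symm) (b.lk₂ y₁ y₂ v) h⟩

theorem wk_sm (hc : ch.Cuts) (h₁ : ∀ l, Surjective (y₁.Q l)) (h₂ : ∀ l, Surjective (y₂.Q l)) :
    Wk s b (b.sm s y₁ y₂ v) y₁ y₂ :=
  ⟨b.lk₁ y₁ y₂ v, b.lk₂ y₁ y₂ v, b.crv_sm v hc h₁ h₂,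
    surj (b.lk₁ y₁ y₂ v) (b.lk₂ y₁ y₂ v) hc h₁ h₂, b.sm_p₁ y₁ y₂ v, b.sm_p₂ y₁ y₂ v⟩

/-- **the direct sum of two curves** -/
theorem sm_mem_base (hN : ch.QN n₁ n₂) (h₁ : y₁ ∈ (ch.re n₁).base _) (h₂ : y₂ ∈ (ch.re n₂).base _) :
    b.sm s y₁ y₂ v ∈ ch.base _ := (b.wk_sm v hN.cuts h₁.1 h₂.1).mem_base hN h₁ h₂

/-- **the summands of a curve** -/
theorem mem_base_of_sm (hN : ch.QN n₁ n₂) (h : b.sm s y₁ y₂ v ∈ ch.base _)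
    (b₁ : ∀ a ≠ 0, (finrank ℂ (Hs (crv y₁) a) : ℤ) ≤ dg n₁.m a + 1 - n₁.g)
    (b₂ : ∀ a ≠ 0, (finrank ℂ (Hs (crv y₂) a) : ℤ) ≤ dg n₂.m a + 1 - n₂.g) :
    y₁ ∈ (ch.re n₁).base _ ∧ y₂ ∈ (ch.re n₂).base _ :=
  have k := b.wk_sm v hN.cuts (b.surj_of_sm v h.1).1 (b.surj_of_sm v h.1).2
  have c := b.isCurve_of_un (fun _ => crv_ne) (fun _ => crv_ne) hN.g hN.m (k.crv ▸ h.2.2.1) b₁ b₂
  ⟨k.mem_left hN.cuts h c.1, k.symm.mem_left hN.cuts h c.2⟩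

theorem du_sm (hN : ch.QN n₁ n₂) (h₁ : y₁ ∈ (ch.re n₁).base _) (h₂ : y₂ ∈ (ch.re n₂).base _) :
    Du s (b.sm s y₁ y₂ v) ((y₁, b.φ₁, b.r₁) : ch.Lb n₁ _) ((y₂, b.φ₂, b.r₂) : ch.Lb n₂ _) :=
  ⟨b.sm_mem_base v hN h₁ h₂, ⟨b.lk₁ y₁ y₂ v, h₁, b.φ₁_inj, b.sm_p₁ y₁ y₂ v⟩,
    ⟨b.lk₂ y₁ y₂ v, h₂, b.φ₂_inj, b.sm_p₂ y₁ y₂ v⟩, b.isCompl, b.bij, b.crv_sm v hN.cuts h₁.1 h₂.1⟩

theorem st_mem (hN : ch.QN n₁ n₂) {y : b.WX A ν₁ κ₁ ν₂ κ₂ Λ} (hy : y ∈ b.BA A) :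
    b.st s y ∈ b.CA s A :=
  ⟨⟨(b.du_sm (Fm.ex y.2.1) hN hy.1 hy.2).congr (b.μ s y).2.X 0 0, fun _ => rfl, fun _ => rfl⟩,
    b.g_st_compl⟩

end Bip

end Vale.Agent.P269.Ch
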