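import Vale.Agent.P287Q.G.Glu.PrSum
import Vale.Agent.P287Q.G.Pt.LC
import Vale.Agent.P287Q.G.Pt.Rep

set_option linter.unusedSectionVars false

/-!
# Decompositions: existence of labels
-/

namespace Vale.Agent.P269

open P291Z Set Function Topology Filter Module Base Cv Holo Vir

namespace PrPtE

variable {X : Type} [TopologicalSpace X] [T2Space X] [CompactSpace X] {R : RS X}
  {N : Finset (X × X)} {U : Set X} (hU : IsClopen U) (hN : ∀ n ∈ N, n.1 ∈ U ↔ n.2 ∈ U)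
  {L : LB R} {k₁ k₂ : ℕ}
include hU hN

/-- a space of sections is the sum of the sections on the two parts -/
theorem split {E : Type} [AddCommGroup E] [Module ℂ E] (T : E →ₗ[ℂ] X → ℂ) (hi : Injective T)
    (hr : LinearMap.range T = H0 N L) (h₁ : finrank ℂ (LC.Hs N U L) = k₁)
    (h₂ : finrank ℂ (LC.Hs N Uᶜ L) = k₂) : ∃ g : ((Fin k₁ → ℂ) × (Fin k₂ → ℂ)) ≃ₗ[ℂ] E,
      (∀ a, ∀ y ∉ U, T (g (a, 0)) y = 0) ∧ ∀ a, ∀ y ∈ U, T (g (0, a)) y = 0 := by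
  classical
  have e : ∀ {U : Set X} {k : ℕ}, finrank ℂ (LC.Hs N U L) = k →
      Nonempty ((Fin k → ℂ) ≃ₗ[ℂ] (LC.Hs N U L).comap T) := fun {U k} h =>
    ⟨(LinearEquiv.ofFinrankEq _ (LC.Hs N U L) (by rw [h, finrank_fin_fun])).trans
      ((Submodule.equivMapOfInjective T hi _).trans (.ofEq _ _
        (Submodule.map_comap_eq_self (hr ▸ fun _ a => a.1 : LC.Hs N U L ≤ _)))).symm⟩
  obtain ⟨e₁⟩ := e h₁
  obtain ⟨e₂⟩ := e h₂
  have c : IsCompl ((LC.Hs N U L).comap T) ((LC.Hs N Uᶜ L).comap T) := by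
    refine ⟨Submodule.disjoint_def.2 fun v a b => hi ((map_zero T).symm ▸ funext fun y =>
      (em (y ∈ U)).elim (fun k => b.2 y (not_not.2 k)) (a.2 y)),
      codisjoint_iff_le_sup.2 fun v _ => ?_⟩
    have a : T v ∈ H0 N L := hr ▸ ⟨v, rfl⟩
    have b := LC.piecewise_mem hU hN a
    obtain ⟨w, d⟩ : _ ∈ LinearMap.range T := hr ▸ b
    refine Submodule.mem_sup.2 ⟨w, ⟨d ▸ b, fun y k => ?_⟩, v - w, ⟨hr ▸ ⟨_, rfl⟩, fun y k => ?_⟩,
      add_sub_cancel _ _⟩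
    · rw [d, piecewise_eq_of_notMem _ _ _ k, Pi.zero_apply]
    · rw [map_sub, Pi.sub_apply, d, piecewise_eq_of_mem _ _ _ (not_not.1 k), sub_self]
  refine ⟨(e₁.prodCongr e₂).trans (Submodule.prodEquivOfIsCompl _ _ c), fun a y k => ?_,
    fun a y k => ?_⟩
  · have : (e₁.prodCongr e₂).trans (Submodule.prodEquivOfIsCompl _ _ c) (a, 0) = e₁ a := by simp
    exact this ▸ (e₁ a).2.2 y k
  · have : (e₁.prodCongr e₂).trans (Submodule.prodEquivOfIsCompl _ _ c) (0, a) = e₂ a := by simp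
    exact this ▸ (e₂ a).2.2 y (not_not.2 k)

variable {ι : Type} [Fintype ι] [DecidableEq ι] {M : ι → ℕ} {A : ι → LB R} {π : X → V M}

/-- the factor is the sum of the spans of the two parts -/
theorem splitV (hF : Full N A π) {i : ι} (hM : finrank ℂ (H0 N (A i)) = M i)
    (h₁ : finrank ℂ (LC.Hs N U (A i)) = k₁) (h₂ : finrank ℂ (LC.Hs N Uᶜ (A i)) = k₂) :
    ∃ f : ((Fin k₁ → ℂ) × (Fin k₂ → ℂ)) ≃L[ℂ] Fin (M i) → ℂ,
      (∀ y ∉ U, (f.symm (π y i)).1 = 0) ∧ ∀ y ∈ U, (f.symm (π y i)).2 = 0 := by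
  obtain ⟨g, a, b⟩ := split hU hN (E := (Fin (M i) → ℂ) →L[ℂ] ℂ)
    (LinearMap.pi fun y => (ContinuousLinearMap.apply ℂ ℂ (π y i)).toLinearMap)
    ((injective_iff_map_eq_zero _).2 fun l e => hF.eq_zero hM (congrFun e))
    (Submodule.ext fun s => ⟨fun ⟨l, e⟩ => e ▸ lin_mem hF.sec i l,
      fun e => let ⟨l, d⟩ := hF.span i s e; ⟨l, funext fun y => (d y).symm⟩⟩) h₁ h₂
  let ψ : (Fin (M i) → ℂ) →ₗ[ℂ] (Fin k₁ → ℂ) × (Fin k₂ → ℂ) :=
    (LinearMap.pi fun k => (g (Pi.single k 1, 0)).toLinearMap).prod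
      (LinearMap.pi fun k => (g (0, Pi.single k 1)).toLinearMap)
  have c : Injective ψ := (injective_iff_map_eq_zero _).2 fun v e => funext fun j => by
    have d : (ContinuousLinearMap.apply ℂ ℂ v).toLinearMap ∘ₗ g.toLinearMap = 0 :=
      LinearMap.prod_ext (LinearMap.pi_ext' fun k => LinearMap.ext_ring
        (congrFun (congrArg Prod.fst e) k)) (LinearMap.pi_ext' fun k => LinearMap.ext_ring
          (congrFun (congrArg Prod.snd e) k))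
    obtain ⟨w, k⟩ := g.surjective (.proj j)
    exact (congrArg (fun l : (Fin (M i) → ℂ) →L[ℂ] ℂ => l v) k).symm.trans
      (LinearMap.congr_fun d w)
  have d : finrank ℂ (Fin (M i) → ℂ) = finrank ℂ ((Fin k₁ → ℂ) × (Fin k₂ → ℂ)) := by
    rw [g.finrank_eq, ← LinearMap.toContinuousLinearMap.finrank_eq]
    exact Subspace.dual_finrank_eq.symm
  exact ⟨(ψ.linearEquivOfInjective c d).toContinuousLinearEquiv.symm,
    fun y k => funext fun j => a _ y k, fun y k => funext fun j => b _ y k⟩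

theorem rank {o : ι} {C : Set (V M)} (h : Par o C N A π) {g g₁ : ℤ} {m m₁ : ι → ℤ}
    (hC : IsCurve o g m C) (hg : degOn (omega R N ∅) U = 2 * g₁ - 2)
    (hd : ∀ i, degOn (A i) U = m₁ i) {a : ι → ℕ} (ha : a ≠ 0) :
    (finrank ℂ (LC.Hs N U (bz A fun i => a i)) : ℤ) = dg m₁ a + 1 - g₁ := by
  have := LC.rr_part hU hN ((h.numbers hC).2.2 a ha)
  simp only [degOn_bz, hd, hg] at this
  rw [dg]
  omega

theorem rank_one {o : ι} {C : Set (V M)} (h : Par o C N A π) {g g₁ : ℤ} {m m₁ : ι → ℤ}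
    (hC : IsCurve o g m C) (hg : degOn (omega R N ∅) U = 2 * g₁ - 2)
    (hd : ∀ i, degOn (A i) U = m₁ i) (i : ι) :
    (finrank ℂ (LC.Hs N U (A i)) : ℤ) = m₁ i + 1 - g₁ := by
  have := rank hU hN h hC hg hd (single_ne i)
  rwa [cast_single, bz_single, zpow_one, dg_single] at this

end PrPtE

variable {S Λ R J K ι ν κ ν₁ κ₁ ν₂ κ₂ : Type} [Fintype S] [Fintype Λ] [Fintype R] [Fintype J]
  [Fintype K] [Fintype ι] [DecidableEq ι] [Fintype ν] [Fintype κ]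
  [Fintype ν₁] [Fintype κ₁] [Fintype ν₂] [Fintype κ₂] {s : Sv ν κ ν₁ κ₁ ν₂ κ₂} {A : Set J}
  {m : AM Λ R J ν κ} {m₁ : AM Λ R J ν₁ κ₁} {m₂ : AM Λ R J ν₂ κ₂} {j₁ : m₁.X → m.X}
  {j₂ : m₂.X → m.X}

namespace PrPtE

open Ch Ch.GlP

variable {ch : Ch ι J} {n₁ n₂ : Nm ι J} {X : Type} [TopologicalSpace X] [T2Space X]
  [CompactSpace X] {Q : RS X} {N : Finset (X × X)} {B : ι → LB Q} {x : ch.W (Mk ν κ)}
  {π : X → V ch.M} {u : X → ∀ l, ch.E l →L[ℂ] ℂ} {p : Mk ν κ → X} {ξ : X → ℂ} {U : Set X}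

/-- the point of the chart of the first part, without fields -/
noncomputable def fp (b : ch.Bip n₁ n₂) (s : Sv ν κ ν₁ κ₁ ν₂ κ₂) (x : ch.W (Mk ν κ)) :
    (ch.re n₁).W (Mk ν₁ κ₁) :=
  W.mk' (fun l => b.r₁ l ∘L x.Q l ∘L pbT b.ψ₁ _) (fun q => apV b.ψ₁ (x.p (s.mk₁ q)))
    (b.r₁ none ∘L x.Ξ ∘L pbT b.ψ₁ _) 0

/-- the decomposition is adapted to `U` -/
structure Sd (b : ch.Bip n₁ n₂) (π : X → V ch.M) (u : X → ∀ l, ch.E l →L[ℂ] ℂ) (U : Set X) :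
    Prop where
  ψ₁ : ∀ y ∉ U, apV b.ψ₁ (π y) = 0
  ψ₂ : ∀ y ∈ U, apV b.ψ₂ (π y) = 0
  e₁ : ∀ y ∉ U, ∀ l v, u y l (b.e₁ l v) = 0
  e₂ : ∀ y ∈ U, ∀ l v, u y l (b.e₂ l v) = 0

namespace Sd

variable {b : ch.Bip n₁ n₂} (h : Sd b π u U)
include h

theorem symm : Sd b.symm π u Uᶜ :=
  ⟨fun y k => h.ψ₂ y (not_not.1 k), h.ψ₁, fun y k => h.e₂ y (not_not.1 k), h.e₁⟩

theorem φψ {y : X} (k : y ∈ U) (t : ι → ℂ) : apV b.φ₁ (apV b.ψ₁ (t • π y)) = t • π y := by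
  rw [apV_smul, apV_smul]
  refine congrArg _ (funext fun i => ?_)
  have := b.φψ i (π y i)
  rwa [show b.ψ₂ i (π y i) = 0 from congrFun (h.ψ₂ y k) i, map_zero, add_zero] at this

variable (c : Cr N B x π u p ξ)
include c

theorem r_ext {l : Option J} {v w : ch.E l} (e : ∀ y ∈ U, u y l v = u y l w) :
    b.r₁ l v = b.r₁ l w := by
  have k : ∀ v, ∀ y ∈ U, u y l (b.e₁ l (b.r₁ l v)) = u y l v := fun v y k => by
    conv_rhs => rw [← b.er l v, map_add, h.e₂ y k, add_zero]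
  rw [← b.re₁₁ l (b.r₁ l v), ← b.re₁₁ l (b.r₁ l w)]
  exact congrArg _ (c.u_ext fun y => (em (y ∈ U)).elim
    (fun a => (k v y a).trans ((e y a).trans (k w y a).symm))
    fun a => (h.e₁ y a l _).trans (h.e₁ y a l _).symm)

theorem lk (hU : IsOpen U) : Lk x ((fp b s x, b.φ₁, b.r₁) : ch.Lb n₁ _) := by
  refine ⟨fun l μ => h.r_ext c fun y k => ?_, fun μ => h.r_ext c fun y k => ?_⟩
  · have := h.φψ k 1
    rw [one_smul] at this
    exact (c.u_Q y l μ).trans ((congrArg (val μ) this).symm.trans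
      (c.u_Q y l (pbT b.ψ₁ _ (pbT b.φ₁ _ μ))).symm)
  · have a := h.φψ k 1
    rw [one_smul] at a
    have d := (an_br c.par.sec y).differentiableAt.hasDerivAt
    have e : apV b.φ₁ (apV b.ψ₁ (deriv (br B π y) 0)) = deriv (br B π y) 0 :=
      (hasDerivAt_apV b.φ₁ (hasDerivAt_apV b.ψ₁ d)).unique (d.congr_of_eventuallyEq
        (((Q.tends_i y).eventually (hU.mem_nhds k)).mono fun t k' => by
          simp only [Cv.br_eq, h.φψ k']))
    refine (c.Xi y μ).trans (Eq.trans ?_ (c.Xi y _).symm)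
    rw [wsec, wsec]
    refine congrArg _ (congrArg _ ?_)
    exact ((wedge_pbT (n := ⟨ch.M, ch.h, ch.g, ch.m⟩) (fun i => b.φ₁ i ∘L b.ψ₁ i) μ _ _).trans
      (congrArg₂ (wedge μ) a e)).symm

omit h in
theorem _root_.Vale.Agent.P269.PrPtE.mem_iff {y₁ : (ch.re n₁).W (Mk ν₁ κ₁)}
    {y₂ : (ch.re n₂).W (Mk ν₂ κ₂)} (h : Sd b π u U) (w : PrS.Wk s b x y₁ y₂) {y : X} :
    π y ∈ apV b.φ₁ '' crv y₁ ↔ y ∈ U := by
  refine ⟨fun ⟨a, d, e⟩ => by_contra fun k => crv_ne d ch.o (congrFun (?_ : a = 0) _), fun k =>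
    (w.cases (c.par.mem y)).resolve_right fun ⟨a, d, e⟩ =>
      crv_ne d ch.o (congrFun (?_ : a = 0) _)⟩
  · rw [← b.apV_ψφ₁₁ a, e, h.ψ₁ y k]
  · rw [← b.symm.apV_ψφ₁₁ a, e]
    exact h.ψ₂ y k

theorem bound {y₁ : (ch.re n₁).W (Mk ν₁ κ₁)} {y₂ : (ch.re n₂).W (Mk ν₂ κ₂)}
    (w : PrS.Wk s b x y₁ y₂) (hU : IsClopen U) (hN : ∀ n ∈ N, n.1 ∈ U ↔ n.2 ∈ U) (a : ι → ℕ) :
    finrank ℂ (Hs (crv y₁) a) ≤ finrank ℂ (LC.Hs N U (bz B fun i => a i)) := by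
  classical
  let Φ : Tens n₁.M a →ₗ[ℂ] X → ℂ :=
    .pi fun y => if y ∈ U then (evL a (apV b.ψ₁ (π y))).toLinearMap else 0
  have k : ∀ μ, Φ μ = U.piecewise (fun y => val (pbT b.ψ₁ _ μ) (π y)) 0 := fun μ =>
    funext fun y => by by_cases d : y ∈ U <;> simp [Φ, d, val_pbT]
  have k1 := Φ.finrank_range_add_finrank_ker
  have k2 := (resL (M := n₁.M) (crv y₁) a).finrank_range_add_finrank_ker
  have k3 := Submodule.finrank_mono (s := LinearMap.ker Φ)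
    (t := LinearMap.ker (resL (M := n₁.M) (crv y₁) a))
    fun μ e => funext fun z => by
      obtain ⟨y, t, ht, d⟩ := (c.par.img _).1 (w.mem_crv z.2)
      have f : y ∈ U := by_contra fun f => crv_ne z.2 ch.o (congrFun (show z.1 = 0 by
        rw [← b.apV_ψφ₁₁ z.1, d, apV_smul, h.ψ₁ y f, smul_zero]) _)
      have := congrFun ((k μ).symm.trans e) y
      rw [piecewise_eq_of_mem _ _ _ f, val_pbT] at this
      rw [resL_apply, ← b.apV_ψφ₁₁ z.1, d, apV_smul, Base.val_smul, this, Pi.zero_apply, mul_zero]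
      rfl
  have k4 := Submodule.finrank_mono (s := LinearMap.range Φ)
    (t := LC.Hs N U (bz B fun i => a i)) fun _ ⟨μ, e⟩ => e ▸ k μ ▸
      ⟨LC.piecewise_mem hU hN (Cv.val_mem c.par.sec _), fun y => piecewise_eq_of_notMem _ _ _⟩
  change finrank ℂ (LinearMap.range (resL (M := n₁.M) (crv y₁) a)) ≤ _
  omega

end Sd

end PrPtE

namespace Ch

open PrPtE

variable {ch : Ch ι J} {n₁ n₂ : Nm ι J} {Wg : Wt S Λ R J} {ℓ : R → ι → ℤ}
  {z z' : ch.WQ n₁ n₂ ν κ ν₁ κ₁ ν₂ κ₂ Λ} {x : ch.WF ν κ Λ} {B : ι → LB m.R} {π : m.X → V ch.M}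
  {u t}

/-- **(P2)** labels exist -/
theorem RepD.exists_dec (hN : ch.QN n₁ n₂) (r : RepD ℓ A x m B π u t) {U : Set m.X} (hU : m.Sat U)
    (h₁ : ∀ q, m.p (s.mk₁ q) ∈ U) (h₂ : ∀ q, m.p (s.mk₂ q) ∉ U)
    (hg : degOn (omega m.R m.N ∅) U = 2 * n₁.g - 2) (hd : ∀ i, degOn (B i) U = n₁.m i) :
    ∃ z : ch.WQ n₁ n₂ ν κ ν₁ κ₁ ν₂ κ₂ Λ, z ∈ CQ s ∧ z.1 = x ∧ π ⁻¹' part z = U := by
  have c := r.cr
  obtain ⟨hU, hn⟩ := LC.sat_iff.1 hU
  have hn' : ∀ n ∈ m.N, n.1 ∈ Uᶜ ↔ n.2 ∈ Uᶜ := fun n a => not_congr (hn n a)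
  have hg' : degOn (omega m.R m.N ∅) Uᶜ = 2 * n₂.g - 2 := by
    have a := degOn_add_compl (L := omega m.R m.N ∅) hU
    rw [deg_omega, Finset.card_empty, c.gen_eq] at a
    have := hN.g
    omega
  have hd' : ∀ i, degOn (B i) Uᶜ = n₂.m i := fun i => by
    have a := degOn_add_compl (L := B i) hU
    rw [c.deg_eq, hd] at a
    have := hN.m i
    omega
  have nat : ∀ {k k' : ℕ} {d : ℤ}, (k : ℤ) = d → k' = d.toNat → k = k' := fun a b => by omega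
  choose f f₁ f₂ using fun i => splitV hU hn c.full (i := i)
    (nat (c.par.finrank_one c.cur i) (hN.num.M_eq i))
    (nat (rank_one hU hn c.par c.cur hg hd i) (hN.num₁.M_eq i))
    (nat (rank_one hU.compl hn' c.par c.cur hg' hd' i) (hN.num₂.M_eq i))
  choose g g₁ g₂ using fun l => split hU hn (E := ch.E l)
    (LinearMap.pi fun y => (u y l).toLinearMap)
    ((injective_iff_map_eq_zero _).2 fun v e => c.u_inj (congrFun e))
    (Submodule.ext fun s => ⟨fun ⟨v, e⟩ => e ▸ c.u_mem l v, fun e =>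
      let ⟨v, d⟩ := c.u_surj (hN.num.a_ne l) e; ⟨v, funext d⟩⟩)
    (nat (rank hU hn c.par c.cur hg hd (hN.num.a_ne l)) (hN.tight₁.2 l))
    (nat (rank hU.compl hn' c.par c.cur hg' hd' (hN.num.a_ne l)) (hN.tight₂.2 l))
  obtain ⟨b, h⟩ : ∃ b : ch.Bip n₁ n₂, Sd b π u U :=
    ⟨PrA.bip f fun l => (g l).symm.toContinuousLinearEquiv,
      fun y k => funext fun i => f₁ i y k, fun y k => funext fun i => f₂ i y k,
      fun y k l v => g₁ l v y k, fun y k l v => g₂ l v y k⟩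
  have l₁ := h.lk (s := s) c hU.isOpen
  have l₂ := h.symm.lk (s := s.symm) c hU.compl.isOpen
  have w : PrS.Wk s b x.2 (fp b s x.2) (fp b.symm s.symm x.2) := by
    refine ⟨l₁, l₂, ?_, c.mem.1, fun q => ?_, fun q => ?_⟩
    · simp only [crv, PrS.gr_eq l₁ l₂ hN.cuts (PrS.surj_of l₁ c.mem.1)
        (PrS.surj_of (b := b.symm) l₂ c.mem.1), Bip.un, image_union, image_image]
      rfl
    · exact (r.mark _).trans ((h.φψ (h₁ q) _).symm.trans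
        (congrArg (fun v => apV b.φ₁ (apV b.ψ₁ v)) (r.mark _).symm))
    · exact (r.mark _).trans ((h.symm.φψ (h₂ q) _).symm.trans
        (congrArg (fun v => apV b.φ₂ (apV b.ψ₂ v)) (r.mark _).symm))
  have k := b.isCurve_of_un (fun _ => crv_ne) (fun _ => crv_ne) hN.g hN.m (w.crv ▸ c.cur)
    (fun a ha => (Int.ofNat_le.2 (h.bound c w hU hn a)).trans_eq (rank hU hn c.par c.cur hg hd ha))
    fun a ha => (Int.ofNat_le.2 (h.symm.bound c w.symm hU.compl hn' a)).trans_eq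
      (rank hU.compl hn' c.par c.cur hg' hd' ha)
  exact ⟨(x, (fp b s x.2, b.φ₁, b.r₁), (fp b.symm s.symm x.2, b.φ₂, b.r₂)),
    ⟨⟨c.mem, ⟨l₁, w.mem_left hN.cuts c.mem k.1, b.φ₁_inj, w.p₁⟩,
      ⟨l₂, w.symm.mem_left hN.cuts c.mem k.2, b.φ₂_inj, w.p₂⟩, b.isCompl, b.bij, w.crv⟩,
      fun _ => rfl, fun _ => rfl⟩, rfl, Set.ext fun y => mem_iff c h w⟩

end Ch

end Vale.Agent.P269
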