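import Vale.Agent.P287Q.G.Glu.PrPt0
import Vale.Agent.P287Q.G.Glu.PrPtE
import Vale.Agent.P269.Pt.Bnd

set_option linter.unusedSectionVars false

/-!
# Decompositions and disjoint sums of abstract maps
-/

namespace Vale.Agent.P269.Fam

open P291Z Set Function Topology Filter Module Base Cv Holo Vir Ch

variable {S Λ R J K ν κ ν₁ κ₁ ν₂ κ₂ : Type} [Fintype S] [Fintype Λ] [Fintype R] [Fintype J]
  [Fintype K] [Fintype ν] [Fintype κ] [Fintype ν₁] [Fintype κ₁] [Fintype ν₂] [Fintype κ₂]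
  {s : Sv ν κ ν₁ κ₁ ν₂ κ₂} {A : Set J} {m : AM Λ R J ν κ} {m₁ : AM Λ R J ν₁ κ₁}
  {m₂ : AM Λ R J ν₂ κ₂} {j₁ : m₁.X → m.X} {j₂ : m₂.X → m.X} [DecidableEq R] {F : Fam S Λ R J K}
  {k D : ℕ} {g g₁ g₂ : ℤ} {d d₁ d₂ : R → ℤ} (hk : F.Big k) (hD : F.BigD k D)
  (hg : g₁ + g₂ = g + 1) (hd : d₁ + d₂ = d)
include hk hD hg hd

/-- **(P2)** in the standard charts -/
theorem exists_dec {x : (F.sch ν κ k D g d).WF ν κ Λ} {B π u t} (r : RepD ℓs A x m B π u t)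
    (h : AM.Split m m₁ m₂ s.φ s.ψ j₁ j₂) (h₁ : m₁.Typ g₁ d₁) :
    ∃ z : (F.sch ν κ k D g d).WQ (F.nms ν₁ κ₁ k D g₁ d₁) (F.nms ν₂ κ₂ k D g₂ d₂) ν κ ν₁ κ₁ ν₂ κ₂ Λ,
      z ∈ CQ s ∧ z.1 = x ∧ range j₁ = π ⁻¹' part z ∧ Rep ℓs A (pt₁ z) m₁ ∧ Rep ℓs A (pt₂ z) m₂ := by
  obtain ⟨z, a, rfl, b⟩ := r.exists_dec (s := s) (qn (s := s) hk hD hg hd) h.one.sat_range
    (fun q => ⟨_, h.one.mark q⟩) (fun q ⟨y, e⟩ => h.ne y _ (e.trans (h.two.mark q).symm))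
    (h.one.gen_eq.symm.trans (by rw [h₁.1])) fun o => by
      rw [(repD_eqv hD r o).degOn, stdA, degOn_mul, degOn_pow, ← image_univ,
        ← h.one.degOn_st _ isClopen_univ, degOn_univ, h₁.deg_ω, image_univ]
      cases o
      exacts [congrArg _ (degOn_one _), congrArg _ ((h.one.deg_eq _).symm.trans (h₁.2 _))]
  exact ⟨z, a, rfl, b.symm, CQ.rep (chart_lat hD) a r h b.symm⟩

theorem exists_dec' {x : (F.sch ν κ k D g d).WF ν κ Λ} (hx : x.2 ∈ Ch.base _ _) (r : Rep ℓs A x m)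
    (h : AM.Split m m₁ m₂ s.φ s.ψ j₁ j₂) (h₁ : m₁.Typ g₁ d₁) :
    ∃ z : (F.sch ν κ k D g d).WQ (F.nms ν₁ κ₁ k D g₁ d₁) (F.nms ν₂ κ₂ k D g₂ d₂) ν κ ν₁ κ₁ ν₂ κ₂ Λ,
      z ∈ CQ s ∧ z.1 = x ∧ Rep ℓs A (pt₁ z) m₁ ∧ Rep ℓs A (pt₂ z) m₂ :=
  let ⟨_, _, _, _, r⟩ := r.exists_data hx
  (exists_dec hk hD hg hd r h h₁).imp fun _ a => ⟨a.1, a.2.1, a.2.2.2⟩

end Vale.Agent.P269.Fam
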