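import Vale.Agent.P287Q.G.Glu.GC
import Vale.Agent.P287Q.G.Glu.GlB
import Vale.Agent.P287Q.G.Spl.GBf

set_option linter.unusedSectionVars false

/-!
# Gluing: the fibres of the projection of the labelled space
-/

namespace Vale.Agent.P269.Ch

open P291Z Set Function Topology Filter Module Holo Base Cv KD

variable {S Λ R J K ι ν κ κ' : Type} [Fintype S] [Fintype Λ] [Fintype R] [Fintype J]
  [Fintype K] [Fintype ι] [DecidableEq ι] [Fintype ν] [Fintype κ] [Fintype κ']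
  {ch : Ch ι J} {n : Nm ι J} {F : Fam S Λ R J K} {T : Set ((ch.re n).WF ν (κ ⊕ κ') Λ)}
  {C : Set (ch.WF ν κ Λ)}

theorem Lev.diff {Z Z' : Set (ch.WF ν κ Λ)} (h : Lev F Z) (h' : Lev F Z') : Lev F (Z \ Z') :=
  haveI := isActF_of h.inv
  ⟨fun _ a => h.adm a.1, Ivt.diff h'.inv, fun x a X b =>
    ⟨h.mov x a.1 X b, fun c => a.2 (h'.mov _ c x.2.X fun j hj => (b j hj).symm)⟩⟩

/-- charts of the family of curves at the labelled nodes -/
theorem Gl.exists_chart {x : ch.W (Mk ν κ)} {w : ch.Lb n (Mk ν (κ ⊕ κ'))} (hc : ch.Cuts)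
    (h : Gl x w) (hx : x ∈ ch.bm ν κ) :
    ∃ (σ : κ' → ch.W (Mk ν κ) × (ℂ × ℂ) → V ch.M) (τ : κ' → ch.W (Mk ν κ) → ℂ),
      (∀ e, Chart ch.o (fun y : ch.bm ν κ => crv y.1) Subtype.val ⟨x, hx⟩ (σ e)
        fun y => {z | z.1 * z.2 = τ e y}) ∧ (∀ e, AnalyticAt ℂ (τ e) x ∧ τ e x = 0) ∧
      Brs w (axs fun e z => σ e (x, z)) := by
  obtain ⟨c, A, π, u, ξ, ξ', a⟩ := h.exists_gd
  have hf := locFam_bm hc ⟨x, hx⟩
  have H : ∀ e, ∃ (σ : ch.W (Mk ν κ) × (ℂ × ℂ) → V ch.M) (τ : ch.W (Mk ν κ) → ℂ),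
      Chart ch.o (fun y : ch.bm ν κ => crv y.1) Subtype.val ⟨x, hx⟩ σ
        (fun y => {z | z.1 * z.2 = τ y}) ∧ (AnalyticAt ℂ τ x ∧ τ x = 0) ∧
      ∀ b, Nrm.Fac (br A (fun y => apV w.2.1 (π y)) (c.p (nq e b)))
        fun t => σ (x, cond b (0, t) (t, 0)) := fun e => by
    have k := a.cr.par.isCross (n := (c.p (nq e false), c.p (nq e true)))
      (AC.mem_glue.2 (.inr ⟨e, rfl⟩))
    obtain ⟨τ, σ, s1, s2, s3, s4⟩ := (hf.chart _ (a.cr.par.mem (c.p (nq e false)))).resolve_left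
      fun b => b.not_isNode hf ⟨_, _, k⟩
    rcases Nrm.fac_cross h.mem.2.2.1.isNodal k (s1 ▸ GBx.cross s4 hf s3 false) with d | d
    · exact ⟨σ, τ, s4, ⟨s2, s3⟩, fun b => by cases b; exacts [d.1, d.2]⟩
    · exact ⟨_, τ, s4.swap_node continuous_subtype_val.continuousAt, ⟨s2, s3⟩,
        fun b => by cases b; exacts [d.1, d.2]⟩
  choose σ τ k1 k2 k3 using H
  refine ⟨σ, τ, k1, k2, fun e b => ⟨_, a.cr'.par.isBranch (c.p (nq e b)),
    (br_zero _).trans (a.mark _), ?_⟩⟩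
  exact funext (br_lin (T := w.2.1) (c.p (nq e b))) ▸ k3 e b

/-- the fibres of the projection are orbits -/
theorem Zf.fib (hn : ch.GN n κ') (hT : Lev F T) {Z : Set (ch.WG n ν κ κ' Λ)} (hZ : Z ⊆ Zf F T)
    {z : ch.WG n ν κ κ' Λ} (hz : z ∈ Z) :
    GB.Fib (actH : (ch.re n).A κ' → _) Z Prod.fst z := fun O hO => by
  have g := (hZ hz).1.1
  have b := hn.bmG _ _ g (mem_baseF.1 (hT.base (hZ hz).1.2.1)).2
  obtain ⟨σ, τ, k1, k2, k3⟩ := g.exists_chart hn.cuts b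
  exact (NdC.fib hn.gOk hn.bmG ⟨g, b, k1, k2, k3⟩ (fun y a => ⟨⟨trivial, (hT.base a).2⟩,
    (hT.adm a).2.1⟩) O hO).mono fun _ a c d => a (hZ c) (hZ d)

theorem finrank_AG : finrank ℂ (ch.AG n ν κ κ' S) =
    finrank ℂ (ch.AF ν κ S) + finrank ℂ ((ch.re n).A κ') := AP.finrank

/-- local sections of the projection, from a dimension count -/
theorem Zf.exists_sec (hn : ch.GN n κ') (hT : Lev F T) {Z : Set (ch.WG n ν κ κ' Λ)}
    (hZ : Z ⊆ Zf F T) (hi : Ivt (actG F.toWt : ch.AG n ν κ κ' S → _) Z) {z : ch.WG n ν κ κ' Λ}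
    {d : ℕ} (hz : MfdAt Z (finrank ℂ (ch.AG n ν κ κ' S) + d) z)
    (hC : MfdAt C (finrank ℂ (ch.AF ν κ S) + d) z.1) (maps : MapsTo Prod.fst Z C) :
    ∃ s : ch.WF ν κ Λ → ch.WG n ν κ κ' Λ, AnalyticAt ℂ s z.1 ∧ s z.1 = z ∧
      ∀ᶠ x in 𝓝 z.1, x ∈ C → s x ∈ Z ∧ (s x).1 = x := by
  have : IsAct (actH : (ch.re n).A κ' → _) Z :=
    IsAct.mono isActH_univ (subset_univ _) (GBa.ivt hi)
  rw [finrank_AG, add_comm (finrank ℂ (ch.AF ν κ S)), add_assoc] at hz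
  exact GB.exists_sec (act := (actH : (ch.re n).A κ' → _)) (f := Prod.fst) hz hC analyticAt_fst
    (.of_forall fun _ a => maps a) ((hZ hz.mem).1.1.freH hn.gOk) (Zf.fib hn hT hZ hz.mem)

theorem Zf.dimLt (hn : ch.GN n κ') {Z : Set (ch.WG n ν κ κ' Λ)} (hZ : ∀ z ∈ Z, Gl z.1.2 z.2)
    (hi : Ivt (actG F.toWt : ch.AG n ν κ κ' S → _) Z) {d : ℕ}
    (h : DimLt (finrank ℂ (ch.AG n ν κ κ' S) + d) Z) :
    DimLt (finrank ℂ (ch.AF ν κ S) + d) (Prod.fst '' Z) := by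
  rw [finrank_AG, add_comm (finrank ℂ (ch.AF ν κ S)), add_assoc] at h
  refine DimLt.image_inv (act := (actH : (ch.re n).A κ' → _)) (S := univ) h (subset_univ _)
    (GBa.ivt hi) (fun x a => ?_) (fun _ _ => contDiffAt_fst) fun _ _ _ _ => rfl
  have k := Sp.free_iff.1 ((hZ _ a).freH hn.gOk)
  exact @Finite.of_subsingleton _ ⟨fun g g' => Subtype.ext ((k _ g.2).trans (k _ g'.2).symm)⟩

end Vale.Agent.P269.Ch
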