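import Vale.Agent.P287Q.G.Glu.Ctx
import Vale.Agent.P269.Map.SQD

set_option linter.unusedSectionVars false

/-!
# The action on labelled points: formal properties
-/

namespace Vale.Agent.P269.Ch

open P291Z Set Function Topology Filter Base Cv Holo Vir KD

variable {S Λ R J K ι ν κ ν' κ' κ₁ ε : Type} [Fintype S] [Fintype Λ] [Fintype R] [Fintype J]
  [Fintype K] [Fintype ι] [DecidableEq ι] [Fintype ν] [Fintype κ] [Fintype ν'] [Fintype κ']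
  [Fintype κ₁] [Fintype ε] {ch : Ch ι J} {n : Nm ι J} {Wg : Wt S Λ R J} {F : Fam S Λ R J K}
  {e : K → ι → ℕ} {ℓ : R → ι → ℤ}

section an

variable {P : Type*} [NormedAddCommGroup P] [NormedSpace ℂ P] {q : P}

theorem GlA.an_inv {E : Type} [NormedAddCommGroup E] [NormedSpace ℂ E] [CompleteSpace E]
    {T : P → E →L[ℂ] E} (h : AnalyticAt ℂ T q) (hu : IsUnit (T q)) :
    AnalyticAt ℂ (fun y => Ring.inverse (T y)) q :=
  (analyticAt_inverse hu.unit).comp_of_eq h rfl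

theorem GlA.an_pbT {M M' : ι → ℕ} {φ : P → HV M M'} (h : AnalyticAt ℂ φ q) {σ : Type} [Fintype σ]
    (τ : σ → ι) : AnalyticAt ℂ (fun y => P269.pbT (φ y) τ) q :=
  analyticAt_of_apply fun μ => by
    have h1 := AnalyticAt.comp (f := fun y => ((fun i => φ y (τ i)), μ)) (x := q)
      ContinuousMultilinearMap.analyticAt_uncurry_compContinuousLinearMap
      ((AnalyticAt.pi fun i => analyticAt_pi_iff.1 h (τ i)).prod analyticAt_const)
    exact h1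

variable {w : P → ch.Lb n ν'}

theorem Lb.an_iff : AnalyticAt ℂ w q ↔ AnalyticAt ℂ (fun y => (w y).1) q ∧
    (∀ i, AnalyticAt ℂ (fun y => (w y).2.1 i) q) ∧ ∀ l, AnalyticAt ℂ (fun y => (w y).2.2 l) q :=
  ⟨fun h => ⟨analyticAt_fst.comp h, analyticAt_pi_iff.1 (analyticAt_fst.comp (analyticAt_snd.comp h)),
    analyticAt_pi_iff.1 (analyticAt_snd.comp (analyticAt_snd.comp h))⟩,
    fun ⟨h1, h2, h3⟩ => h1.prod ((AnalyticAt.pi h2).prod (AnalyticAt.pi h3))⟩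

theorem Fm.an_iff {A : Set J} {h : J → ℕ} {v : P → ch.Fm A h} :
    AnalyticAt ℂ v q ↔ ∀ j, AnalyticAt ℂ (fun y => v y j) q :=
  letI := Fintype.ofFinite A
  analyticAt_pi_iff

end an

section lb

variable {c : J → ℂ} {s : ch.A ν} {s' : (ch.re n).A ν'} {x : ch.W ν} {w : ch.Lb n ν'}

theorem sub_pbT (hs' : IsUnit s') {σ : Type} [Fintype σ] (τ : σ → ι) (μ : Tn ch.M τ) :
    sub s' τ (P269.pbT (actLb c s s' w).2.1 τ μ) = P269.pbT w.2.1 τ (sub s τ μ) :=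
  ContinuousMultilinearMap.ext fun _ => congrArg μ (funext fun r =>
    congrArg (fun v => s.1 (τ r) (w.2.1 (τ r) v)) (inv_ap (isUnit_fst hs' _) _))

theorem actLb_E (hs : IsUnit s) (l : Option J) (v : ch.E l) :
    (actLb c s s' w).2.2 l (s.2.1 l v) = s'.2.1 l (w.2.2 l v) :=
  congrArg (fun v => s'.2.1 l (w.2.2 l v)) (inv_ap (isUnit_E hs l) v)

theorem actLb_V (hs' : IsUnit s') (i : ι) (v : Fin (n.M i) → ℂ) :
    (actLb c s s' w).2.1 i (s'.1 i v) = s.1 i (w.2.1 i v) :=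
  congrArg (fun v => s.1 i (w.2.1 i v)) (inv_ap (isUnit_fst hs' i) v)

theorem Lk.actLb (hs : IsUnit s) (hs' : IsUnit s') (h : Lk x w) :
    Lk (act s (scl c x)) (actLb c s s' w) :=
  ⟨fun l μ => (actLb_E hs l _).trans (congrArg (s'.2.1 l)
    ((h.Q l _).trans (congrArg (w.1.Q l) (sub_pbT hs' _ μ).symm))),
    fun μ => (actLb_E hs none _).trans (congrArg (s'.2.1 none)
      ((h.Ξ _).trans (congrArg w.1.Ξ (sub_pbT hs' _ μ).symm)))⟩

theorem mm_actLb (hs : IsUnit s) (hs' : IsUnit s') (A : Set J) :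
    mm A (act s (scl c x)) (actLb c s s' w) = ρM c s.1 (fun j => s'.2.1 (some j)) (mm A x w) :=
  funext fun j => ContinuousLinearMap.ext fun μ => by
    change (actLb c s s' w).2.2 _ (s.2.1 _ (c j • x.X j (sub s _ μ))) -
      s'.2.1 _ (c j • w.1.X j (sub s' _ (P269.pbT (actLb c s s' w).2.1 _ μ))) =
        c j • s'.2.1 _ (w.2.2 _ (x.X j (sub s _ μ)) - w.1.X j (P269.pbT w.2.1 _ (sub s _ μ)))
    simp only [actLb_E hs, sub_pbT hs', map_smul, map_sub, smul_sub]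

end lb

theorem mm_eq_zero {A : Set J} {x : ch.W ν} {w : ch.Lb n ν'} : mm A x w = 0 ↔ ∀ j ∈ A, Mt x w j :=
  funext_iff.trans (Subtype.forall.trans (forall₂_congr fun j _ =>
    (sub_eq_zero (a := w.2.2 (some j) ∘L x.X j) (b := w.1.X j ∘L P269.pbT w.2.1 _)).trans
      ContinuousLinearMap.ext_iff))

theorem Mt.congr {x x' : ch.W ν} {w w' : ch.Lb n ν'} {j : J} (h : Mt x w j) (e : x'.X j = x.X j)
    (e' : w'.1.X j = w.1.X j) (e'' : w'.2 = w.2) : Mt x' w' j := fun μ => by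
  rw [e, e', e'', h μ]

section rho

variable {A : Set J} {h : J → ℕ}

theorem ρM_zero (c : J → ℂ) (g : HV ch.M ch.M) (a : ∀ j, (Fin (h j) → ℂ) →L[ℂ] Fin (h j) → ℂ) :
    ρM c g a (0 : ch.Fm A h) = 0 := map_zero _

theorem rep_ρM {B : Type} [NormedRing B] [NormedAlgebra ℂ B] {τ : B → S → ℂ} {g : B → HV ch.M ch.M}
    {f : B → ∀ j, (Fin (h j) → ℂ) →L[ℂ] Fin (h j) → ℂ} (h1 : τ 1 = 1 ∧ g 1 = 1 ∧ f 1 = 1)
    (h2 : ∀ a b, τ (a * b) = τ a * τ b ∧ g (a * b) = g a * g b ∧ f (a * b) = f a * f b)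
    (h3 : ∀ a, AnalyticAt ℂ τ a ∧ AnalyticAt ℂ g a ∧ AnalyticAt ℂ f a)
    (h4 : ∀ a, IsUnit a → ∀ i, τ a i ≠ 0) :
    IsRepOn (fun a => (ρM (Wg.cS (τ a)) (g a) (f a) : ch.Fm A h → _)) ⊤ := by
  refine ⟨fun _ _ _ _ => trivial, fun _ _ _ _ _ _ => map_add _ _ _, fun _ _ _ _ _ => map_smul _ _ _,
    fun v _ => funext fun j => ContinuousLinearMap.ext fun μ => ?_,
    fun a b _ _ v _ => funext fun j => ContinuousLinearMap.ext fun μ => ?_,
    fun v _ => continuous_iff_continuousAt.2 fun u => ?_⟩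
  · rw [h1.1, h1.2.1, h1.2.2]
    change Wg.cS 1 j • v j μ = _
    simp [Wt.cS]
  · rw [(h2 a b).1, (h2 a b).2.1, (h2 a b).2.2]
    change Wg.cS (τ a * τ b) j • f a j (f b j _) = Wg.cS (τ a) j • f a j (Wg.cS (τ b) j • f b j _)
    rw [map_smul, smul_smul, Wt.cS, prod_zpow_mul]
    rfl
  · refine (Fm.an_iff.2 fun j => ?_ : AnalyticAt ℂ (fun a => ρM (Wg.cS (τ a)) (g a) (f a) v)
      u.1).continuousAt.comp Units.continuous_val.continuousAt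
    exact an_comp (an_smul_clm (an_prod_zpow (h3 _).1 (h4 _ u.isUnit) _)
      (analyticAt_pi_iff.1 (h3 _).2.2 j)) (an_comp analyticAt_const (GlA.an_pbT (h3 _).2.1 _))

end rho

section one

variable {β : ν' ⊕ κ₁ → (ν ⊕ κ) ⊕ ε} {a b : AP (ch.AF ν κ S) ((ch.re n).A ε)} {x : ch.WF ν κ Λ}
  {w : ch.Lb n (Mk ν' κ₁)}

theorem θL_one : θL β (1 : AP (ch.AF ν κ S) ((ch.re n).A ε)) = 1 :=
  Prod.ext rfl (Prod.ext rfl (Prod.ext rfl (funext fun q => by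
    change Sum.elim _ _ (β q) = _
    cases β q <;> rfl)))

theorem θL_mul : θL β (a * b) = θL β a * θL β b :=
  Prod.ext rfl (Prod.ext rfl (Prod.ext rfl (funext fun q => by
    change Sum.elim _ _ (β q) =
      Sum.elim a.1.2.2.2 a.2.2.2 (β q) * Sum.elim b.1.2.2.2 b.2.2.2 (β q)
    cases β q <;> rfl)))

variable (β) in
/-- The group element acting on the second chart. -/
noncomputable def θH : AP (ch.AF ν κ S) ((ch.re n).A ε) →* (ch.re n).AF ν' κ₁ S :=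
  ⟨⟨θL β, θL_one⟩, fun _ _ => θL_mul⟩

theorem isUnit_θL (ha : IsUnit a) : IsUnit (θL β a) := ha.map (θH β)

theorem μL_act : μL (actF Wg a.1 x) (actL1 Wg β a w) = actF Wg (θL β a) (μL x w) := rfl

theorem actL1_one : actL1 Wg β (1 : AP (ch.AF ν κ S) ((ch.re n).A ε)) w = w :=
  Prod.ext (congrArg Prod.snd ((congrArg (actF Wg · (0, w.1)) θL_one).trans (actF_one _)))
    (Prod.ext (funext fun i => congrArg (w.2.1 i ∘L ·) (Ring.inverse_one _))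
      (funext fun l => congrArg (w.2.2 l ∘L ·) (Ring.inverse_one _)))

theorem actL1_mul (ha : IsUnit a) (hb : IsUnit b) :
    actL1 Wg β (a * b) w = actL1 Wg β a (actL1 Wg β b w) :=
  Prod.ext (congrArg Prod.snd ((congrArg (actF Wg · (0, w.1)) θL_mul).trans (actF_mul _ _ _)))
    (Prod.ext (funext fun i => congrArg (fun T => a.1.2.1 i ∘L b.1.2.1 i ∘L w.2.1 i ∘L T)
      (Ring.inverse_mul (.inl (isUnit_fst (AP.isUnit_iff.1 ha).2 i))))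
      (funext fun l => congrArg (fun T => a.2.2.1 l ∘L b.2.2.1 l ∘L w.2.2 l ∘L T)
        (Ring.inverse_mul (.inr (isUnit_E (isUnitF_iff.1 (AP.isUnit_iff.1 hb).1).2 l)))))

theorem AP.an_iff {P A B : Type} [NormedAddCommGroup P] [NormedSpace ℂ P] [NormedRing A]
    [NormedAlgebra ℂ A] [NormedRing B] [NormedAlgebra ℂ B] {q : P} {a : P → AP A B} :
    AnalyticAt ℂ a q ↔ AnalyticAt ℂ (fun y => (a y).1) q ∧ AnalyticAt ℂ (fun y => (a y).2) q :=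
  ⟨fun h => ⟨analyticAt_fst.comp h, analyticAt_snd.comp h⟩, fun h => h.1.prod h.2⟩

theorem CL.an {P A B : Type} [NormedAddCommGroup P] [NormedSpace ℂ P] [NormedRing A]
    [NormedAlgebra ℂ A] [NormedRing B] [NormedAlgebra ℂ B] {q : P} {a : P → A} (f : CL A B)
    (h : AnalyticAt ℂ a q) : AnalyticAt ℂ (fun y => f (a y)) q := (f.analyticAt _).comp h

theorem A.an_iff {P : Type} [NormedAddCommGroup P] [NormedSpace ℂ P] {q : P} {a : P → ch.A ν} :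
    AnalyticAt ℂ a q ↔ AnalyticAt ℂ (fun y => (a y).1) q ∧ AnalyticAt ℂ (fun y => (a y).2.1) q ∧
      AnalyticAt ℂ (fun y => (a y).2.2) q :=
  ⟨fun h => ⟨analyticAt_fst.comp h, analyticAt_fst.comp (analyticAt_snd.comp h),
    analyticAt_snd.comp (analyticAt_snd.comp h)⟩, fun h => h.1.prod (h.2.1.prod h.2.2)⟩

theorem AF.an_iff {P : Type} [NormedAddCommGroup P] [NormedSpace ℂ P] {q : P}
    {a : P → ch.AF ν κ S} :
    AnalyticAt ℂ a q ↔ AnalyticAt ℂ (fun y => (a y).1) q ∧ AnalyticAt ℂ (fun y => (a y).2) q :=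
  ⟨fun h => ⟨analyticAt_fst.comp h, analyticAt_snd.comp h⟩, fun h => h.1.prod h.2⟩

theorem an_actL1 {P : Type} [NormedAddCommGroup P] [NormedSpace ℂ P] {q : P}
    {a : P → AP (ch.AF ν κ S) ((ch.re n).A ε)} {w : P → ch.Lb n (Mk ν' κ₁)}
    (ha : AnalyticAt ℂ a q) (hw : AnalyticAt ℂ w q) (hu : IsUnit (a q)) :
    AnalyticAt ℂ (fun y => actL1 Wg β (a y) (w y)) q := by
  obtain ⟨h1, h2, h3⟩ := Lb.an_iff.1 hw
  obtain ⟨h4, h5, -⟩ := A.an_iff.1 (AF.an_iff.1 (AP.an_iff.1 ha).1).2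
  obtain ⟨h6, h7, -⟩ := A.an_iff.1 (AP.an_iff.1 ha).2
  have h8 := CL.an (θL β) ha
  have h9 := an_actF (F := Wg) (x := fun y => (0, (w y).1)) h8 (analyticAt_const.prod h1)
    (ne_S (isUnit_θL hu))
  exact Lb.an_iff.2 ⟨(analyticAt_snd.comp h9 :),
    fun i => an_comp (analyticAt_pi_iff.1 h4 i) (an_comp (h2 i)
      (GlA.an_inv (analyticAt_pi_iff.1 h6 i) (isUnit_fst (AP.isUnit_iff.1 hu).2 i))),
    fun l => an_comp (analyticAt_pi_iff.1 h7 l) (an_comp (h3 l) (GlA.an_inv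
      (analyticAt_pi_iff.1 h5 l) (isUnit_E (isUnitF_iff.1 (AP.isUnit_iff.1 hu).1).2 l)))⟩

theorem actL1_an (ha : IsUnit a) : AnalyticAt ℂ
    (fun p : AP (ch.AF ν κ S) ((ch.re n).A ε) × ch.Lb n (Mk ν' κ₁) => actL1 Wg β p.1 p.2) (a, w) :=
  an_actL1 analyticAt_fst analyticAt_snd ha

theorem Lk.act (ha : IsUnit a) (h : Lk x.2 w) : Lk (actF Wg a.1 x).2 (actL1 Wg β a w) :=
  h.actLb (isUnit_dupF (AP.isUnit_iff.1 ha).1) (isUnit_dupF (isUnit_θL ha))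

theorem mm_act (ha : IsUnit a) (A : Set J) : mm A (actF Wg a.1 x).2 (actL1 Wg β a w) =
    ρM (Wg.cS a.1.1) a.1.2.1 (fun j => a.2.2.1 (some j)) (mm A x.2 w) :=
  mm_actLb (isUnit_dupF (AP.isUnit_iff.1 ha).1) (isUnit_dupF (isUnit_θL ha)) A

theorem Mt.act (ha : IsUnit a) {j : J} (h : Mt x.2 w j) : Mt (actF Wg a.1 x).2 (actL1 Wg β a w) j :=
  mm_eq_zero.1 ((mm_act ha {j}).trans ((congrArg _ (mm_eq_zero.2 fun _ e => e ▸ h)).trans
    (ρM_zero _ _ _))) j rfl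

theorem lpt_zz (ha : IsUnit a) (y : (ch.re n).Pt) :
    lpt w (zz (θL β a) y) = zz a.1 (lpt (actL1 Wg β a w) y) :=
  Prod.ext (funext fun i => (inv_ap (unit_fst (AP.isUnit_iff.1 ha).1 i) _).symm)
    (funext fun l => ContinuousLinearMap.ext fun v => congrArg (y.2 l)
      (actLb_E (c := Wg.cS a.1.1) (s' := dup (θL β a).2) (w := w)
        (isUnitF_iff.1 (AP.isUnit_iff.1 ha).1).2 l v).symm)

end one

theorem analyticAt_mm (A : Set J) (z : ch.W ν × ch.Lb n ν') :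
    AnalyticAt ℂ (fun z : ch.W ν × ch.Lb n ν' => mm A z.1 z.2) z :=
  let ⟨h1, h2, h3⟩ := Lb.an_iff.1 (analyticAt_snd (𝕜 := ℂ) (p := z))
  Fm.an_iff.2 fun _ => (an_comp (h3 _) (W.an_X analyticAt_fst _)).sub
    (an_comp (W.an_X h1 _) (GlA.an_pbT (AnalyticAt.pi h2) _))

theorem continuous_lpt : Continuous fun z : ch.Lb n ν' × (ch.re n).Pt => lpt z.1 z.2 :=
  continuous_iff_continuousAt.2 fun z =>
    let ⟨_, h2, h3⟩ := Lb.an_iff.1 (analyticAt_fst (𝕜 := ℂ) (p := z))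
    ((AnalyticAt.pi fun i => an_apply (h2 i)
      (analyticAt_pi_iff.1 (analyticAt_fst.comp analyticAt_snd) i)).prod (AnalyticAt.pi fun l =>
        an_comp (analyticAt_pi_iff.1 (analyticAt_snd.comp analyticAt_snd) l) (h3 l))).continuousAt

theorem ptz_mem {x : ch.W ν} (hx : x ∈ ch.base ν) (q : ν) : ptz x q ∈ gr x :=
  Classical.epsilon_spec (mem_crv.1 (hx.2.2.2.1 q).1)

theorem ptz_congr {x y : ch.W ν} (h : x.Q = y.Q) (h' : x.p = y.p) : ptz x = ptz y :=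
  funext fun a => by simp only [ptz, gr, h, h']

theorem ptz_act {s : ch.AF ν κ S} (hs : IsUnit s) {x : ch.WF ν κ Λ} (hx : x.2 ∈ ch.base _)
    (q : Mk ν κ) : zz s (ptz (actF Wg s x).2 q) = tz ((dup s.2).2.2 q) (ptz x.2 q) := by
  have h1 := isUnit_dupF hs
  have h2 : (zz s (ptz (actF Wg s x).2 q)).1 = (dup s.2).2.2 q • x.2.p q := funext fun i =>
    (map_smul _ _ _).trans (congrArg (_ • ·) (inv_ap (unit_fst hs i) _))
  have h3 : zz s (ptz (actF Wg s x).2 q) ∈ gr x.2 :=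
    (Cv.gr_act (x := scl (Wg.cS s.1) x.2) (c := (zz s (ptz (actF Wg s x).2 q)).1) h1).1
      (mem_of_eq_of_mem (Prod.ext (funext (ap_zz hs _)) rfl)
        (ptz_mem (x := (actF Wg s x).2) (Cv.act_mem_base hx h1) q))
  exact Prod.ext h2 (funext fun l => gr_unique (mem_of_eq_of_mem (Prod.ext h2.symm rfl) h3)
    (gr_smul (ptz_mem hx q) ((Cv.isUnit_iff.1 h1).2.2 q)) (hx.1 l))

theorem EqM.of_hom {A A' W W' : Type} [NormedRing A] [NormedAlgebra ℂ A] [NormedAddCommGroup W]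
    [NormedSpace ℂ W] [NormedRing A'] [NormedAlgebra ℂ A'] [NormedAddCommGroup W'] [NormedSpace ℂ W']
    {act : A → W → W} {act' : A' → W' → W'} {T : Set W} {T' : Set W'} (θ : A →* A') {f : W → W'}
    (hθ : Continuous fun g : Aˣ => θ g) (h1 : MapsTo f T T') (h2 : ContinuousOn f T)
    (h3 : ∀ a, IsUnit a → ∀ x ∈ T, f (act a x) = act' (θ a) (f x)) : EqM act act' T T' θ f :=
  ⟨⟨Units.map θ, Units.continuous_iff.2 ⟨hθ, hθ.comp continuous_inv⟩, fun _ => rfl⟩, h1, h2, h3⟩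

section glue

variable {a : ch.AG n ν κ κ' S} {z : ch.WG n ν κ κ' Λ} {T : Set ((ch.re n).WF ν (κ ⊕ κ') Λ)}

theorem θG_one : θG (1 : ch.AG n ν κ κ' S) = 1 := θL_one

theorem θG_mul (a b : ch.AG n ν κ κ' S) : θG (a * b) = θG a * θG b := θL_mul

theorem isUnit_θG (ha : IsUnit a) : IsUnit (θG a) := isUnit_θL ha

/-- A section of `θG`. -/
noncomputable def θs (b : (ch.re n).AF ν (κ ⊕ κ') S) : ch.AG n ν κ κ' S :=
  ((b.1, 1, 1, fun q => b.2.2.2 (q.map id .inl)), b.2.1, b.2.2.1, fun q => b.2.2.2 (.inr (.inr q)))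

theorem θG_θs (b : (ch.re n).AF ν (κ ⊕ κ') S) : θG (θs b) = b :=
  Prod.ext rfl (Prod.ext rfl (Prod.ext rfl (funext (by rintro (q | q | q) <;> rfl))))

theorem θG_surj : Surjective (θG : ch.AG n ν κ κ' S → _) := fun b => ⟨_, θG_θs b⟩

theorem θG_usurj (b : (ch.re n).AF ν (κ ⊕ κ') S) (hb : IsUnit b) :
    ∃ a : ch.AG n ν κ κ' S, IsUnit a ∧ θG a = b :=
  let ⟨h1, h2, h3⟩ := Cv.isUnit_iff.1 (isUnitF_iff.1 hb).2
  ⟨_, AP.isUnit_iff.2 ⟨isUnitF_iff.2 ⟨(ne_S hb :), Cv.isUnit_iff.2 ⟨fun _ => isUnit_one,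
    fun _ => isUnit_one, fun _ => h3 _⟩⟩, Cv.isUnit_iff.2 ⟨h1, h2, fun _ => h3 _⟩⟩, θG_θs b⟩

theorem θG_eq_one : θG a = 1 ↔ a.1.1 = 1 ∧ a.1.2.2.2 = 1 ∧ a.2 = 1 := by
  refine ⟨fun h => ?_, fun ⟨h1, h2, h3⟩ => ?_⟩
  · have h1 := congrFun (congrArg (fun b => b.2.2.2) h)
    refine ⟨congrArg Prod.fst h, funext ?_, Prod.ext (congrArg (fun b => b.2.1) h)
      (Prod.ext (congrArg (fun b => b.2.2.1) h) (funext fun q => h1 (.inr (.inr q))))⟩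
    rintro (q | q)
    exacts [h1 (.inl q), h1 (.inr (.inl q))]
  · refine Prod.ext h1 (Prod.ext (congrArg Prod.fst h3 :) (Prod.ext (congrArg (fun b => b.2.1) h3 :)
      (funext ?_)))
    rintro (q | q | q)
    exacts [congrFun h2 (.inl q), congrFun h2 (.inr q), congrFun (congrArg (fun b => b.2.2) h3) q]

theorem μG_actG : μG (actG Wg a z) = actF Wg (θG a) (μG z) := μL_act

theorem an_actG {P : Type} [NormedAddCommGroup P] [NormedSpace ℂ P] {q : P}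
    {a : P → ch.AG n ν κ κ' S} {z : P → ch.WG n ν κ κ' Λ} (ha : AnalyticAt ℂ a q)
    (hz : AnalyticAt ℂ z q) (hu : IsUnit (a q)) :
    AnalyticAt ℂ (fun y => actG Wg (a y) (z y)) q :=
  (an_actF (AP.an_iff.1 ha).1 (analyticAt_fst.comp hz) (ne_S (AP.isUnit_iff.1 hu).1)).prod
    (an_actL1 ha (analyticAt_snd.comp hz) hu)

instance isAct_actG : IsAct (actG Wg : ch.AG n ν κ κ' S → ch.WG n ν κ κ' Λ → _) univ :=
  ⟨fun z _ => Prod.ext (actF_one z.1) actL1_one,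
    fun a b ha hb z _ => Prod.ext (actF_mul a.1 b.1 z.1) (actL1_mul ha hb), fun _ _ _ _ => trivial,
    fun _ ha _ _ => an_actG analyticAt_fst analyticAt_snd ha⟩

theorem analyticAt_μG (z : ch.WG n ν κ κ' Λ) : AnalyticAt ℂ μG z :=
  (analyticAt_fst.comp analyticAt_fst).prod (Lb.an_iff.1 analyticAt_snd).1

theorem eqM_fst : EqM (actG Wg : ch.AG n ν κ κ' S → ch.WG n ν κ κ' Λ → _) (actF Wg) univ univ
    (fun a => a.1) Prod.fst :=
  EqM.of_hom ⟨⟨fun a : ch.AG n ν κ κ' S => a.1, rfl⟩, fun _ _ => rfl⟩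
    (continuous_fst.comp Units.continuous_val) (mapsTo_univ _ _) continuousOn_fst fun _ _ _ _ => rfl

theorem eqM_μG : EqM (actG Wg : ch.AG n ν κ κ' S → ch.WG n ν κ κ' Λ → _) (actF Wg) univ univ
    θG μG :=
  EqM.of_hom (θH (Equiv.sumAssoc ν κ κ').symm : ch.AG n ν κ κ' S →* (ch.re n).AF ν (κ ⊕ κ') S)
    ((θG : CL (ch.AG n ν κ κ' S) _).continuous.comp Units.continuous_val)
    (mapsTo_univ _ _)
    (fun z _ => (analyticAt_μG z).continuousAt.continuousWithinAt) fun _ _ _ _ => rfl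

/-- `Gl` does not depend on the fields -/
theorem Gl.congr {x : ch.W (Mk ν κ)} {w : ch.Lb n (Mk ν (κ ⊕ κ'))} (h : Gl x w) (X X') :
    Gl (W.mk' x.Q x.p x.Ξ X) ((W.mk' w.1.Q w.1.p w.1.Ξ X', w.2) : ch.Lb n _) :=
  ⟨⟨h.Q, h.Ξ⟩, h.mem, h.mem', h.surj, h.inj, h.mark, h.node, h.par⟩

theorem ivt_fst {U : Set (ch.WF ν κ Λ)} (hU : Ivt (actF Wg) U) :
    Ivt (actG Wg) (Prod.fst ⁻¹' U : Set (ch.WG n ν κ κ' Λ)) :=
  fun _ ha _ h => hU _ (AP.isUnit_iff.1 ha).1 _ h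

theorem ivt_μG (hT : Ivt (actF Wg) T) : Ivt (actG Wg) (μG ⁻¹' T : Set (ch.WG n ν κ κ' Λ)) :=
  fun _ ha _ h => hT _ (isUnit_θG ha) _ h

theorem Mtd.act (hF : F.Inv) (hw : (ch.re n).HasWt F ℓ) {s : (ch.re n).AF ν (κ ⊕ κ') S}
    (hs : IsUnit s) {y : (ch.re n).WF ν (κ ⊕ κ') Λ} (hy : y ∈ (ch.re n).solF ν _ F) (h : Mtd y) :
    Mtd (actF F.toWt s y) := fun q => by
  have _ := hF
  rw [vl_actF hw hs hy, vl_actF hw hs hy, h q]
  rfl

theorem add_ι₁ (v : ch.Fm F.mov ch.hf) : z + ι₁ F v =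
    ((z.1.1, W.mk' z.1.2.Q z.1.2.p z.1.2.Ξ (z.1.2.X + Fm.ex v)), z.2) :=
  Prod.ext (Prod.ext (add_zero _) (W.ext (fun _ => add_zero _) (fun _ => add_zero _) (add_zero _)
    fun _ => rfl)) (add_zero _)

theorem add_ι₂ (v : (ch.re n).Fm F.mov (ch.re n).hf) : z + ι₂ F v =
    (z.1, (W.mk' z.2.1.Q z.2.1.p z.2.1.Ξ (z.2.1.X + Fm.ex v), z.2.2)) :=
  Prod.ext (add_zero _) (Prod.ext (W.ext (fun _ => add_zero _) (fun _ => add_zero _) (add_zero _)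
    fun _ => rfl) (add_zero _))

open Classical in
theorem GlA.ite_add (A : Set J) (x : ch.W ν') :
    (fun j => if j ∈ A then 0 else x.X j) + Fm.ex (qX A x) = x.X := funext fun j => by
  by_cases e : j ∈ A
  · rw [Pi.add_apply, if_pos e, Fm.ex_mem _ e, zero_add, qX_apply]
  · rw [Pi.add_apply, if_neg e, Fm.ex_not _ e, add_zero]

open Classical in
theorem p₁_apply : p₁ F z =
    ((z.1.1, W.mk' z.1.2.Q z.1.2.p z.1.2.Ξ fun j => if j ∈ F.mov then 0 else z.1.2.X j), z.2) :=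
  sub_eq_of_eq_add (by
    rw [add_ι₁]
    exact congrArg (fun X => ((z.1.1, W.mk' z.1.2.Q z.1.2.p z.1.2.Ξ X), z.2)) (GlA.ite_add _ _).symm)

open Classical in
theorem p₂_apply : p₂ F z =
    (z.1, (W.mk' z.2.1.Q z.2.1.p z.2.1.Ξ fun j => if j ∈ F.mov then 0 else z.2.1.X j, z.2.2)) :=
  sub_eq_of_eq_add (Eq.trans (congrArg (fun X => (z.1, (W.mk' z.2.1.Q z.2.1.p z.2.1.Ξ X, z.2.2)))
    (GlA.ite_add F.mov z.2.1).symm) (add_ι₂ (z := (z.1, (W.mk' z.2.1.Q z.2.1.p z.2.1.Ξ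
      fun j => if j ∈ F.mov then 0 else z.2.1.X j, z.2.2))) (q₂ F z)).symm)

theorem q₁_eq_zero : q₁ F z = 0 ↔ ∀ j ∈ F.mov, z.1.2.X j = 0 := funext_iff.trans Subtype.forall

theorem q₂_eq_zero : q₂ F z = 0 ↔ ∀ j ∈ F.mov, z.2.1.X j = 0 := funext_iff.trans Subtype.forall

theorem GlA.an_G (a : ch.AG n ν κ κ' S) :
    AnalyticAt ℂ (fun a : ch.AG n ν κ κ' S => a.1.1) a ∧
      (AnalyticAt ℂ (fun a : ch.AG n ν κ κ' S => a.1.2.1) a ∧
        AnalyticAt ℂ (fun (a : ch.AG n ν κ κ' S) j => a.1.2.2.1 (some j)) a) ∧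
      (AnalyticAt ℂ (fun a : ch.AG n ν κ κ' S => a.2.1) a ∧
        AnalyticAt ℂ (fun (a : ch.AG n ν κ κ' S) j => a.2.2.1 (some j)) a) ∧
      AnalyticAt ℂ (fun a : ch.AG n ν κ κ' S => a.2.2.2) a :=
  let ⟨h1, h2⟩ := AP.an_iff.1 (analyticAt_id (𝕜 := ℂ) (z := a))
  let ⟨h3, h4⟩ := AF.an_iff.1 h1
  let ⟨h5, h6, _⟩ := A.an_iff.1 h4
  let ⟨h7, h8, h9⟩ := A.an_iff.1 h2
  ⟨h3, ⟨h5, .pi fun _ => analyticAt_pi_iff.1 h6 _⟩, ⟨h7, .pi fun _ => analyticAt_pi_iff.1 h8 _⟩, h9⟩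

theorem rep_ρH : IsRepOn (ρH F : ch.AG n ν κ κ' S → _) ⊤ :=
  rep_ρM ⟨rfl, rfl, rfl⟩ (fun _ _ => ⟨rfl, rfl, rfl⟩)
    (fun a => ⟨(GlA.an_G a).1, (GlA.an_G a).2.1.1, (GlA.an_G a).2.2.1.2⟩)
    fun _ ha => ne_S (AP.isUnit_iff.1 ha).1

open Classical in
theorem GlA.act_ite (A : Set J) (s : ch.A ν') (c : J → ℂ) (x : ch.W ν') :
    (W.mk' (act s (scl c x)).Q (act s (scl c x)).p (act s (scl c x)).Ξ
      fun j => if j ∈ A then 0 else (act s (scl c x)).X j) =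
      act s (scl c (W.mk' x.Q x.p x.Ξ fun j => if j ∈ A then 0 else x.X j)) :=
  W.ext (fun _ => rfl) (fun _ => rfl) rfl fun j => ContinuousLinearMap.ext fun μ => by
    by_cases e : j ∈ A <;> simp [act_X, e]

theorem GlA.qX_act (A : Set J) (s : ch.A ν') (c : J → ℂ) (x : ch.W ν') :
    qX A (act s (scl c x)) = ρM c s.1 (fun j => s.2.1 (some j)) (qX A x) :=
  funext fun j => ContinuousLinearMap.ext fun _ => map_smul (s.2.1 (some j)) _ _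

theorem spt₁ : Spt (actG F.toWt : ch.AG n ν κ κ' S → ch.WG n ν κ κ' Λ → _) (ρ₁ F) (p₁ F) (q₁ F)
    (ι₁ F) := by
  refine ⟨fun _ => sub_add_cancel _ _, fun v => funext fun j => Fm.ex_mem v j.2,
    rep_ρM ⟨rfl, rfl, rfl⟩ (fun _ _ => ⟨rfl, rfl, rfl⟩) (fun a => ⟨(GlA.an_G a).1, (GlA.an_G a).2.1⟩)
      fun _ ha => ne_S (AP.isUnit_iff.1 ha).1, fun a _ z => ?_, fun a _ z => GlA.qX_act _ _ _ _⟩
  rw [p₁_apply, p₁_apply]
  exact Prod.ext (Prod.ext rfl (GlA.act_ite _ _ _ _)) rfl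

theorem spt₂ : Spt (actG F.toWt : ch.AG n ν κ κ' S → ch.WG n ν κ κ' Λ → _) (ρ₂ F) (p₂ F) (q₂ F)
    (ι₂ F) := by
  refine ⟨fun _ => sub_add_cancel _ _, fun v => funext fun j => Fm.ex_mem v j.2,
    rep_ρM ⟨rfl, rfl, rfl⟩ (fun _ _ => ⟨rfl, rfl, rfl⟩) (fun a => ⟨(GlA.an_G a).1, (GlA.an_G a).2.2.1⟩)
      fun _ ha => ne_S (AP.isUnit_iff.1 ha).1, fun a _ z => ?_, fun a _ z => GlA.qX_act _ _ _ _⟩
  rw [p₂_apply, p₂_apply]
  exact Prod.ext rfl (Prod.ext (GlA.act_ite _ _ _ _) rfl)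

theorem Zb_eq₁ : (Zb F T : Set (ch.WG n ν κ κ' Λ)) = p₁ F ⁻¹' Zn F T := Set.ext fun z => by
  rw [mem_preimage, p₁_apply]
  exact ⟨fun h => ⟨⟨h.1.congr _ _, h.2.1, fun j e => (h.2.2 j e).congr (if_neg e) rfl rfl⟩,
    fun j e => if_pos e⟩, fun h => ⟨h.1.1.congr _ _, h.1.2.1,
      fun j e => (h.1.2.2 j e).congr (if_neg e).symm rfl rfl⟩⟩

theorem Zb_eq₂ (hT : Lev F T) : (Zb F T : Set (ch.WG n ν κ κ' Λ)) = p₂ F ⁻¹' Zf F T :=
  Set.ext fun z => by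
  rw [mem_preimage, p₂_apply]
  exact ⟨fun h => ⟨⟨h.1.congr _ _, hT.mov _ h.2.1 _ fun j e => if_neg e,
    fun j e => (h.2.2 j e).congr rfl (if_neg e) rfl⟩, fun j e => if_pos e⟩,
    fun h => ⟨h.1.1.congr _ _, hT.mov _ h.1.2.1 z.2.1.X fun j e => (if_neg e).symm,
      fun j e => (h.1.2.2 j e).congr rfl (if_neg e).symm rfl⟩⟩

end glue

end Vale.Agent.P269.Ch
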