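import Vale.Agent.P287Q.G.Glu.GC
import Vale.Agent.P287Q.G.Spl.GBh

set_option linter.unusedSectionVars false
set_option linter.style.haveILetI false

/-!
# Compactness of the space of labels: the fields, properness
-/

namespace Vale.Agent.P269.Ch

open P291Z Set Function Topology Filter Module Holo Base Cv KD

/-- a criterion for properness of a map of orbit spaces -/
theorem EqM.isPr_of_seq {A A' W W' : Type} [NormedRing A] [NormedAlgebra ℂ A] [CompleteSpace A]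
    [NormedAddCommGroup W] [NormedSpace ℂ W] [NormedRing A'] [NormedAlgebra ℂ A']
    [NormedAddCommGroup W'] [NormedSpace ℂ W'] {act : A → W → W} {act' : A' → W' → W'} {O : Set W}
    {O' : Set W'} [IsAct act O] [Nice (Quo act O)] [Nice (Quo act' O')] {θ : A' → A} {f : W' → W}
    (hf : EqM act' act O' O θ f) (hs : ∀ b, IsUnit b → ∃ a, IsUnit a ∧ θ a = b) (hi : Ivt act' O')
    (H : ∀ (y : ℕ → W') (x : W), (∀ k, y k ∈ O') → x ∈ O →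
      Tendsto (fun k => f (y k)) atTop (𝓝 x) → ∃ (φ : ℕ → ℕ) (a : ℕ → A') (z : W'), StrictMono φ ∧
        (∀ k, IsUnit (a k)) ∧ z ∈ O' ∧ Tendsto (fun k => act' (a k) (y (φ k))) atTop (𝓝 z)) :
    IsPr hf.map := by
  refine ⟨hf.map.continuous, fun K hK => isCompact_iff_isSeqCompact.2 fun q hq => ?_⟩
  obtain ⟨x, -, ψ, h1, h2⟩ := hK.tendsto_subseq hq
  obtain ⟨x, rfl⟩ := Holo.Sp.surjective_mk x
  obtain ⟨V, hV⟩ := (𝓝 x).exists_antitone_basis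
  obtain ⟨φ, h3, h4⟩ := extraction_forall_of_eventually fun m => h2.eventually
    (Holo.Sp.isOpenQuotientMap_mk.isOpenMap.image_mem_nhds (hV.mem m))
  choose u h5 h6 using h4
  have h7 : ∀ m, ∃ y : O', f y = (u m).val ∧ Quo.mk act' y = q (ψ (φ m)) := fun m => by
    obtain ⟨y, hy⟩ := Holo.Sp.surjective_mk (q (ψ (φ m)))
    obtain ⟨g, hg⟩ := Holo.Sp.mk_eq_iff.1 (((hf.map_mk y).symm.trans
      (congrArg _ hy)).trans (h6 m).symm)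
    obtain ⟨a, ha, e⟩ := hs g g.isUnit
    exact ⟨⟨_, hi a ha _ y.2⟩, (hf.eqv a ha _ y.2).trans (e ▸ congrArg Holo.Sp.val hg),
      (Quot.sound ⟨a, ha, rfl⟩).symm.trans hy⟩
  choose y h8 h9 using h7
  obtain ⟨χ, a, z, k1, k2, k3, k4⟩ := H (fun m => y m) x.val (fun m => (y m).2) x.val_mem
    (((Holo.Sp.continuous_val.tendsto x).comp (hV.tendsto h5)).congr fun m => (h8 m).symm)
  have k5 : Tendsto (q ∘ ψ ∘ φ ∘ χ) atTop (𝓝 (Quo.mk act' ⟨z, k3⟩)) :=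
    ((continuous_quot_mk.tendsto _).comp ((tendsto_subtype_rng
      (f := fun k => (⟨_, hi _ (k2 k) _ (y (χ k)).2⟩ : O'))).2 k4)).congr
      fun k => (Quot.sound ⟨a k, k2 k, rfl⟩).symm.trans (h9 (χ k))
  exact ⟨_, (hK.isClosed.preimage hf.map.continuous).mem_of_tendsto k5 (.of_forall fun _ => hq _),
    _, h1.comp (h3.comp k1), k5⟩

variable {S Λ R J K ι ν κ κ' : Type} [Fintype S] [Fintype Λ] [Fintype R] [Fintype J]
  [Fintype K] [Fintype ι] [DecidableEq ι] [Fintype ν] [Fintype κ] [Fintype κ']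
  {ch : Ch ι J} {n : Nm ι J} {F : Fam S Λ R J K} {e : K → ι → ℕ} {K₀ : RD R} {ℓ : R → ι → ℤ}
  {T : Set ((ch.re n).WF ν (κ ⊕ κ') Λ)} {O : Set (ch.WF ν κ Λ)}

variable (ch n ν κ κ') in
/-- The labels over a convergent sequence converge up to frames. -/
def GlC (Wg : Wt S Λ R J) : Prop :=
  ∀ (y : ℕ → ch.WG n ν κ κ' Λ) (x : ch.WF ν κ Λ),
    (∀ k, Gl (y k).1.2 (y k).2 ∧ (y k).1.2 ∈ ch.bm ν κ) →
    Tendsto (fun k => (y k).1) atTop (𝓝 x) → x.2 ∈ ch.bm ν κ → Lab κ' n x.2 →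
    ∃ (φ : ℕ → ℕ) (a : ℕ → ch.AG n ν κ κ' S) (w : ch.Lb n (Mk ν (κ ⊕ κ'))), StrictMono φ ∧
      (∀ k, IsUnit (a k) ∧ (a k).1 = 1) ∧ Gl x.2 w ∧
      Tendsto (fun k => (actG Wg (a k) (y (φ k))).2.nf) atTop (𝓝 w.nf)

theorem CptZ.continuous_setX : Continuous
    fun q : ch.Lb n (Mk ν (κ ⊕ κ')) × (ch.re n).Fld => q.1.setX q.2 :=
  continuous_iff_continuousAt.2 fun q =>
    let ⟨h1, h2, h3⟩ := Lb.an_iff.1 (analyticAt_fst (𝕜 := ℂ) (p := q))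
    have h4 : AnalyticAt ℂ (fun q : ch.Lb n (Mk ν (κ ⊕ κ')) × (ch.re n).Fld =>
        setX q.1.1 q.2) q :=
      W.an_iff.2 ⟨(W.an_Q h1 :), (W.an_p h1 :), (W.an_Ξ h1 :), analyticAt_pi_iff.1 analyticAt_snd⟩
    AnalyticAt.continuousAt (𝕜 := ℂ) ((Lb.an_iff (w := fun q : ch.Lb n (Mk ν (κ ⊕ κ')) ×
      (ch.re n).Fld => q.1.setX q.2)).2 ⟨h4, h2, h3⟩)

variable (H : GlC ν κ κ' ch n F.toWt) (hn : ch.GN n κ') (hF : F.Inv) (hT : Lev F T)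
  (hc : clo F T ⊆ T)
include H hn hF hT hc

theorem Zf.cpt_of {y : ℕ → ch.WG n ν κ κ' Λ} (hy : ∀ k, y k ∈ Zf F T) {x : ch.WF ν κ Λ}
    (h1 : Tendsto (fun k => (y k).1) atTop (𝓝 x)) (hx : x ∈ ch.baseF ν κ F.B) (hl : Lab κ' n x.2) :
    ∃ (φ : ℕ → ℕ) (a : ℕ → ch.AG n ν κ κ' S) (z : ch.WG n ν κ κ' Λ), StrictMono φ ∧
      (∀ k, IsUnit (a k) ∧ (a k).1 = 1) ∧ z ∈ Zf F T ∧ z.1 = x ∧
      Tendsto (fun k => actG F.toWt (a k) (y (φ k))) atTop (𝓝 z) := by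
  classical
  have a1 : ∀ k, (y k).1 ∈ ch.adm ν κ F := fun k => Zb.adm hn hF hT.adm (hy k).1
  have a2 : x ∈ ch.adm ν κ F := hn.cuts.closure_inter_subset_adm hF Subset.rfl
    ⟨mem_closure_of_tendsto h1 (.of_forall a1), hx⟩
  obtain ⟨φ, a, w, b1, b2, b3, b4⟩ := H y x (fun k => ⟨(hy k).1.1, (mem_baseF.1 (a1 k).1).2⟩) h1
    (mem_baseF.1 hx).2 hl
  obtain ⟨u, hu⟩ : ∃ u : ℕ → ch.WG n ν κ κ' Λ, u = fun k => actG F.toWt (a k) (y (φ k)) := ⟨_, rfl⟩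
  have c1 : ∀ k, u k ∈ Zf F T := hu ▸ fun k => ivt_Zf hT.inv _ (b2 k).1 _ (hy _)
  have c2 : Tendsto (fun k => (u k).1) atTop (𝓝 x) := hu ▸ (h1.comp b1.tendsto_atTop).congr
    fun k => ((congrArg (actF F.toWt · (y (φ k)).1) (b2 k).2).trans (actF_one _)).symm
  have c3 : Tendsto (fun k => (u k).2.nf) atTop (𝓝 w.nf) := hu ▸ b4
  let X : (ch.re n).Fld := fun j => if j ∈ F.mov then 0 else lf1 x.2 w j
  have c4 : Tendsto (fun k => (u k).2.1.X) atTop (𝓝 X) := tendsto_pi_nhds.2 fun j => by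
    by_cases hj : j ∈ F.mov
    · exact (show X j = 0 from if_pos hj) ▸ tendsto_const_nhds.congr fun k => ((c1 k).2 j hj).symm
    have d := fun k => (c1 k).1.1.eq_lf1 hn.cuts ((c1 k).1.2.2 j hj) ((hT.adm (c1 k).1.2.1).2.1 j hj)
    have d1 : Gl x.2 w.nf := b3.setX x.2.X 0
    exact (show X j = lf1 x.2 w.nf j from if_neg hj) ▸
      (((d1.holOn_lf1 hn.cuts (a2.2.1 j hj)).tendsto ⟨d1, a2.2.1 j hj⟩).comp (tendsto_inf.2
        ⟨((continuous_snd.tendsto x).comp c2).prodMk_nhds c3, tendsto_principal.2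
          (.of_forall fun k => ⟨(c1 k).1.1.setX (u k).1.2.X 0, (d k).1⟩)⟩)).congr
        fun k => (d k).2.symm
  have c5 : Tendsto u atTop (𝓝 (x, w.setX X)) :=
    c2.prodMk_nhds ((CptZ.continuous_setX.tendsto (w.nf, X)).comp (c3.prodMk_nhds c4))
  have c6 : Gl x.2 (w.setX X) := b3.setX x.2.X X
  exact ⟨φ, a, (x, w.setX X), b1, b2, ⟨⟨c6, hc ⟨mem_closure_of_tendsto
    ((analyticAt_μG _).continuousAt.tendsto.comp c5) (.of_forall fun k => (c1 k).1.2.1),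
      (c6.baseF_iff hn).1 hx⟩, fun j hj => (c6.mt_sc hn.cuts (a2.2.1 j hj) (if_neg hj)).1⟩,
    fun j hj => if_pos hj⟩, rfl, hu ▸ c5⟩

theorem Zf.closed_of {x : ch.WF ν κ Λ}
    (hx : x ∈ clo F (Prod.fst '' (Zf F T : Set (ch.WG n ν κ κ' Λ))))
    (hl : Lab κ' n x.2) : x ∈ Prod.fst '' (Zf F T : Set (ch.WG n ν κ κ' Λ)) := by
  obtain ⟨v, h1, h2⟩ := mem_closure_iff_seq_limit.1 hx.1
  choose y h3 h4 using h1
  obtain ⟨_, _, z, -, -, a, b, -⟩ := Zf.cpt_of H hn hF hT hc h3 (h2.congr fun k => (h4 k).symm) hx.2 hl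
  exact ⟨z, a, b⟩

/-- **forgetting the label is proper** -/
theorem Zf.isPr_of (hO : Ivt (actF F.toWt) O) (hb : O ⊆ ch.baseF ν κ F.B)
    (hl : ∀ x ∈ O, Lab κ' n x.2) {O' : Set (ch.WG n ν κ κ' Λ)} (e : O' = Zf F T ∩ Prod.fst ⁻¹' O)
    [Nice (Quo (actF F.toWt) O)] [Nice (Quo (actG F.toWt : ch.AG n ν κ κ' S → _) O')]
    (hf : EqM (actG F.toWt : ch.AG n ν κ κ' S → _) (actF F.toWt) O' O (fun a => a.1) Prod.fst) :
    IsPr hf.map := by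
  haveI : IsAct (actF F.toWt) O := IsAct.mono inferInstance (subset_univ _) hO
  refine hf.isPr_of_seq (fun b hb => ⟨(b, 1), AP.isUnit_iff.2 ⟨hb, isUnit_one⟩, rfl⟩)
    (fun a ha z hz => e.ge ⟨ivt_Zf hT.inv a ha z (e.le hz).1, ivt_fst hO a ha z (e.le hz).2⟩)
    fun y x h1 h2 h3 => ?_
  obtain ⟨φ, a, z, b1, b2, b3, b4, b5⟩ :=
    Zf.cpt_of H hn hF hT hc (fun k => (e.le (h1 k)).1) h3 (hb h2) (hl x h2)
  exact ⟨φ, a, z, b1, fun k => (b2 k).1, e.ge ⟨b3, (mem_of_eq_of_mem b4 h2 :)⟩, b5⟩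

end Vale.Agent.P269.Ch
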