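import Vale.Agent.P287Q.G.Spl.GBs
import Vale.Agent.P287Q.G.Spl.GBg
import Vale.Agent.P287Q.G.Spl.GBn
import Vale.Agent.P287Q.G.Spl.GBr
import Vale.Agent.P287Q.G.Spl.GBu
import Vale.Agent.P287Q.G.Spl.GBx

set_option linter.unusedSectionVars false

/-!
# Analytic local sections of the space of labels
-/

namespace Vale.Agent.P269.Ch

open Set Function Topology Filter Module Holo Base Cv

variable {S Λ R J K ι ν κ ε : Type} [Fintype S] [Fintype Λ] [Fintype R] [Fintype J]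
  [Fintype K] [Fintype ι] [DecidableEq ι] [Fintype ν] [Fintype κ] [Fintype ε]
  {ch : Ch ι J} {n : Nm ι J} {x : ch.W (Mk ν κ)} {w : ch.Lb n (Mk ν (κ ⊕ ε))}
  {γ : ε → Bool → ℂ → V ch.M}

namespace CptA

theorem gok (hn : ch.GN n ε) : GOk ch n := ⟨hn.cuts, hn.tight.1, hn.tight'.1⟩

theorem orb_zero {M : ι → ℕ} {γ δ : ℂ → V M} (h : Nrm.Fac γ δ) : Base.Orb (γ 0) (δ 0) :=
  let ⟨s, _, _, _, a, b, _, c⟩ := h
  ⟨s 0, a, c.self_of_nhds.trans (by rw [b])⟩

theorem brs_inj (h : Gl x w) (b : Brs w γ) {e e' : ε}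
    (o : Base.Orb (γ e false 0) (γ e' false 0)) : e = e' := by
  obtain ⟨δ, -, d, f⟩ := b e false
  obtain ⟨δ', -, d', f'⟩ := b e' false
  obtain ⟨s, hs, k⟩ := ((orb_zero f).trans o).trans (orb_zero f').symm
  have m := h.mem'.2.2.2
  have i : ∀ {q q' : Mk ν (κ ⊕ ε)} {t t' : ι → ℂ}, (∀ i, t i ≠ 0) → t • w.1.p q = t' • w.1.p q' →
      q = q' := fun {_ _ t t'} ht e => m.2.1 _ _ (t⁻¹ * t') (by
    rw [mul_smul, ← e, Dict.inv_smul ht])
  rw [d, d', ← apV_smul] at k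
  rcases h.apV_inj (m.1 _).1 (h.mem'.2.2.1.cone _ hs _ (m.1 _).1) k with r | ⟨a, c, t, r, r'⟩
  · simpa [eq_comm] using m.2.1 _ _ _ r
  · have e1 := m.2.1 _ _ _ r
    have e2 := i hs r'
    simp only [Sum.inr.injEq, Prod.mk.injEq] at e1 e2
    exact e2.1.trans e1.1.symm

theorem continuous_nf {ν' : Type} [Fintype ν'] : Continuous (Lb.nf : ch.Lb n ν' → _) :=
  ((continuous_fst.comp GBr.cont_1).prodMk ((continuous_fst.comp (continuous_snd.comp
    GBr.cont_1)).prodMk ((continuous_fst.comp (continuous_snd.comp (continuous_snd.comp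
      GBr.cont_1))).prodMk continuous_const))).prodMk continuous_snd

theorem actHL_X (a : (ch.re n).A ε) (h : w.1.X = 0) : (actHL a w).1.X = 0 :=
  funext fun j => ContinuousLinearMap.ext fun μ => (act_X _ _ j μ).trans (by
    rw [h]
    exact map_zero _)

variable (J) in
/-- The family without conditions. -/
noncomputable def triv : Fam Empty Empty Empty J Empty :=
  ⟨⟨fun _ _ => 0, fun _ _ => 0, fun _ _ => 0⟩, 0, 0, 0, 0, univ, univ, univ, univ, ∅⟩

theorem add_sub_cancel_right' {G : Type*} [AddGroup G] (a b : G) : a + (b - b) = a := by simp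

theorem mem_bm {y : ch.WF ν κ Λ} : y ∈ ch.baseF ν κ univ ↔ y.2 ∈ ch.bm ν κ :=
  mem_baseF.trans (and_iff_right trivial)

end CptA

open CptA

variable {σ : ε → ch.W (Mk ν κ) × (ℂ × ℂ) → V ch.M} {τ : ε → ch.W (Mk ν κ) → ℂ}

/-- **the analytic local section** of the space of labels over the locus where the nodes persist -/
theorem Gl.exists_sec (hn : ch.GN n ε) (h : Gl x w) (hx : x ∈ ch.bm ν κ)
    (hs : ∀ᶠ y in 𝓝 w.1, y ∈ (ch.re n).bm ν (κ ⊕ ε) →
      ∃ (x' : ch.W (Mk ν κ)) (w' : ch.Lb n (Mk ν (κ ⊕ ε))), Gl x' w' ∧ w'.1 = y)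
    (hσ : ∀ e, Chart ch.o (fun y : ch.bm ν κ => crv y.1) Subtype.val ⟨x, hx⟩ (σ e)
      fun y => {z | z.1 * z.2 = τ e y})
    (hτ : ∀ e, AnalyticAt ℂ (τ e) x ∧ τ e x = 0) (b : Brs w (axs fun e z => σ e (x, z))) :
    ∃ s : ch.W (Mk ν κ) → ch.Lb n (Mk ν (κ ⊕ ε)), AnalyticAt ℂ s x ∧ s x = w ∧
      ∀ᶠ y in 𝓝 x, y ∈ ch.bm ν κ → (∀ e, τ e y = 0) → Gl y (s y) := by
  let F := triv J
  let T : Set ((ch.re n).WF ν (κ ⊕ ε) Empty) := (ch.re n).baseF ν (κ ⊕ ε) univ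
  let z : ch.WG n ν κ ε Empty := ((0, x), w.nf)
  have ok := gok hn
  have hg : Gl x w.nf := h.setX x.X 0
  have mem : ∀ y : ch.WG n ν κ ε Empty, y ∈ Zb F T ↔ Gl y.1.2 y.2 ∧ y.1.2 ∈ ch.bm ν κ := fun y =>
    and_congr_right fun g => (and_iff_left fun j a => (a trivial).elim).trans
      ((g.baseF_iff hn).symm.trans mem_bm)
  have hz : z ∈ Zf F T := ⟨(mem z).2 ⟨hg, hx⟩, fun _ _ => rfl⟩
  have hT : Ivt (actF F.toWt) T := fun a ha y hy => actF_mem_baseF ha hy trivial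
  have : IsAct (actH : (ch.re n).A ε → _) (Zf F T) :=
    isActH_univ.mono (subset_univ _) (ivtH_Zf hT)
  obtain ⟨N', e1, m1⟩ := hn.num'.mfd_bm (x := μG z) hz.1.2.1
  have t1 : Tendsto (fun y : (ch.re n).WF ν (κ ⊕ ε) Empty => y.2 + (w.1 - w.nf.1)) (𝓝 (μG z))
      (𝓝 w.1) := (continuous_snd.add continuous_const).tendsto' _ _ (add_sub_cancel _ _)
  have t2 : ∀ y : (ch.re n).W (Mk ν (κ ⊕ ε)), y + (w.1 - w.nf.1) = Ch.setX y (y.X + w.1.X) :=
    fun y => Prod.ext (add_sub_cancel_right' _ _) (Prod.ext (add_sub_cancel_right' _ _)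
      (Prod.ext (add_sub_cancel_right' _ _) (congrArg (y.X + ·) (sub_zero w.1.X) :)))
  have m2 := mfd_Zb ok hz.1 ((t1.eventually hs).mono fun y a c => by
    rw [t2] at a
    obtain ⟨x', w', g, e⟩ := a (mem_bm.1 c :)
    have k : μG (((y.1, x'), w'.setX y.2.X) : ch.WG n ν κ ε Empty) = y :=
      Prod.ext rfl (congrArg (Ch.setX · y.2.X) e :)
    exact ⟨_, ⟨g.setX x'.X _, k.symm ▸ c, fun j a => (a trivial).elim⟩, k⟩) m1
  obtain ⟨N₁, e2, m3⟩ := mfd_Zf (T := T) (fun y hy X _ => mem_bm.2 (mem_bm.1 hy :)) hz m2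
  obtain ⟨m, e3, m4⟩ := hn.num.mfd_nodes (x := z.1) hx hσ hτ fun e e' => brs_inj h b
  have e4 : N₁ = finrank ℂ ((ch.re n).A ε) + m := by
    have g := hn.g
    simp only [dimB, finrank_A, fG, fm, F, triv, mem_univ, Finset.filter_true, Fintype.card_sum,
      Fintype.card_prod, Fintype.card_bool] at e1 e2 e3 ⊢
    zify at e2 ⊢
    push_cast at e1 e3
    linear_combination e2 + e1 - e3 + ((Fintype.card ι : ℤ) + 2) * g
  have ev := hg.ev_brs hn.cuts hx hσ hτ b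
  have t3 : Tendsto (fun y : ch.WG n ν κ ε Empty => (y.1.2, y.2)) (𝓝 z) (𝓝 (x, w.nf)) :=
    ((continuous_snd.comp continuous_fst).prodMk continuous_snd).tendsto z
  obtain ⟨s, s1, s2, s3⟩ := GB.exists_sec (act := (actH : (ch.re n).A ε → _)) (f := Prod.fst)
    (e4 ▸ m3) m4 analyticAt_fst ((t3.eventually ev).mono fun y a c =>
      ⟨((mem y).1 c.1).2, (a c.1.1 ((mem y).1 c.1).2).1⟩)
    (fun a ha e => hg.freeH ok ha (congrArg Prod.snd e)) fun O hO => by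
      have t4 : Tendsto (fun p : ch.WG n ν κ ε Empty × ch.WG n ν κ ε Empty => (p.1.2, p.2.2))
          (𝓝 (z, z)) (𝓝 (w.nf, w.nf)) := ((continuous_snd.comp continuous_fst).prodMk
        (continuous_snd.comp continuous_snd)).tendsto (z, z)
      filter_upwards [(t3.comp (continuous_fst.tendsto (z, z))).eventually ev,
        (t3.comp (continuous_snd.tendsto (z, z))).eventually ev, t4.eventually (hg.rig ok hO)]
        with p a a' r c c' e
      obtain ⟨⟨y, v⟩, y', v'⟩ := p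
      obtain rfl : y = y' := e
      obtain ⟨u, u1, u2, -⟩ := c.1.1.exists_unit ok c'.1.1 (a c.1.1 ((mem _).1 c.1).2).2
        (a' c'.1.1 ((mem _).1 c'.1).2).2
      have k : Ch.actHL u v = v' := (congrArg (Ch.actHL u v).setX ((actHL_X u (funext fun j =>
        c.2 j trivial)).trans (funext fun j => c'.2 j trivial).symm) :).trans u2
      exact ⟨u, r c.1.1.mem' u u1 k, u1, congrArg (Prod.mk y) k⟩
  have a0 : AnalyticAt ℂ (fun y : ch.W (Mk ν κ) => (((0 : Empty → ℂ), y) : ch.WF ν κ Empty)) x :=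
    analyticAt_const.prod analyticAt_id
  have a1 : AnalyticAt ℂ (fun y : ch.W (Mk ν κ) => s (0, y)) x := s1.comp_of_eq a0 rfl
  have a2 : AnalyticAt ℂ (fun y : ch.W (Mk ν κ) => (s (0, y)).2) x :=
    AnalyticAt.comp (g := Prod.snd) analyticAt_snd a1
  have a3 : (s (0, x)).2 = w.nf := congrArg Prod.snd s2
  refine ⟨fun y => (s (0, y)).2 + (w - w.nf), a2.add analyticAt_const,
    (congrArg (· + (w - w.nf)) a3).trans (add_sub_cancel _ _), ?_⟩
  filter_upwards [a0.continuousAt.eventually s3] with y a c d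
  obtain ⟨a1, a2⟩ := a ⟨c, d⟩
  have k : (s (0, y)).2 + (w - w.nf) = (s (0, y)).2.setX ((s (0, y)).2.1.X + w.1.X) :=
    Prod.ext (t2 _) (add_sub_cancel_right' _ _)
  have g : Gl y (s (0, y)).2 :=
    (congrArg (fun q : ch.WF ν κ Empty => Gl q.2 (s (0, y)).2) a2).mp a1.1.1
  rw [k]
  exact g.setX y.X _

end Vale.Agent.P269.Ch
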