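import Vale.Agent.P287Q.G.Glu.Act0
import Vale.Agent.P287Q.G.Vir.Cone

set_option linter.unusedSectionVars false

/-!
# The differential of the section; the action on the linearised equations
-/

namespace Vale.Agent.P269.Ch

open P291Z Set Function Topology Filter Module Base Cv Holo Vir KD

variable {S Λ R J K ι ν κ κ' : Type} [Fintype S] [Fintype Λ] [Fintype R] [Fintype J]
  [Fintype K] [Fintype ι] [DecidableEq ι] [Fintype ν] [Fintype κ] [Fintype κ']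
  {ch : Ch ι J} {n : Nm ι J} {F : Fam S Λ R J K} {e : K → ι → ℕ} {K₀ : RD R} {ℓ : R → ι → ℤ}

section rep

variable {A A' P P' : Type} [NormedRing A] [NormedRing A'] [AddCommGroup P] [Module ℂ P]
  [TopologicalSpace P] [AddCommGroup P'] [Module ℂ P'] [TopologicalSpace P']
  {ρ : A → P → P} {P₀ : Submodule ℂ P}

theorem IsRepOn.prod' {ρ' : A → P' → P'} {P₀' : Submodule ℂ P'} (h : IsRepOn ρ P₀)
    (h' : IsRepOn ρ' P₀') :
    IsRepOn (fun a (f : P × P') => (ρ a f.1, ρ' a f.2)) (P₀.prod P₀') :=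
  ⟨fun a ha _ b => ⟨h.mem a ha _ b.1, h'.mem a ha _ b.2⟩,
    fun a ha _ b _ c => Prod.ext (h.add a ha _ b.1 _ c.1) (h'.add a ha _ b.2 _ c.2),
    fun a ha c _ b => Prod.ext (h.smul a ha c _ b.1) (h'.smul a ha c _ b.2),
    fun _ b => Prod.ext (h.one _ b.1) (h'.one _ b.2),
    fun a a' ha ha' _ b => Prod.ext (h.mul a a' ha ha' _ b.1) (h'.mul a a' ha ha' _ b.2),
    fun _ b => (h.cont _ b.1).prodMk (h'.cont _ b.2)⟩

theorem IsRepOn.pb' (h : IsRepOn ρ P₀) {th : A' → A}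
    (hθ : ∃ θ : A'ˣ →* Aˣ, Continuous θ ∧ ∀ g, (θ g : A) = th g) :
    IsRepOn (fun a => ρ (th a)) P₀ := by
  obtain ⟨θ, c, e⟩ := hθ
  have h1 : ∀ a, IsUnit a → IsUnit (th a) := fun _ ⟨g, hg⟩ => ⟨θ g, hg ▸ e g⟩
  refine ⟨fun a ha => h.mem _ (h1 a ha), fun a ha => h.add _ (h1 a ha),
    fun a ha => h.smul _ (h1 a ha), fun q hq => ?_, ?_, fun q hq =>
      ((h.cont q hq).comp c).congr fun g => congrArg (ρ · q) (e g)⟩
  · exact (congrArg (ρ · q) ((e 1).symm.trans (congrArg _ θ.map_one))).trans (h.one q hq)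
  · rintro _ _ ⟨g, rfl⟩ ⟨g', rfl⟩ q hq
    exact (congrArg (ρ · q) ((e (g * g')).symm.trans (by rw [map_mul, ← e, ← e]; rfl))).trans
      (h.mul _ _ (h1 _ g.isUnit) (h1 _ g'.isUnit) q hq)

end rep

section fm

variable {A : Set J} {h h' : J → ℕ} {ch' : Ch ι J}

theorem Fm.ex_cmp (a : ∀ j, (Fin (h j) → ℂ) →L[ℂ] (Fin (h' j) → ℂ))
    (b : ∀ j, ch'.Th j →L[ℂ] ch.Th j) (v : ch.Fm A h) (j : J) (μ : ch'.Th j) :
    Fm.ex (Fm.cmp a b v) j μ = a j (Fm.ex v j (b j μ)) := by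
  by_cases hj : j ∈ A
  · rw [Fm.ex_mem _ hj, Fm.ex_mem _ hj]; rfl
  · rw [Fm.ex_not _ hj, Fm.ex_not _ hj]; exact (map_zero _).symm

theorem uF_cmp (u : ∀ j, (Fin (h' j) → ℂ) →L[ℂ] ℂ) (a : ∀ j, (Fin (h j) → ℂ) →L[ℂ] (Fin (h' j) → ℂ))
    (b : ∀ j, ch'.Th j →L[ℂ] ch.Th j) (v : ch.Fm A h) (j : J) (μ : ch'.Th j) :
    uF u (Fm.cmp a b v) j μ = u j (a j (Fm.ex v j (b j μ))) := congrArg (u j) (Fm.ex_cmp a b v j μ)

theorem uF_ρM (u : ∀ j, (Fin (h j) → ℂ) →L[ℂ] ℂ) (c : J → ℂ) (g : HV ch.M ch.M)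
    (a : ∀ j, (Fin (h j) → ℂ) →L[ℂ] (Fin (h j) → ℂ)) (v : ch.Fm A h) (j : J) (μ : ch.Th j) :
    uF u (ρM c g a v) j μ = c j * u j (a j (Fm.ex v j (pbT g _ μ))) :=
  (uF_cmp u _ _ v j μ).trans (map_smul (u j) (c j) _)

theorem uF_not (u : ∀ j, (Fin (h j) → ℂ) →L[ℂ] ℂ) (v : ch.Fm A h) {j : J} (hj : j ∉ A) :
    uF u v j = 0 := LinearMap.ext fun μ => by
  rw [uF_apply, Fm.ex_not _ hj]; exact map_zero _

theorem continuous_uF (u : ∀ j, (Fin (h j) → ℂ) →L[ℂ] ℂ) (j : J) (μ : ch.Th j) :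
    Continuous fun v : ch.Fm A h => uF u v j μ :=
  LinearMap.continuous_of_finiteDimensional (𝕜 := ℂ)
    { toFun := fun v : ch.Fm A h => uF u v j μ
      map_add' := fun v w => congrArg (· j μ) (map_add (uF u) v w)
      map_smul' := fun c v => congrArg (· j μ) (map_smul (uF u) c v) }

theorem Fm.continuous {X : Type} [TopologicalSpace X] {f : X → ch.Fm A h}
    (hf : ∀ j μ, Continuous fun x => f x j μ) : Continuous f :=
  continuous_pi (f := f) fun j => continuous_clm_apply.2 (hf j)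

end fm

section fib

/-- The action on the values of functions. -/
noncomputable def ρb (F : Fam S Λ R J K) (τ : S → ℂ) (g : HV ch.M ch.M) :
    Fib ch.Th K ch.Zt →ₗ[ℂ] Fib ch.Th K ch.Zt where
  toFun f := (fun j m => F.cS τ j * f.1 j (pbT g _ m.1, pbT g _ m.2),
    fun k ζ => (∏ i, τ i ^ F.wk k i) * f.2 k fun i => ζ i ∘L g i)
  map_add' _ _ := Prod.ext (funext₂ fun _ _ => mul_add _ _ _) (funext₂ fun _ _ => mul_add _ _ _)
  map_smul' _ _ :=
    Prod.ext (funext₂ fun _ _ => mul_left_comm _ _ _) (funext₂ fun _ _ => mul_left_comm _ _ _)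

variable {s : ch.AF ν κ S}

theorem evZ_ρF (z : ch.Pt) (f : ch.P K) :
    evZ z (ρF F s f) = ρb F s.1 s.2.1 (evZ (zz s z) f) := rfl

theorem sum_D_act (hF : F.Inv) (hs : IsUnit s) (x : ch.WF ν κ Λ) (z : ch.Pt) (k : K) (ζ : ch.Zt)
    (v : J → ℂ) : ∑ j, (pd F e (actF F.toWt s x) z).D k ζ j * (F.cS s.1 j * v j) =
      (∏ i, s.1 i ^ F.wk k i) *
        ∑ j, (pd F e x (zz s z)).D k (fun i => ζ i ∘L s.2.1 i) j * v j := by
  rw [← deriv_hmg, ← deriv_hmg, ← deriv_const_mul_field]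
  refine congrArg (deriv · 0) (funext fun ε => ?_)
  rw [hmg_fib, hmg_fib, ← eval_hp_act hF hs]
  refine congrArg (MvPolynomial.eval · _) (funext fun j => ?_)
  rw [X_actF, mul_add, mul_left_comm ε]
  rfl

variable {ν' κ₁ : Type} [Fintype ν'] [Fintype κ₁] {s' : (ch.re n).AF ν' κ₁ S} {g : HV ch.M ch.M}
  {φ φ' : HV n.M ch.M}

theorem pbT_comm {M M' : ι → ℕ} {g : HV M M} {g' : HV M' M'} {φ φ' : HV M' M}
    (hφ : ∀ i, φ' i ∘L g' i = g i ∘L φ i) {σ : Type} [Fintype σ] {τ : σ → ι} (m : Tn M τ) :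
    pbT g' τ (pbT φ' τ m) = pbT φ τ (pbT g τ m) :=
  ContinuousMultilinearMap.ext fun v => congrArg m (funext fun r => congrArg (· (v r)) (hφ (τ r)))

theorem continuous_Lb_r (l : Option J) : Continuous fun w : ch.Lb n ν => w.2.2 l :=
  ((continuous_apply l).comp (continuous_snd.comp continuous_snd) : Continuous
    fun w : (ch.re n).W ν × HV n.M ch.M × ∀ l, ch.E l →L[ℂ] (ch.re n).E l => w.2.2 l)

theorem continuous_Lb_pbT {σ : Type} [Fintype σ] {τ : σ → ι} (m : Tn ch.M τ) :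
    Continuous fun w : ch.Lb n ν => pbT w.2.1 τ m :=
  (continuous_iff_continuousAt.2 fun w => (GlA.an_pbT (AnalyticAt.pi (Lb.an_iff.1
    (analyticAt_id (z := w))).2.1) τ).continuousAt).clm_apply continuous_const

theorem resF_ρb {τ : S → ℂ} {g' : HV n.M n.M} (hφ : ∀ i, φ' i ∘L g' i = g i ∘L φ i)
    (f : Fib (ch.re n).Th K (ch.re n).Zt) :
    resF K φ' (ρb (ch := ch.re n) F τ g' f) = ρb F τ g (resF K φ f) := by
  refine Prod.ext (funext₂ fun j m => congrArg (F.cS τ j * f.1 j ·)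
    (Prod.ext (pbT_comm hφ _) (pbT_comm hφ _)))
    (funext₂ fun k ζ => congrArg ((∏ i, τ i ^ F.wk k i) * f.2 k ·) (funext fun i => ?_))
  exact congrArg (ζ i ∘L ·) (hφ i)

theorem pdL_act (hF : F.Inv) (hs : IsUnit s') (hφ : ∀ i, φ' i ∘L s'.2.1 i = g i ∘L φ i)
    (x : (ch.re n).WF ν' κ₁ Λ) (y : (ch.re n).Pt) {Y Y' : ∀ j, ch.Th j →ₗ[ℂ] ℂ}
    (hY : ∀ j μ, Y' j μ = F.cS s'.1 j * Y j (pbT g _ μ)) :
    (pdL F e (actF F.toWt s' x) φ' y).dEq pwT Y' =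
      ρb F s'.1 g ((pdL F e x φ (zz s' y)).dEq pwT Y) := by
  have a : ∀ j (m : ch.Th j), tvZ (apV φ' y.1) j m = tvZ (apV φ (zz s' y).1) j (pbT g _ m) :=
    fun j m => congrArg m (funext fun r => (congrArg (φ' r.1) (ap_zz hs y r.1).symm).trans
      (congrArg (· ((zz s' y).1 r.1)) (hφ r.1)))
  refine Prod.ext (funext₂ fun j m => ?_) (funext₂ fun k ζ => ?_)
  · change tvZ (apV φ' y.1) j m.2 * Y' j m.1 - tvZ (apV φ' y.1) j m.1 * Y' j m.2 =
      F.cS s'.1 j * (tvZ (apV φ (zz s' y).1) j (pbT g _ m.2) * Y j (pbT g _ m.1) -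
        tvZ (apV φ (zz s' y).1) j (pbT g _ m.1) * Y j (pbT g _ m.2))
    rw [a, a, hY, hY]
    ring
  · have b := sum_D_act (e := e) hF hs x y k (fun i => ζ i ∘L φ' i) fun j => Y j (pbT g _ (pwT ζ j))
    rw [show (fun i => (ζ i ∘L φ' i) ∘L s'.2.1 i) = fun i => (ζ i ∘L g i) ∘L φ i from
      funext fun i => congrArg (ζ i ∘L ·) (hφ i)] at b
    exact (Finset.sum_congr rfl fun j _ => congrArg _ (hY j _)).trans b

theorem pdL_tz (h : ch.Std F e K₀ ℓ) {t : ι → ℂ} (ht : ∀ i, t i ≠ 0) (x : (ch.re n).WF ν' κ₁ Λ)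
    (φ : HV n.M ch.M) (y : (ch.re n).Pt) : pdL F e x φ y = (pdL F e x φ (tz t y)).sc
      (fun j => chr (ch.b j) t) (fun j => ∏ i, t i ^ ch.wd j i) (fun k => chr (e k) t)
      fun k => ∏ i, t i ^ F.dk ℓ k i := by
  have a := pd_tz (x := x) h.inv (h.re n).fits (h.re n).wt ht y
  exact PD.ext' (funext fun j => LinearMap.ext fun m =>
    congrArg (fun d : PD K (ch.re n).Zt (ch.re n).Th => d.tv j (pbT φ _ m)) a)
    (funext₃ fun k ζ j => congrArg (fun d : PD K (ch.re n).Zt (ch.re n).Th =>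
      d.D k (fun i => ζ i ∘L φ i) j) a)
    (funext₂ fun k ζ => congrArg (fun d : PD K (ch.re n).Zt (ch.re n).Th =>
      d.tot k fun i => ζ i ∘L φ i) a)

/-- the matching condition does not depend on the frames -/
theorem jmp_tz (h : ch.Std F e K₀ ℓ) {t : ι → ℂ} (ht : ∀ i, t i ≠ 0) (x : (ch.re n).WF ν' κ₁ Λ)
    (φ : HV n.M ch.M) {y y' : (ch.re n).Pt} {f : (ch.re n).P K} (hf : f ∈ (ch.re n).polF F e)
    {Y : ∀ j, ch.Th j →ₗ[ℂ] ℂ}
    (h0 : resF K φ (evZ y f - evZ y' f) + (pdL F e x φ y).dEq pwT Y = 0) :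
    resF K φ (evZ (tz t y) f - evZ (tz t y') f) +
      (pdL F e x φ (tz t y)).dEq pwT (fun j => chr (ch.a (some j)) t • Y j) = 0 := by
  have b : ∀ j, chr (ch.b j) t ≠ 0 := fun _ => chr_ne_zero ht
  have l : ∀ j, ∏ i, t i ^ ch.wd j i ≠ 0 := fun _ => zp_ne ht _
  have a : Y = fun j => ((∏ i, t i ^ ch.wd j i) * chr (ch.b j) t)⁻¹ • chr (ch.a (some j)) t • Y j :=
    funext fun j => by rw [← Cv.chr_wd ht, inv_smul_smul₀ (chr_ne_zero ht)]
  rw [evZ_tz h.inv (h.re n).fits (h.re n).wt ht y hf, evZ_tz h.inv (h.re n).fits (h.re n).wt ht y' hf,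
    pdL_tz h ht, a, PD.sc_dEq b l] at h0
  refine Prod.ext (funext₂ fun j m => ?_) (funext₂ fun k ζ => ?_)
  · refine (div_eq_zero_iff.1 (Eq.trans ?_ (congrArg (·.1 j m) h0))).resolve_right
      (mul_ne_zero (mul_ne_zero (l j) (b j)) (b j))
    exact (add_div _ _ _).trans (congrArg (· + _) (sub_div _ _ _))
  · refine (div_eq_zero_iff.1 (Eq.trans ?_ (congrArg (·.2 k ζ) h0))).resolve_right
      (mul_ne_zero (zp_ne ht (F.dk ℓ k)) (chr_ne_zero (a := e k) ht))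
    exact (add_div _ _ _).trans (congrArg (· + _) (sub_div _ _ _))

end fib

section one

variable {x : ch.WF ν κ Λ} {s : ch.AF ν κ S}

theorem yv_add_ιX (x : ch.WF ν κ Λ) (v : ch.Fm F.mov ch.hf) (z : ch.Pt) (j : J) :
    yv (x + (0, ιX v)).2 z j = yv x.2 z j + uZ z v j :=
  LinearMap.ext fun m => map_add (z.2 (some j)) (x.2.X j m) (Fm.ex v j m)

theorem tendsto_P_of {α : Type} {l : Filter α} {f : α → ch.P K} {g : ch.P K}
    (h1 : ∀ j z m, Tendsto (fun a => (f a).1 j z m) l (𝓝 (g.1 j z m)))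
    (h2 : ∀ k z ζ, Tendsto (fun a => (f a).2 k z ζ) l (𝓝 (g.2 k z ζ))) : Tendsto f l (𝓝 g) :=
  (tendsto_pi_nhds.2 fun j => tendsto_pi_nhds.2 fun z => tendsto_pi_nhds.2 (h1 j z)).prodMk_nhds
    (tendsto_pi_nhds.2 fun k => tendsto_pi_nhds.2 fun z => tendsto_pi_nhds.2 (h2 k z))

theorem dSc_fst (x : ch.WF ν κ Λ) (v : ch.Fm F.mov ch.hf) (j : J) (z : ch.Pt) (m) :
    (dSc F e x v).1 j z m = tvZ z.1 j m.2 * uZ z v j m.1 - tvZ z.1 j m.1 * uZ z v j m.2 := rfl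

theorem dSc_snd (x : ch.WF ν κ Λ) (v : ch.Fm F.mov ch.hf) (k : K) (z : ch.Pt) (ζ : ch.Zt) :
    (dSc F e x v).2 k z ζ = ∑ j, (pd F e x z).D k ζ j * uZ z v j (pwT ζ j) := rfl

theorem sctF_fst (x : ch.WF ν κ Λ) (j : J) (z : ch.Pt) (m) :
    (sctF F e x).1 j z m = kos (tvZ z.1 j) (yv x.2 z j) m := rfl

theorem sctF_add_fst (x : ch.WF ν κ Λ) (v : ch.Fm F.mov ch.hf) (j : J) (z : ch.Pt) (m) :
    (sctF F e (x + (0, ιX v)) - sctF F e x).1 j z m =
      tvZ z.1 j m.2 * uZ z v j m.1 - tvZ z.1 j m.1 * uZ z v j m.2 := by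
  rw [Prod.fst_sub, Pi.sub_apply, Pi.sub_apply, Pi.sub_apply, sctF_fst, sctF_fst, yv_add_ιX, kos_add,
    add_sub_cancel_left, kos]

theorem sctF_snd' (x : ch.WF ν κ Λ) (k : K) (z : ch.Pt) (ζ : ch.Zt) : (sctF F e x).2 k z ζ =
    MvPolynomial.eval (fun j => yv x.2 z j (pwT ζ j)) (hp F e x.1 k ζ z.1) := sctF_snd x k z ζ

theorem sctF_add_snd (x : ch.WF ν κ Λ) (v : ch.Fm F.mov ch.hf) (k : K) (z : ch.Pt) (ζ : ch.Zt) :
    (sctF F e (x + (0, ιX v)) - sctF F e x).2 k z ζ =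
      ∑ j, dd (F.G k).support (hc F e x.1 k ζ z.1) (fun j => yv x.2 z j (pwT ζ j))
        (fun j => uZ z v j (pwT ζ j)) j * uZ z v j (pwT ζ j) := by
  rw [Prod.snd_sub, Pi.sub_apply, Pi.sub_apply, Pi.sub_apply, sctF_snd', sctF_snd', Prod.fst_add,
    add_zero, sub_eq_iff_eq_add', hp_eq, ← eval_add_plw]
  simp only [yv_add_ιX]
  rfl

/-- the section is differentiable in the direction of the movable fields -/
theorem tendsto_dSc {α : Type} {l : Filter α} {y : α → ch.WF ν κ Λ} {v : α → ch.Fm F.mov ch.hf}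
    {c : α → ℂ} {v₀ : ch.Fm F.mov ch.hf} (h1 : Tendsto y l (𝓝 x)) (h2 : Tendsto v l (𝓝 0))
    (h3 : Tendsto (fun k => c k • v k) l (𝓝 v₀)) :
    Tendsto (fun k => c k • (sctF F e (y k + (0, ιX (v k))) - sctF F e (y k))) l
      (𝓝 (dSc F e x v₀)) := by
  have u : ∀ (z : ch.Pt) j m, Tendsto (fun k => c k * uZ z (v k) j m) l (𝓝 (uZ z v₀ j m)) :=
    fun z j m => (((continuous_uF _ j m).tendsto v₀).comp h3).congr fun k =>
      congrArg (· j m) (map_smul (uZ z) (c k) (v k))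
  have u0 : ∀ (z : ch.Pt) j m, Tendsto (fun k => uZ z (v k) j m) l (𝓝 0) := fun z j m =>
    ((continuous_uF _ j m).tendsto' 0 0 (congrArg (· j m) (map_zero (uZ z)))).comp h2
  refine tendsto_P_of (fun j z m => ?_) fun k z ζ => ?_
  · simp only [Prod.smul_fst, Pi.smul_apply, sctF_add_fst, dSc_fst, smul_eq_mul, mul_sub,
      mul_left_comm (c _)]
    exact ((u z j _).const_mul _).sub ((u z j _).const_mul _)
  · simp only [Prod.smul_snd, Pi.smul_apply, sctF_add_snd, dSc_snd, smul_eq_mul, Finset.mul_sum,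
      mul_left_comm (c _), pd, hp_eq, ← dd_zero]
    exact tendsto_finsetSum _ fun j _ => (tendsto_dd (tendsto_hc h1 tendsto_const_nhds k ζ)
      (tendsto_pi_nhds.2 fun j => tendsto_yv h1 tendsto_const_nhds j _)
      (tendsto_pi_nhds.2 fun j => u0 z j _) j).mul (u z j _)

theorem dSc_mem (h : ch.Fits F e) (x : ch.WF ν κ Λ) (v : ch.Fm F.mov ch.hf) :
    dSc F e x v ∈ ch.polF F e :=
  isClosed_polS.mem_of_tendsto (tendsto_dSc (l := 𝓝[≠] (0 : ℂ)) (y := fun _ => x)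
    (v := fun t => t • v) (c := fun t => t⁻¹) tendsto_const_nhds
    (tendsto_nhdsWithin_of_tendsto_nhds ((continuous_id.smul continuous_const).tendsto' 0 0
      (zero_smul ℂ v)))
    (tendsto_const_nhds.congr' (eventually_nhdsWithin_of_forall fun _ b =>
      (inv_smul_smul₀ b v).symm)))
    (.of_forall fun _ => Submodule.smul_mem _ _ (sub_mem (h.sctF_mem _) (h.sctF_mem _)))

theorem dSc_obs (h : ch.Fits F e) (x : ch.WF ν κ Λ) (v : ch.Fm F.mov ch.hf) :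
    dSc F e x v ∈ obsM F e x :=
  mem_obsM.2 ⟨dSc_mem h x v, fun z _ => PD.mem_Im.2 ⟨uZ z v, fun _ => uF_not _ v, rfl⟩⟩

theorem continuous_dSc (v : ch.Fm F.mov ch.hf) : Continuous fun x : ch.WF ν κ Λ => dSc F e x v :=
  continuous_iff_continuousAt.2 fun _ => tendsto_P_of (fun _ _ _ => tendsto_const_nhds) fun k z ζ => by
    simp only [dSc_snd]
    exact tendsto_finsetSum _ fun j _ =>
      ((tends_pd tendsto_id tendsto_const_nhds).D k ζ j trivial).mul_const _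

theorem dSc_act (hF : F.Inv) (hs : IsUnit s) (v : ch.Fm F.mov ch.hf) :
    dSc F e (actF F.toWt s x) (ρM (F.cS s.1) s.2.1 (fun j => s.2.2.1 (some j)) v) =
      ρF F s (dSc F e x v) := by
  refine P_ext (fun j z m => ?_) fun k z ζ => ?_
  · change val m.2 z.1 * uZ z (ρM _ _ _ v) j m.1 - val m.1 z.1 * uZ z (ρM _ _ _ v) j m.2 =
      F.cS s.1 j * (val (sub s.2 _ m.2) (zz s z).1 * uZ (zz s z) v j (sub s.2 _ m.1) -
        val (sub s.2 _ m.1) (zz s z).1 * uZ (zz s z) v j (sub s.2 _ m.2))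
    rw [uF_ρM, uF_ρM, val_zz hs, val_zz hs, mul_sub, mul_left_comm, mul_left_comm (val m.1 z.1)]
    rfl
  · exact (Finset.sum_congr rfl fun j _ => congrArg _ (uF_ρM _ _ _ _ v j _)).trans
      (sum_D_act hF hs x z k ζ fun j => uZ (zz s z) v j (pwT (fun i => ζ i ∘L s.2.1 i) j))

end one

theorem resF_dEq {ν' κ₁ : Type} [Fintype ν'] [Fintype κ₁] (x : (ch.re n).WF ν' κ₁ Λ)
    (φ : HV n.M ch.M) (y : (ch.re n).Pt) (Y : ∀ j, (ch.re n).Th j →ₗ[ℂ] ℂ) :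
    resF K φ ((pd F e x y).dEq pwT Y) =
      (pdL F e x φ y).dEq pwT fun j => Y j ∘ₗ (pbT φ _).toLinearMap := rfl

end Vale.Agent.P269.Ch
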