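import Vale.Agent.P287Q.G.Glu.Gl
import Vale.Agent.P287Q.G.Glu.Eqv0

set_option linter.unusedSectionVars false

/-!
# Equivariance and continuity of the data on labelled spaces
-/

namespace Vale.Agent.P269.Ch

open P291Z Set Function Topology Filter Module Base Cv Holo Vir KD

variable {S Λ R J K ι ν κ κ' : Type} [Fintype S] [Fintype Λ] [Fintype R] [Fintype J]
  [Fintype K] [Fintype ι] [DecidableEq ι] [Fintype ν] [Fintype κ] [Fintype κ']
  {ch : Ch ι J} {n : Nm ι J} {F : Fam S Λ R J K} {e : K → ι → ℕ} {K₀ : RD R} {ℓ : R → ι → ℤ}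
  {T : Set ((ch.re n).WF ν (κ ⊕ κ') Λ)} {z : ch.WG n ν κ κ' Λ}

variable {a : ch.AG n ν κ κ' S}

theorem rep_kdS : IsRepOn (ch.kdS ν κ κ' n F e).ρ (ch.kdS ν κ κ' n F e).P₀ :=
  (isRepOn_ρF.pb' (eqM_μG (Wg := F.toWt)).hom).prod' rep_ρH

theorem rep_kdD : IsRepOn (ch.kdD ν κ κ' n F e).ρ (ch.kdD ν κ κ' n F e).P₀ :=
  (isRepOn_ρF.pb' (eqM_fst (Wg := F.toWt)).hom).prod' rep_kdS

theorem mem_obsD {f} : f ∈ (ch.kdD ν κ κ' n F e).obs z ↔ f.1 ∈ obsM F e z.1 ∧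
    f.2.1 ∈ obsM F e (μG z) ∧ ∀ y ∈ gr z.2.1, evZ (lpt z.2 y) f.1 = resF K z.2.2.1 (evZ y f.2.1) +
      (pdL F e (μG z) z.2.2.1 y).dEq pwT (uZ y f.2.2) := by
  simp only [kdD, Submodule.mem_inf, Submodule.mem_prod, Submodule.mem_top, and_true,
    Submodule.mem_iInf, LinearMap.mem_ker, and_assoc]
  exact and_congr_right fun _ => and_congr_right fun _ => forall₂_congr fun y _ =>
    add_neg_eq_zero

theorem mem_vanS {f} : f ∈ (ch.kdS ν κ κ' n F e).van z ↔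
    f.1 ∈ vanM F e (μG z) ∧ ∀ q, jmpF z.2.1 q f.2 = 0 :=
  and_congr_right fun _ => Submodule.mem_iInf _

theorem mem_obsS {f} : f ∈ (ch.kdS ν κ κ' n F e).obs z ↔
    f.1 ∈ obsM F e (μG z) ∧ ∀ q, jmpP F e z q f = 0 :=
  and_congr (and_iff_left trivial) (Submodule.mem_iInf _)

theorem actG_φ {Wg : Wt S Λ R J} (ha : IsUnit a) (i : ι) :
    (actG Wg a z).2.2.1 i ∘L (θG a).2.1 i = a.1.2.1 i ∘L z.2.2.1 i :=
  ContinuousLinearMap.ext fun v => congrArg (fun w => a.1.2.1 i (z.2.2.1 i w))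
    (inv_ap (unit_fst (isUnit_θG ha) i) v)

theorem kdD_ρ (f) : (ch.kdD ν κ κ' n F e).ρ a f =
    (ρF F a.1 f.1, ρF F (θG a) f.2.1, ρH F a f.2.2) := rfl

theorem kdS_ρ (f) : (ch.kdS ν κ κ' n F e).ρ a f = (ρF F (θG a) f.1, ρH F a f.2) := rfl

theorem θG_S : (θG a).1 = a.1.1 := rfl

theorem lpt_zzG {Wg : Wt S Λ R J} (ha : IsUnit a) (y : (ch.re n).Pt) :
    lpt z.2 (zz (θG a) y) = zz a.1 (lpt (actG Wg a z).2 y) := lpt_zz ha y

theorem uZ_ρH (y : (ch.re n).Pt) (v : ch.Fm F.mov (ch.re n).hf) (j : J) (μ : ch.Th j) :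
    uZ y (ρH F a v) j μ = F.cS (θG a).1 j * uZ (zz (θG a) y) v j (pbT a.1.2.1 _ μ) :=
  uF_ρM _ _ _ _ v j μ

theorem obsD_act (hF : F.Inv) (ha : IsUnit a) {f} (hf : f ∈ (ch.kdD ν κ κ' n F e).obs z) :
    (ch.kdD ν κ κ' n F e).ρ a f ∈ (ch.kdD ν κ κ' n F e).obs (actG F.toWt a z) := by
  obtain ⟨h1, h2, h3⟩ := mem_obsD.1 hf
  have hθ := isUnit_θG ha
  rw [kdD_ρ, mem_obsD, μG_actG]
  refine ⟨obsM_actF hF (AP.isUnit_iff.1 ha).1 h1, obsM_actF hF hθ h2, fun y hy => ?_⟩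
  have b := h3 _ (zz_mem (x := μG z) hθ hy)
  rw [lpt_zzG (Wg := F.toWt) ha] at b
  dsimp only
  rw [evZ_ρF, evZ_ρF, b, map_add, resF_ρb (actG_φ ha),
    pdL_act hF hθ (actG_φ ha) (μG z) y (uZ_ρH y f.2.2), θG_S]

theorem ptz_nq (ha : IsUnit a) (h : z.2.1 ∈ (ch.re n).base _) (q : κ') (b : Bool) :
    zz (θG a) (ptz (actG F.toWt a z).2.1 (nq q b)) = tz (a.2.2.2 q) (ptz z.2.1 (nq q b)) :=
  ptz_act (x := μG z) (isUnit_θG ha) h (nq q b)

theorem jmpF_act (ha : IsUnit a) (h : z.2.1 ∈ (ch.re n).base _) (q : κ') (v : ch.Fm F.mov (ch.re n).hf)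
    (j : J) (μ : ch.Th j) : jmpF (actG F.toWt a z).2.1 q (ρH F a v) j μ =
      F.cS a.1.1 j * chr (ch.a (some j)) (a.2.2.2 q) * jmpF z.2.1 q v j (sub a.1.2 _ μ) := by
  have b := fun b => congrArg (fun y : (ch.re n).Pt => y.2 (some j) (Fm.ex v j (sub a.1.2 _ μ)))
    (ptz_nq (F := F) ha h q b)
  rw [mul_assoc]
  exact (uF_ρM _ _ _ _ v j μ).trans (congrArg _
    ((congrArg₂ (· - ·) (b false) (b true)).trans (mul_sub _ _ _).symm))

theorem jmpP_apply (q : κ') (f) : jmpP F e z q f =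
    resF K z.2.2.1 (evZ (ptz z.2.1 (nq q false)) f.1 - evZ (ptz z.2.1 (nq q true)) f.1) +
      (pdL F e (μG z) z.2.2.1 (ptz z.2.1 (nq q false))).dEq pwT (jmpF z.2.1 q f.2) := rfl

theorem obsS_act (hs : ch.Std F e K₀ ℓ) (ha : IsUnit a) (h : z.2.1 ∈ (ch.re n).base _) {f}
    (hf : f ∈ (ch.kdS ν κ κ' n F e).obs z) :
    (ch.kdS ν κ κ' n F e).ρ a f ∈ (ch.kdS ν κ κ' n F e).obs (actG F.toWt a z) := by
  obtain ⟨h1, h2⟩ := mem_obsS.1 hf
  have hθ := isUnit_θG ha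
  rw [kdS_ρ, mem_obsS, μG_actG]
  refine ⟨obsM_actF hs.inv hθ h1, fun q => ?_⟩
  have ht : ∀ i, a.2.2.2 q i ≠ 0 := tor_ne (AP.isUnit_iff.1 ha).2.unit q
  have b := jmp_tz hs ht (μG z) z.2.2.1 h1.1 ((jmpP_apply q f).symm.trans (h2 q))
  rw [← ptz_nq (F := F) ha h, ← ptz_nq (F := F) ha h] at b
  rw [jmpP_apply, μG_actG]
  dsimp only
  rw [evZ_ρF, evZ_ρF, ← map_sub, resF_ρb (actG_φ ha), pdL_act hs.inv hθ (actG_φ ha) (μG z) _
    (Y := fun j => chr (ch.a (some j)) (a.2.2.2 q) • jmpF z.2.1 q f.2 j) fun j μ =>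
      (jmpF_act ha h q f.2 j μ).trans (mul_assoc _ _ _), ← map_add, b, map_zero]

theorem continuousOn_jmp (q : κ') (l : Option J) :
    ContinuousOn (fun y : (ch.re n).W (Mk ν (κ ⊕ κ')) => jmp y q l) ((ch.re n).base _) :=
  fun _ hy => (tendsto_pi_nhds.1 ((holOn_ptz hy _).tendsto hy).snd_nhds l).sub
    (tendsto_pi_nhds.1 ((holOn_ptz hy _).tendsto hy).snd_nhds l)

/-- on matched fields the linearised equations agree -/
theorem pdL_eq (_h : ch.Fits F e) (hm : ∀ j, Mt z.1.2 z.2 j) (y : (ch.re n).Pt) :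
    pdL F e (μG z) z.2.2.1 y = pd F e z.1 (lpt z.2 y) :=
  PD.ext' rfl (funext₃ fun k ζ j => congrArg (MvPolynomial.eval · (MvPolynomial.pderiv j
    (hp F e z.1.1 k ζ (apV z.2.2.1 y.1))))
    (funext fun i => congrArg (y.2 (some i)) (hm i (pwT ζ i)).symm)) rfl

theorem E₁_mem (h : ch.Fits F e) (v) : E₁ F e z v ∈ (ch.kdD ν κ κ' n F e).P₀ :=
  ⟨dSc_mem h _ v, zero_mem ((ch.re n).polF F e), trivial⟩

theorem E₂_mem (h : ch.Fits F e) (v) : E₂ F e z v ∈ (ch.kdD ν κ κ' n F e).P₀ :=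
  ⟨zero_mem (ch.polF F e), dSc_mem (ch := ch.re n) ⟨h.wt, h.le, h.ne⟩ _ v, trivial⟩

theorem E₁_apply (v) : E₁ F e z v =
    (dSc F e z.1 v, 0, Fm.cmp (fun j => z.2.2.2 (some j)) (fun _ => .id ℂ _) v) := rfl

theorem E₂_apply (v) : E₂ F e z v =
    (0, dSc F e (μG z) v, -Fm.cmp (fun _ => .id ℂ _) (fun _ => pbT z.2.2.1 _) v) := rfl

theorem E₁_obs (h : ch.Fits F e) (hm : ∀ j, Mt z.1.2 z.2 j) (v) :
    E₁ F e z v ∈ (ch.kdD ν κ κ' n F e).obs z := by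
  rw [E₁_apply, mem_obsD]
  refine ⟨dSc_obs h _ v, zero_mem _, fun y _ => ?_⟩
  dsimp only
  rw [pdL_eq h hm, map_zero, map_zero, zero_add, evZ_dSc]
  refine congrArg _ (funext fun j => LinearMap.ext fun μ => ?_)
  rw [uF_cmp]
  rfl

theorem E₂_obs (h : ch.Fits F e) (v) : E₂ F e z v ∈ (ch.kdD ν κ κ' n F e).obs z := by
  rw [E₂_apply, mem_obsD]
  refine ⟨zero_mem _, dSc_obs (ch := ch.re n) ⟨h.wt, h.le, h.ne⟩ _ v, fun y _ => ?_⟩
  dsimp only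
  rw [evZ_dSc, resF_dEq, map_zero, map_neg, map_neg, eq_comm, add_neg_eq_zero]
  refine congrArg _ (funext fun j => LinearMap.ext fun μ => ?_)
  rw [uF_cmp]
  rfl

theorem continuous_E₁ (v) : Continuous fun z : ch.WG n ν κ κ' Λ => E₁ F e z v := by
  simp only [E₁_apply]
  exact ((continuous_dSc v).comp continuous_fst).prodMk (continuous_const.prodMk
    (Fm.continuous fun j μ => ((continuous_Lb_r (some j.1)).comp continuous_snd).clm_apply
      (continuous_const (y := v j μ))))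

theorem continuous_μG : Continuous (μG : ch.WG n ν κ κ' Λ → _) :=
  continuous_iff_continuousAt.2 fun z => (analyticAt_μG z).continuousAt

theorem continuous_E₂ (v) : Continuous fun z : ch.WG n ν κ κ' Λ => E₂ F e z v :=
  continuous_const.prodMk (((continuous_dSc v).comp continuous_μG).prodMk
    (Continuous.neg (Fm.continuous fun j μ => (v j).continuous.comp
      ((continuous_Lb_pbT μ).comp continuous_snd))))

theorem ρF_zero {ν κ : Type} [Fintype ν] [Fintype κ] (s : ch.AF ν κ S) :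
    ρF F s (0 : ch.P K) = 0 := P_ext (fun _ _ _ => mul_zero _) fun _ _ _ => mul_zero _

theorem E₁_act (hF : F.Inv) (ha : IsUnit a) (v) : E₁ F e (actG F.toWt a z) (ρ₁ F a v) =
    (ch.kdD ν κ κ' n F e).ρ a (E₁ F e z v) := by
  have h1 := (AP.isUnit_iff.1 ha).1
  refine Prod.ext (dSc_act hF h1 v) (Prod.ext (ρF_zero _).symm
    (funext fun j => ContinuousLinearMap.ext fun μ => ?_))
  change a.2.2.1 (some j) (z.2.2.2 (some j) (Ring.inverse (a.1.2.2.1 (some j))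
    (F.cS a.1.1 j • a.1.2.2.1 (some j) (v j (pbT a.1.2.1 _ μ))))) =
      F.cS a.1.1 j • a.2.2.1 (some j) (z.2.2.2 (some j) (v j (pbT a.1.2.1 _ μ)))
  rw [map_smul, map_smul, map_smul, inv_ap (isUnit_E (isUnitF_iff.1 h1).2 _)]

theorem E₂_act (hF : F.Inv) (ha : IsUnit a) (v) : E₂ F e (actG F.toWt a z) (ρ₂ F a v) =
    (ch.kdD ν κ κ' n F e).ρ a (E₂ F e z v) := by
  refine Prod.ext (ρF_zero _).symm (Prod.ext (dSc_act (x := μG z) hF (isUnit_θG ha) v)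
    (funext fun j => ContinuousLinearMap.ext fun μ => ?_))
  change -(F.cS a.1.1 j • a.2.2.1 (some j) (v j (pbT (θG a).2.1 _
    (pbT (actG F.toWt a z).2.2.1 _ μ)))) =
      F.cS a.1.1 j • a.2.2.1 (some j) (-v j (pbT z.2.2.1 _ (pbT a.1.2.1 _ μ)))
  rw [map_neg, smul_neg, pbT_comm (actG_φ ha)]

theorem sD_act (hF : F.Inv) (ha : IsUnit a) : (ch.kdD ν κ κ' n F e).s (actG F.toWt a z) =
    (ch.kdD ν κ κ' n F e).ρ a ((ch.kdD ν κ κ' n F e).s z) :=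
  Prod.ext (sctF_actF hF (AP.isUnit_iff.1 ha).1 z.1)
    (Prod.ext (sctF_actF hF (isUnit_θG ha) (μG z)) (mm_act ha F.mov))

theorem continuous_sD : Continuous (ch.kdD ν κ κ' n F e).s :=
  (continuous_sctF.comp continuous_fst).prodMk ((continuous_sctF.comp continuous_μG).prodMk
    ((continuous_iff_continuousAt.2 fun z => (analyticAt_mm F.mov z).continuousAt).comp
      ((continuous_snd.comp continuous_fst).prodMk continuous_snd)))

end Vale.Agent.P269.Ch
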