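import Vale.Agent.P287Q.G.Glu.PrDefs
import Vale.Agent.P287Q.G.Glu.Pcy

set_option linter.unusedSectionVars false

/-!
# Fibre products of actions: sets and cycles
-/

namespace Vale.Agent.P269

open Set Function Topology Filter Module P291Z Holo Ch Ch.KD

variable {A A₀ A₁ A₂ W W₀ W₁ U : Type} [NormedRing A] [NormedAlgebra ℂ A] [NormedRing A₀]
  [NormedAlgebra ℂ A₀] [NormedRing A₁] [NormedAlgebra ℂ A₁] [NormedRing A₂] [NormedAlgebra ℂ A₂]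
  [NormedAddCommGroup W] [NormedSpace ℂ W] [NormedAddCommGroup W₀] [NormedSpace ℂ W₀]
  [NormedAddCommGroup W₁] [NormedSpace ℂ W₁] [NormedAddCommGroup U] [NormedSpace ℂ U]
  [FiniteDimensional ℂ A] [FiniteDimensional ℂ A₀] [FiniteDimensional ℂ A₁] [FiniteDimensional ℂ A₂]
  [FiniteDimensional ℂ W] [FiniteDimensional ℂ W₀] [FiniteDimensional ℂ W₁] [FiniteDimensional ℂ U]
  {act : A → W₁ × U → W₁ × U} {act₁ : A₁ → W₁ → W₁} {act₂ : A₂ → W₀ × U → W₀ × U}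
  {act₀ : A₀ → W₀ → W₀} {θ₁ : CL A A₁} {θ₂ : CL A A₂} {τ₁ : CL A₁ A₀} {τ₂ : CL A₂ A₀}
  {π : W₁ →L[ℂ] W₀} {B : Set W₀} {O₁ M₁ T₁ Z₁ B₁ : Set W₁} {O₂ M₂ T₂ Z₂ B₂ : Set (W₀ × U)}
  {y : W₁ × U} {b c N N₁ N₂ d₁ d₂ : ℕ}

/-- the homomorphism of monoids -/
noncomputable def AH.hom (h : AH θ₁) : A →* A₁ := ⟨⟨θ₁, h.one⟩, h.mul⟩

theorem AH.isUnit (h : AH θ₁) {a : A} (ha : IsUnit a) : IsUnit (θ₁ a) := ha.map h.hom

theorem AH.usurj (h : AH θ₁) (hs : Surjective θ₁) (b : A₁) (hb : IsUnit b) :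
    ∃ a, IsUnit a ∧ θ₁ a = b := exists_unit_of_surj h.one h.mul hs b hb

theorem AH.eqM (h : AH θ₁) {act' : A → W → W} {S : Set W} {f : W → W₁} (h1 : MapsTo f S O₁)
    (h2 : ContinuousOn f S) (h3 : ∀ a, IsUnit a → ∀ x ∈ S, f (act' a x) = act₁ (θ₁ a) (f x)) :
    EqM act' act₁ S O₁ θ₁ f :=
  ⟨⟨Units.map h.hom, Units.continuous_map θ₁.continuous, fun _ => rfl⟩, h1, h2, h3⟩

theorem PrB.closure (h : PrB B Z₂) (h' : PrB B B₂) : PrB B (closure Z₂ ∩ B₂) := fun x hx =>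
  ⟨(h' x hx.2).1, fun l hl => ⟨map_mem_closure (f := fun z : W₀ × U => (l, z.2))
    (continuous_const.prodMk continuous_snd) hx.1 fun z hz => (h z hz).2 l hl, (h' x hx.2).2 l hl⟩⟩

theorem continuous_fp₂ : Continuous (fp₂ π : W₁ × U → W₀ × U) :=
  (π.continuous.comp continuous_fst).prodMk continuous_snd

theorem analyticAt_fp₂ (y : W₁ × U) : AnalyticAt ℂ (fp₂ π : W₁ × U → W₀ × U) y :=
  ((π.analyticAt _).comp analyticAt_fst).prod analyticAt_snd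

theorem fpS_mono (h₁ : Z₁ ⊆ B₁) (h₂ : Z₂ ⊆ B₂) : fpS π Z₁ Z₂ ⊆ fpS π B₁ B₂ :=
  fun _ a => ⟨h₁ a.1, h₂ a.2⟩

theorem fpS_inter {U₁ : Set W₁} {U₂ : Set (W₀ × U)} : fpS π (O₁ ∩ U₁) (O₂ ∩ U₂) =
    fpS π O₁ O₂ ∩ (Prod.fst ⁻¹' U₁ ∩ fp₂ π ⁻¹' U₂) := Set.ext fun _ => and_and_and_comm

theorem isLocallyClosed_fpS (h₁ : IsLocallyClosed O₁) (h₂ : IsLocallyClosed O₂) :
    IsLocallyClosed (fpS π O₁ O₂) :=
  (h₁.preimage continuous_fst).inter (h₂.preimage continuous_fp₂)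

/-- the second factor of a product with a manifold -/
theorem PrB.mfdAt (p : PrB B Z₂) {l : W₀} {u : U} (hB : MfdAt B c l) (h₂ : MfdAt Z₂ N₂ (l, u)) :
    ∃ n, n + c = N₂ ∧ MfdAt {v | (l, v) ∈ Z₂} n u := by
  have := FiniteDimensional.complete ℂ W₀
  have := FiniteDimensional.complete ℂ U
  obtain ⟨hl, ψ, h1, h2⟩ := hB
  obtain ⟨w, h3, h4, h5, h6, -⟩ := h1.exists_inv
  have h7 : (ψ 0).1 = l := congrArg Subtype.val h2
  rw [h2] at h6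
  rw [h7] at h3 h4
  have h8 : ∀ᶠ s in 𝓝 l, s ∈ B → (ψ (w s)).1 = s :=
    (ev_sub hl (p := fun s => (ψ (w s)).1 = s)).1 (h6.mono fun s e => congrArg Subtype.val e)
  obtain ⟨n, h9, h10⟩ := h₂.sub' (Z := {s : W₀ × U | s.1 = l ∧ (l, s.2) ∈ Z₂})
    (f := fun s : W₀ × U => w s.1) (.of_an (h3.comp_of_eq analyticAt_fst rfl)) h4
    (fun v _ => Submodule.subset_span
      ⟨fun z => ((ψ (z • v)).1, u), ⟨(h1.an.comp_of_eq (analyticAt_id.smul analyticAt_const)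
        (zero_smul ℂ v)).prod analyticAt_const, by simp [h7],
        .of_forall fun z => (p _ h₂.1).2 _ (ψ _).2⟩, by
      have e : ∀ᶠ z in 𝓝 (0 : ℂ), w (ψ (z • v)).1 = z • v :=
        (Continuous.tendsto' (f := fun z : ℂ => z • v) (by fun_prop) 0 0 (zero_smul _ _)).eventually
          h5
      rw [EventuallyEq.deriv_eq e]
      simpa using ((hasDerivAt_id (0 : ℂ)).smul_const v).deriv⟩)
    ((continuousAt_fst.eventually h8).mono fun s e => ⟨fun a => by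
      obtain ⟨s, v⟩ := s
      obtain rfl : s = l := a.1
      exact ⟨a.2, h4⟩, fun a => ⟨by rw [← e (p s a.1).1, a.2, h7], (p s a.1).2 l hl⟩⟩)
  exact ⟨n, by simpa using h9, h10.iso (F := Prod.snd) (G := fun v => (l, v)) analyticAt_snd
    (analyticAt_const.prod analyticAt_id) (.of_forall fun s a => ⟨a.2, Prod.ext a.1.symm rfl⟩)
    (.of_forall fun s a => ⟨⟨rfl, a⟩, rfl⟩)⟩

theorem mfdAt_fpS (hB : MfdAt B c (π y.1)) (m₁ : MapsTo π Z₁ B) (p : PrB B Z₂)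
    (h₁ : MfdAt Z₁ N₁ y.1) (h₂ : MfdAt Z₂ N₂ (fp₂ π y)) :
    c ≤ N₂ ∧ MfdAt (fpS π Z₁ Z₂) (N₁ + N₂ - c) y := by
  obtain ⟨n, rfl, k⟩ := p.mfdAt hB h₂
  have e : fpS π Z₁ Z₂ = Z₁ ×ˢ {v | (π y.1, v) ∈ Z₂} := Set.ext fun z =>
    and_congr_right fun a => ⟨fun b => (p _ b).2 _ hB.1, fun b => (p _ b).2 _ (m₁ a)⟩
  rw [e, ← add_assoc, Nat.add_sub_cancel]
  exact ⟨Nat.le_add_left _ _, h₁.prod k⟩

theorem closure_fpS (m₁ : MapsTo π B₁ B) (p : PrB B Z₂) (s₁ : Z₁ ⊆ B₁) (s₂ : Z₂ ⊆ B₂) :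
    closure (fpS π Z₁ Z₂) ∩ fpS π B₁ B₂ = fpS π (closure Z₁ ∩ B₁) (closure Z₂ ∩ B₂) :=
  have _ := s₂
  Set.ext fun _ => ⟨fun a => ⟨⟨map_mem_closure continuous_fst a.1 fun _ b => b.1, a.2.1⟩,
      map_mem_closure continuous_fp₂ a.1 fun _ b => b.2, a.2.2⟩,
    fun a => ⟨map_mem_closure₂ (f := fun (x : W₁) (z : W₀ × U) => (x, z.2))
      (continuous_fst.prodMk continuous_snd.snd) a.1.1 a.2.1
      fun _ b _ c => ⟨b, (p _ c).2 _ (m₁ (s₁ b))⟩, a.1.2, a.2.2⟩⟩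

theorem locAn_fpS (a₁ : LocAn B₁ Z₁) (a₂ : LocAn B₂ Z₂) :
    LocAn (fpS π B₁ B₂) (fpS π Z₁ Z₂) := fun x => by
  obtain ⟨r, s, g, f, a, e⟩ := a₁ ⟨x.1.1, x.2.1⟩
  obtain ⟨r', s', g', f', a', e'⟩ := a₂ ⟨fp₂ π x.1, x.2.2⟩
  let u : fpS π B₁ B₂ → B₁ := fun z => ⟨z.1.1, z.2.1⟩
  let u' : fpS π B₁ B₂ → B₂ := fun z => ⟨fp₂ π z.1, z.2.2⟩
  have c : ContinuousAt u x := (continuous_subtype_val.fst.subtype_mk _).continuousAt
  have c' : ContinuousAt u' x :=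
    ((continuous_fp₂.comp continuous_subtype_val).subtype_mk _).continuousAt
  have k : HolAt Subtype.val (fun z => (u z).1) x := .of_an (Φ := Prod.fst) analyticAt_fst
  have k' : HolAt Subtype.val (fun z => (u' z).1) x := .of_an (analyticAt_fp₂ _)
  let L : ((Fin s → ℂ) × (Fin s' → ℂ)) ≃L[ℂ] Fin (finrank ℂ ((Fin s → ℂ) × (Fin s' → ℂ))) → ℂ :=
    .ofFinrankEq (finrank_fin_fun ℂ).symm
  let q : Fin (r * r') ≃ Fin r × Fin r' := finProdFinEquiv.symm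
  refine ⟨r * r', _, fun i z => L (g (q i).1 (u z), g' (q i).2 (u' z)),
    fun i z => f (q i).1 (u z) * f' (q i).2 (u' z), fun i => ⟨?_, ?_⟩, ?_⟩
  · exact (((a _).1.comp c k).prod ((a' _).1.comp c' k')).comp_an (L.analyticAt _)
  · exact (((a _).2.comp c k).prod ((a' _).2.comp c' k')).comp_an (Ψ := fun p : ℂ × ℂ => p.1 * p.2)
      (analyticAt_fst.mul analyticAt_snd)
  · filter_upwards [c.eventually e, c'.eventually e'] with z b b'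
    simp only [map_eq_zero_iff _ L.injective, Prod.mk_eq_zero, mul_ne_zero_iff]
    exact (and_congr b b').trans ⟨fun ⟨⟨i, v⟩, j, v'⟩ => ⟨q.symm (i, j), by
      rw [q.apply_symm_apply]; exact ⟨⟨v.1, v'.1⟩, v.2, v'.2⟩⟩,
      fun ⟨i, v⟩ => ⟨⟨_, v.1.1, v.2.1⟩, _, v.1.2, v.2.2⟩⟩

/-- **fibre products of closures of strata** -/
theorem pcy_fpS (hB : ∀ l ∈ B, MfdAt B c l) (m₁ : MapsTo π B₁ B) (p : PrB B Z₂) (p' : PrB B B₂)
    (k₁ : ∀ x ∈ B₁, ∃ k, MfdAt B₁ k x) (k₂ : ∀ x ∈ B₂, ∃ k, MfdAt B₂ k x) (s₁ : Z₁ ⊆ B₁)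
    (s₂ : Z₂ ⊆ B₂) (f₁ : ∀ x ∈ Z₁, MfdAt Z₁ N₁ x) (f₂ : ∀ x ∈ Z₂, MfdAt Z₂ N₂ x)
    (a₁ : LocAn B₁ Z₁) (a₂ : LocAn B₂ Z₂) :
    LocAn (fpS π B₁ B₂) (fpS π Z₁ Z₂) ∧
      PCy (fpS π (closure Z₁ ∩ B₁) (closure Z₂ ∩ B₂)) (fpS π Z₁ Z₂) (N₁ + N₂ - c) :=
  ⟨locAn_fpS a₁ a₂, closure_fpS m₁ p s₁ s₂ ▸ pcy_clo (fun _ hx =>
    let ⟨_, a⟩ := k₁ _ hx.1
    let ⟨_, a'⟩ := k₂ _ hx.2
    ⟨_, (mfdAt_fpS (hB _ (m₁ hx.1)) m₁ p' a a').2⟩) (fpS_mono s₁ s₂)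
    (fun _ hx => (mfdAt_fpS (hB _ (m₁ (s₁ hx.1))) (m₁.mono_left s₁) p (f₁ _ hx.1) (f₂ _ hx.2)).2)
    (locAn_fpS a₁ a₂)⟩

namespace FpP

theorem isLocallyClosed {X : Type} [TopologicalSpace X] [T2Space X] {S : Set X}
    [LocallyCompactSpace S] : IsLocallyClosed S := by
  refine ((isLocallyClosed_tfae S).out 3 0).1 fun x hx => ?_
  obtain ⟨K, h1, h2⟩ := exists_compact_mem_nhds (⟨x, hx⟩ : S)
  obtain ⟨V, h3, h4⟩ := (mem_nhds_subtype _ _ _).1 h2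
  refine ⟨interior V, mem_interior_iff_mem_nhds.2 h3, isOpen_interior, fun z hz => ?_⟩
  obtain ⟨w, -, rfl⟩ := closure_minimal (t := Subtype.val '' K)
    (fun v a => ⟨⟨v, a.2⟩, h4 (show v ∈ V from interior_subset a.1), rfl⟩)
    (h1.image continuous_subtype_val).isClosed (isOpen_interior.inter_closure hz)
  exact w.2

theorem finrank_le {act : A → W → W} [IsAct act univ] {M : Set W} {x : W} (h : Prp act M)
    (hi : Ivt act M) (hm : MfdAt M N x) : finrank ℂ A ≤ N := by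
  have : IsAct act M := IsAct.mono inferInstance (subset_univ M) hi
  have := FiniteDimensional.complete ℂ A
  refine IsMfd.finrank_le (ι := Sp.val) (t := Sp.of act x hm.1) isExp_expU hm.2 (Sp.holAct _) ?_
  rw [Sp.inf_eq]
  exact (h x hm.1 x hm.1).injective hm.1

theorem eq_of_fre [IsAct act₀ univ] {l : W₀} (h : Fre act₀ l) {s t : A₀} (hs : IsUnit s)
    (ht : IsUnit t) (e : act₀ s l = act₀ t l) : s = t := by
  have := FiniteDimensional.complete ℂ A₀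
  obtain ⟨s, rfl⟩ := hs
  obtain ⟨t, rfl⟩ := ht
  exact congrArg Units.val (inv_mul_eq_one.1 (Units.ext (h _ (t⁻¹ * s).isUnit
    (by rw [act_mul (act := act₀), e, act_inv (act := act₀)])))).symm

end FpP

namespace Fp

variable (h : Fp act act₁ act₂ act₀ θ₁ θ₂ τ₁ τ₂ π)
include h

theorem ext' {a a' : A} (e₁ : θ₁ a = θ₁ a') (e₂ : θ₂ a = θ₂ a') : a = a' :=
  sub_eq_zero.1 (h.inj _ (by rw [map_sub, e₁, sub_self]) (by rw [map_sub, e₂, sub_self]))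

theorem finrank_eq : finrank ℂ A + finrank ℂ A₀ = finrank ℂ A₁ + finrank ℂ A₂ := by
  let L : A →ₗ[ℂ] A₁ × A₂ := LinearMap.prod θ₁.toLinearMap θ₂.toLinearMap
  let L' : A₁ × A₂ →ₗ[ℂ] A₀ := LinearMap.coprod τ₁.toLinearMap (-τ₂.toLinearMap)
  have h1 : LinearMap.ker L' = LinearMap.range L := Submodule.ext fun x =>
    ⟨fun a => (h.lift x.1 x.2 (add_neg_eq_zero.1 a)).imp fun _ e => Prod.ext e.1 e.2,
      by rintro ⟨a, rfl⟩; exact add_neg_eq_zero.2 (h.sq a)⟩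
  have h2 : LinearMap.range L' = ⊤ := LinearMap.range_eq_top.2 fun x =>
    let ⟨a, e⟩ := h.surj₁ x
    ⟨(a, 0), by simpa [L'] using e⟩
  have h3 := L'.finrank_range_add_finrank_ker
  rw [h1, h2, finrank_top, finrank_prod, LinearMap.finrank_range_of_inj fun a a' e =>
    h.ext' (congrArg Prod.fst e) (congrArg Prod.snd e)] at h3
  omega

theorem ulift {a₁ : A₁} {a₂ : A₂} (h₁ : IsUnit a₁) (h₂ : IsUnit a₂) (e : τ₁ a₁ = τ₂ a₂) :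
    ∃ a, IsUnit a ∧ θ₁ a = a₁ ∧ θ₂ a = a₂ := by
  obtain ⟨u, rfl⟩ := h₁
  obtain ⟨v, rfl⟩ := h₂
  obtain ⟨a, e₁, e₂⟩ := h.lift _ _ e
  obtain ⟨a', e₃, e₄⟩ := h.lift (↑u⁻¹) (↑v⁻¹) (left_inv_eq_right_inv (a := τ₁ u)
    (by rw [← h.k₁.mul, Units.inv_mul, h.k₁.one]) (by rw [e, ← h.k₂.mul, Units.mul_inv, h.k₂.one]))
  exact ⟨a, ⟨⟨a, a', h.ext' (by rw [h.h₁.mul, e₁, e₃, Units.mul_inv, h.h₁.one])
      (by rw [h.h₂.mul, e₂, e₄, Units.mul_inv, h.h₂.one]),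
    h.ext' (by rw [h.h₁.mul, e₁, e₃, Units.inv_mul, h.h₁.one])
      (by rw [h.h₂.mul, e₂, e₄, Units.inv_mul, h.h₂.one])⟩, rfl⟩, e₁, e₂⟩

theorem ivt (h₁ : Ivt act₁ O₁) (h₂ : Ivt act₂ O₂) : Ivt act (fpS π O₁ O₂) := fun a ha x hx =>
  ⟨mem_of_eq_of_mem (h.e₁ a ha x) (h₁ _ (h.h₁.isUnit ha) _ hx.1),
    mem_of_eq_of_mem (h.e₂ a ha x) (h₂ _ (h.h₂.isUnit ha) _ hx.2)⟩

theorem eqM₁ : EqM act act₁ (fpS π O₁ O₂) O₁ θ₁ Prod.fst :=
  h.h₁.eqM (fun _ a => a.1) continuousOn_fst fun a ha x _ => h.e₁ a ha x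

theorem eqM₂ : EqM act act₂ (fpS π O₁ O₂) O₂ θ₂ (fp₂ π) :=
  h.h₂.eqM (fun _ a => a.2) continuous_fp₂.continuousOn fun a ha x _ => h.e₂ a ha x

theorem eqB₁ (m : MapsTo π O₁ B) : EqM act₁ act₀ O₁ B τ₁ π :=
  h.k₁.eqM m π.continuous.continuousOn fun a ha x _ => h.p₁ a ha x

theorem eqB₂ (m : MapsTo Prod.fst O₂ B) : EqM act₂ act₀ O₂ B τ₂ Prod.fst :=
  h.k₂.eqM m continuousOn_fst fun a ha x _ => h.p₂ a ha x

theorem fre (h₁ : Fre act₁ y.1) (h₂ : Fre act₂ (fp₂ π y)) : Fre act y := fun a ha e =>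
  h.ext' ((h₁ _ (h.h₁.isUnit ha) (by rw [← h.e₁ a ha, e])).trans h.h₁.one.symm)
    ((h₂ _ (h.h₂.isUnit ha) (by rw [← h.e₂ a ha, e])).trans h.h₂.one.symm)

theorem fre_congr (hB : BsOk act₀ B b) {l l' : W₀} (hl : l ∈ B) (hl' : l' ∈ B) {u : U}
    (h₂ : Fre act₂ (l, u)) : Fre act₂ (l', u) := fun a ha e => by
  have e1 : τ₂ a = 1 := hB.free _ hl' _ (h.k₂.isUnit ha)
    ((h.p₂ a ha (l', u)).symm.trans (congrArg Prod.fst e))
  refine h₂ a ha (Prod.ext ?_ ((h.ind a ha l l' u).trans (congrArg Prod.snd e :)))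
  rw [h.p₂ a ha, e1]
  exact hB.isAct.one l hl

variable [IsAct act univ] [IsAct act₁ univ] [IsAct act₂ univ] [IsAct act₀ univ]

theorem prp (h₁ : Prp act₁ O₁) (h₂ : Prp act₂ O₂) : Prp act (fpS π O₁ O₂) := fun x hx x' hx' => by
  obtain ⟨C₁, c₁⟩ := h₁ _ hx.1 _ hx'.1
  obtain ⟨C₂, c₂⟩ := h₂ _ hx.2 _ hx'.2
  obtain ⟨K, -, k⟩ := (LinearMap.prod θ₁.toLinearMap θ₂.toLinearMap).exists_antilipschitzWith
    (LinearMap.ker_eq_bot.2 fun a a' e => h.ext' (congrArg Prod.fst e) (congrArg Prod.snd e))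
  refine ⟨K * max C₁ C₂, ?_⟩
  filter_upwards [((continuous_fst.prodMap continuous_fst).tendsto (x, x')).eventually c₁,
    ((continuous_fp₂.prodMap continuous_fp₂).tendsto (x, x')).eventually c₂] with q a₁ a₂ hq s e
  refine (ZeroHomClass.bound_of_antilipschitz _ k _).trans
    (mul_le_mul_of_nonneg_left (max_le_max ?_ ?_) K.2)
  · exact a₁ hq.1 (Units.map h.h₁.hom s) ((h.e₁ _ s.isUnit _).symm.trans (congrArg Prod.fst e))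
  · exact a₂ hq.2 (Units.map h.h₂.hom s) ((h.e₂ _ s.isUnit _).symm.trans (congrArg (fp₂ π) e))

theorem orb [IsAct act₁ O₁] [IsAct act₂ O₂] [IsAct act (fpS π O₁ O₂)]
    (h₁ : Orb.Orb A₁ˣ (Holo.Sp act₁ O₁)) (h₂ : Orb.Orb A₂ˣ (Holo.Sp act₂ O₂)) :
    Orb.Orb Aˣ (Holo.Sp act (fpS π O₁ O₂)) := by
  have := FiniteDimensional.complete ℂ A
  have := FiniteDimensional.complete ℂ A₁
  have := FiniteDimensional.complete ℂ A₂
  have := FiniteDimensional.proper ℂ (W₁ × U)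
  have := h₁.proper
  have := h₂.proper
  have : LocallyCompactSpace O₁ := h₁.nice.lc
  have : LocallyCompactSpace O₂ := h₂.nice.lc
  have := (isLocallyClosed_fpS (π := π) (FpP.isLocallyClosed (S := O₁))
    (FpP.isLocallyClosed (S := O₂))).locallyCompactSpace
  exact (h.prp prp_of_properSMul prp_of_properSMul).orb

/-- transporters in the base lift to elements close to the identity -/
theorem ev_lift (hB : BsOk act₀ B b) (hy : π y.1 ∈ B) {V : Set (W₁ × U)} (hV : V ∈ 𝓝 y) :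
    ∀ᶠ q : W₁ × W₀ × U in 𝓝 (y.1, fp₂ π y), π q.1 ∈ B → ∀ s : A₀ˣ, act₀ s (π q.1) = q.2.1 →
      ∃ a, IsUnit a ∧ τ₁ a = s ∧ (act₁ a q.1, q.2.2) ∈ V := by
  have := FiniteDimensional.complete ℂ A₁
  have := hB.isAct
  have := hB.orb.proper
  obtain ⟨σ, hσ⟩ := exists_rightInv h.surj₁
  have h1 : Tendsto (fun r : A₀ × W₁ × W₀ × U => 1 + σ (r.1 - 1)) (𝓝 (1, y.1, fp₂ π y)) (𝓝 1) :=
    Continuous.tendsto' (by fun_prop) _ _ (by simp)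
  have h2 := ((act_an (act := act₁) 1 y.1).continuousAt.tendsto.comp (h1.prodMk_nhds
    (continuousAt_fst.comp continuousAt_snd))).prodMk_nhds
      (Continuous.tendsto (f := fun r : A₀ × W₁ × W₀ × U => r.2.2.2) (by fun_prop) _)
  simp only [Units.val_one, Holo.act_one] at h2
  obtain ⟨P, hP, Q, hQ, h3⟩ := mem_nhds_prod_iff.1
    ((h1.eventually (p := IsUnit) (Units.isOpen.mem_nhds isUnit_one)).and (h2 hV))
  obtain ⟨M, h4, h5⟩ := Orb.exists_nhds_of_proper (G := A₀ˣ) (t := Sp.of act₀ _ hy)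
    (isOpen_interior.preimage Units.continuous_val) fun g hg => show (g : A₀) ∈ interior P by
      rw [hB.free _ hy _ g.isUnit (congrArg Sp.val (show g • Sp.of act₀ _ hy = _ from hg))]
      exact mem_interior_iff_mem_nhds.2 hP
  obtain ⟨M', h6, h7⟩ := (mem_nhds_subtype _ _ _).1 h4
  filter_upwards [hQ, (π.continuous.comp continuous_fst).continuousAt.eventually h6,
    (continuous_fst.comp continuous_snd).continuousAt.eventually h6] with q k1 k2 k3 k4 s e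
  obtain ⟨k5, k6⟩ := h3 (mk_mem_prod (interior_subset (h5 (Sp.of act₀ _ k4) (h7 k2) s
    (h7 (show act₀ s (π q.1) ∈ M' from mem_of_eq_of_mem e k3)))) k1)
  exact ⟨_, k5, by rw [map_add, hσ, h.k₁.one, add_sub_cancel], k6⟩

/-- **the orbit space is the fibre product of the orbit spaces** -/
theorem isClosedEmbedding (hB : BsOk act₀ B b) (i₁ : Ivt act₁ O₁) (i₂ : Ivt act₂ O₂)
    (m₁ : MapsTo π O₁ B) (m₂ : MapsTo Prod.fst O₂ B) :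
    IsClosedEmbedding (fun z : Quo act (fpS π O₁ O₂) => (h.eqM₁.map z, h.eqM₂.map z)) ∧
      range (fun z : Quo act (fpS π O₁ O₂) => (h.eqM₁.map z, h.eqM₂.map z)) =
        {p | (h.eqB₁ m₁).map p.1 = (h.eqB₂ m₂).map p.2} := by
  have := hB.isAct
  have : IsAct act₁ O₁ := IsAct.mono inferInstance (subset_univ _) i₁
  have : IsAct act₂ O₂ := IsAct.mono inferInstance (subset_univ _) i₂
  have : IsAct act (fpS π O₁ O₂) := IsAct.mono inferInstance (subset_univ _) (h.ivt i₁ i₂)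
  have := nice_of_orb hB.orb
  generalize hΦ : (fun z : Quo act (fpS π O₁ O₂) => (h.eqM₁.map z, h.eqM₂.map z)) = Φ
  have e0 : ∀ x : Sp act (fpS π O₁ O₂),
      Φ x.mk = ((Sp.of act₁ _ x.val_mem.1).mk, (Sp.of act₂ _ x.val_mem.2).mk) :=
    fun x => hΦ ▸ rfl
  have cΦ : Continuous Φ := hΦ ▸ h.eqM₁.map.continuous.prodMk h.eqM₂.map.continuous
  have e1 : ∀ z, (h.eqB₁ m₁).map (Φ z).1 = (h.eqB₂ m₂).map (Φ z).2 := fun z => by
    obtain ⟨x, rfl⟩ := Sp.surjective_mk z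
    rw [e0]
    rfl
  have e2 : ∀ (x : Sp act₁ O₁) (x' : Sp act₂ O₂), (h.eqB₁ m₁).map x.mk = (h.eqB₂ m₂).map x'.mk →
      ∃ s : A₀ˣ, act₀ s (π x.val) = x'.val.1 := fun x x' e =>
    (Sp.mk_eq_iff (x := Sp.of act₀ _ (m₁ x.val_mem)) (y := Sp.of act₀ _ (m₂ x'.val_mem))).1 e |>.imp
      fun _ => congrArg Sp.val
  have e3 : ∀ (x : Sp act₁ O₁) (x' : Sp act₂ O₂) a, IsUnit a → act₀ (τ₁ a) (π x.val) = x'.val.1 →
      ∃ z : Sp act (fpS π O₁ O₂), z.val = (act₁ a x.val, x'.val.2) ∧ Φ z.mk = (x.mk, x'.mk) :=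
    fun x x' a ha e => by
      have k : fp₂ π (act₁ a x.val, x'.val.2) = x'.val := Prod.ext ((h.p₁ a ha _).trans e) rfl
      refine ⟨Sp.of act _ ⟨i₁ a ha _ x.val_mem, mem_of_eq_of_mem k x'.val_mem⟩, rfl,
        (e0 _).trans (Prod.ext (Sp.mk_smul ha.unit x) (congrArg Sp.mk (Sp.ext k)))⟩
  have inj : Injective Φ := fun z z' e => by
    obtain ⟨x, rfl⟩ := Sp.surjective_mk z
    obtain ⟨x', rfl⟩ := Sp.surjective_mk z'
    rw [e0, e0] at e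
    obtain ⟨g₁, k₁⟩ := Sp.mk_eq_iff.1 (congrArg Prod.fst e)
    obtain ⟨g₂, k₂⟩ := Sp.mk_eq_iff.1 (congrArg Prod.snd e)
    have k₃ : act₁ g₁ x.val.1 = x'.val.1 := congrArg Sp.val k₁
    have k₄ : act₂ g₂ (fp₂ π x.val) = fp₂ π x'.val := congrArg Sp.val k₂
    obtain ⟨a, ha, c₁, c₂⟩ := h.ulift g₁.isUnit g₂.isUnit (FpP.eq_of_fre
      (hB.free _ (m₁ x.val_mem.1)) (h.k₁.isUnit g₁.isUnit) (h.k₂.isUnit g₂.isUnit)
      (((h.p₁ _ g₁.isUnit _).symm.trans (congrArg π k₃)).trans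
        ((congrArg Prod.fst k₄).symm.trans (h.p₂ _ g₂.isUnit _))))
    exact Sp.mk_eq_iff.2 ⟨ha.unit, Sp.ext (Prod.ext ((h.e₁ a ha _).trans (c₁ ▸ k₃))
      (congrArg Prod.snd ((h.e₂ a ha _).trans (c₂ ▸ k₄)) :))⟩
  have rg : range Φ = {p | (h.eqB₁ m₁).map p.1 = (h.eqB₂ m₂).map p.2} := by
    refine subset_antisymm (range_subset_iff.2 e1) fun ⟨z, z'⟩ e => ?_
    obtain ⟨x, rfl⟩ := Sp.surjective_mk z
    obtain ⟨x', rfl⟩ := Sp.surjective_mk z'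
    obtain ⟨s, hs⟩ := e2 x x' e
    obtain ⟨a, ha, k⟩ := h.k₁.usurj h.surj₁ _ s.isUnit
    obtain ⟨w, -, k'⟩ := e3 x x' a ha (k ▸ hs)
    exact ⟨_, k'⟩
  refine ⟨⟨⟨isInducing_iff_nhds.2 fun z => le_antisymm cΦ.continuousAt.le_comap fun V hV => ?_,
    inj⟩, rg ▸ isClosed_eq ((h.eqB₁ m₁).map.continuous.comp continuous_fst)
      ((h.eqB₂ m₂).map.continuous.comp continuous_snd)⟩, rg⟩
  obtain ⟨x, rfl⟩ := Sp.surjective_mk z
  obtain ⟨V', k1, k2⟩ := (mem_nhds_subtype _ _ _).1 (Sp.continuous_mk.continuousAt hV)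
  have k3 := ((Sp.continuous_val.prodMap Sp.continuous_val).tendsto
    (Sp.of act₁ _ x.val_mem.1, Sp.of act₂ _ x.val_mem.2)).eventually
      (h.ev_lift hB (m₁ x.val_mem.1) k1)
  rw [e0]
  refine ⟨_, (Sp.isOpenQuotientMap_mk.isOpenMap.prodMap
    Sp.isOpenQuotientMap_mk.isOpenMap).image_mem_nhds k3, ?_⟩
  rintro z ⟨⟨u, u'⟩, k4, k5⟩
  obtain ⟨s, hs⟩ := e2 u u' (by have := e1 z; rwa [← k5] at this)
  obtain ⟨a, ha, k6, k7⟩ := k4 (m₁ u.val_mem) s hs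
  obtain ⟨w, k8, k9⟩ := e3 u u' a ha (k6 ▸ hs)
  exact inj (k9.trans k5) ▸ k2 (show w.val ∈ V' from mem_of_eq_of_mem k8 k7)

/-- **the fibre product is a cycle** -/
theorem cyc (hB : BsOk act₀ B b) (c : PCy (fpS π T₁ T₂) (fpS π Z₁ Z₂) N) (m₁ : MapsTo π Z₁ B)
    (p : PrB B Z₂) {U₁ : Set W₁} {U₂ : Set (W₀ × U)} (u₁ : IsOpen U₁) (u₂ : IsOpen U₂)
    (c₁ : Cyc act₁ (T₁ ∩ U₁) (Z₁ ∩ U₁) d₁) (c₂ : Cyc act₂ (T₂ ∩ U₂) (Z₂ ∩ U₂) d₂)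
    (h₁ : Prp act₁ (T₁ ∩ U₁)) (h₂ : Prp act₂ (T₂ ∩ U₂)) :
    Cyc act (fpS π (T₁ ∩ U₁) (T₂ ∩ U₂)) (fpS π (Z₁ ∩ U₁) (Z₂ ∩ U₂)) (d₁ + d₂ - b) ∧
      ((fpS π (T₁ ∩ U₁) (T₂ ∩ U₂)).Nonempty → b ≤ d₁ + d₂) := by
  have := FiniteDimensional.complete ℂ A
  have := FiniteDimensional.complete ℂ W₁
  have := FiniteDimensional.complete ℂ (W₀ × U)
  have c' := c.inter ((u₁.preimage continuous_fst).inter (u₂.preimage (continuous_fp₂ (π := π))))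
  rw [← fpS_inter, ← fpS_inter] at c'
  have hi := h.ivt c₁.inv c₂.inv
  rcases (fpS π (T₁ ∩ U₁) (T₂ ∩ U₂)).eq_empty_or_nonempty with e | e
  · have e' := subset_eq_empty c'.sub e
    rw [e, e']
    exact ⟨(pcy_self fun _ a => a.elim).cyc (fun _ _ _ a => a.elim) (empty_subset _),
      fun ⟨_, a⟩ => a.elim⟩
  obtain ⟨x, hx⟩ := c'.nonempty e
  obtain ⟨k1, k2⟩ := mfdAt_fpS (hB.mf _ (m₁ hx.1.1)) m₁ p
    ((c₁.pcy.mfd _ hx.1).congr (mem_of_superset (u₁.mem_nhds hx.1.2) fun _ a => and_iff_left a))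
    ((c₂.pcy.mfd _ hx.2).congr (mem_of_superset (u₂.mem_nhds hx.2.2) fun _ a => and_iff_left a))
  have k3 := (c.mfd x ⟨hx.1.1, hx.2.1⟩).unique k2
  have k4 := FpP.finrank_le ((h.prp h₁ h₂).mono c'.sub) hi (c'.mfd x hx)
  have k5 := h.finrank_eq
  refine ⟨PCy.cyc ((show N = finrank ℂ A + (d₁ + d₂ - b) by omega) ▸ c') hi fun z hz => ?_,
    fun _ => by omega⟩
  refine closure_mono (s := fp₂ π ⁻¹' U₂ ∩ {w | w ∈ fpS π (Z₁ ∩ U₁) Z₂ ∧ Fre act w})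
    (fun w a => And.intro ⟨a.2.1.1, a.2.1.2, a.1⟩ a.2.2) ((u₂.preimage continuous_fp₂).inter_closure
      ⟨hz.2.2, map_mem_closure₂ (f := fun (x : W₁) (z : W₀ × U) => (x, z.2))
        (continuous_fst.prodMk continuous_snd.snd) (c₁.free hz.1) (c₂.free hz.2)
        fun v a w a' => ?_⟩)
  exact ⟨⟨a.1, (p _ a'.1.1).2 _ (m₁ a.1.1)⟩,
    h.fre a.2 (h.fre_congr hB (p _ a'.1.1).1 (m₁ a.1.1) a'.2)⟩

end Fp

end Vale.Agent.P269
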