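import Vale.Agent.P287Q.G.Glu.Ctx
import Vale.Agent.P287Q.G.Vir.Clo
import Vale.Agent.P269.Gen.Abs

set_option linter.unusedSectionVars false

/-!
# Gluing: the hypotheses of the main theorems
-/

namespace Vale.Agent.P269

open P291Z Set Function Topology Filter Module Holo

variable {S Λ R J K ι ν κ κ' : Type} [Fintype S] [Fintype Λ] [Fintype R] [Fintype J]
  [Fintype K] [Fintype ι] [DecidableEq ι] [Fintype ν] [Fintype κ] [Fintype κ']

/-- The product of the diagonals at the nodes in `l`. -/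
noncomputable def Fam.dgL (F : Fam S Λ R J K) {ch : Ch ι J} (Z : Set (ch.WF ν (κ ⊕ κ') Λ))
    (l : List κ') : Coch (Quo (Ch.actF F.toWt) Z) :=
  ((l.map fun a => Fac.dg (.inr a)).map (F.coch Z)).prod

namespace Ch

variable {ch : Ch ι J} {n : Nm ι J} (F : Fam S Λ R J K) (e : K → ι → ℕ) (K₀ : RD R)
  (ℓ : R → ι → ℤ)

variable (ch n) in
/-- `T` is a base cycle of normalised curves all of whose points can be glued. -/
structure GH (T M : Set ((ch.re n).WF ν (κ ⊕ κ') Λ)) (N : ℕ) : Prop where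
  std : ch.Std F e K₀ ℓ
  num : ch.GN n κ'
  lev : Lev F T
  levM : Lev F M
  pcy : PCy T M N
  pr' : ∃ U : Set ((ch.re n).WF ν (κ ⊕ κ') Λ), Pr F U
  sur : SurjOn μG (Zn F T : Set (ch.WG n ν κ κ' Λ)) T

/-- The part of the labelled space over `U` on which the virtual class is computed. -/
def OF (T : Set ((ch.re n).WF ν (κ ⊕ κ') Λ)) (U : Set (ch.WF ν κ Λ)) : Set (ch.WG n ν κ κ' Λ) :=
  Zf F T ∩ Prod.fst ⁻¹' (U ∩ ch.dom ν κ F e)

variable (ch n ν κ κ') in
/-- The dimension of the orbit space of the labelled space. -/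
noncomputable def dL (N : ℕ) : ℕ := N + finrank ℂ (ch.Fm F.mov ch.hf) -
  (finrank ℂ ((ch.re n).AF ν (κ ⊕ κ') S) + finrank ℂ ((ch.re n).Fm F.mov (ch.re n).hf))

end Ch

end Vale.Agent.P269
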