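import Vale.Agent.P287Q.G.Glu.Defs
import Vale.Agent.P287Q.G.Vir.Cyc
import Vale.Agent.P269.Map.W

/-!
# Kuranishi data on labelled spaces
-/

set_option linter.unusedSectionVars false

namespace Vale.Agent.P269

open P291Z Set Function Topology Filter Base Cv Holo Vir

variable {S Λ R J K ι ν κ ν' κ' κ₁ : Type} [Fintype S] [Fintype Λ] [Fintype R] [Fintype J]
  [Fintype K] [Fintype ι] [DecidableEq ι] [Fintype ν] [Fintype κ] [Fintype ν'] [Fintype κ']
  [Fintype κ₁]

/-- The data of the diagonals: pairs of points of the cone, one pair for each `e : κ'`. -/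
noncomputable def Fam.kdg (F : Fam S Λ R J K) (κ' : Type) :
    Ch.KD (κ' → (S → ℂ) × (R → ℂ)) (κ' → (Λ → ℂ) × (J → ℂ) × (J → ℂ)) (κ' → J → ℂ) where
  ρ t η e j := (∏ i, (t e).1 i ^ F.wt j i) * (∏ i, (t e).2 i ^ F.w j i) * η e j
  P₀ := .pi univ fun _ => .pi F.movᶜ fun _ => ⊥
  van _ := ⊥
  obs y := .pi univ fun e => F.vert ((y e).1, (y e).2.1)
  s y e := (y e).2.1 - (y e).2.2

namespace Ch

/-- Thickened fields indexed by `A` with values in `ℂ^(h j)`. -/
def Fm (ch : Ch ι J) (A : Set J) (h : J → ℕ) : Type := ∀ j : A, ch.Th j →L[ℂ] (Fin (h j) → ℂ)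

variable {ch : Ch ι J} {n : Nm ι J} {A : Set J} {h h' : J → ℕ}

noncomputable instance : NormedAddCommGroup (ch.Fm A h) :=
  letI := Fintype.ofFinite A
  inferInstanceAs (NormedAddCommGroup (∀ j : A, ch.Th j →L[ℂ] (Fin (h j) → ℂ)))

noncomputable instance : NormedSpace ℂ (ch.Fm A h) :=
  letI := Fintype.ofFinite A
  inferInstanceAs (NormedSpace ℂ (∀ j : A, ch.Th j →L[ℂ] (Fin (h j) → ℂ)))

instance : FiniteDimensional ℂ (ch.Fm A h) :=
  inferInstanceAs (FiniteDimensional ℂ (∀ j : A, ch.Th j →L[ℂ] (Fin (h j) → ℂ)))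

instance : CompleteSpace (ch.Fm A h) := FiniteDimensional.complete ℂ _

open Classical in
/-- Extension by zero. -/
noncomputable def Fm.ex : ch.Fm A h →ₗ[ℂ] ∀ j, ch.Th j →L[ℂ] (Fin (h j) → ℂ) where
  toFun v j := if e : j ∈ A then v ⟨j, e⟩ else 0
  map_add' _ _ := funext fun j => by
    by_cases e : j ∈ A
    · simp only [e, dif_pos, Pi.add_apply]; rfl
    · simp only [e, dif_neg, not_false_eq_true, Pi.add_apply, add_zero]
  map_smul' c v := funext fun j => by
    by_cases e : j ∈ A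
    · simp only [e, dif_pos, Pi.smul_apply, RingHom.id_apply]; rfl
    · simp only [e, dif_neg, not_false_eq_true, Pi.smul_apply]; ext; simp

theorem Fm.ex_mem (v : ch.Fm A h) {j : J} (e : j ∈ A) : Fm.ex v j = v ⟨j, e⟩ := dif_pos e

theorem Fm.ex_not (v : ch.Fm A h) {j : J} (e : j ∉ A) : Fm.ex v j = 0 := dif_neg e

/-- Composition with maps of the tests and of the values. -/
noncomputable def Fm.cmp {ch' : Ch ι J} (a : ∀ j, (Fin (h j) → ℂ) →L[ℂ] (Fin (h' j) → ℂ))
    (b : ∀ j, ch'.Th j →L[ℂ] ch.Th j) : ch.Fm A h →ₗ[ℂ] ch'.Fm A h' where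
  toFun v j := a j ∘L v j ∘L b j
  map_add' v w := funext fun j => by
    change a j ∘L (v j + w j) ∘L b j = a j ∘L v j ∘L b j + a j ∘L w j ∘L b j
    simp only [ContinuousLinearMap.add_comp, ContinuousLinearMap.comp_add]
  map_smul' c v := funext fun j => by
    change a j ∘L (c • v j) ∘L b j = c • (a j ∘L v j ∘L b j)
    simp only [ContinuousLinearMap.smul_comp, ContinuousLinearMap.comp_smul]

/-- Evaluation of thickened fields. -/
noncomputable def uF (u : ∀ j, (Fin (h j) → ℂ) →L[ℂ] ℂ) : ch.Fm A h →ₗ[ℂ] ∀ j, ch.Th j →ₗ[ℂ] ℂ where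
  toFun v j := (u j ∘L Fm.ex v j).toLinearMap
  map_add' v w := funext fun j => by
    rw [map_add, Pi.add_apply, ContinuousLinearMap.comp_add]; rfl
  map_smul' c v := funext fun j => by
    rw [map_smul, Pi.smul_apply, ContinuousLinearMap.comp_smul]; rfl

theorem uF_apply (u : ∀ j, (Fin (h j) → ℂ) →L[ℂ] ℂ) (v : ch.Fm A h) (j : J) (μ : ch.Th j) :
    uF u v j μ = u j (Fm.ex v j μ) := rfl

/-- Evaluation of thickened fields at a point. -/
noncomputable abbrev uZ (z : ch.Pt) {ch' : Ch ι J} : ch'.Fm A (fun j => ch.h (some j)) →ₗ[ℂ] ∀ j, ch'.Th j →ₗ[ℂ] ℂ :=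
  uF fun j => z.2 (some j)

/-- The action on thickened fields. -/
noncomputable def ρM (c : J → ℂ) (g : HV ch.M ch.M)
    (a : ∀ j, (Fin (h j) → ℂ) →L[ℂ] (Fin (h j) → ℂ)) (v : ch.Fm A h) : ch.Fm A h :=
  Fm.cmp (fun j => c j • a j) (fun _ => pbT g _) v

variable (ch) in
/-- The dimensions of the spaces of values of the fields. -/
abbrev hf (j : J) : ℕ := ch.h (some j)

variable (A) in
/-- The fields in `A`. -/
noncomputable def qX : ch.W ν →L[ℂ] ch.Fm A ch.hf :=
  LinearMap.toContinuousLinearMap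
    { toFun := fun x j => x.X j, map_add' := fun _ _ => rfl, map_smul' := fun _ _ => rfl }

theorem qX_apply (x : ch.W ν) (j : A) : qX A x j = x.X j := rfl

/-- The vector with given fields in `A`. -/
noncomputable def ιX : ch.Fm A ch.hf →L[ℂ] ch.W ν :=
  LinearMap.toContinuousLinearMap
    { toFun := fun v => W.mk' 0 0 0 (Fm.ex v)
      map_add' := fun v w => W.ext (fun _ => (add_zero _).symm) (fun _ => (add_zero _).symm)
        (add_zero _).symm fun j => congrFun (map_add Fm.ex v w) j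
      map_smul' := fun c v => W.ext (fun _ => by ext; exact (mul_zero c).symm)
        (fun _ => by ext; exact (mul_zero c).symm) (by ext; exact (mul_zero c).symm)
        fun j => congrFun (map_smul Fm.ex c v) j }

theorem ιX_apply (v : ch.Fm A ch.hf) : (ιX v : ch.W ν) = W.mk' 0 0 0 (Fm.ex v) := rfl

/-- The point of `gr x` over a marked point. -/
noncomputable def ptz (x : ch.W ν) (a : ν) : ch.Pt :=
  (x.p a, Classical.epsilon fun u => (x.p a, u) ∈ gr x)

variable (A) in
/-- The mismatch of the fields. -/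
noncomputable def mm (x : ch.W ν) (w : ch.Lb n ν') : ch.Fm A (ch.re n).hf :=
  fun j => w.2.2 (some j) ∘L x.X j - w.1.X j ∘L pbT w.2.1 _

variable (A) in
/-- The canonical lift of the fields of `x` to the curve of the label. -/
noncomputable def lfX (x : ch.W ν) (w : ch.Lb n ν') : (ch.re n).Fm A (ch.re n).hf :=
  fun j => Classical.epsilon fun X : (ch.re n).Th j →L[ℂ] (ch.re n).E (some j) =>
    ∀ z ∈ gr w.1, ∀ μ, z.2 (some j) (X μ) = fld x (apV w.2.1 z.1) j * val μ z.1

variable (F : Fam S Λ R J K) (e : K → ι → ℕ)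

/-- The differential of the section in the direction of the movable fields. -/
noncomputable def dSc (x : ch.WF ν κ Λ) : ch.Fm F.mov ch.hf →ₗ[ℂ] ch.P K where
  toFun v := (fun j z => ((pd F e x z).dEq pwT (uZ z v)).1 j,
    fun k z => ((pd F e x z).dEq pwT (uZ z v)).2 k)
  map_add' v w := by simp only [map_add]; rfl
  map_smul' c v := by simp only [map_smul]; rfl

theorem evZ_dSc (x : ch.WF ν κ Λ) (v : ch.Fm F.mov ch.hf) (z : ch.Pt) :
    evZ z (dSc F e x v) = (pd F e x z).dEq pwT (uZ z v) := rfl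

/-- The linearised equations on the curve of a label for the pulled back tests. -/
noncomputable def pdL (x : (ch.re n).WF ν' κ₁ Λ) (φ : HV n.M ch.M) (z : (ch.re n).Pt) :
    PD K ch.Zt ch.Th where
  tv := tvZ (apV φ z.1)
  D k ζ := (pd F e x z).D k fun i => ζ i ∘L φ i
  tot k ζ := (pd F e x z).tot k fun i => ζ i ∘L φ i

/-- The relation between a function on the curve, a function on the curve of the label and a
thickened field. -/
noncomputable def gm (l : Λ → ℂ) (w : ch.Lb n (Mk ν' κ₁)) (z : (ch.re n).Pt) :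
    ch.P K × (ch.re n).P K × ch.Fm F.mov (ch.re n).hf →ₗ[ℂ] Fib ch.Th K ch.Zt :=
  (evZ (lpt w z)).coprod
    (-(resF K w.2.1 ∘ₗ evZ z).coprod ((pdL F e (l, w.1) w.2.1 z).dEq pwT ∘ₗ uZ z))

section glue

/-- The difference of the evaluations at the two branches of a labelled node. -/
noncomputable def jmp (x : (ch.re n).W (Mk ν (κ ⊕ κ'))) (a : κ') (l : Option J) :
    (ch.re n).E l →L[ℂ] ℂ := (ptz x (nq a false)).2 l - (ptz x (nq a true)).2 l

/-- The jump of a thickened field. -/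
noncomputable abbrev jmpF (x : (ch.re n).W (Mk ν (κ ⊕ κ'))) (a : κ') :
    ch.Fm A (ch.re n).hf →ₗ[ℂ] ∀ j, ch.Th j →ₗ[ℂ] ℂ := uF fun j => jmp x a (some j)

/-- The jump of a function, corrected by a thickened field. -/
noncomputable def jmpP (z : ch.WG n ν κ κ' Λ) (a : κ') :
    (ch.re n).P K × ch.Fm F.mov (ch.re n).hf →ₗ[ℂ] Fib ch.Th K ch.Zt :=
  (resF K z.2.2.1 ∘ₗ (evZ (ptz z.2.1 (nq a false)) - evZ (ptz z.2.1 (nq a true)))).coprod
    ((pdL F e (μG z) z.2.2.1 (ptz z.2.1 (nq a false))).dEq pwT ∘ₗ jmpF z.2.1 a)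

/-- The movable fields on the glued curve. -/
noncomputable def q₁ : ch.WG n ν κ κ' Λ →L[ℂ] ch.Fm F.mov ch.hf :=
  LinearMap.toContinuousLinearMap
    { toFun := fun z => qX F.mov z.1.2, map_add' := fun _ _ => rfl, map_smul' := fun _ _ => rfl }

/-- The movable fields on the glued curve. -/
noncomputable def ι₁ : ch.Fm F.mov ch.hf →L[ℂ] ch.WG n ν κ κ' Λ :=
  LinearMap.toContinuousLinearMap
    { toFun := fun v => ((0, ιX v), 0)
      map_add' := fun _ _ => by simp only [map_add, Prod.mk_add_mk, add_zero]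
      map_smul' := fun _ _ => by simp only [map_smul, Prod.smul_mk, smul_zero, RingHom.id_apply] }

/-- Forgetting the movable fields on the glued curve. -/
noncomputable def p₁ : ch.WG n ν κ κ' Λ →L[ℂ] ch.WG n ν κ κ' Λ :=
  LinearMap.toContinuousLinearMap
    { toFun := fun z => z - ι₁ F (q₁ F z)
      map_add' := fun _ _ => by rw [map_add, map_add, add_sub_add_comm]
      map_smul' := fun _ _ => by rw [map_smul, map_smul, RingHom.id_apply, smul_sub] }

/-- The movable fields on the normalised curve. -/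
noncomputable def q₂ : ch.WG n ν κ κ' Λ →L[ℂ] (ch.re n).Fm F.mov (ch.re n).hf :=
  LinearMap.toContinuousLinearMap
    { toFun := fun z => qX F.mov z.2.1, map_add' := fun _ _ => rfl, map_smul' := fun _ _ => rfl }

/-- The label with given first component. -/
noncomputable def Lb.inl : (ch.re n).W ν' →ₗ[ℂ] ch.Lb n ν' :=
  LinearMap.inl ℂ ((ch.re n).W ν') (HV n.M ch.M × ∀ l, ch.E l →L[ℂ] (ch.re n).E l)

/-- The movable fields on the normalised curve. -/
noncomputable def ι₂ : (ch.re n).Fm F.mov (ch.re n).hf →L[ℂ] ch.WG n ν κ κ' Λ :=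
  LinearMap.toContinuousLinearMap
    { toFun := fun v => (0, Lb.inl (ιX v))
      map_add' := fun _ _ => by simp only [map_add, Prod.mk_add_mk, add_zero]
      map_smul' := fun _ _ => by simp only [map_smul, Prod.smul_mk, smul_zero, RingHom.id_apply] }

/-- Forgetting the movable fields on the normalised curve. -/
noncomputable def p₂ : ch.WG n ν κ κ' Λ →L[ℂ] ch.WG n ν κ κ' Λ :=
  LinearMap.toContinuousLinearMap
    { toFun := fun z => z - ι₂ F (q₂ F z)
      map_add' := fun _ _ => by rw [map_add, map_add, add_sub_add_comm]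
      map_smul' := fun _ _ => by rw [map_smul, map_smul, RingHom.id_apply, smul_sub] }

/-- The action on the fields of the glued curve. -/
noncomputable def ρ₁ (a : ch.AG n ν κ κ' S) : ch.Fm F.mov ch.hf → ch.Fm F.mov ch.hf :=
  ρM (F.cS a.1.1) a.1.2.1 fun j => a.1.2.2.1 (some j)

/-- The action on the fields of the normalised curve. -/
noncomputable def ρ₂ (a : ch.AG n ν κ κ' S) :
    (ch.re n).Fm F.mov (ch.re n).hf → (ch.re n).Fm F.mov (ch.re n).hf :=
  ρM (F.cS a.1.1) a.2.1 fun j => a.2.2.1 (some j)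

/-- The action on the mismatch. -/
noncomputable def ρH (a : ch.AG n ν κ κ' S) :
    ch.Fm F.mov (ch.re n).hf → ch.Fm F.mov (ch.re n).hf :=
  ρM (F.cS a.1.1) a.1.2.1 fun j => a.2.2.1 (some j)

/-- The labelled point with the lifted fields. -/
noncomputable def lf (z : ch.WG n ν κ κ' Λ) : (ch.re n).WF ν (κ ⊕ κ') Λ :=
  μG (z + ι₂ F (lfX F.mov z.1.2 z.2))

variable (ch n ν κ κ')

/-- The data of the glued curve. -/
noncomputable abbrev kdL : KD (ch.AG n ν κ κ' S) (ch.WG n ν κ κ' Λ) (ch.P K) :=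
  (ch.kd ν κ F e).pb (fun a => a.1) Prod.fst

/-- The data of the normalised curve. -/
noncomputable abbrev kdN : KD (ch.AG n ν κ κ' S) (ch.WG n ν κ κ' Λ) ((ch.re n).P K) :=
  ((ch.re n).kd ν (κ ⊕ κ') F e).pb θG μG

/-- The data of both curves. -/
noncomputable def kdD : KD (ch.AG n ν κ κ' S) (ch.WG n ν κ κ' Λ)
    (ch.P K × (ch.re n).P K × ch.Fm F.mov (ch.re n).hf) where
  ρ a f := (ρF F a.1 f.1, ρF F (θG a) f.2.1, ρH F a f.2.2)
  P₀ := (ch.polF F e).prod (((ch.re n).polF F e).prod ⊤)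
  van z := (vanM F e z.1).prod ((vanM F e (μG z)).prod ⊥)
  obs z := (obsM F e z.1).prod ((obsM F e (μG z)).prod ⊤) ⊓
    ⨅ y ∈ gr z.2.1, LinearMap.ker (gm F e z.1.1 z.2 y)
  s z := (sctF F e z.1, sctF F e (μG z), mm F.mov z.1.2 z.2)

/-- The data of the normalised curve together with the matching conditions. -/
noncomputable def kdS : KD (ch.AG n ν κ κ' S) (ch.WG n ν κ κ' Λ)
    ((ch.re n).P K × ch.Fm F.mov (ch.re n).hf) where
  ρ a f := (ρF F (θG a) f.1, ρH F a f.2)
  P₀ := ((ch.re n).polF F e).prod ⊤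
  van z := (vanM F e (μG z)).prod (⨅ a, LinearMap.ker (jmpF z.2.1 a))
  obs z := (obsM F e (μG z)).prod ⊤ ⊓ ⨅ a, LinearMap.ker (jmpP F e z a)
  s z := (sctF F e (μG z), mm F.mov z.1.2 z.2)

/-- The matching conditions. -/
noncomputable def kdJ : KD (ch.AG n ν κ κ' S) (ch.WG n ν κ κ' Λ) (ch.Fm F.mov (ch.re n).hf) where
  ρ := ρH F
  P₀ := ⊤
  van z := ⨅ a, LinearMap.ker (jmpF z.2.1 a)
  obs z := ⨅ a, LinearMap.ker (jmpP F e z a ∘ₗ LinearMap.inr ℂ _ _)
  s z := mm F.mov z.1.2 z.2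

variable {ch n ν κ κ'} (T : Set ((ch.re n).WF ν (κ ⊕ κ') Λ))

/-- The labelled solutions. -/
def ZL : Set (ch.WG n ν κ κ' Λ) := Zf F T ∩ Prod.fst ⁻¹' ch.solF ν κ F

/-- The labelled solutions with their lifts. -/
def ZD : Set (ch.WG n ν κ κ' Λ) :=
  {z | z ∈ Zb F T ∧ z.1 ∈ ch.solF ν κ F ∧ μG z ∈ (ch.re n).solF ν (κ ⊕ κ') F ∧ mm F.mov z.1.2 z.2 = 0}

/-- The fields take the same values at the two branches of the pairs `κ'`. -/
def Mtd (x : (ch.re n).WF ν (κ ⊕ κ') Λ) : Prop := ∀ a : κ', vl x (nq a false) = vl x (nq a true)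

/-- The solutions on the normalised curve. -/
def ZN : Set (ch.WG n ν κ κ' Λ) := Zn F T ∩ μG ⁻¹' (ch.re n).solF ν (κ ⊕ κ') F

/-- The matched solutions on the normalised curve. -/
def ZS : Set (ch.WG n ν κ κ' Λ) := {z | z ∈ ZN F T ∧ Mtd (μG z)}

end glue

end Ch

end Vale.Agent.P269
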