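import Vale.Agent.P287Q.G.Glu.Vr
import Vale.Agent.P269.Map.GyB
import Vale.Agent.P287Q.G.Vir.Clo

set_option linter.unusedSectionVars false
set_option linter.style.haveILetI false

/-!
# Gluing: the abstract chain of comparisons
-/

namespace Vale.Agent.P269

open P291Z Set Function Topology Filter Module Holo Ch Ch.KD

namespace GlM

section top

variable {L D S N Z : Type} [TopologicalSpace L] [TopologicalSpace D] [TopologicalSpace S]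
  [TopologicalSpace N] [TopologicalSpace Z] {Φ₁ : D → S} {Φ₂ : D → L} {i : S → N} {Ψ : N → Z}
  {Φ : L → Z} (h₁ : IsHomeomorph Φ₁) (h₂ : IsHomeomorph Φ₂) (hi : IsClosedEmbedding i)
  (hΨ : IsHomeomorph Ψ) (e : ∀ x, Φ (Φ₂ x) = Ψ (i (Φ₁ x)))
include h₁ h₂ hi hΨ e

theorem emb : IsClosedEmbedding Φ ∧ range Φ = Ψ '' range i := by
  have a : Φ = (Ψ ∘ i ∘ Φ₁) ∘ h₂.homeomorph.symm := funext fun y => by
    obtain ⟨x, rfl⟩ := h₂.surjective y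
    exact (e x).trans (congrArg (Ψ ∘ i ∘ Φ₁) (h₂.homeomorph.symm_apply_apply x).symm)
  refine ⟨a ▸ (hΨ.isClosedEmbedding.comp (hi.comp h₁.isClosedEmbedding)).comp
    h₂.homeomorph.symm.isClosedEmbedding, ?_⟩
  rw [a, h₂.homeomorph.symm.surjective.range_comp, range_comp, h₁.surjective.range_comp]

theorem gys_eq [Nice L] [Nice D] [Nice S] [Nice N] [Nice Z] {t : Coch Z}
    (ht : supp (δ (pull Ψ t)) = ∅) (hs : supp (pull Ψ t) ⊆ range i) :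
    supp (δ t) = ∅ ∧ supp t ⊆ range Φ ∧
      ∀ v v', res Φ₂ v = res Φ₁ (gys i (pull Ψ t) (res Ψ v')) → v = gys Φ t v' := by
  obtain ⟨a, b⟩ := emb h₁ h₂ hi hΨ e
  have c : ∀ s : Coch Z, supp s ⊆ hΨ.homeomorph.symm ⁻¹' supp (pull Ψ s) := fun s => by
    have := supp_pull hΨ.homeomorph.symm.continuous (pull Ψ s)
    rwa [pull_pull, show Ψ ∘ hΨ.homeomorph.symm = id from funext hΨ.homeomorph.apply_symm_apply,
      pull_id] at this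
  have d : supp (δ t) = ∅ := subset_empty_iff.1 ((c _).trans (by rw [← δ_pull, ht]; exact subset_rfl))
  have f : supp t ⊆ range Φ := fun y hy =>
    b ▸ ⟨_, hs (c t hy), hΨ.homeomorph.apply_symm_apply y⟩
  refine ⟨d, f, fun v v' h => ?_⟩
  have j := hi.comp h₁.isClosedEmbedding
  have r := h₁.surjective.range_comp i
  rw [res_gys hi j (f := id) IsOpenEmbedding.id h₁.isOpenEmbedding (fun _ => rfl) r.ge ht hs, pull_id,
    res_res IsOpenEmbedding.id hΨ.isOpenEmbedding, comp_id, ← res_gys a j hΨ.isOpenEmbedding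
      h₂.isOpenEmbedding (fun y => (e y).symm) (fun y hy => by
        obtain ⟨z, k, l⟩ := b.le hy
        exact r.ge (hΨ.injective l ▸ k)) d f] at h
  rw [← push_res_homeo h₂ v, h, push_res_homeo h₂]

end top

variable {A A' W W' V₁ V₂ P P₁ P₂ P₃ P₄ : Type} [NormedRing A] [NormedAlgebra ℂ A]
  [NormedAddCommGroup W] [NormedSpace ℂ W] [NormedRing A'] [NormedAlgebra ℂ A']
  [NormedAddCommGroup W'] [NormedSpace ℂ W'] [NormedAddCommGroup V₁] [NormedSpace ℂ V₁]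
  [NormedAddCommGroup V₂] [NormedSpace ℂ V₂] [FiniteDimensional ℂ A] [FiniteDimensional ℂ W]
  [FiniteDimensional ℂ A'] [FiniteDimensional ℂ W'] [FiniteDimensional ℂ V₁] [FiniteDimensional ℂ V₂]
  [AddCommGroup P] [Module ℂ P] [TopologicalSpace P] [IsTopologicalAddGroup P] [ContinuousSMul ℂ P]
  [T2Space P] [AddCommGroup P₁] [Module ℂ P₁] [TopologicalSpace P₁] [IsTopologicalAddGroup P₁]
  [ContinuousSMul ℂ P₁] [T2Space P₁] [AddCommGroup P₂] [Module ℂ P₂] [TopologicalSpace P₂]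
  [IsTopologicalAddGroup P₂] [ContinuousSMul ℂ P₂] [T2Space P₂] [AddCommGroup P₃] [Module ℂ P₃]
  [TopologicalSpace P₃] [IsTopologicalAddGroup P₃] [ContinuousSMul ℂ P₃] [T2Space P₃]
  [AddCommGroup P₄] [Module ℂ P₄] [TopologicalSpace P₄] [IsTopologicalAddGroup P₄]
  [ContinuousSMul ℂ P₄] [T2Space P₄] {act : A → W → W} {act' : A' → W' → W'} [IsAct act univ]
  {T M Z O B : Set W} {T' Z' O' : Set W'} {n r m d : ℕ}

theorem pcy_cast (h : PCy T M n) (e : M.Nonempty → n = m) : PCy T M m := by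
  rcases M.eq_empty_or_nonempty with rfl | a
  · obtain rfl : T = ∅ := subset_empty_iff.1 (h.dense.trans closure_empty.le)
    exact ⟨nofun, h.lc, h.sub, h.opn, by simpa using dimLt_empty m, h.dense⟩
  · exact e a ▸ h

/-- cycles from properness -/
theorem cyc_of (h : PCy T M n) (hi : Ivt act M) (hp : Prp act M)
    (hf : M ⊆ closure {x | x ∈ M ∧ Fre act x}) :
    Cyc act T M (n - finrank ℂ A) ∧ (T.Nonempty → finrank ℂ A ≤ n) :=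
  have a : M.Nonempty → finrank ℂ A ≤ n := fun ⟨x, b⟩ => hp.finrank_le hi (h.mfd x b)
  ⟨(pcy_cast h fun b => (Nat.add_sub_cancel' (a b)).symm).cyc hi hf, fun b => a (h.nonempty b)⟩

theorem cyc_cast (h : Cyc act T M n) (e : T.Nonempty → n = m) : Cyc act T M m :=
  (pcy_cast h.pcy fun a => congrArg _ (e (a.mono h.sub))).cyc h.inv h.free

theorem gd_of {D : KD A W P} (hi : Ivt act O) (hp : Prp act O) (hl : IsLocallyClosed O) (e : Z ⊆ O)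
    (hz : ∀ x ∈ O, D.s x ∈ D.van x ↔ x ∈ Z) (ok : D.Ok act O n r) : D.Gd act Z O n r :=
  haveI : IsAct act O := IsAct.mono inferInstance (subset_univ O) hi
  haveI := FiniteDimensional.proper ℂ W
  haveI := hl.locallyCompactSpace
  ⟨⟨e, ⟨univ, isOpen_univ, (inter_univ _).symm⟩, ‹_›, hp.orb, hz⟩, ok⟩

/-- **principal bundles** -/
theorem bun_vr [IsAct act' univ] {θ : A' →L[ℂ] A} {f : W' → W} (b : Bun act' act T' B θ f)
    (hi : Ivt act' T') (hi' : Ivt act B) (hs : SurjOn f T' B) {D : KD A W P} (h : D.Gd act Z O n r)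
    [Nice (Quo act Z)] (e : O ⊆ B) (hp : Prp act O) (c : Cyc act O M d) (eZ : Z' = T' ∩ f ⁻¹' Z)
    (hf : EqM act' act Z' Z θ f) :
    ∃ h' : (D.pb θ f).Gd act' Z' (T' ∩ f ⁻¹' O) n r, Prp act' (T' ∩ f ⁻¹' O) ∧
      Cyc act' (T' ∩ f ⁻¹' O) (T' ∩ f ⁻¹' M) d ∧ IsHomeomorph hf.map ∧
      res hf.map (D.vr act Z O (h.fu d)) = (D.pb θ f).vr act' Z' _ (h'.fu d) := by
  have b' := b.restrict e
  have c' := b.cyc hi hi' e c
  have p := b.prp hi hi' e h.ivt hp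
  have i : Ivt act' (T' ∩ f ⁻¹' O) := fun a ha x hx =>
    ⟨hi a ha x hx.1, pre_of_eq (b.eqv a ha x hx.1) (h.ivt _ (b.isUnit ha) _ hx.2)⟩
  have h' : (D.pb θ f).Gd act' Z' (T' ∩ f ⁻¹' O) n r :=
    gd_of i p c'.lc (eZ ▸ inter_subset_inter_right _ (preimage_mono h.dom.sub))
      (fun x hx => (h.dom.zero _ hx.2).trans (eZ ▸ (and_iff_right hx.1).symm))
      (h.ok.pb' b'.toEt.eqM)
  haveI := h.dom.isAct
  haveI := h'.dom.isAct
  haveI := h.nice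
  obtain ⟨k, l⟩ := b'.res_fnd i h.ivt h.dom.orb c c'.lc
  obtain ⟨s, t⟩ := h'.vr_pull h b'.toEt (B := .id) ⟨fun _ a => a, fun _ _ _ _ => rfl,
    fun _ _ _ a => a, fun x _ => (sub_self (D.s (f x))).symm ▸ zero_mem (D.van (f x)), fun _ _ _ _ a => a⟩
    (fun _ _ _ _ a => a) (fun _ => rfl) hf.maps k (fun _ => rfl) (Φ := hf.map) fun _ => rfl
  refine ⟨h', p, c', ⟨s.continuous, s.isOpenMap, s.injective, fun y => ?_⟩, (t _).trans ?_⟩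
  · obtain ⟨y, rfl⟩ := Quot.exists_rep y
    obtain ⟨x, u, v⟩ := hs (e (h.dom.sub y.2))
    exact ⟨Quo.mk act' ⟨x, eZ ▸ ⟨u, pre_of_eq v y.2⟩⟩, congrArg (Quo.mk act) (Subtype.ext v)⟩
  · exact congrArg _ l

section tt

variable {ρ : A → V₁ → V₁} {p : W →L[ℂ] W} {q : W →L[ℂ] V₁} {ι : V₁ →L[ℂ] W} {D₁ : KD A W P}
  {D₀ : KD A W P₁} {Z₁ Z₀ O₁ : Set W} {C : P →ₗ[ℂ] P₁} {E : W → V₁ →ₗ[ℂ] P} {ζ : W → V₁}
  (t : Tt D₁ D₀ act ρ p q Z₁ Z₀ O₁ C E ζ) (s : Spt act ρ p q ι)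
include t s

theorem tt_eqM : EqM act act Z₁ Z₀ id p :=
  .same (fun x a => ((t.graph x).1 a).1) p.continuous.continuousOn fun a ha x _ => s.p_act a ha x

theorem tt_lift (h0 : ∀ x ∈ Z₀, q x = 0) (hi : Ivt act Z₁) :
    EqM act act Z₀ Z₁ id fun x => x + ι (ζ x) :=
  .same (fun _ a => t.mem s h0 a)
    (continuousOn_id.add (ι.continuous.comp_continuousOn t.cont)) fun a ha x hx => by
      have b := (t.graph _).1 (hi a ha _ (t.mem s h0 hx))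
      have c : p (act a (x + ι (ζ x))) = act a x := by rw [s.p_act a ha, s.p_add (h0 x hx)]
      rw [← s.add (act a (x + ι (ζ x))), b.2, c]

end tt

/-- **the chain of comparisons** -/
theorem chain {ρ₁ : A → V₁ → V₁} {p₁ : W →L[ℂ] W} {q₁ : W →L[ℂ] V₁} {ι₁ : V₁ →L[ℂ] W}
    {ρ₂ : A → V₂ → V₂} {p₂ : W →L[ℂ] W} {q₂ : W →L[ℂ] V₂} {ι₂ : V₂ →L[ℂ] W}
    (s₁ : Spt act ρ₁ p₁ q₁ ι₁) (s₂ : Spt act ρ₂ p₂ q₂ ι₂) {D : KD A W P} {L : KD A W P₁}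
    {S : KD A W P₂} {N : KD A W P₃} {J : KD A W P₄} {ZD ZL ZS ZN OD OL ON ML MN : Set W}
    {nD rD nL rL nS rS nN rN nJ rJ dL dN : ℕ} (hD : D.Gd act ZD OD nD rD) (hL : L.Gd act ZL OL nL rL)
    (hS : S.Gd act ZS ON nS rS) (hN : N.Gd act ZN ON nN rN) (hJ : J.Gd act ZS ZN nJ rJ)
    [Nice (Quo act ZL)] [Nice (Quo act ZS)] (cL : Cyc act OL ML dL) (cN : Cyc act ON MN dN)
    (z₁ : ∀ x ∈ ON, q₁ x = 0) (z₂ : ∀ x ∈ OL, q₂ x = 0)
    (o₁ : ∃ U, IsOpen U ∧ OD = p₁ ⁻¹' ON ∩ U) (o₂ : ∃ U, IsOpen U ∧ OD = p₂ ⁻¹' OL ∩ U)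
    {B₁ E₁ ζ₁ B₂ E₂ ζ₂} (t₁ : Tt D S act ρ₁ p₁ q₁ ZD ZS OD B₁ E₁ ζ₁)
    (t₂ : Tt D L act ρ₂ p₂ q₂ ZD ZL OD B₂ E₂ ζ₂) (r₁ : ZD.Nonempty → rD = finrank ℂ V₁ + rS)
    (r₂ : rD = finrank ℂ V₂ + rL) (r₃ : rS = rJ + rN)
    (hd : ZD.Nonempty → dN + finrank ℂ V₁ = dL + finrank ℂ V₂) {C₁ C₀}
    (l₁ : S.Lin N id id ON C₁) (l₀ : J.Lin S id id ZN C₀) (i₀ : J.Inj S id ZS C₀)
    (j₁ : S.Srj N id ZS C₁) (hc : ∀ w, C₁ (C₀ w) = 0) :
    IsHomeomorph (tt_eqM t₁ s₁).map ∧ IsHomeomorph (tt_eqM t₂ s₂).map ∧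
      res (tt_eqM t₂ s₂).map (L.vr act ZL OL (hL.fu dL)) =
        res (tt_eqM t₁ s₁).map (J.vr act ZS ZN (N.vr act ZN ON (hN.fu dN))) := by
  obtain ⟨a, b⟩ := Gd.vr_tot' s₁ hD hS z₁ cN o₁ t₁ r₁ (Φ := (tt_eqM t₁ s₁).map) fun _ => rfl
  obtain ⟨c, f⟩ := Gd.vr_tot' s₂ hD hL z₂ cL o₂ t₂ (fun _ => r₂) (Φ := (tt_eqM t₂ s₂).map) fun _ => rfl
  refine ⟨a, c, ?_⟩
  rcases ZD.eq_empty_or_nonempty with rfl | g
  · haveI : IsEmpty (Quo act (∅ : Set W)) := ⟨fun z => z.out.2⟩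
    exact Orb.BM_eq_of_isEmpty _ _
  · rw [f, ← hd g, ← b, hS.vr_comp hN hJ l₁ l₀ i₀ j₁ (fun _ _ w _ => (hc w).symm ▸ zero_mem _)
      fun _ => r₃]
    rfl

end GlM

end Vale.Agent.P269
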