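import Vale.Agent.P287Q.G.Glu.GH
import Vale.Agent.P287Q.G.Glu.MainA
import Vale.Agent.P287Q.G.Glu.Sec
import Vale.Agent.P287Q.G.Glu.Prp

set_option linter.unusedSectionVars false
set_option linter.style.haveILetI false

/-!
# Gluing: the labelled space is a cycle
-/

namespace Vale.Agent.P269.Ch

open P291Z Set Function Topology Filter Module Holo KD GlM

theorem _root_.Vale.Agent.P269.Holo.Et.finrank_le {A A' W W' : Type} [NormedRing A]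
    [NormedAlgebra ℂ A] [NormedAddCommGroup W] [NormedSpace ℂ W] [NormedRing A'] [NormedAlgebra ℂ A']
    [NormedAddCommGroup W'] [NormedSpace ℂ W'] [FiniteDimensional ℂ A] {act : A → W → W}
    {act' : A' → W' → W'} {T : Set W} {T' : Set W'} {θ : A →L[ℂ] A'} {f : W → W'}
    (h : Et act act' T T' θ f) : finrank ℂ A' ≤ finrank ℂ A :=
  θ.toLinearMap.finrank_le_finrank_of_surjective h.surj

variable {S Λ R J K ι ν κ κ' : Type} [Fintype S] [Fintype Λ] [Fintype R] [Fintype J]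
  [Fintype K] [Fintype ι] [DecidableEq ι] [Fintype ν] [Fintype κ] [Fintype κ']
  {ch : Ch ι J} {n : Nm ι J} {F : Fam S Λ R J K} {e : K → ι → ℕ} {K₀ : RD R} {ℓ : R → ι → ℤ}
  {T M : Set ((ch.re n).WF ν (κ ⊕ κ') Λ)} {N : ℕ} {U : Set (ch.WF ν κ Λ)}

theorem Ivt.inter' {A W : Type} [NormedRing A] {act : A → W → W} {B B' : Set W} (h : Ivt act B)
    (h' : Ivt act B') : Ivt act (B ∩ B') := fun a ha x hx => ⟨h a ha x hx.1, h' a ha x hx.2⟩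

theorem ivt_dom (hF : F.Inv) : Ivt (actF F.toWt) (ch.dom ν κ F e) := fun _ hs _ => actF_mem_dom hF hs

theorem ivt_solF (hF : F.Inv) : Ivt (actF F.toWt) (ch.solF ν κ F) := fun _ hs _ =>
  actF_mem_solF hF hs

theorem Pr.ivtB (h : Pr F U) (hF : F.Inv) : Ivt (actF F.toWt) (ch.baseF ν κ F.B ∩ U) :=
  fun s hs x a => ⟨actF_mem_baseF hs a.1 (hF.invB _ (isUnit_S hs) _ a.1.1), h.inv s hs x a.2⟩

theorem Zn_inter (h : M ⊆ T) : (Zn F T : Set (ch.WG n ν κ κ' Λ)) ∩ μG ⁻¹' M = Zn F M :=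
  Set.ext fun _ => ⟨fun a => ⟨⟨a.1.1.1, a.2, a.1.1.2.2⟩, a.1.2⟩,
    fun a => ⟨⟨⟨a.1.1, h a.1.2.1, a.1.2.2⟩, a.2⟩, a.1.2.1⟩⟩

theorem μG_p₁ (z : ch.WG n ν κ κ' Λ) : μG (p₁ F z) = μG z := by rw [p₁_apply]; rfl

theorem fst_p₂ (z : ch.WG n ν κ κ' Λ) : (p₂ F z).1 = z.1 := by rw [p₂_apply]

theorem ivt_ZD (hF : F.Inv) (hT : Ivt (actF F.toWt) T) :
    Ivt (actG F.toWt) (ZD F T : Set (ch.WG n ν κ κ' Λ)) := fun a ha z hz =>
  ⟨ivt_Zb hT a ha z hz.1, ivt_fst (ivt_solF hF) a ha z hz.2.1, ivt_μG (ivt_solF hF) a ha z hz.2.2.1,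
    (mm_act ha _).trans ((congrArg _ hz.2.2.2).trans (ρM_zero _ _ _))⟩

theorem ivt_OF (hF : F.Inv) (hT : Ivt (actF F.toWt) T) (hU : Ivt (actF F.toWt) U) :
    Ivt (actG F.toWt) (OF F e T U : Set (ch.WG n ν κ κ' Λ)) :=
  Ivt.inter' (ivt_Zf hT) (ivt_fst (Ivt.inter' hU (ivt_dom hF)))

theorem Pr.prp_Zb (hU : Pr F U) (hn : ch.GN n κ') (hF : F.Inv) (hT : Lev F T)
    {O : Set (ch.WG n ν κ κ' Λ)} (hO : ∀ z ∈ O, z ∈ Zb F T ∧ z.1 ∈ U) :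
    Prp (actG F.toWt : ch.AG n ν κ κ' S → _) O :=
  (prp_Gl hn hU.prp (hU.ivtB hF)).mono fun z a =>
    ⟨(hO z a).1.1, (Zb.adm hn hF hT.adm (hO z a).1).1, (hO z a).2⟩

theorem Std.exists_OF (hs : ch.Std F e K₀ ℓ) (hn : ch.GN n κ') (hU : IsOpen U) :
    ∃ V : Set (ch.WG n ν κ κ' Λ), IsOpen V ∧ ∀ T, Lev F T → ∀ z ∈ Zb F T,
      z ∈ Prod.fst ⁻¹' (U ∩ ch.dom ν κ F e) ↔ z ∈ V := by
  obtain ⟨V, a, b⟩ := hs.dom_open (ν := ν) (κ := κ)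
  refine ⟨Prod.fst ⁻¹' (U ∩ V), (hU.inter a).preimage continuous_fst, fun T hT z hz => ?_⟩
  rw [b]
  exact and_congr_right fun _ => and_iff_right (Zb.adm hn hs.inv hT.adm hz)

theorem free_OF (hs : ch.Std F e K₀ ℓ) (hn : ch.GN n κ') (hU : Pr F U) (hT : Lev F T) :
    OF F e T U ⊆ closure {z | z ∈ OF F e T U ∧ Fre (actG F.toWt : ch.AG n ν κ κ' S → _) z} := by
  intro z hz
  obtain ⟨V, a, b⟩ := hs.exists_OF hn hU.opn
  have c : Continuous fun y : ch.WF ν κ Λ => ((y, z.2) : ch.WG n ν κ κ' Λ) :=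
    continuous_id.prodMk continuous_const
  refine map_mem_closure c ((a.preimage c).inter_closure ⟨(b T hT z hz.1.1).1 hz.2,
    hU.den z.1 ⟨(Zb.adm hn hs.inv hT.adm hz.1.1).1, hz.2.1⟩⟩) ?_
  rintro _ ⟨f, g, X, k, rfl⟩
  have l : (((z.1.1, W.mk' z.1.2.Q z.1.2.p z.1.2.Ξ X), z.2) : ch.WG n ν κ κ' Λ) ∈ Zb F T :=
    ⟨hz.1.1.1.congr X _, hz.1.1.2.1, fun j hj => (hz.1.1.2.2 j hj).congr (k j hj) rfl rfl⟩
  exact ⟨⟨⟨l, hz.1.2⟩, (b T hT _ l).2 f⟩, l.1.fre hn g⟩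

namespace GH

variable (h : ch.GH n F e K₀ ℓ T M N)
include h

theorem cyc' {U' : Set ((ch.re n).WF ν (κ ⊕ κ') Λ)} (hU' : Pr F U') :
    Cyc (actF F.toWt) (T ∩ U') (M ∩ U') (N - finrank ℂ ((ch.re n).AF ν (κ ⊕ κ') S)) ∧
      ((T ∩ U').Nonempty → finrank ℂ ((ch.re n).AF ν (κ ⊕ κ') S) ≤ N) :=
  cyc_of (h.pcy.inter hU'.opn) (hU'.ivt h.levM) (hU'.prp_lev h.levM) (hU'.free h.levM)

theorem vd {U' : Set ((ch.re n).WF ν (κ ⊕ κ') Λ)} (hU' : Pr F U') :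
    Vd F e T (T ∩ U' ∩ (ch.re n).dom ν _ F e) (M ∩ U' ∩ (ch.re n).dom ν _ F e)
      (N - finrank ℂ ((ch.re n).AF ν (κ ⊕ κ') S)) :=
  (h.std.re n).vd h.lev.adm h.lev.inv hU'.opn (hU'.ivt h.lev) (fun _ a => hU'.sol a.1)
    (hU'.prp_lev h.lev) (h.cyc' hU').1

theorem bun : Bun (actG F.toWt : ch.AG n ν κ κ' S → _) (actF F.toWt) (Zn F T) T θG μG :=
  bun_μG h.num h.lev fun _ _ => eventually_nhdsWithin_of_forall fun _ a => h.sur a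

theorem pcy_Zb : PCy (Zb F T : Set (ch.WG n ν κ κ' Λ)) (Zb F M) (N + (finrank ℂ (ch.AG n ν κ κ' S) -
    finrank ℂ ((ch.re n).AF ν (κ ⊕ κ') S)) + finrank ℂ (ch.Fm F.mov ch.hf)) := by
  have a := h.bun.pcy (ivt_Zn h.lev.inv) h.lev.inv Subset.rfl h.pcy
    ((Nat.add_assoc _ _ _).trans (congrArg _ (Nat.sub_add_cancel h.bun.toEt.finrank_le)))
  rw [Zn_inter Subset.rfl, Zn_inter h.pcy.sub] at a
  rw [Zb_eq₁, Zb_eq₁]
  exact spt₁.pcy_lift (fun _ b => q₁_eq_zero.2 b.2) a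

/-- the labelled space is a cycle -/
theorem pcy_Zf : ∃ m, PCy (Zf F T : Set (ch.WG n ν κ κ' Λ)) (Zf F M) m ∧ (T.Nonempty →
    m + finrank ℂ ((ch.re n).AF ν (κ ⊕ κ') S) + finrank ℂ ((ch.re n).Fm F.mov (ch.re n).hf) =
      N + finrank ℂ (ch.AG n ν κ κ' S) + finrank ℂ (ch.Fm F.mov ch.hf)) := by
  have a := h.pcy_Zb
  rw [Zb_eq₂ h.lev, Zb_eq₂ h.levM] at a
  obtain ⟨b, c⟩ := spt₂.pcy_push (T := Zf F T) (M := Zf F M) (fun _ b => q₂_eq_zero.2 b.2)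
    (fun _ b => ⟨⟨b.1.1, h.pcy.sub b.1.2.1, b.1.2.2⟩, b.2⟩) a
  refine ⟨_, b, fun ⟨y, f⟩ => ?_⟩
  obtain ⟨z, g, -⟩ := h.sur f
  have k := c ⟨_, (Zb_eq₂ h.lev).le g.1⟩
  have l := h.bun.toEt.finrank_le
  omega

variable (hU : Pr F U)
include hU

theorem prp_OF : Prp (actG F.toWt : ch.AG n ν κ κ' S → _) (OF F e T U) :=
  hU.prp_Zb h.num h.std.inv h.lev fun _ a => ⟨a.1.1, a.2.1⟩

theorem cyc_dim : Cyc (actG F.toWt : ch.AG n ν κ κ' S → _) (OF F e T U) (OF F e M U)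
    (ch.dL ν κ κ' n F N) ∧ ((OF F e T U).Nonempty →
      ch.dL ν κ κ' n F N + finrank ℂ ((ch.re n).AF ν (κ ⊕ κ') S) +
      finrank ℂ ((ch.re n).Fm F.mov (ch.re n).hf) = N + finrank ℂ (ch.Fm F.mov ch.hf)) := by
  obtain ⟨m, a, b⟩ := h.pcy_Zf
  obtain ⟨V, c, d⟩ := h.std.exists_OF h.num hU.opn
  have f : ∀ T, Lev F T → Zf F T ∩ V = OF F e T U := fun T hT =>
    Set.ext fun z => and_congr_right fun g => (d T hT z g.1).symm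
  have g := a.inter c
  rw [f T h.lev, f M h.levM] at g
  obtain ⟨k, l⟩ := cyc_of g (ivt_OF h.std.inv h.levM.inv hU.inv)
    (hU.prp_Zb h.num h.std.inv h.levM fun _ a => ⟨a.1.1, a.2.1⟩) (free_OF h.std h.num hU h.levM)
  refine ⟨cyc_cast k fun ⟨z, s⟩ => ?_, fun ⟨z, s⟩ => ?_⟩ <;>
  · have t := b ⟨_, s.1.1.2.1⟩
    have u := l ⟨z, s⟩
    unfold dL
    omega

theorem cyc : Cyc (actG F.toWt : ch.AG n ν κ κ' S → _) (OF F e T U) (OF F e M U)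
    (ch.dL ν κ κ' n F N) := (h.cyc_dim hU).1

theorem dim (hne : (OF F e T U).Nonempty) :
    ch.dL ν κ κ' n F N + finrank ℂ ((ch.re n).AF ν (κ ⊕ κ') S) +
      finrank ℂ ((ch.re n).Fm F.mov (ch.re n).hf) = N + finrank ℂ (ch.Fm F.mov ch.hf) :=
  (h.cyc_dim hU).2 hne

theorem gd : ∃ v, (ch.kdL ν κ κ' n F e).Gd (actG F.toWt) (ZL F T) (OF F e T U) v
    (ch.rk F ℓ K₀).toNat :=
  (h.std.ok (ν := ν) (κ := κ)).imp fun _ a => gd_of (ivt_OF h.std.inv h.lev.inv hU.inv) (h.prp_OF hU)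
    (h.cyc hU).lc (fun _ b => ⟨b.1, hU.sol b.2, mem_dom b.2 (Zb.adm h.num h.std.inv h.lev.adm b.1.1)⟩)
    (fun _ b => (h.std.zero b.2.2).trans (and_iff_right b.1).symm)
    (a.pb' (eqM_fst.mono (subset_univ _) fun _ b => b.2.2))

end GH

end Vale.Agent.P269.Ch
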