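import Vale.Agent.P287Q.G.Glu.NdDefs
import Vale.Agent.P287Q.G.Bas.BC

/-!
# Persistent nodes as pairs of marked points: relabelling and rescaling
-/

set_option linter.unusedSectionVars false

namespace Vale.Agent.P269.Nd

open P291Z Set Function Topology Filter Module Orb Holo Ch Ch.KD Base

variable {S Λ R J K I ι ν κ ε : Type} [Fintype S] [Fintype Λ] [Fintype R] [Fintype J] [Fintype K]
  [Fintype I] [Fintype ι] [DecidableEq ι] [Fintype ν] [Fintype κ] [Fintype ε] {ch : Ch ι J}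
  {F : Fam S Λ R J K} {Z₀ : Set J} {φ : I → J} {ℓ : R → ι → ℤ} {x : ch.WF ν (κ ⊕ ε) Λ}
  {x' : ch.WF (ν ⊕ ε × Bool) κ Λ} {z : ch.WF (ν ⊕ ε × Bool) κ Λ × (ε × R → ℂ)}

theorem dW_uW (x : ch.WF ν (κ ⊕ ε) Λ) : dW (uW x) = x :=
  Prod.ext rfl (W.ext (fun _ => rfl)
    (fun n => congrArg x.2.p ((unp ν κ ε).apply_symm_apply n)) rfl fun _ => rfl)

theorem uW_dW (x : ch.WF (ν ⊕ ε × Bool) κ Λ) : uW (dW x) = x :=
  Prod.ext rfl (W.ext (fun _ => rfl)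
    (fun n => congrArg x.2.p ((unp ν κ ε).symm_apply_apply n)) rfl fun _ => rfl)

section an

variable {P : Type*} [NormedAddCommGroup P] [NormedSpace ℂ P] {q : P}

theorem an_uW {f : P → ch.WF ν (κ ⊕ ε) Λ} (h : AnalyticAt ℂ f q) :
    AnalyticAt ℂ (fun y => uW (f y)) q :=
  have b : AnalyticAt ℂ (fun y => (f y).2) q := analyticAt_snd.comp h
  (analyticAt_fst.comp h).prod (W.an_iff.2
    ⟨fun l => (W.an_Q b l :), fun _ => (W.an_p b _ :), (W.an_Ξ b :), fun j => (W.an_X b j :)⟩)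

theorem an_dW {f : P → ch.WF (ν ⊕ ε × Bool) κ Λ} (h : AnalyticAt ℂ f q) :
    AnalyticAt ℂ (fun y => dW (f y)) q :=
  have b : AnalyticAt ℂ (fun y => (f y).2) q := analyticAt_snd.comp h
  (analyticAt_fst.comp h).prod (W.an_iff.2
    ⟨fun l => (W.an_Q b l :), fun _ => (W.an_p b _ :), (W.an_Ξ b :), fun j => (W.an_X b j :)⟩)

theorem an_tM {s : P → ε → ι → ℂ} (h : AnalyticAt ℂ s q) :
    AnalyticAt ℂ (fun y => (tM (s y) : ch.AF (ν ⊕ ε × Bool) κ S)) q := by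
  refine analyticAt_const.prod (analyticAt_const.prod (analyticAt_const.prod
    (analyticAt_pi_iff.2 ?_)))
  rintro ((n | ⟨e, _ | _⟩) | k)
  exacts [analyticAt_const, analyticAt_const, analyticAt_pi_iff.1 h e, analyticAt_const]

theorem an_tor' {s : P → ch.AF ν κ S} (h : AnalyticAt ℂ s q) (n : ν ⊕ κ) :
    AnalyticAt ℂ (fun y => (s y).2.2.2 n) q :=
  analyticAt_pi_iff.1 (analyticAt_snd.comp (analyticAt_snd.comp (analyticAt_snd.comp h))) n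

end an

theorem continuous_uW : Continuous (uW : ch.WF ν (κ ⊕ ε) Λ → _) :=
  continuous_iff_continuousAt.2 fun _ => (an_uW analyticAt_id).continuousAt

theorem continuous_dW : Continuous (dW : ch.WF (ν ⊕ ε × Bool) κ Λ → _) :=
  continuous_iff_continuousAt.2 fun _ => (an_dW analyticAt_id).continuousAt

theorem uW_act (W : Wt S Λ R J) (a : ch.AF ν (κ ⊕ ε) S) (x : ch.WF ν (κ ⊕ ε) Λ) :
    uW (actF W a x) = actF W (θu a) (uW x) :=
  Prod.ext rfl (Ch.W.ext (fun _ => rfl) (by rintro ((_ | _) | _) <;> rfl) rfl fun _ => rfl)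

theorem θd_θu (a : ch.AF ν (κ ⊕ ε) S) : θd (θu a) = a :=
  Prod.ext rfl (Prod.ext rfl (Prod.ext rfl (funext (by rintro (_ | _ | _) <;> rfl))))

theorem vl_uW (x : ch.WF ν (κ ⊕ ε) Λ) (n : Mk (ν ⊕ ε × Bool) κ) :
    vl (uW x) n = vl x (unp ν κ ε n) := rfl

theorem lead_uW : Lead (uW x).2 = Lead x.2 := by
  classical
  funext γ ρ
  have a : (∃ n, ∃ s : ι → ℂ, γ 0 = s • (uW x).2.p n) ↔ ∃ n, ∃ s : ι → ℂ, γ 0 = s • x.2.p n :=
    ((unp ν κ ε).surjective.exists (p := fun n => ∃ s : ι → ℂ, γ 0 = s • x.2.p n)).symm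
  refine propext (exists_congr fun f => and_congr_right' (and_congr_right' (eventually_congr
    (.of_forall fun t => forall₃_congr fun u _ μ => ?_))))
  rw [if_congr (or_congr Iff.rfl a) rfl rfl]
  rfl

theorem uW_mem_base : (uW x).2 ∈ ch.base _ ↔ x.2 ∈ ch.base _ := by
  simp only [base, mem_ofPred_eq, lead_uW]
  refine and_congr Iff.rfl (and_congr Iff.rfl (and_congr Iff.rfl (and_congr ?_
    (and_congr ?_ Iff.rfl))))
  · exact ((unp ν κ ε).surjective.forall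
      (p := fun n => x.2.p n ∈ crv x.2 ∧ ¬IsNode ch.o (crv x.2) (x.2.p n))).symm
  · exact ⟨fun h => (unp ν κ ε).surjective.forall₂.2 fun n n' s a => congrArg _ (h n n' s a),
      fun h n n' s a => (unp ν κ ε).injective (h _ _ s a)⟩

theorem rsd_uW (n : Mk (ν ⊕ ε × Bool) κ) : rsd (uW x).2 n = rsd x.2 (unp ν κ ε n) :=
  congrArg Classical.epsilon (funext fun ρ => by rw [lead_uW]; rfl)

theorem mem_baseF_iff {B : Set (Λ → ℂ)} : x ∈ ch.baseF ν (κ ⊕ ε) B ↔ uW x ∈ ch.baseF _ κ B ∧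
    ∀ e, rsd (uW x).2 (mq e false) = (-1) ^ ch.k * rsd (uW x).2 (mq e true) := by
  simp only [mem_baseF, uW_mem_base, rsd_uW, Sum.forall, and_assoc]
  rfl

theorem mem_adm_iff : x ∈ ch.adm ν (κ ⊕ ε) F ↔ x ∈ ch.baseF ν (κ ⊕ ε) F.B ∧ uW x ∈ ch.adm _ κ F ∧
    ∀ j ∉ F.mov, ∀ e, (vl (uW x) (mq e false)).2 j = (vl (uW x) (mq e true)).2 j :=
  ⟨fun ⟨a, b, c, d, f⟩ => ⟨a, ⟨(mem_baseF_iff.1 a).1, b, c, d, fun j hj q => f j hj (.inl q)⟩,
    fun j hj q => f j hj (.inr q)⟩, fun ⟨a, ⟨_, b, c, d, f⟩, g⟩ =>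
    ⟨a, b, c, d, fun j hj => Sum.forall.2 ⟨f j hj, g j hj⟩⟩⟩

theorem mem_solF_iff :
    x ∈ ch.solF ν (κ ⊕ ε) F ↔ x ∈ ch.baseF ν (κ ⊕ ε) F.B ∧ uW x ∈ ch.solF _ κ F :=
  and_congr_right fun a => ⟨fun b => ⟨(mem_baseF_iff.1 a).1, uW_mem_base.2 b.1, b.2⟩,
    fun b => ⟨a.2.1, b.2.2⟩⟩

/-- The inclusion of the groups as a homomorphism. -/
noncomputable def θuH : ch.AF ν (κ ⊕ ε) S →* ch.AF (ν ⊕ ε × Bool) κ S :=
  ⟨⟨θu, rfl⟩, fun _ _ => rfl⟩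

theorem isUnit_θu {a : ch.AF ν (κ ⊕ ε) S} (ha : IsUnit a) : IsUnit (θu a) := ha.map θuH

theorem bc_uW {W : Wt S Λ R J} {Z : Set (ch.WF ν (κ ⊕ ε) Λ)} {Z' : Set (ch.WF (ν ⊕ ε × Bool) κ Λ)}
    (h : MapsTo uW Z Z') : BC W W Z Z' (unp ν κ ε) id id θu uW :=
  ⟨⟨⟨Units.map θuH, Units.continuous_map θu.continuous, fun _ => rfl⟩, h,
    continuous_uW.continuousOn, fun a _ x _ => uW_act W a x⟩, fun _ => rfl, fun _ => rfl,
    fun _ => rfl, fun _ => by rintro ((_ | _) | _) <;> rfl, fun _ _ => rfl, fun _ _ => rfl,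
    fun _ _ => rfl, fun _ _ _ => rfl⟩

/-- The scalars at the new marked points. -/
abbrev aB (a : ch.AF (ν ⊕ ε × Bool) κ S) (e : ε) (b : Bool) : ι → ℂ := a.2.2.2 (.inl (.inr (e, b)))

theorem tor_neF {a : ch.AF ν κ S} (ha : IsUnit a) (n : ν ⊕ κ) (i : ι) : a.2.2.2 n i ≠ 0 :=
  (Cv.isUnit_iff.1 (isUnitF_iff.1 ha).2).2.2 n i

theorem cM_eq (q : ε × R) (a : ch.AF (ν ⊕ ε × Bool) κ S) :
    cM ℓ q a = chz (ℓ q.2) (aB a q.1 true) / chz (ℓ q.2) (aB a q.1 false) := rfl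

theorem chr_cM (ℓ : R → ι → ℤ) : Chr (cM ℓ : ε × R → ch.AF (ν ⊕ ε × Bool) κ S → ℂ) := by
  have a : ∀ q a, IsUnit a → AnalyticAt ℂ (cM ℓ q : ch.AF (ν ⊕ ε × Bool) κ S → ℂ) a :=
    fun q a ha => (an_prod_zpow (an_tor' analyticAt_id _) (tor_neF ha _) _).div
      (an_prod_zpow (an_tor' analyticAt_id _) (tor_neF ha _) _) (prod_zpow_ne (tor_neF ha _) _)
  refine ⟨fun q => ⟨div_self (chz_ne_zero fun _ => one_ne_zero), fun a b _ _ => ?_,
    fun b hb => (a q b hb).continuousAt⟩, a⟩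
  simp only [cM_eq]
  rw [← mul_div_mul_comm, ← chz_mul, ← chz_mul]
  rfl

theorem cM_θu {a : ch.AF ν (κ ⊕ ε) S} (ha : IsUnit a) (q : ε × R) : cM ℓ q (θu a) = 1 :=
  div_self (chz_ne_zero (tor_neF ha (.inr (.inr q.1))))

theorem prod_blk (w : I → R → ℤ) (u : ε × R → ℂ) (e : ε) (i : I) :
    ∏ q, u q ^ blk w (e, i) q = ∏ r, u (e, r) ^ w i r := by
  rw [Fintype.prod_prod_type, Finset.prod_eq_single e (fun b _ hb => by simp [blk, hb.symm])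
    (by simp)]
  simp [blk]

theorem rho_blk (w : I → R → ℤ) (z : ch.WF (ν ⊕ ε × Bool) κ Λ × (ε × R → ℂ)) (e : ε) (i : I) :
    rho (blk w) (rM φ) z (e, i) = rho w (r3 φ) (evE e z) i :=
  congrArg (· * _) (prod_blk w z.2 e i)

theorem evE_lab (w : I → R → ℤ) (σ : I → R → ℂ) (z : ch.WF (ν ⊕ ε × Bool) κ Λ × (ε × R → ℂ))
    (e : ε) : evE e (lab (blk w) (blk σ) (rM φ) z) = lab w σ (r3 φ) (evE e z) := by
  refine Prod.ext rfl (funext fun r => congrArg (fun t => z.2 (e, r) * Complex.exp (-t)) ?_)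
  rw [Fintype.sum_prod_type, Finset.sum_eq_single e (fun b _ hb => by simp [blk, hb]) (by simp)]
  simp [blk, rho_blk]

theorem isUnit_tM {s : ε → ι → ℂ} (h : ∀ e i, s e i ≠ 0) :
    IsUnit (tM s : ch.AF (ν ⊕ ε × Bool) κ S) := by
  refine isUnitF_iff.2 ⟨fun _ => one_ne_zero, isUnit_tor ?_⟩
  rintro ((n | ⟨e, _ | _⟩) | k) i
  exacts [one_ne_zero, one_ne_zero, h e i, one_ne_zero]

theorem tM_one : (tM 1 : ch.AF (ν ⊕ ε × Bool) κ S) = 1 :=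
  Prod.ext rfl (Prod.ext rfl (Prod.ext rfl (funext (by rintro ((_ | ⟨_, _ | _⟩) | _) <;> rfl))))

theorem θd_tM (s : ε → ι → ℂ) : θd (tM s : ch.AF (ν ⊕ ε × Bool) κ S) = 1 :=
  Prod.ext rfl (Prod.ext rfl (Prod.ext rfl (funext (by rintro (_ | _ | _) <;> rfl))))

theorem tM_comm {a : ch.AF (ν ⊕ ε × Bool) κ S} {s s' : ε → ι → ℂ}
    (h : ∀ e, s' e * aB a e true = aB a e false * s e) : tM s' * a = θu (θd a) * tM s := by
  refine Prod.ext (mul_comm _ _) (Prod.ext ((one_mul _).trans (mul_one _).symm)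
    (Prod.ext ((one_mul _).trans (mul_one _).symm) (funext ?_)))
  rintro ((n | ⟨e, _ | _⟩) | k)
  exacts [mul_comm _ _, mul_comm _ _, h e, mul_comm _ _]

theorem tM_mul (s s' : ε → ι → ℂ) :
    (tM (s * s') : ch.AF (ν ⊕ ε × Bool) κ S) = tM s * tM s' := by
  refine Prod.ext (mul_one _).symm (Prod.ext (mul_one _).symm (Prod.ext (mul_one _).symm
    (funext ?_)))
  rintro ((n | ⟨e, _ | _⟩) | k)
  exacts [(mul_one _).symm, (mul_one _).symm, rfl, (mul_one _).symm]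

theorem tM_inv {s : ε → ι → ℂ} (h : ∀ e i, s e i ≠ 0) :
    (tM s⁻¹ : ch.AF (ν ⊕ ε × Bool) κ S) * tM s = 1 := by
  rw [← tM_mul, ← tM_one]
  exact congrArg _ (funext₂ fun e i => inv_mul_cancel₀ (h e i))

theorem actF_tM (W : Wt S Λ R J) (s : ε → ι → ℂ) (x : ch.WF (ν ⊕ ε × Bool) κ Λ) :
    actF W (tM s) x =
      (x.1, act (1, 1, (dup (tM s : ch.AF (ν ⊕ ε × Bool) κ S).2).2.2) x.2) :=
  Prod.ext (W.actL_one _) (congrArg (act _) ((congrArg (scl · x.2) (funext fun _ =>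
    Finset.prod_eq_one fun _ _ => one_zpow _)).trans (scl_one _)))

theorem uW_gM (W : Wt S Λ R J) (z : ch.WF (ν ⊕ ε × Bool) κ Λ × (ε × R → ℂ)) :
    uW (gM W ℓ z) = actF W (tM (sM ℓ z)) z.1 := uW_dW _

/-- The prescribed values of the characters. -/
noncomputable def tt (z : ch.WF (ν ⊕ ε × Bool) κ Λ × (ε × R → ℂ)) (e : ε) (o : Option R) : ℂ :=
  o.elim (rsd z.1.2 (mq e false) / ((-1) ^ ch.k * rsd z.1.2 (mq e true))) fun r => (z.2 (e, r))⁻¹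

variable (ch) in
/-- The element of the torus with prescribed values of the characters. -/
noncomputable def co (ℓ : R → ι → ℤ) (t : Option R → ℂ) (i : ι) : ℂ := ∏ o, t o ^ dv ch ℓ o i

theorem sM_eq (z : ch.WF (ν ⊕ ε × Bool) κ Λ × (ε × R → ℂ)) (e : ε) :
    sM ℓ z e = co ch ℓ (tt z e) := rfl

theorem sg_ne : ((-1 : ℂ) ^ ch.k) ≠ 0 := pow_ne_zero _ (neg_ne_zero.2 one_ne_zero)

theorem tt_ne (hz : z.1.2 ∈ ch.base _) (hu : ∀ q, z.2 q ≠ 0) (e : ε) : ∀ o, tt z e o ≠ 0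
  | none => div_ne_zero (rsd_ne hz _) (mul_ne_zero sg_ne (rsd_ne hz _))
  | some _ => inv_ne_zero (hu _)

theorem sM_ne (hz : z.1.2 ∈ ch.base _) (hu : ∀ q, z.2 q ≠ 0) (e : ε) (i : ι) : sM ℓ z e i ≠ 0 :=
  prod_zpow_ne (tt_ne hz hu e) _

theorem gM_uW {W : Wt S Λ R J} {B : Set (Λ → ℂ)} (hx : x ∈ ch.baseF ν (κ ⊕ ε) B) :
    gM W ℓ (uW x, fun _ => 1) = x := by
  have a : sM ℓ (uW x, fun _ => 1) = 1 := funext₂ fun e i => Finset.prod_eq_one fun o _ => by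
    cases o
    · exact (congrArg (· ^ _) ((div_eq_one_iff_eq (mul_ne_zero sg_ne
        (rsd_ne (uW_mem_base.2 hx.2.1) _))).2 ((mem_baseF_iff.1 hx).2 e))).trans (one_zpow _)
    · exact (congrArg (· ^ _) inv_one).trans (one_zpow _)
  rw [gM, a, tM_one, actF_one, dW_uW]

theorem co_mul (t t' : Option R → ℂ) : co ch ℓ (t * t') = co ch ℓ t * co ch ℓ t' :=
  funext fun _ => prod_zpow_mul _ _ _

theorem prod_zpow_zpow {α β : Type} [Fintype α] [Fintype β] {t : α → ℂ} (ht : ∀ i, t i ≠ 0)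
    (v : α → β → ℤ) (w : β → ℤ) :
    ∏ b, (∏ a, t a ^ v a b) ^ w b = ∏ a, t a ^ ∑ b, v a b * w b := by
  simp only [← Finset.prod_zpow, ← zpow_mul, zpow_sum_ne (ht _)]
  exact Finset.prod_comm

section lat

variable {W : Wt S Λ R J} (hl : ch.Lat W ℓ)
include hl

theorem chz_co {t : Option R → ℂ} (ht : ∀ o, t o ≠ 0) (o : Option R) :
    chz (o.elim ch.χ ℓ) (co ch ℓ t) = t o := by
  obtain ⟨a, b, -⟩ := Classical.epsilon_spec hl.dual
  refine (prod_zpow_zpow ht _ _).trans ?_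
  simp only [mul_comm (dv ch ℓ _ _)]
  exact (Finset.prod_eq_single o (fun o' _ h => (congrArg (t o' ^ ·) (b o o' h)).trans (zpow_zero _))
    (by simp)).trans ((congrArg (t o ^ ·) (a o)).trans (zpow_one _))

theorem co_chz {s : ι → ℂ} (hs : ∀ i, s i ≠ 0) : (co ch ℓ fun o => chz (o.elim ch.χ ℓ) s) = s := by
  obtain ⟨-, -, c⟩ := Classical.epsilon_spec hl.dual
  refine funext fun i => (prod_zpow_zpow hs (fun i (o : Option R) => o.elim ch.χ ℓ i) _).trans ?_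
  have d : ∀ i', ∑ o : Option R, o.elim ch.χ ℓ i' * dv ch ℓ o i = Pi.single (M := fun _ => ℤ) i 1 i' :=
    fun i' => (Finset.sum_congr rfl fun _ _ => mul_comm _ _).trans (congrFun (c i) i')
  simp only [d]
  rw [Finset.prod_eq_single i (fun b _ h => by simp [h]) (by simp)]
  simp

theorem chz_wd {s : ι → ℂ} (hs : ∀ i, s i ≠ 0) (j : J) :
    chz (ch.wd j) s = ∏ r, chz (ℓ r) s ^ W.w j r := by
  refine Eq.trans ?_ (prod_zpow_zpow hs (fun i r => ℓ r i) _).symm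
  simp only [chz, hl.wd, mul_comm]

theorem chz_sM (hz : z.1.2 ∈ ch.base _) (hu : ∀ q, z.2 q ≠ 0) (e : ε) (r : R) :
    chz (ℓ r) (sM ℓ z e) = (z.2 (e, r))⁻¹ := chz_co hl (tt_ne hz hu e) (some r)

end lat

theorem rsd_actF {W : Wt S Λ R J} {a : ch.AF ν κ S} (ha : IsUnit a) {y : ch.WF ν κ Λ}
    (hy : y.2 ∈ ch.base _) (n : Mk ν κ) :
    rsd (actF W a y).2 n = chz ch.χ ((dup a.2).2.2 n) * rsd y.2 n :=
  rsd_act (x := scl _ y.2) hy (isUnit_dupF ha) n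

theorem gM_mem_baseF (hl : ch.Lat F.toWt ℓ) (hF : F.Inv) (hz : z.1 ∈ ch.baseF _ κ F.B)
    (hu : ∀ q, z.2 q ≠ 0) : gM F.toWt ℓ z ∈ ch.baseF ν (κ ⊕ ε) F.B := by
  have a : IsUnit (tM (sM ℓ z) : ch.AF (ν ⊕ ε × Bool) κ S) := isUnit_tM (sM_ne hz.2.1 hu)
  rw [mem_baseF_iff, uW_gM]
  refine ⟨actF_mem_baseF a hz (hF.invB _ isUnit_one _ hz.1), fun e => ?_⟩
  rw [rsd_actF a hz.2.1, rsd_actF a hz.2.1]
  change chz ch.χ 1 * _ = _ * (chz ch.χ (sM ℓ z e) * _)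
  rw [show chz ch.χ (sM ℓ z e) = _ from chz_co hl (tt_ne hz.2.1 hu e) none, chz_one, one_mul,
    mul_left_comm]
  exact (div_mul_cancel₀ _ (mul_ne_zero sg_ne (rsd_ne hz.2.1 _))).symm

theorem vl_gM₀ (W : Wt S Λ R J) (z : ch.WF (ν ⊕ ε × Bool) κ Λ × (ε × R → ℂ)) (e : ε) :
    vl (gM W ℓ z) (nq e false) = vl z.1 (mq e false) := by
  rw [gM, actF_tM]
  exact Prod.ext rfl (congrArg (fld z.1.2) (one_smul (ι → ℂ) _))

/-- the values at the branches of the new nodes, for the fields that are sections -/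
theorem vl_gM (hl : ch.Lat F.toWt ℓ) (hz : z.1.2 ∈ ch.base _) (hu : ∀ q, z.2 q ≠ 0) (e : ε) {j : J}
    (hj : ∀ c ∈ crv z.1.2, ∃ y, Val z.1.2 j c y) :
    vl (gM F.toWt ℓ z) (nq e false) = vl z.1 (mq e false) ∧
      (vl (gM F.toWt ℓ z) (nq e true)).2 j = (g3 F.toWt (evE e z)).2.2 j := by
  refine ⟨vl_gM₀ _ _ _, ?_⟩
  have a := (hz.2.2.2.1 (mq e true)).1
  rw [gM, actF_tM]
  refine (fld_smul a (hj _ a) (sM_ne hz hu e)).trans (congrArg (· * _) ?_)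
  simp only [chz_wd hl (sM_ne hz hu e), chz_sM hl hz hu, Pi.one_apply, one_zpow,
    Finset.prod_const_one, one_mul]
  rfl

theorem vl2_gM (hl : ch.Lat F.toWt ℓ) (hz : z.1 ∈ ch.solF _ κ F) (hu : ∀ q, z.2 q ≠ 0) (e : ε) :
    vl2 (gM F.toWt ℓ z) (nq e false) (nq e true) = g3 F.toWt (evE e z) :=
  have a := vl_gM₀ (ℓ := ℓ) F.toWt z e
  Prod.ext (congrArg Prod.fst a :) (Prod.ext (congrArg Prod.snd a :)
    (funext fun j => (vl_gM hl hz.2.1 hu e fun c hc => ((mem_solF.1 hz).2 c hc).1 j).2))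

/-- comparison of the Kuranishi data along any map that only rescales the marked points -/
theorem lin_gM (e : K → ι → ℕ) {W' : Type} (p : W' → ch.WF (ν ⊕ ε × Bool) κ Λ × (ε × R → ℂ))
    (O : Set W') :
    ((ch.kd _ κ F e).pb id fun y => (p y).1).Lin
        ((ch.kd ν (κ ⊕ ε) F e).pb id fun y => gM F.toWt ℓ (p y)) θd id O LinearMap.id ∧
      ((ch.kd _ κ F e).pb id fun y => (p y).1).Inj
        ((ch.kd ν (κ ⊕ ε) F e).pb id fun y => gM F.toWt ℓ (p y)) id O LinearMap.id := by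
  have v : ∀ y, vanM F e (gM F.toWt ℓ (p y)) = vanM F e (p y).1 := fun y => by
    rw [gM, actF_tM]; rfl
  have o : ∀ y, obsM F e (gM F.toWt ℓ (p y)) = obsM F e (p y).1 := fun y => by
    rw [gM, actF_tM]; rfl
  have s : ∀ y, sctF F e (gM F.toWt ℓ (p y)) = sctF F e (p y).1 := fun y => by
    rw [gM, actF_tM]; rfl
  exact ⟨⟨fun _ h => h, fun _ _ _ _ => rfl, fun y _ _ h => (v y).ge h, fun y _ =>
    mem_of_eq_of_mem (sub_eq_zero.2 (s y).symm) (zero_mem _), fun y _ _ _ h => (o y).ge h⟩,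
    fun y _ _ _ h => (v y).le h⟩

end Vale.Agent.P269.Nd
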