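import Vale.Agent.P287Q.G.Glu.NdA
import Vale.Agent.P287Q.G.Glu.NdB
import Vale.Agent.P287Q.G.Glu.NdU2
import Vale.Agent.P269.Bas.NF0

/-!
# The universal comparison of the two diagonals
-/

set_option linter.unusedSectionVars false
set_option linter.unusedVariables false

namespace Vale.Agent.P269.Nd

open P291Z Set Function Topology Filter Module Orb Holo Ch Ch.KD

namespace V

/-- a Gysin map through a section of a bundle and an open embedding -/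
theorem gys_sec {X B E Y : Type} [TopologicalSpace X] [TopologicalSpace B] [TopologicalSpace E]
    [TopologicalSpace Y] [Nice X] [Nice B] [Nice E] [Nice Y] {d : X → B} (hd : IsClosedEmbedding d)
    {g : B → E} (hg : IsClosedEmbedding g) {π : E → B} (hπ : Continuous π) (e₁ : π ∘ g = id)
    {o : Y → E} (ho : IsOpenEmbedding o) {j : X → Y} (e₂ : ∀ x, o (j x) = g (d x)) {t : Coch B}
    (ht : supp (δ t) = ∅) (ht' : supp t ⊆ range d) {u : Coch E} (hu : supp (δ u) = ∅)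
    (hu' : supp u ⊆ range g) {u' : Coch Y} (hc : Cohom (o ⁻¹' range g) u' (pull o u)) (β : BM E) :
    IsClosedEmbedding j ∧ supp (δ (pull (π ∘ o) t * u')) = ∅ ∧
      supp (pull (π ∘ o) t * u') ⊆ range j ∧
      gys j (pull (π ∘ o) t * u') (res o β) = gys d t (gys g u β) := by
  have r : o ⁻¹' range (g ∘ d) = range j := Set.ext fun y =>
    ⟨fun ⟨x, e⟩ => ⟨x, ho.injective ((e₂ x).trans e)⟩, fun ⟨x, e⟩ => ⟨x, (e₂ x).symm.trans
      (congrArg o e)⟩⟩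
  have hj : IsClosedEmbedding j := ⟨ho.isEmbedding.of_comp_iff.1
    ((show o ∘ j = g ∘ d from funext e₂) ▸ (hg.comp hd).isEmbedding), r ▸ (hg.comp hd).isClosed_range.preimage ho.continuous⟩
  have s : supp (pull π t) ∩ range g ⊆ range (g ∘ d) := by
    rintro _ ⟨a, b, rfl⟩
    obtain ⟨x, rfl⟩ : b ∈ range d :=
      mem_of_eq_of_mem (congrFun e₁ b).symm (ht' (supp_pull hπ t a))
    exact ⟨x, rfl⟩
  have c₁ := cocycle_pull hπ ht
  have c₂ := cocycle_mul c₁ hu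
  have s₂ := (supp_mul _ _).trans ((inter_subset_inter_right _ hu').trans s)
  have c₃ := cocycle_pull ho.continuous c₂
  have s₃ := (supp_pull ho.continuous _).trans ((preimage_mono s₂).trans r.le)
  have k : Cohom (range j) (pull (π ∘ o) t * u') (pull o (pull π t * u)) := by
    rw [map_mul, pull_pull]
    refine (hc.mul_left (cocycle_pull (hπ.comp ho.continuous) ht)).mono fun y hy => r.le (s ⟨?_, hy.2⟩)
    exact supp_pull ho.continuous _ (by rw [pull_pull]; exact hy.1)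
  refine ⟨hj, k.cocycle c₃, k.supp_subset s₃, ?_⟩
  have a := res_gys (hg.comp hd) hj ho IsOpenEmbedding.id e₂ r.le c₂ s₂ β
  rw [gys_congr hj (k.cocycle c₃) (k.supp_subset s₃) c₃ s₃ k, ← a, NA.res_id, ← gys_gys hd hg c₁
    (fun y hy => let ⟨x, e⟩ := s ⟨hy, y, rfl⟩; ⟨x, hg.injective e⟩) hu hu', pull_pull, e₁, pull_id]

variable {A A' W W' α : Type} [NormedRing A] [NormedAlgebra ℂ A] [NormedAddCommGroup W]
  [NormedSpace ℂ W] [NormedRing A'] [NormedAlgebra ℂ A'] [NormedAddCommGroup W'] [NormedSpace ℂ W']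
  [FiniteDimensional ℂ A] [FiniteDimensional ℂ W] [FiniteDimensional ℂ A'] [FiniteDimensional ℂ W']
  [Fintype α] {act : A → W → W} {act' : A' → W' → W'} {O : Set W} {N : Set W'} {c : α → A → ℂ}
  {τ : W → α → ℂ} {n : ℕ}

theorem cyc [Mono.FP act O] (h : Tq.Dim act O n) : Cyc act O O n :=
  (pcy_self h).cyc IsAct.mem fun x hx => subset_closure ⟨hx, fun _ ha e => congrArg Units.val
    (Mono.FP.free (Holo.Sp.of act x hx) ha.unit (Holo.Sp.ext e))⟩

/-- the same for the graph of a section of a sum of line bundles -/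
theorem gys_tot [IsAct act univ] [Mono.FP act O] [IsAct (actV act c) (O ×ˢ univ)] (hc : Chr c)
    (hn : Tq.Dim act O n) (hτ : Tq.Sec act O c τ) {θ : A' → A} {f : W' → W × (α → ℂ)}
    (hf : EqM act' (actV act c) N (O ×ˢ univ) θ f) (ho : IsOpenEmbedding hf.map)
    {c' : α → A' → ℂ} {s : α → W' → ℂ} (hs : ∀ i, Sc act' N (c' i) (s i))
    (e₁ : ∀ i a, IsUnit a → c' i a = c i (θ a)) (e₂ : ∀ i, ∀ x ∈ N, s i x = (f x).2 i - τ (f x).1 i)
    {l : List α} (hl : l.Nodup) (hl' : ∀ i, i ∈ l) {X : Type} [TopologicalSpace X] [Nice X]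
    [Nice (Quo act' N)] [Nice (Quo (actV act c) (O ×ˢ univ))] {d : X → Quo act O} (hd : IsClosedEmbedding d) {t : Coch _}
    (ht : supp (δ t) = ∅) (ht' : supp t ⊆ range d) {β : BM X} (hβ : Gys d t (Tq.fnd act O) β)
    {j : X → Quo act' N} (hj : ∀ x, hf.map (j x) = (eqM_graph hτ).map (d x))
    {p : Quo act' N → Quo act O}
    (hp : ∀ x : N, p (Quo.mk _ x) = Quo.mk _ ⟨(f x).1, (hf.maps x.2).1⟩) :
    IsClosedEmbedding j ∧ supp (δ (pull p t * (l.map fun i => (hs i).eu).prod)) = ∅ ∧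
      supp (pull p t * (l.map fun i => (hs i).eu).prod) ⊆ range j ∧
      gys j (pull p t * (l.map fun i => (hs i).eu).prod)
        (res hf.map (fnd (actV act c) (O ×ˢ univ) (n + Fintype.card α))) = β := by
  have o := Tq.orb act O
  have lc := (cyc_tot (c := c) (cyc hn)).lc
  have := nice_of_orb o
  have k := hc.sc o hτ (fun _ a => a.1) (ivt_tot IsAct.mem) lc
  obtain ⟨g₁, g₂, g₃⟩ := hc.gys_graph₀ o (cyc hn) hτ k hl hl'
  let π := (eqM_fst (c := c) fun _ a => a.1 : EqM _ act (O ×ˢ univ) O _ _).map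
  obtain rfl : p = π ∘ hf.map := funext fun z => Quot.inductionOn z hp
  have a := gys_sec hd g₁ π.continuous (funext fun z => Quot.inductionOn z fun _ => rfl) ho hj ht ht'
    g₂.cocycle g₂.supp (u' := (l.map fun i => (hs i).eu).prod) ?_
    (fnd (actV act c) (O ×ˢ univ) (n + Fintype.card α))
  · rw [g₃] at a
    exact ⟨a.1, a.2.1, a.2.2.1, a.2.2.2.trans
      ((congrArg _ hn.fnd_eq.symm).trans ((Gys_iff hd ht ht').1 hβ))⟩
  rw [map_list_prod, List.map_map]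
  refine (NF.cohom_prod (fun i _ => ⟨(hs i).isCo.cocycle, (hs i).isCo.supp⟩)
    (List.forall₂_map_right_iff.2 (List.forall₂_same.2 fun i _ =>
      ((k i).pull (hs i) hf (e₁ i) (e₂ i)).symm))).mono fun y hy =>
    ⟨Quo.mk _ ⟨_, (hf.maps y.out.2).1⟩, Eq.trans ?_ (congrArg hf.map (Quot.out_eq y))⟩
  exact congrArg (Quo.mk _) (Subtype.ext (Prod.ext rfl (funext fun i =>
    (sub_eq_zero.1 ((e₂ i _ y.out.2).symm.trans (hy i (hl' i)))).symm)))

end V

variable {S Λ R J K I : Type} [Fintype S] [Fintype Λ] [Fintype R] [Fintype J] [Fintype K] [Fintype I]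
  [DecidableEq R] [DecidableEq I] {F : Fam S Λ R J K} {φ : I → J} {n : J → I → ℤ}
  {ψ : J → (Λ → ℂ) → ℂ} {σ : I → R → ℂ} {τ : W3 Λ J → R → ℂ} (h : F.Nice 0) (hs : F.Sh 0 φ n ψ)
  (hσ : ∀ i i', ∑ r, F.w (φ i') r * σ i r = if i = i' then 1 else 0)
include h hs hσ

theorem eqM_u2 : EqM (actV F.act3 c3) F.act2 (NU F φ) F.cone2 θ3
    fun z => g3 F.toWt (lab (fun i => F.w (φ i)) σ (r3 φ) z) :=
  (eqM_fst fun _ a => a.1).comp ((lab3 h.toInv hs hσ).bun (bun3 h.toInv hs)).toEt.eqM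

theorem V.lc : IsLocallyClosed (NU F φ) :=
  let ⟨_, a, b⟩ := (lab3 h.toInv hs hσ).open1
  (congrArg _ b).mpr ((((Dg0.lc3 h.toInv).preimage continuous_fst).inter
    isOpen_univ.isLocallyClosed).inter a.isLocallyClosed)

theorem sc_log (i : I) : Sc (actV F.act3 c3) (NU F φ) (fun _ => 1)
    fun z => Complex.log (rho (fun i => F.w (φ i)) (r3 φ) z i) :=
  have l := lab3 h.toInv hs hσ
  haveI := h.toGood.fp3
  haveI := chr_c3.isAct (fun _ a => a.1) l.ivt1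
  ⟨this, chr_c3.orb (Tq.orb _ _) (fun _ a => a.1) (V.lc h hs hσ), chr_one.hm i,
    fun _ hz => (l.holOn_log hz i).tendsto hz, fun _ ha _ hz => by rw [l.rho_act ha hz.1, one_mul]⟩

theorem sc_tau (hτ : IsTau F τ) (r : R) :
    Sc (actV F.act3 c3) (NU F φ) (c3 r) fun z => z.2 r - τ z.1 r :=
  haveI := h.toGood.fp3
  chr_c3.sc (Tq.orb F.act3 F.cone3) hτ.sec (fun _ a => a.1) (lab3 h.toInv hs hσ).ivt1 (V.lc h hs hσ) r

omit hσ in
theorem mem_NU (hτ : IsTau F τ) {z : W3 Λ J} (hz : z ∈ dg3 F) :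
    (z, τ z) ∈ N0 (fun i => F.w (φ i)) (r3 φ) F.cone3 := by
  obtain ⟨a, t, b, c⟩ := hz
  have e := isUnit_pi_iff.1 b
  rw [hτ.eq z a t b c]
  refine ⟨a, e, fun i => ?_⟩
  have f := hs.ne _ (hs.free i).1 (hs.free i).2.1 rfl _ a.1
  have g := prod_zpow_ne e (F.w (φ i))
  simp only [rho, r3, c, Wt.actT, Pi.one_apply, one_zpow, Finset.prod_const_one, one_mul]
  field_simp

/-- the matched points -/
theorem mem_iff (hτ : IsTau F τ) {z : W3 Λ J × (R → ℂ)} (hz : z ∈ NU F φ) :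
    (z.1 ∈ dg3 F ∧ z.2 = τ z.1) ↔
      (g3 F.toWt (lab (fun i => F.w (φ i)) σ (r3 φ) z)) ∈ F.dg0 ∧
        ∀ i, Complex.log (rho (fun i => F.w (φ i)) (r3 φ) z i) = 0 := by
  have u : z.2 * z.2⁻¹ = 1 := funext fun r => mul_inv_cancel₀ (hz.2.1 r)
  have k : ∀ {s t : R → ℂ}, s * t = 1 → ∀ y,
      (F.actT (1, s) (z.1.1, (F.actT (1, t) (z.1.1, y)).2)).2 = y := fun {s t} e y => by
    have := F.actT_mul (1, s) (1, t) (z.1.1, y)
    rw [Prod.mk_mul_mk, e, mul_one, Prod.mk_one_one, F.actT_one] at this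
    exact (congrArg Prod.snd this).symm
  constructor
  · rintro ⟨a, b⟩
    have c : z ∈ N0 _ (r3 φ) F.cone3 :=
      mem_of_eq_of_mem (show z = (z.1, τ z.1) from Prod.ext rfl b) (mem_NU h hs hτ a)
    rw [lab_eq c]
    obtain ⟨a, t, d, e⟩ := a
    refine ⟨⟨(bun3 h.toInv hs).maps c, ?_⟩, fun i => by rw [c.2.2, Complex.log_one]⟩
    change z.1.2.1 = (F.actT (1, z.2⁻¹) (z.1.1, z.1.2.2)).2
    rw [e, ← hτ.eq _ a t d e, ← b, k ((mul_comm _ _).trans u)]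
  · rintro ⟨a, b⟩
    rw [lab_eq (mem_N0 hz b)] at a
    have c := isUnit_pi_iff.2 hz.2.1
    have e : z.1.2.2 = (F.actT (1, z.2) (z.1.1, z.1.2.1)).2 :=
      (k u _).symm.trans (congrArg (fun y => (F.actT (1, z.2) (z.1.1, y)).2) a.2.symm)
    exact ⟨⟨hz.1, _, c, e⟩, (hτ.eq _ hz.1 _ c e).symm⟩

/-- **The universal identity.** -/
theorem key (hτ : IsTau F τ) {t₂ : Coch F.X2} (h₂ : F.IsDiag t₂) {t₃ : Coch F.X3} (h₃ : IsD3 F t₃)
    {lI : List I} (hI : lI.Nodup) (hI' : ∀ i, i ∈ lI) {lR : List R} (hR : lR.Nodup)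
    (hR' : ∀ r, r ∈ lR) :
    Cohom (Quo.part (actV F.act3 c3) (NU F φ) {z | z.1 ∈ dg3 F ∧ z.2 = τ z.1})
      (pull (eqM_u2 h hs hσ).map t₂ * (lI.map fun i => (sc_log h hs hσ i).eu).prod)
      (pull (eqM_fst (c := c3) fun _ hz => hz.1 : EqM _ _ (NU F φ) _ _ _).map t₃ *
        (lR.map fun r => (sc_tau h hs hσ hτ r).eu).prod) := by
  have l := lab3 h.toInv hs hσ
  have b := l.bun (bun3 h.toInv hs)
  have := h.toGood.fp
  have := h.toGood.fp2
  have := h.toGood.fp3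
  obtain ⟨n₂, d₂⟩ := exists_dim2 h
  obtain ⟨n₃, d₃⟩ := exists_dim3 h
  have c₂ := cyc_tot (c := fun (_ : I) _ => 1) (V.cyc d₂)
  have c₃ := cyc_tot (c := (c3 : R → _)) (V.cyc d₃)
  have := (chr_one (α := I)).isAct_univ (act := F.act2)
  have := chr_c3.isAct_univ (act := F.act3)
  have := (chr_one (α := I)).isAct (act := F.act2) (fun _ a => a.1) c₂.inv
  have := chr_c3.isAct (act := F.act3) (fun _ a => a.1) c₃.inv
  have := chr_c3.isAct (act := F.act3) (fun _ a => a.1) l.ivt1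
  have o₂ := chr_one.orb (Tq.orb F.act2 F.cone2) (fun _ a => a.1) c₂.lc
  have o₃ := chr_c3.orb (Tq.orb F.act3 F.cone3) (fun _ a => a.1) c₃.lc
  have o := chr_c3.orb (Tq.orb F.act3 F.cone3) (fun _ a => a.1) (V.lc h hs hσ)
  have := nice_of_orb o₂
  have := nice_of_orb o₃
  have := nice_of_orb o
  have := nice_of_orb (Tq.orb F.actT F.cone)
  have e : NU F φ ⊆ F.cone3 ×ˢ univ := fun _ a => ⟨a.1, trivial⟩
  obtain ⟨a₁, a₂, a₃⟩ := fnd_bun o₂ o₃ c₂ c₃ b l.ivt1 e l.open1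
  have ori : Ori (2 * (n₃ + Fintype.card R : ℕ))
      (fnd (actV F.act3 c3) (NU F φ) (n₃ + Fintype.card R)) := by
    obtain ⟨U, hU, k⟩ := l.open1
    have m := (c₃.inter hU (k ▸ l.ivt1)).mfd
    rw [← k] at m
    exact (holOrb_of_orb o m).ori isQuo_sp
  have dg : ∀ z ∈ F.cone, (z.1, z.2, z.2) ∈ dg3 F := fun z hz =>
    ⟨⟨hz, hz⟩, 1, isUnit_one, (congrArg Prod.snd (F.actT_one z)).symm⟩
  have hj : EqM F.actT (actV F.act3 c3) F.cone (NU F φ) _ _ :=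
    ((eqM_graph hτ.sec).comp (eqM_d3 F)).mono Subset.rfl fun z hz =>
      N0_subset (mem_NU h hs hτ (dg z hz))
  obtain ⟨_, m₃⟩ := h₃.co
  obtain ⟨j₁, j₂, j₃, j₄⟩ := V.gys_tot chr_c3 d₃ hτ.sec (EqM.incl e) a₁ (sc_tau h hs hσ hτ)
    (fun _ _ _ => rfl) (fun _ _ _ => rfl) hR hR' (isClosedEmbedding_d3 h.toGood) m₃.cocycle m₃.supp
    h₃.gys (j := hj.map) (fun z => by rw [d3_eq]; exact Quot.inductionOn z fun _ => rfl)
    (p := (eqM_fst (c := c3) fun _ hz => hz.1 : EqM _ _ (NU F φ) _ _ _).map) fun _ => rfl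
  have sq : ∀ x ∈ F.cone, lf (fun i => F.w (φ i)) σ (r3 φ) (g3 F.toWt)
      ((x.1, x.2, x.2), τ (x.1, x.2, x.2)) = ((x.1, x.2, x.2), fun _ => 0) := fun x hx => by
    refine (lf_eq (mem_NU h hs hτ (dg _ hx))).trans (Prod.ext (Prod.ext rfl (Prod.ext rfl ?_)) rfl)
    change (F.actT (1, (τ _)⁻¹) x).2 = x.2
    rw [hτ.eq _ (dg _ hx).1 1 isUnit_one (congrArg Prod.snd (F.actT_one x)).symm, inv_one,
      Prod.mk_one_one, F.actT_one]
  obtain ⟨-, i₂, i₃, i₄⟩ := V.gys_tot chr_one d₂ (sec_zero chr_one.hm) b.toEt.eqM a₂ (sc_log h hs hσ)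
    (fun _ _ _ => rfl) (fun _ _ _ => (sub_zero _).symm) hI hI' (isClosedEmbedding_d2 h.toGood) h₂.1
    (h₂.2.1.trans (range_d2 h.toInv).ge) (gys_d2 h h₂) (j := hj.map)
    (fun z => Quot.inductionOn z fun x => congrArg (Quo.mk _) (Subtype.ext (sq _ x.2)))
    (p := (eqM_u2 h hs hσ).map) fun _ => rfl
  rw [← a₃, c₃.res_fnd o₃ e l.open1] at i₄
  rw [EqM.incl_map e, c₃.res_fnd o₃ e l.open1] at j₄
  refine (ori.cohom_of_gys j₁ i₂ i₃ j₂ j₃ (i₄.trans j₄.symm)).mono ?_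
  rintro _ ⟨z, rfl⟩
  have v : Ivt (actV F.act3 c3) (NU F φ ∩ {z | z.1 ∈ dg3 F ∧ z.2 = τ z.1}) := fun a ha y hy =>
    ⟨l.ivt1 a ha y hy.1, ivt_dg3 h.toInv a ha _ hy.2.1, funext fun r =>
      (congrArg (fun u : R → ℂ => c3 r a * u r) hy.2.2).trans (hτ.sec.eqv a ha _ hy.1.1 r).symm⟩
  exact Quot.inductionOn z fun x => (Quo.mem_part v (x := ⟨_, hj.maps x.2⟩)).2 ⟨dg _ x.2, rfl⟩

end Vale.Agent.P269.Nd
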