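import Vale.Agent.P287Q.G.Glu.NdQ
import Vale.Agent.P287Q.G.Bas.Num
import Vale.Agent.P287Q.G.Bas.Rel
import Vale.Agent.P287Q.G.Bas.SpA
import Vale.Agent.P287Q.G.Asm.Mon

/-!
# The splitting of a persistent node
-/

set_option linter.unusedSectionVars false

namespace Vale.Agent.P269

open P291Z Set Function Topology Filter Ch LG P269.Num

variable {S Λ R J K ι ν κ ε β : Type} [Fintype S] [Fintype Λ] [Fintype R] [Fintype J] [Fintype K]
  [Fintype ι] [DecidableEq ι] [Fintype ν] [Fintype κ] [Fintype ε] [Fintype β]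

namespace Nd

section fs

variable {F : Fam S Λ R J K} (M₁ : List (ν × ℕ × H (F.X F.cone))) (M₂ : List (κ × ℕ × ℕ))

/-- The factors of a correlator of the absolute theory. -/
noncomputable def fsA : List (Fac F.toWt ν κ) :=
  (M₁.map fun x => List.replicate x.2.1 (.psi (.inl x.1)) ++ [.ev (.inl x.1) _ x.2.2]).flatten ++
    (M₂.map fun x => List.replicate x.2.1 (.psi (.inr (x.1, false))) ++
      List.replicate x.2.2 (.psi (.inr (x.1, true))) ++ [.dg x.1]).flatten

theorem fsW_eq (e : F.Ex) : (F.fsW e F.cone F.cone M₁ M₂ ([] : List (Empty × _))).map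
    (Fac.re (Equiv.sumEmpty ν Empty) (Equiv.refl κ)) = .tw e.Θ :: .par e.B e.c :: fsA M₁ M₂ := by
  simp only [Wt.fsW, fsA, List.map_cons, List.map_append, List.map_flatten, List.map_map, comp_def,
    List.map_replicate, List.map_nil, List.append_nil]
  rfl

theorem fsA_un : (fsA (M₁.map (Prod.map .inl id)) M₂).map (Fac.un ε) =
    fsA M₁ (M₂.map (Prod.map .inl id)) := by
  simp only [fsA, List.map_cons, List.map_append, List.map_flatten, List.map_map, comp_def,
    List.map_replicate, List.map_nil]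
  rfl

theorem dq_rep (m : ℕ) (n : Mk ν κ) :
    (List.replicate m (.psi n : Fac F.toWt ν κ)).filterMap Fac.dq = [] :=
  List.filterMap_replicate_of_none rfl

theorem dq_fsA : (fsA M₁ M₂).filterMap Fac.dq = M₂.map Prod.fst := by
  have b : ∀ n c, [(.ev n F.cone c : Fac F.toWt ν κ)].filterMap Fac.dq = [] := fun _ _ => rfl
  simp [fsA, List.filterMap_flatten, comp_def, Fac.dq, dq_rep, b]
  exact List.map_eq_flatMap.symm

theorem ok_fsA : ∀ f ∈ fsA M₁ M₂, f.Ok F 0 := by
  have b : ∀ n c, (.ev n F.cone c : Fac F.toWt ν κ).Ok F 0 := fun _ _ _ e => e.1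
  have c : ∀ n, (.psi n : Fac F.toWt ν κ).Ok F 0 := fun _ => trivial
  have d : ∀ q, (.dg q : Fac F.toWt ν κ).Ok F 0 := fun _ => trivial
  simp only [fsA, List.forall_mem_cons, List.forall_mem_append, List.forall_mem_flatten,
    List.forall_mem_map, List.forall_mem_replicate]
  simp [*]

theorem dg_fsA (h : ∀ q, q ∈ M₂.map Prod.fst) (q : κ) : .dg q ∈ fsA M₁ M₂ :=
  let ⟨_, a, b⟩ := List.mem_filterMap.1 ((dq_fsA M₁ M₂).symm ▸ h q :)
  Fac.dq_eq_some.1 b ▸ a

theorem cn_fsA {ch : Ch ι J} (Z : Set (ch.WF ν κ Λ)) : ((fsA M₁ M₂).map (F.cn Z)).prod =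
    (M₁.map fun x => ins F Z (.inl x.1) _ x.2).prod * (M₂.map (Num.nod F Z)).prod := by
  simp only [fsA, List.map_cons, List.map_append, List.map_flatten, List.map_map, comp_def,
    List.map_replicate, List.map_nil, List.prod_cons, List.prod_append, List.prod_flatten,
    List.prod_replicate, List.prod_nil, Fam.cn, mul_one]
  rfl

variable {ch : Ch ι J} {ℓ : R → ι → ℤ} (m n : ℕ)

theorem psi_comm {Z : Set (ch.WF ν κ Λ)} (h : GZ F ℓ Z) (q : Mk ν κ) (y z) :
    y * (F.cl Z (.psi q) ^ m * z) = F.cl Z (.psi q) ^ m * (y * z) :=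
  (Commute.left_comm (Hev.commute (pow_mem (h.cl_psi_mem q) m) y) z).symm

/-- The factors with cotangent line classes at the two new marked points. -/
noncomputable def fsB (M₁ : List ((ν ⊕ Unit × Bool) × ℕ × H (F.X F.cone))) (M₂ : List (κ × ℕ × ℕ))
    (m n : ℕ) : List (Fac F.toWt (ν ⊕ Unit × Bool) κ) :=
  List.replicate m (.psi (mq () false)) ++ (List.replicate n (.psi (mq () true)) ++ fsA M₁ M₂)

theorem cn_left {Z : Set (ch.WF ν (κ ⊕ Unit) Λ)} (h : GZ F ℓ Z) :
    ((fsA M₁ ((.inr (), m, n) :: M₂.map (Prod.map .inl id))).map (F.cn Z)).prod =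
      (((fsB (M₁.map (Prod.map .inl id)) M₂ m n).map (Fac.un Unit)).map (F.cn Z)).prod := by
  simp only [fsB, List.map_append, List.prod_append, fsA_un, List.map_replicate,
    List.prod_replicate, cn_fsA, List.map_cons, List.prod_cons]
  rw [Num.nod, mul_assoc, psi_comm m h, psi_comm n h]
  rfl

theorem cn_right {Z : Set (ch.WF (ν ⊕ Unit × Bool) κ Λ)} (h : GZ F ℓ Z) (M₁ a a') :
    ((fsA ((.inr ((), false), m, a) :: (.inr ((), true), n, a') :: M₁) M₂).map (F.cn Z)).prod =
      F.cl Z (.ev (mq () false) _ a) * (F.cl Z (.ev (mq () true) _ a') *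
        ((fsB M₁ M₂ m n).map (F.cn Z)).prod) := by
  simp only [fsB, List.map_append, List.prod_append, List.map_replicate, List.prod_replicate,
    cn_fsA, List.map_cons, List.prod_cons, Fam.cn]
  rw [psi_comm m h, psi_comm m h, psi_comm n h, ins, ins]
  simp only [mul_assoc]

end fs

variable [DecidableEq R] {F : Fam S Λ R J K} {k : ℕ} (hW : St.Well) (h : F.Nice 0) (hc : F.Cp)
  (hk : F.Big k) (d : R → ℤ) (j : ℤ)
include hW h hc hk

/-- the normal form of the correlators of the absolute theory -/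
theorem cor_nf {M₁ : List (ν × ℕ × H (F.X F.cone))} {M₂ : List (κ × ℕ × ℕ)} (h₁ : Enum M₁)
    (h₂ : Enum M₂) {g : ℤ} (hg : j + 1 - Fintype.card κ = g) : ∀ᶠ D in atTop,
    F.cor k F.ex0 0 F.cone F.cone d j (M₁.map Prod.snd) (M₂.map Prod.snd) [] =
      F.itg (F.vir κ k D g d 0) (hcls (ind univ) * ((fsA M₁ M₂).map (F.cn _)).prod) := by
  have c : F.CorOk k F.ex0 0 F.cone F.cone :=
    ⟨h, hc, hk, Fam.exOk0 St.selC h.toGood hk, .rfl, F.dvs_subset 0⟩
  have e := c.cor_eq d (St.rel St.dg) j (t := Empty.elim) h₁ h₂ (M₃ := []) ⟨.nil, Empty.rec _⟩ nofun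
  have v := c.iv d g Empty.elim M₁ h₂ ([] : List (Empty × _))
  have r := St.rel St.dg F 0 k g d (Equiv.sumEmpty ν Empty) (Equiv.refl κ) 0 _ (fun _ => True) _
    ⟨h, hc, hk, Fam.Sel.top, by simpa only [smul_zero'] using v.ok, v.dg⟩ fun _ => Iff.rfl
  have o : ∀ f ∈ (.tw 1 :: .par univ 1 :: fsA M₁ M₂ : List (Fac F.toWt ν κ)), f.Ok F 0 :=
    List.forall_mem_cons.2 ⟨trivial, List.forall_mem_cons.2 ⟨subset_univ _, ok_fsA M₁ M₂⟩⟩
  have q : ∀ q, .dg q ∈ (.tw 1 :: .par univ 1 :: fsA M₁ M₂ : List (Fac F.toWt ν κ)) :=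
    fun q => .tail _ (.tail _ (dg_fsA M₁ M₂ h₂.2 q))
  have w := hW F 0 k g d 0 _ _ h hc hk Fam.Sel.top (by rwa [smul_zero']) q
  rw [hg, Fam.corL, smul_zero'] at e
  rw [fsW_eq, smul_zero', smul_zero'] at r
  rw [smul_zero'] at w
  filter_upwards [w, F.eventually_bigD k] with D a b
  refine (e.trans (r.symm.trans a)).trans ((intM_nf g d h hc hk b o q
    ((congrArg List.Nodup (dq_fsA M₁ M₂)).mpr h₂.1)).trans ?_)
  simp only [List.map_cons, List.prod_cons, Fam.cn, Fam.cl_tw_one,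
    (gz0 ν κ g d h hk b).cl_par fun _ _ => mem_univ _, map_one, one_mul]

/-- **the splitting of a node** -/
theorem cor_node {a a' : β → H (F.X F.cone)} (ha : F.IsCas a a') (m n : ℕ)
    (l₁ : List (ℕ × H (F.X F.cone))) (l₂ : List (ℕ × ℕ)) :
    F.cor k F.ex0 0 F.cone F.cone d j l₁ ((m, n) :: l₂) [] =
      ∑ b, F.cor k F.ex0 0 F.cone F.cone d (j - 1) ((m, a b) :: (n, a' b) :: l₁) l₂ [] := by
  have s : ∀ {α γ : Type} (l : List α), ((std l).map (Prod.map (.inl : _ → _ ⊕ γ) id)).map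
    Prod.snd = l := fun l => List.map_map.trans (std_snd l)
  have e := cor_nf hW h hc hk d j (enum_std l₁) (((enum_std l₂).append (L' := [((), m, n)])
    ⟨List.nodup_singleton _, fun _ => .head _⟩).perm List.perm_append_comm)
    (g := j - l₂.length) (by simp only [Fintype.card_sum, Fintype.card_fin, Fintype.card_unit]; omega)
  have e' := eventually_all.2 fun b => cor_nf hW h hc hk d (j - 1) (((enum_std l₁).append
    (L' := [(((), false), m, a b), (((), true), n, a' b)]) ⟨by simp, by simp⟩).perm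
    List.perm_append_comm) (enum_std l₂) (g := j - l₂.length) (by rw [Fintype.card_fin]; omega)
  obtain ⟨D, ⟨e, e'⟩, hD⟩ := ((e.and e').and (F.eventually_bigD k)).exists
  refine ((congrArg₂ (F.cor k F.ex0 0 _ _ d j · · []) (std_snd l₁)
    (congrArg _ (s l₂))).symm.trans e).trans (Eq.trans ?_ (Finset.sum_congr rfl fun b _ =>
      (e' b).symm.trans (congrArg₂ (F.cor k F.ex0 0 _ _ d _ · · [])
        (congrArg (_ :: _ :: ·) (s l₁)) (std_snd l₂))))
  refine (congrArg (F.itg _ <| _ * ·) (cn_left _ _ m n (gz0 _ _ _ d h hk hD))).trans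
    ((itg_node _ d h hc hk hD ha ?_ ?_ ?_).trans (Finset.sum_congr rfl fun b _ =>
      congrArg (F.itg _ <| _ * ·) (cn_right _ m n (gz0 _ _ _ d h hk hD) _ _ _).symm))
  · exact List.forall_mem_append.2 ⟨fun _ e => List.eq_of_mem_replicate e ▸ trivial,
      List.forall_mem_append.2 ⟨fun _ e => List.eq_of_mem_replicate e ▸ trivial, ok_fsA _ _⟩⟩
  · exact fun q => List.mem_append_right _ (List.mem_append_right _
      (dg_fsA _ _ (enum_std l₂).2 q))
  · rw [fsB, List.filterMap_append, List.filterMap_append, dq_rep, dq_rep, dq_fsA]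
    exact (enum_std l₂).1

end Nd

/-- **The splitting of a persistent node.** -/
theorem St.node (hW : St.Well) : St.Node := by
  intro Λ R J K _ _ _ _ _ F l k C i h hB hk hi d j m n
  have hc := X3.cp_of hB
  have s := fun d j => (St.spec (St.cor hW (St.rel St.dg)) F 0 k F.ex0 (A' := F.cone) C.p i h hc hk
    (Fam.exOk0 St.selC h.toGood hk) .rfl hi.ev).1 rfl d j
  intro x
  refine (LinearMap.congr_fun (monT_ext (Z := _ ∘ₗ LinearMap.mulLeft ℂ _)
    (Z' := ∑ a, F.serA k F.ex0 C.p i d (j - 1) ∘ₗ LinearMap.mulLeft ℂ _) fun l₁ l₂ => ?_) x).trans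
    (LinearMap.sum_apply _ _ _)
  simp only [LinearMap.sum_apply, LinearMap.comp_apply, LinearMap.mulLeft_apply, mul_assoc]
  rw [← monT_cons' (m, n), s, Nd.cor_node hW h hc hk d j (St.cas F l C i h hB hi)]
  refine Finset.sum_congr rfl fun a _ => ?_
  rw [← monT_cons (n, _), ← monT_cons (m, _), s]
  rfl

end Vale.Agent.P269
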