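import Vale.Agent.P287Q.G.Glu.FpA
import Vale.Agent.P287Q.G.Glu.Act0

set_option linter.unusedSectionVars false

/-!
# Decompositions: groups and actions
-/

namespace Vale.Agent.P269

open P291Z Set Function Topology Filter Module Base Cv Holo Vir

variable {S Λ R J K ι ν κ ν₁ κ₁ ν₂ κ₂ : Type} [Fintype S] [Fintype Λ] [Fintype R] [Fintype J]
  [Fintype K] [Fintype ι] [DecidableEq ι] [Fintype ν] [Fintype κ]
  [Fintype ν₁] [Fintype κ₁] [Fintype ν₂] [Fintype κ₂]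

namespace Sv

variable (s : Sv ν κ ν₁ κ₁ ν₂ κ₂)

theorem mkS_mk₁ (a : Ch.Mk ν₁ κ₁) : s.mkS (s.mk₁ a) = .inl a := by
  rcases a with a | ⟨q, b⟩ <;> simp [mkS]

theorem mkS_mk₂ (a : Ch.Mk ν₂ κ₂) : s.mkS (s.mk₂ a) = .inr a := by
  rcases a with a | ⟨q, b⟩ <;> simp [mkS]

theorem mk_cases (a : Ch.Mk ν κ) : (∃ c, a = s.mk₁ c) ∨ ∃ c, a = s.mk₂ c := by
  rcases a with a | ⟨q, b⟩
  · obtain ⟨a | a, rfl⟩ := s.φ.surjective a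
    exacts [.inl ⟨.inl a, rfl⟩, .inr ⟨.inl a, rfl⟩]
  · obtain ⟨q | q, rfl⟩ := s.ψ.surjective q
    exacts [.inl ⟨.inr (q, b), rfl⟩, .inr ⟨.inr (q, b), rfl⟩]

theorem mk₁_inj : Injective s.mk₁ := fun a b h =>
  Sum.inl_injective ((s.mkS_mk₁ a).symm.trans ((congrArg s.mkS h).trans (s.mkS_mk₁ b)))

theorem mk₂_inj : Injective s.mk₂ := fun a b h =>
  Sum.inr_injective ((s.mkS_mk₂ a).symm.trans ((congrArg s.mkS h).trans (s.mkS_mk₂ b)))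

theorem mk_ne (a c) : s.mk₁ a ≠ s.mk₂ c := fun h =>
  Sum.inl_ne_inr ((s.mkS_mk₁ a).symm.trans ((congrArg s.mkS h).trans (s.mkS_mk₂ c)))

theorem symm_mk₁ : s.symm.mk₁ = s.mk₂ := rfl

theorem symm_mk₂ : s.symm.mk₂ = s.mk₁ := rfl

theorem symm_t₁ : s.symm.t₁ = s.t₂ := rfl

theorem symm_t₂ : s.symm.t₂ = s.t₁ := rfl

theorem symm_symm : s.symm.symm = s :=
  congrArg₂ Sv.mk (Equiv.ext (by rintro (x | x) <;> rfl)) (Equiv.ext (by rintro (x | x) <;> rfl))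

include s in
theorem card_ν : Fintype.card ν = Fintype.card ν₁ + Fintype.card ν₂ :=
  (Fintype.card_congr s.φ).symm.trans Fintype.card_sum

include s in
theorem card_κ : Fintype.card κ = Fintype.card κ₁ + Fintype.card κ₂ :=
  (Fintype.card_congr s.ψ).symm.trans Fintype.card_sum

include s in
theorem card_mk : Fintype.card (Ch.Mk ν κ) =
    Fintype.card (Ch.Mk ν₁ κ₁) + Fintype.card (Ch.Mk ν₂ κ₂) := by
  simp only [Fintype.card_sum, Fintype.card_prod, s.card_ν, s.card_κ]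
  ring

theorem tS_t₁ (q : ν₁ ⊕ κ₁) :
    s.tS (q.map (fun a => s.φ (.inl a)) fun a => s.ψ (.inl a)) = .inl q := by
  cases q <;> simp [tS]

theorem tS_t₂ (q : ν₂ ⊕ κ₂) :
    s.tS (q.map (fun a => s.φ (.inr a)) fun a => s.ψ (.inr a)) = .inr q := by
  cases q <;> simp [tS]

theorem t_cases (q : ν ⊕ κ) : (∃ c, s.t₁ c = .inl q) ∨ ∃ c, s.t₂ c = .inl q := by
  rcases q with a | q
  · obtain ⟨a | a, rfl⟩ := s.φ.surjective a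
    exacts [.inl ⟨.inl a, rfl⟩, .inr ⟨.inl a, rfl⟩]
  · obtain ⟨q | q, rfl⟩ := s.ψ.surjective q
    exacts [.inl ⟨.inr q, rfl⟩, .inr ⟨.inr q, rfl⟩]

end Sv

namespace PrA

variable {E E₁ E₂ : Type} [NormedAddCommGroup E] [NormedSpace ℂ E] [NormedAddCommGroup E₁]
  [NormedSpace ℂ E₁] [NormedAddCommGroup E₂] [NormedSpace ℂ E₂]

theorem cop_bij {f₁ : E₁ →L[ℂ] E} {f₂ : E₂ →L[ℂ] E} : Bijective (f₁.coprod f₂) ↔
    Injective f₁ ∧ Injective f₂ ∧ IsCompl f₁.range f₂.range := by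
  refine ⟨fun ⟨h, h'⟩ => ⟨fun a b e => ?_, fun a b e => ?_, Submodule.disjoint_def.2 ?_,
    codisjoint_iff_le_sup.2 fun v _ => ?_⟩, fun ⟨h₁, h₂, h⟩ =>
      ⟨(injective_iff_map_eq_zero _).2 fun v e => ?_, fun v => ?_⟩⟩
  · exact congrArg Prod.fst (h (a₁ := (a, 0)) (a₂ := (b, 0)) (by simp [e]))
  · exact congrArg Prod.snd (h (a₁ := (0, a)) (a₂ := (0, b)) (by simp [e]))
  · rintro _ ⟨a, rfl⟩ ⟨b, e⟩
    have : a = 0 := congrArg Prod.fst (h (a₁ := (a, 0)) (a₂ := (0, b)) (by simpa using e.symm))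
    rw [this, map_zero]
  · obtain ⟨x, rfl⟩ := h' v
    exact Submodule.add_mem_sup ⟨x.1, rfl⟩ ⟨x.2, rfl⟩
  · have e' : f₁ v.1 = f₂ (-v.2) := by rw [map_neg]; exact eq_neg_of_add_eq_zero_left e
    have h0 : f₁ v.1 = 0 := Submodule.disjoint_def.1 h.disjoint _ ⟨_, rfl⟩ ⟨_, e'.symm⟩
    exact Prod.ext (h₁ (h0.trans (map_zero _).symm))
      (neg_eq_zero.1 (h₂ ((e'.symm.trans h0).trans (map_zero _).symm)))
  · obtain ⟨_, ⟨a, rfl⟩, _, ⟨b, rfl⟩, e⟩ :=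
      Submodule.mem_sup.1 (h.codisjoint.top_le (Submodule.mem_top (x := v)))
    exact ⟨(a, b), e⟩

theorem inv_of_bij [FiniteDimensional ℂ E₁] {f : E₁ →L[ℂ] E} (h : Bijective f) : f.IsInvertible :=
  ⟨(LinearEquiv.ofBijective f.toLinearMap h).toContinuousLinearEquiv, rfl⟩

theorem unit_bij {f : E →L[ℂ] E} (h : IsUnit f) : Bijective f ∧ Bijective (Ring.inverse f :) :=
  ⟨bijective_iff_has_inverse.2 ⟨_, inv_ap h, ap_inv h⟩,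
    bijective_iff_has_inverse.2 ⟨_, ap_inv h, inv_ap h⟩⟩

theorem an_cop {P : Type} [NormedAddCommGroup P] [NormedSpace ℂ P] {q : P} {f₁ : P → E₁ →L[ℂ] E}
    {f₂ : P → E₂ →L[ℂ] E} (h₁ : AnalyticAt ℂ f₁ q) (h₂ : AnalyticAt ℂ f₂ q) :
    AnalyticAt ℂ (fun y => (f₁ y).coprod (f₂ y)) q := by
  simp only [← ContinuousLinearMap.comp_fst_add_comp_snd]
  exact (an_comp h₁ analyticAt_const).add (an_comp h₂ analyticAt_const)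

theorem an_cop' {M M₁ M₂ : ι → ℕ} (i : ι) (q : HV M₁ M × HV M₂ M) :
    AnalyticAt ℂ (fun p : HV M₁ M × HV M₂ M => (p.1 i).coprod (p.2 i)) q :=
  an_cop (analyticAt_pi_iff.1 analyticAt_fst i) (analyticAt_pi_iff.1 analyticAt_snd i)

variable {A A₁ : Type} [NormedRing A] [NormedAlgebra ℂ A] [NormedRing A₁] [NormedAlgebra ℂ A₁]
  {θ : CL A A₁}

theorem eqM (h : AH θ) {act : A → E → E} {act₁ : A₁ → E₁ → E₁} {T : Set E} {T₁ : Set E₁}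
    {f : E → E₁} (h1 : MapsTo f T T₁) (h2 : ContinuousOn f T)
    (h3 : ∀ a, IsUnit a → ∀ x ∈ T, f (act a x) = act₁ (θ a) (f x)) :
    Ch.EqM act act₁ T T₁ θ f :=
  Ch.EqM.of_hom ⟨⟨θ, h.one⟩, h.mul⟩ (θ.continuous.comp Units.continuous_val) h1 h2 h3

end PrA

open PrA

section lpr

variable {M M₁ M₂ : ι → ℕ} {φ₁ : HV M₁ M} {φ₂ : HV M₂ M} (h₁ : ∀ i, Injective (φ₁ i))
  (h₂ : ∀ i, Injective (φ₂ i)) (h : ∀ i, IsCompl (φ₁ i).range (φ₂ i).range)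
include h₁ h₂ h

theorem PrA.inv_cop (i : ι) : ((φ₁ i).coprod (φ₂ i)).IsInvertible :=
  inv_of_bij (cop_bij.2 ⟨h₁ i, h₂ i, h i⟩)

theorem PrA.lpr_cop (i : ι) (u v) : lpr φ₁ φ₂ i (φ₁ i u + φ₂ i v) = u :=
  congrArg Prod.fst ((inv_cop h₁ h₂ h i).inverse_apply_self (u, v))

theorem PrA.exists_cop (i : ι) (v) : ∃ a b, v = φ₁ i a + φ₂ i b :=
  let ⟨x, e⟩ := (cop_bij.2 ⟨h₁ i, h₂ i, h i⟩).2 v
  ⟨x.1, x.2, e.symm⟩

theorem lpr_left (i : ι) (v) : lpr φ₁ φ₂ i (φ₁ i v) = v := by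
  simpa using lpr_cop h₁ h₂ h i v 0

theorem lpr_right (i : ι) (v) : lpr φ₁ φ₂ i (φ₂ i v) = 0 := by
  simpa using lpr_cop h₁ h₂ h i 0 v

theorem lpr_add (i : ι) (v) : φ₁ i (lpr φ₁ φ₂ i v) + φ₂ i (lpr φ₂ φ₁ i v) = v := by
  obtain ⟨a, b, rfl⟩ := exists_cop h₁ h₂ h i v
  rw [lpr_cop h₁ h₂ h, add_comm (φ₁ i a) (φ₂ i b), lpr_cop h₂ h₁ fun i => (h i).symm, add_comm]

theorem an_lpr : AnalyticAt ℂ (fun p : HV M₁ M × HV M₂ M => lpr p.1 p.2) (φ₁, φ₂) :=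
  AnalyticAt.pi fun i => an_comp analyticAt_const
    (((inv_cop h₁ h₂ h i).contDiffAt_map_inverse (n := ⊤)).analyticAt.comp_of_eq
      (an_cop' i (φ₁, φ₂)) rfl)

theorem eventually_isCompl : ∀ᶠ p : HV M₁ M × HV M₂ M in 𝓝 (φ₁, φ₂), (∀ i, Injective (p.1 i)) ∧
    (∀ i, Injective (p.2 i)) ∧ ∀ i, IsCompl (p.1 i).range (p.2 i).range := by
  have : ∀ᶠ p : HV M₁ M × HV M₂ M in 𝓝 (φ₁, φ₂), ∀ i, Bijective ((p.1 i).coprod (p.2 i)) :=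
    eventually_all.2 fun i => by
      obtain ⟨e, he⟩ := inv_cop h₁ h₂ h i
      have h3 := (an_cop' i (φ₁, φ₂)).continuousAt.tendsto
      rw [← he] at h3
      filter_upwards [h3.eventually e.nhds] with p ⟨e', he'⟩
      exact he' ▸ e'.bijective
  filter_upwards [this] with p hp
  exact ⟨fun i => (cop_bij.1 (hp i)).1, fun i => (cop_bij.1 (hp i)).2.1,
    fun i => (cop_bij.1 (hp i)).2.2⟩

end lpr

theorem an_lpr' {P : Type} [NormedAddCommGroup P] [NormedSpace ℂ P] {q : P} {M M₁ M₂ : ι → ℕ}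
    {φ₁ : P → HV M₁ M} {φ₂ : P → HV M₂ M} (a₁ : AnalyticAt ℂ φ₁ q) (a₂ : AnalyticAt ℂ φ₂ q)
    (h₁ : ∀ i, Injective (φ₁ q i)) (h₂ : ∀ i, Injective (φ₂ q i))
    (h : ∀ i, IsCompl (φ₁ q i).range (φ₂ q i).range) :
    AnalyticAt ℂ (fun y => lpr (φ₁ y) (φ₂ y)) q :=
  AnalyticAt.pi fun i => an_comp analyticAt_const
    (((inv_cop h₁ h₂ h i).contDiffAt_map_inverse (n := ⊤)).analyticAt.comp_of_eq
      (an_cop (analyticAt_pi_iff.1 a₁ i) (analyticAt_pi_iff.1 a₂ i)) rfl)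

namespace Ch

variable {ch : Ch ι J} {n₁ n₂ : Nm ι J} {s : Sv ν κ ν₁ κ₁ ν₂ κ₂} {Wg : Wt S Λ R J}
  {a : ch.AQ n₁ n₂ ν κ S} {z : ch.WQ n₁ n₂ ν κ ν₁ κ₁ ν₂ κ₂ Λ} {x : ch.W (Mk ν κ)}
  {w₁ : ch.Lb n₁ (Mk ν₁ κ₁)} {w₂ : ch.Lb n₂ (Mk ν₂ κ₂)}

theorem QN.M_add (h : ch.QN n₁ n₂) {α β : Type} [Fintype α] [Fintype β]
    (h₁ : ((ch.re n₁).base α).Nonempty) (h₂ : ((ch.re n₂).base β).Nonempty) (i : ι) :
    ch.M i = n₁.M i + n₂.M i := by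
  have e₁ : (n₁.M i : ℤ) = n₁.m i + 1 - n₁.g := h.num₁.M_eq' h₁.some_mem i
  have e₂ : (n₂.M i : ℤ) = n₂.m i + 1 - n₂.g := h.num₂.M_eq' h₂.some_mem i
  have e₃ := h.num.M_eq i
  have e₄ := h.g
  have e₅ := h.m i
  omega

theorem QN.h_add (h : ch.QN n₁ n₂) {α β : Type} [Fintype α] [Fintype β]
    (h₁ : ((ch.re n₁).base α).Nonempty) (h₂ : ((ch.re n₂).base β).Nonempty) (l : Option J) :
    ch.h l = n₁.h l + n₂.h l := by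
  have e₁ : (n₁.h l : ℤ) = ∑ i, ch.a l i * n₁.m i + 1 - n₁.g := h_eq₁ h₁.some_mem (h.num₁.a_ne l)
  have e₂ : (n₂.h l : ℤ) = ∑ i, ch.a l i * n₂.m i + 1 - n₂.g := h_eq₁ h₂.some_mem (h.num₂.a_ne l)
  have e₃ := h.tight.2 l
  have e₄ := h.g
  have e₅ : ∑ i, ch.a l i * ch.m i = ∑ i, ch.a l i * n₁.m i + ∑ i, ch.a l i * n₂.m i := by
    rw [← Finset.sum_add_distrib]
    exact Finset.sum_congr rfl fun i _ => by rw [← h.m i, mul_add]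
  omega

/-- The decompositions given by isomorphisms with products. -/
noncomputable def PrA.bip (f : ∀ i, ((Fin (n₁.M i) → ℂ) × (Fin (n₂.M i) → ℂ)) ≃L[ℂ] Fin (ch.M i) → ℂ)
    (g : ∀ l, ch.E l ≃L[ℂ] (ch.re n₁).E l × (ch.re n₂).E l) : ch.Bip n₁ n₂ where
  φ₁ i := (f i).toContinuousLinearMap ∘L .inl ℂ _ _
  φ₂ i := (f i).toContinuousLinearMap ∘L .inr ℂ _ _
  ψ₁ i := .fst ℂ _ _ ∘L (f i).symm.toContinuousLinearMap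
  ψ₂ i := .snd ℂ _ _ ∘L (f i).symm.toContinuousLinearMap
  r₁ l := .fst ℂ _ _ ∘L (g l).toContinuousLinearMap
  r₂ l := .snd ℂ _ _ ∘L (g l).toContinuousLinearMap
  e₁ l := (g l).symm.toContinuousLinearMap ∘L .inl ℂ _ _
  e₂ l := (g l).symm.toContinuousLinearMap ∘L .inr ℂ _ _
  ψφ₁₁ i v := congrArg Prod.fst ((f i).symm_apply_apply (v, 0))
  ψφ₁₂ i v := congrArg Prod.fst ((f i).symm_apply_apply (0, v))
  ψφ₂₁ i v := congrArg Prod.snd ((f i).symm_apply_apply (v, 0))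
  ψφ₂₂ i v := congrArg Prod.snd ((f i).symm_apply_apply (0, v))
  φψ i v := ((f i).map_add _ _).symm.trans ((congrArg (f i)
    (Prod.ext (add_zero _) (zero_add _))).trans ((f i).apply_symm_apply v))
  re₁₁ l v := congrArg Prod.fst ((g l).apply_symm_apply (v, 0))
  re₁₂ l v := congrArg Prod.fst ((g l).apply_symm_apply (0, v))
  re₂₁ l v := congrArg Prod.snd ((g l).apply_symm_apply (v, 0))
  re₂₂ l v := congrArg Prod.snd ((g l).apply_symm_apply (0, v))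
  er l v := ((g l).symm.map_add _ _).symm.trans ((congrArg (g l).symm
    (Prod.ext (add_zero _) (zero_add _))).trans ((g l).symm_apply_apply v))

theorem QN.exists_bip (h : ch.QN n₁ n₂) {α β : Type} [Fintype α] [Fintype β]
    (h₁ : ((ch.re n₁).base α).Nonempty) (h₂ : ((ch.re n₂).base β).Nonempty) :
    Nonempty (ch.Bip n₁ n₂) :=
  ⟨PrA.bip (fun i => .ofFinrankEq (by
      rw [finrank_prod, finrank_fin_fun, finrank_fin_fun, finrank_fin_fun, h.M_add h₁ h₂]))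
    fun l => .ofFinrankEq (by
      rw [finrank_prod, finrank_fin_fun, finrank_fin_fun, finrank_fin_fun, h.h_add h₁ h₂])⟩

theorem QN.cuts (h : ch.QN n₁ n₂) : ch.Cuts := ⟨h.num.a_ne, h.num.cut⟩

theorem PrA.u₀ (ha : IsUnit a) : IsUnit a.1 := (AP.isUnit_iff.1 ha).1

theorem PrA.u₁ (ha : IsUnit a) :
    IsUnit (M := AP (ch.AF ν κ S) ((ch.re n₁).A Empty)) (a.1, a.2.1) :=
  AP.isUnit_iff.2 ⟨(AP.isUnit_iff.1 ha).1, (AP.isUnit_iff.1 (AP.isUnit_iff.1 ha).2).1⟩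

theorem PrA.u₂ (ha : IsUnit a) :
    IsUnit (M := AP (ch.AF ν κ S) ((ch.re n₂).A Empty)) (a.1, a.2.2) :=
  AP.isUnit_iff.2 ⟨(AP.isUnit_iff.1 ha).1, (AP.isUnit_iff.1 (AP.isUnit_iff.1 ha).2).2⟩

theorem PrA.us (ha : IsUnit a) : IsUnit (M := ch.AQ n₂ n₁ ν κ S) (a.1, a.2.2, a.2.1) :=
  AP.isUnit_iff.2 ⟨(AP.isUnit_iff.1 ha).1, AP.isUnit_iff.2
    (AP.isUnit_iff.1 (AP.isUnit_iff.1 ha).2).symm⟩

theorem ah_θQ₁ : AH (θQ₁ s : CL (ch.AQ n₁ n₂ ν κ S) _) :=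
  ⟨θL_one (β := s.t₁), fun a b => θL_mul (β := s.t₁) (a := (a.1, a.2.1)) (b := (b.1, b.2.1))⟩

theorem ah_θQ₂ : AH (θQ₂ s : CL (ch.AQ n₁ n₂ ν κ S) _) :=
  ⟨θL_one (β := s.t₂), fun a b => θL_mul (β := s.t₂) (a := (a.1, a.2.2)) (b := (b.1, b.2.2))⟩

theorem ah_θQ : AH (θQ s : CL (ch.AQ n₁ n₂ ν κ S) _) :=
  ⟨Prod.ext ah_θQ₁.one (congrArg Prod.snd (ah_θQ₂ (s := s) (ch := ch) (n₁ := n₁) (S := S)).one :),
    fun a b => Prod.ext (ah_θQ₁.mul a b) (congrArg Prod.snd ((ah_θQ₂ (s := s)).mul a b) :)⟩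

theorem θQ_surj : Surjective (θQ s : CL (ch.AQ n₁ n₂ ν κ S) _) := fun b =>
  ⟨((b.1.1, 1, 1, fun q => (s.tS q).elim b.1.2.2.2 b.2.2.2), (b.1.2.1, b.1.2.2.1, Empty.elim),
    (b.2.1, b.2.2.1, Empty.elim)), Prod.ext (Prod.ext rfl (Prod.ext rfl (Prod.ext rfl
      (funext fun q => congrArg (Sum.elim b.1.2.2.2 b.2.2.2) (s.tS_t₁ q)))))
    (Prod.ext rfl (Prod.ext rfl
      (funext fun q => congrArg (Sum.elim b.1.2.2.2 b.2.2.2) (s.tS_t₂ q))))⟩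

theorem θQ_eq_one : θQ s a = 1 ↔ a.1.1 = 1 ∧ a.1.2.2.2 = 1 ∧ a.2 = 1 := by
  refine ⟨fun h => ⟨congrArg (fun b => b.1.1) h, funext fun q => ?_, Prod.ext
    (Prod.ext (congrArg (fun b => b.1.2.1) h) (Prod.ext (congrArg (fun b => b.1.2.2.1) h)
      (funext fun q => q.elim))) (Prod.ext (congrArg (fun b => b.2.1) h)
        (Prod.ext (congrArg (fun b => b.2.2.1) h) (funext fun q => q.elim)))⟩,
    fun ⟨h1, h2, h3⟩ => Prod.ext (Prod.ext h1 (Prod.ext (congrArg (fun b => b.1.1) h3 :)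
      (Prod.ext (congrArg (fun b => b.1.2.1) h3 :) (funext fun q => congrFun h2 _))))
      (Prod.ext (congrArg (fun b => b.2.1) h3 :) (Prod.ext (congrArg (fun b => b.2.2.1) h3 :)
        (funext fun q => congrFun h2 _)))⟩
  rcases s.t_cases q with ⟨c, e⟩ | ⟨c, e⟩
  · exact (congrArg (Sum.elim a.1.2.2.2 a.2.1.2.2) e).symm.trans (congrArg (fun b => b.1.2.2.2 c) h)
  · exact (congrArg (Sum.elim a.1.2.2.2 a.2.2.2.2) e).symm.trans (congrArg (fun b => b.2.2.2 c) h)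

theorem fst_θQ : AP.fst (θQ s a) = θQ₁ s a := rfl

theorem θ2_θQ : θ2 (θQ s a) = θQ₂ s a := rfl

theorem an_actQ {P : Type} [NormedAddCommGroup P] [NormedSpace ℂ P] {q : P}
    {a : P → ch.AQ n₁ n₂ ν κ S} {z : P → ch.WQ n₁ n₂ ν κ ν₁ κ₁ ν₂ κ₂ Λ} (ha : AnalyticAt ℂ a q)
    (hz : AnalyticAt ℂ z q) (hu : IsUnit (a q)) :
    AnalyticAt ℂ (fun y => actQ s Wg (a y) (z y)) q :=
  let ⟨h1, h2⟩ := AP.an_iff.1 ha
  let ⟨h3, h4⟩ := AP.an_iff.1 h2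
  (an_actF h1 (analyticAt_fst.comp hz) (ne_S (PrA.u₀ hu))).prod
    ((an_actL1 (a := fun y => ((a y).1, (a y).2.1)) (AP.an_iff.2 ⟨h1, h3⟩)
      (analyticAt_fst.comp (analyticAt_snd.comp hz)) (PrA.u₁ hu)).prod
      (an_actL1 (a := fun y => ((a y).1, (a y).2.2)) (AP.an_iff.2 ⟨h1, h4⟩)
        (analyticAt_snd.comp (analyticAt_snd.comp hz)) (PrA.u₂ hu)))

theorem PrA.actQ_mul {b : ch.AQ n₁ n₂ ν κ S} (ha : IsUnit a) (hb : IsUnit b) :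
    actQ s Wg (a * b) z = actQ s Wg a (actQ s Wg b z) := by
  have h1 := actL1_mul (Wg := Wg) (β := s.t₁) (w := z.2.1) (PrA.u₁ ha) (PrA.u₁ hb)
  have h2 := actL1_mul (Wg := Wg) (β := s.t₂) (w := z.2.2) (PrA.u₂ ha) (PrA.u₂ hb)
  unfold actQ
  exact congrArg₂ Prod.mk (actF_mul a.1 b.1 z.1) (congrArg₂ Prod.mk h1 h2)

instance isAct_actQ :
    IsAct (actQ s Wg : ch.AQ n₁ n₂ ν κ S → ch.WQ n₁ n₂ ν κ ν₁ κ₁ ν₂ κ₂ Λ → _) univ :=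
  ⟨fun z _ => Prod.ext (actF_one z.1) (Prod.ext (actL1_one (Wg := Wg) (β := s.t₁) (w := z.2.1))
      (actL1_one (Wg := Wg) (β := s.t₂) (w := z.2.2))),
    fun _ _ ha hb _ _ => PrA.actQ_mul ha hb,
    fun _ _ _ _ => trivial, fun _ ha _ _ => an_actQ analyticAt_fst analyticAt_snd ha⟩

theorem an_act2 {P : Type} [NormedAddCommGroup P] [NormedSpace ℂ P] {q : P}
    {a : P → ch.A2 n₁ n₂ ν₁ κ₁ ν₂ κ₂ S} {y : P → ch.W2 n₁ n₂ ν₁ κ₁ ν₂ κ₂ Λ} (ha : AnalyticAt ℂ a q)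
    (hy : AnalyticAt ℂ y q) (hu : IsUnit (a q)) :
    AnalyticAt ℂ (fun p => act2 Wg (a p) (y p)) q := by
  have h1 : AnalyticAt ℂ (fun p => (y p).1) q := analyticAt_fst.comp hy
  have h2 : AnalyticAt ℂ (fun p => fp₂ πF (y p)) q := (analyticAt_fp₂ _).comp hy
  have h3 := ne_S (AP.isUnit_iff.1 hu).1
  have h0 := CL.an θ2 ha
  have h4 := an_actF (F := Wg) (ch := ch.re n₂) h0 h2 h3
  have h5 : AnalyticAt ℂ (fun p => (actF Wg (θ2 (a p)) (fp₂ πF (y p))).2) q :=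
    (analyticAt_snd.comp h4 :)
  have h6 := an_actF (F := Wg) (AP.an_iff.1 ha).1 h1 h3
  exact h6.prod h5

instance isAct_act2 :
    IsAct (act2 Wg : ch.A2 n₁ n₂ ν₁ κ₁ ν₂ κ₂ S → ch.W2 n₁ n₂ ν₁ κ₁ ν₂ κ₂ Λ → _) univ :=
  ⟨fun y _ => Prod.ext (actF_one y.1) (congrArg Prod.snd (actF_one (F := Wg) (fp₂ πF y)) :),
    fun a b _ _ y _ => Prod.ext (actF_mul a.1 b.1 y.1)
      (congrArg Prod.snd (actF_mul (F := Wg) (θ2 a) (θ2 b) (fp₂ πF y)) :),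
    fun _ _ _ _ => trivial, fun _ ha _ _ => an_act2 analyticAt_fst analyticAt_snd ha⟩

instance isAct_actL : IsAct Wg.actL univ :=
  ⟨fun x _ => Wg.actL_one x, fun a b _ _ x _ => Wg.actL_mul a b x, fun _ _ _ _ => trivial,
    fun _ ha _ _ => analyticAt_pi_iff.2 fun l => (an_prod_zpow analyticAt_fst
      (isUnit_pi_iff.1 ha) _).mul (analyticAt_pi_iff.1 analyticAt_snd l)⟩

theorem fp_act2 : Fp (act2 Wg : ch.A2 n₁ n₂ ν₁ κ₁ ν₂ κ₂ S → ch.W2 n₁ n₂ ν₁ κ₁ ν₂ κ₂ Λ → _)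
    (actF Wg) (actF Wg) Wg.actL AP.fst θ2 τF τF πF :=
  ⟨⟨rfl, fun _ _ => rfl⟩, ⟨rfl, fun _ _ => rfl⟩, ⟨rfl, fun _ _ => rfl⟩, ⟨rfl, fun _ _ => rfl⟩,
    fun t => ⟨(t, 1), rfl⟩, fun t => ⟨(t, 1), rfl⟩, fun _ => rfl,
    fun a₁ a₂ e => ⟨(a₁, a₂.2), rfl, Prod.ext e rfl⟩,
    fun _ h₁ h₂ => Prod.ext h₁ (congrArg Prod.snd h₂ :), fun _ _ _ => rfl, fun _ _ _ => rfl,
    fun _ _ _ => rfl, fun _ _ _ => rfl, fun _ _ _ _ _ => rfl⟩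

variable (s Wg) in
/-- The action of the group of the labels. -/
noncomputable def actA (c : ch.AL n₁ n₂) (z : ch.WQ n₁ n₂ ν κ ν₁ κ₁ ν₂ κ₂ Λ) :
    ch.WQ n₁ n₂ ν κ ν₁ κ₁ ν₂ κ₂ Λ := actQ s Wg ((1, c) : ch.AQ n₁ n₂ ν κ S) z

instance isAct_actA :
    IsAct (actA s Wg : ch.AL n₁ n₂ → ch.WQ n₁ n₂ ν κ ν₁ κ₁ ν₂ κ₂ Λ → _) univ :=
  ⟨fun z hz => isAct_actQ.one z hz, fun a b ha hb z hz =>
    (congrArg (fun u : ch.AF ν κ S => actQ s Wg (u, a * b) z) (one_mul 1).symm).trans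
      (isAct_actQ.mul ((1, a) : ch.AQ n₁ n₂ ν κ S) (1, b) (AP.isUnit_iff.2 ⟨isUnit_one, ha⟩)
        (AP.isUnit_iff.2 ⟨isUnit_one, hb⟩) z hz), fun _ _ _ _ => trivial,
    fun _ ha _ _ => an_actQ (AP.an_iff.2 ⟨analyticAt_const, analyticAt_fst⟩) analyticAt_snd
      (AP.isUnit_iff.2 ⟨isUnit_one, ha⟩)⟩

theorem actA_fst (c : ch.AL n₁ n₂) : (actA s Wg c z).1 = z.1 := actF_one z.1

theorem Du.symm (h : Du s x w₁ w₂) : Du s.symm x w₂ w₁ :=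
  ⟨h.mem, h.two, h.one, fun i => (h.compl i).symm, fun l => Prod.swap_bijective.comp (h.bij l),
    h.crv.trans (union_comm _ _)⟩

/-- `Du` does not depend on the fields -/
theorem Du.congr (h : Du s x w₁ w₂) (X X₁ X₂) : Du s (W.mk' x.Q x.p x.Ξ X)
    ((W.mk' w₁.1.Q w₁.1.p w₁.1.Ξ X₁, w₁.2) : ch.Lb n₁ _)
    ((W.mk' w₂.1.Q w₂.1.p w₂.1.Ξ X₂, w₂.2) : ch.Lb n₂ _) :=
  ⟨h.mem, ⟨⟨h.one.Q, h.one.Ξ⟩, h.one.mem, h.one.inj, h.one.mark⟩,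
    ⟨⟨h.two.Q, h.two.Ξ⟩, h.two.mem, h.two.inj, h.two.mark⟩, h.compl, h.bij, h.crv⟩

theorem Du.exists_bip (h : Du s x w₁ w₂) : ∃ b : ch.Bip n₁ n₂,
    b.φ₁ = w₁.2.1 ∧ b.φ₂ = w₂.2.1 ∧ b.r₁ = w₁.2.2 ∧ b.r₂ = w₂.2.2 := by
  choose f hf using inv_cop h.one.inj h.two.inj h.compl
  choose g hg using fun l => inv_of_bij (h.bij l)
  exact ⟨PrA.bip f g,
    funext fun i => (congrArg (· ∘L .inl ℂ _ _) (hf i)).trans (ContinuousLinearMap.coprod_comp_inl _ _),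
    funext fun i => (congrArg (· ∘L .inr ℂ _ _) (hf i)).trans (ContinuousLinearMap.coprod_comp_inr _ _),
    funext fun l => congrArg (.fst ℂ _ _ ∘L ·) (hg l), funext fun l => congrArg (.snd ℂ _ _ ∘L ·) (hg l)⟩

theorem swQ_mem : swQ z ∈ CQ s.symm ↔ z ∈ CQ s :=
  ⟨fun h => ⟨s.symm_symm ▸ h.1.symm, h.2.2, h.2.1⟩, fun h => ⟨h.1.symm, h.2.2, h.2.1⟩⟩

theorem pt₁_swQ : pt₁ (swQ z) = pt₂ z := rfl

theorem pt₂_swQ : pt₂ (swQ z) = pt₁ z := rfl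

theorem swQ_act : swQ (actQ s Wg a z) =
    actQ s.symm Wg ((a.1, a.2.2, a.2.1) : ch.AQ n₂ n₁ ν κ S) (swQ z) := rfl

theorem fp₂_pt2 : fp₂ πF (pt2 z) = pt₂ z := rfl

theorem CQ.mem₁ (hz : z ∈ CQ s) : (pt₁ z).2 ∈ (ch.re n₁).base _ := hz.1.one.mem

theorem CQ.mem₂ (hz : z ∈ CQ s) : (pt₂ z).2 ∈ (ch.re n₂).base _ := hz.1.two.mem

theorem CQ.du (hz : z ∈ CQ s) : Du s z.1.2 (((pt₁ z).2, z.2.1.2) : ch.Lb n₁ _)
    (((pt₂ z).2, z.2.2.2) : ch.Lb n₂ _) := hz.1.congr z.1.2.X _ _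

section lb

variable {α β : Type} [Fintype α] [Fintype β] {n : Nm ι J} {c : J → ℂ} {t : ch.A α}
  {t' : (ch.re n).A β} {y : ch.W α} {w : ch.Lb n β}

theorem Pc.actLb {φ : β → α} (ht : IsUnit t) (ht' : IsUnit t') (e : ∀ q, t'.2.2 q = t.2.2 (φ q))
    (h : Pc y w φ) : Pc (act t (scl c y)) (actLb c t t' w) φ := by
  refine ⟨h.toLk.actLb ht ht', Cv.act_mem_base h.mem ht', fun i => (unit_bij (isUnit_fst ht i)).1.1.comp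
    ((h.inj i).comp (unit_bij (isUnit_fst ht' i)).2.1), fun q => funext fun i => ?_⟩
  refine Eq.trans ?_ ((map_smul _ _ _).trans (congrArg (t'.2.2 q i • ·) (actLb_V ht' i _))).symm
  rw [act_p, scl_p, h.mark, e]
  rfl

theorem PrA.img_actLb (ht' : IsUnit t') : apV (actLb c t t' w).2.1 '' crv (actLb c t t' w).1 =
    apV t.1 '' (apV w.2.1 '' crv w.1) := by
  rw [image_image, show crv (actLb c t t' w).1 = _ from Cv.crv_act ht', image_image]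
  exact image_congr fun v _ => funext fun i => actLb_V ht' i _

theorem PrA.X_actLb {j : J} (h : w.1.X j = 0) : (actLb c t t' w).1.X j = 0 :=
  ContinuousLinearMap.ext fun μ => by
    change t'.2.1 _ ((c j • w.1.X j) _) = 0
    rw [h]
    simp

end lb

theorem Du.actLb {c : J → ℂ} {t : ch.A (Mk ν κ)} {t₁ : (ch.re n₁).A (Mk ν₁ κ₁)}
    {t₂ : (ch.re n₂).A (Mk ν₂ κ₂)} (ht : IsUnit t) (h₁ : IsUnit t₁) (h₂ : IsUnit t₂)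
    (e₁ : ∀ q, t₁.2.2 q = t.2.2 (s.mk₁ q)) (e₂ : ∀ q, t₂.2.2 q = t.2.2 (s.mk₂ q))
    (h : Du s x w₁ w₂) : Du s (act t (scl c x)) (actLb c t t₁ w₁) (actLb c t t₂ w₂) := by
  refine ⟨Cv.act_mem_base h.mem ht, h.one.actLb ht h₁ e₁, h.two.actLb ht h₂ e₂, fun i =>
    (cop_bij.1 ?_).2.2, fun l => ((unit_bij (isUnit_E h₁ l)).1.prodMap
      (unit_bij (isUnit_E h₂ l)).1).comp ((h.bij l).comp (unit_bij (isUnit_E ht l)).2), ?_⟩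
  · have := (unit_bij (isUnit_fst ht i)).1.comp
      ((cop_bij.2 ⟨h.one.inj i, h.two.inj i, h.compl i⟩).comp
        ((unit_bij (isUnit_fst h₁ i)).2.prodMap (unit_bij (isUnit_fst h₂ i)).2))
    exact (congrArg Bijective (funext fun v => map_add (t.1 i) _ _)).mp this
  · rw [PrA.img_actLb h₁, PrA.img_actLb h₂, ← image_union, ← h.crv]
    exact Cv.crv_act ht

theorem ivt_CQ : Ivt (actQ s Wg : ch.AQ n₁ n₂ ν κ S → ch.WQ n₁ n₂ ν κ ν₁ κ₁ ν₂ κ₂ Λ → _) (CQ s) :=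
  fun _ ha _ h => ⟨h.1.actLb (isUnit_dupF (PrA.u₀ ha)) (isUnit_dupF (isUnit_θL (PrA.u₁ ha)))
    (isUnit_dupF (isUnit_θL (PrA.u₂ ha))) (by rintro (q | q) <;> rfl) (by rintro (q | q) <;> rfl),
    fun j => PrA.X_actLb (h.2.1 j), fun j => PrA.X_actLb (h.2.2 j)⟩

theorem part_act (ha : IsUnit a) : part (actQ s Wg a z) = apV a.1.2.1 '' part z :=
  PrA.img_actLb (isUnit_dupF (isUnit_θL (PrA.u₁ ha)))

theorem PrA.prt_act {n : Nm ι J} {β : ν₁ ⊕ κ₁ → (ν ⊕ κ) ⊕ Empty}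
    {a : AP (ch.AF ν κ S) ((ch.re n).A Empty)} (ha : IsUnit a) (y : ch.WF ν κ Λ)
    (w : ch.Lb n (Mk ν₁ κ₁)) {ψ ψ' : HV ch.M n.M}
    (h : ∀ i v, ψ' i (a.1.2.1 i v) = a.2.1 i (ψ i v)) :
    prt (actF Wg a.1 y) (actL1 Wg β a w) ψ' = actF Wg (θL β a) (prt y w ψ) :=
  Prod.ext rfl (W.ext (fun _ => rfl) (fun _ => rfl) rfl fun j =>
    ContinuousLinearMap.ext fun μ => by
      have e : sub (dup a.1.2) _ (pbT ψ' _ μ) = pbT ψ _ (sub (dup (θL β a).2) _ μ) :=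
        ContinuousMultilinearMap.ext fun v => congrArg μ (funext fun r => h _ _)
      refine (actLb_E (c := Wg.cS a.1.1) (s' := dup (θL β a).2) (w := w)
        (isUnitF_iff.1 (AP.isUnit_iff.1 ha).1).2 _ _).trans (congrArg (a.2.2.1 (some j)) ?_)
      exact (map_smul (w.2.2 (some j)) _ _).trans
        (congrArg (fun m => Wg.cS a.1.1 j • w.2.2 (some j) (y.2.X j m)) e))

theorem PrA.lpr_act {M M₁ M₂ : ι → ℕ} {φ₁ φ₁' : HV M₁ M} {φ₂ φ₂' : HV M₂ M} {g : HV M M}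
    {g₁ : HV M₁ M₁} {g₂ : HV M₂ M₂} (h₁ : ∀ i, Injective (φ₁ i)) (h₂ : ∀ i, Injective (φ₂ i))
    (h : ∀ i, IsCompl (φ₁ i).range (φ₂ i).range) (h₁' : ∀ i, Injective (φ₁' i))
    (h₂' : ∀ i, Injective (φ₂' i)) (h' : ∀ i, IsCompl (φ₁' i).range (φ₂' i).range)
    (e₁ : ∀ i v, φ₁' i (g₁ i v) = g i (φ₁ i v)) (e₂ : ∀ i v, φ₂' i (g₂ i v) = g i (φ₂ i v)) (i v) :
    lpr φ₁' φ₂' i (g i v) = g₁ i (lpr φ₁ φ₂ i v) := by
  obtain ⟨u, u', rfl⟩ := exists_cop h₁ h₂ h i v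
  rw [lpr_cop h₁ h₂ h, map_add, ← e₁, ← e₂, lpr_cop h₁' h₂' h']

theorem PrA.actL1_V {n : Nm ι J} {β : ν₁ ⊕ κ₁ → (ν ⊕ κ) ⊕ Empty}
    {a : AP (ch.AF ν κ S) ((ch.re n).A Empty)} (ha : IsUnit a) (w : ch.Lb n (Mk ν₁ κ₁)) (i v) :
    (actL1 Wg β a w).2.1 i (a.2.1 i v) = a.1.2.1 i (w.2.1 i v) :=
  congrArg (fun v => a.1.2.1 i (w.2.1 i v)) (inv_ap (isUnit_fst (AP.isUnit_iff.1 ha).2 i) v)

theorem CQ.pt₁_act (hz : z ∈ CQ s) (ha : IsUnit a) :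
    pt₁ (actQ s Wg a z) = actF Wg (θQ₁ s a) (pt₁ z) := by
  have h := (ivt_CQ (Wg := Wg) a ha z hz).1
  have h1 := PrA.actL1_V (Wg := Wg) (β := s.t₁) (PrA.u₁ ha) z.2.1
  have h2 := PrA.actL1_V (Wg := Wg) (β := s.t₂) (PrA.u₂ ha) z.2.2
  have h3 := PrA.lpr_act hz.1.one.inj hz.1.two.inj hz.1.compl h.one.inj h.two.inj h.compl h1 h2
  exact (PrA.prt_act (Wg := Wg) (β := s.t₁) (PrA.u₁ ha) z.1 z.2.1 h3 :)

theorem CQ.pt₂_act (hz : z ∈ CQ s) (ha : IsUnit a) :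
    pt₂ (actQ s Wg a z) = actF Wg (θQ₂ s a) (pt₂ z) := by
  have h := (ivt_CQ (Wg := Wg) a ha z hz).1
  have h1 := PrA.actL1_V (Wg := Wg) (β := s.t₁) (PrA.u₁ ha) z.2.1
  have h2 := PrA.actL1_V (Wg := Wg) (β := s.t₂) (PrA.u₂ ha) z.2.2
  have h3 := PrA.lpr_act hz.1.two.inj hz.1.one.inj (fun i => (hz.1.compl i).symm) h.two.inj
    h.one.inj (fun i => (h.compl i).symm) h2 h1
  exact (PrA.prt_act (Wg := Wg) (β := s.t₂) (PrA.u₂ ha) z.1 z.2.2 h3 :)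

theorem CQ.pt2_act (hz : z ∈ CQ s) (ha : IsUnit a) :
    pt2 (actQ s Wg a z) = act2 Wg (θQ s a) (pt2 z) :=
  Prod.ext (CQ.pt₁_act hz ha) (congrArg Prod.snd (CQ.pt₂_act (Wg := Wg) hz ha) :)

theorem PrA.an_prt {P : Type} [NormedAddCommGroup P] [NormedSpace ℂ P] {q : P} {n : Nm ι J}
    {y : P → ch.WF ν κ Λ} {w : P → ch.Lb n (Mk ν₁ κ₁)} {ψ : P → HV ch.M n.M}
    (hy : AnalyticAt ℂ y q) (hw : AnalyticAt ℂ w q) (hψ : AnalyticAt ℂ ψ q) :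
    AnalyticAt ℂ (fun p => prt (y p) (w p) (ψ p)) q :=
  let ⟨h1, _, h3⟩ := Lb.an_iff.1 hw
  (analyticAt_fst.comp hy).prod (W.an_iff.2 ⟨fun l => (W.an_Q h1 l :), fun m => (W.an_p h1 m :),
    (W.an_Ξ h1 :), fun j => an_comp (h3 _)
      (an_comp (W.an_X (analyticAt_snd.comp hy) j) (GlA.an_pbT hψ _))⟩)

theorem PrA.an_lb (z : ch.WQ n₁ n₂ ν κ ν₁ κ₁ ν₂ κ₂ Λ) :
    AnalyticAt ℂ (fun z : ch.WQ n₁ n₂ ν κ ν₁ κ₁ ν₂ κ₂ Λ => z.2.1) z ∧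
      AnalyticAt ℂ (fun z : ch.WQ n₁ n₂ ν κ ν₁ κ₁ ν₂ κ₂ Λ => z.2.2) z :=
  ⟨analyticAt_fst.comp analyticAt_snd, analyticAt_snd.comp analyticAt_snd⟩

theorem CQ.an_pt₁ (hz : z ∈ CQ s) : AnalyticAt ℂ pt₁ z := by
  obtain ⟨h1, h2⟩ := PrA.an_lb z
  have h3 := an_lpr' (AnalyticAt.pi (Lb.an_iff.1 h1).2.1) (AnalyticAt.pi (Lb.an_iff.1 h2).2.1)
    hz.1.one.inj hz.1.two.inj hz.1.compl
  exact PrA.an_prt analyticAt_fst h1 h3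

theorem CQ.an_pt₂ (hz : z ∈ CQ s) : AnalyticAt ℂ pt₂ z := by
  obtain ⟨h1, h2⟩ := PrA.an_lb z
  have h3 := an_lpr' (AnalyticAt.pi (Lb.an_iff.1 h2).2.1) (AnalyticAt.pi (Lb.an_iff.1 h1).2.1)
    hz.1.two.inj hz.1.one.inj fun i => (hz.1.compl i).symm
  exact PrA.an_prt analyticAt_fst h2 h3

theorem CQ.an_pt2 (hz : z ∈ CQ s) : AnalyticAt ℂ pt2 z :=
  (CQ.an_pt₁ hz).prod (analyticAt_snd.comp (CQ.an_pt₂ hz))

variable {Z : Set (ch.WQ n₁ n₂ ν κ ν₁ κ₁ ν₂ κ₂ Λ)}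

theorem eqM_fstQ {T : Set (ch.WF ν κ Λ)} (m : MapsTo Prod.fst Z T) :
    EqM (actQ s Wg) (actF Wg) Z T (fun a : ch.AQ n₁ n₂ ν κ S => a.1) Prod.fst :=
  EqM.of_hom ⟨⟨fun a : ch.AQ n₁ n₂ ν κ S => a.1, rfl⟩, fun _ _ => rfl⟩
    (continuous_fst.comp Units.continuous_val) m continuousOn_fst fun _ _ _ _ => rfl

theorem eqM_pt₁ (hZ : Z ⊆ CQ s) {T : Set ((ch.re n₁).WF ν₁ κ₁ Λ)} (m : MapsTo pt₁ Z T) :
    EqM (actQ s Wg) (actF Wg) Z T (θQ₁ s : CL (ch.AQ n₁ n₂ ν κ S) _) pt₁ :=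
  PrA.eqM (ah_θQ₁ (s := s) (S := S)) m (fun _ h => (CQ.an_pt₁ (hZ h)).continuousAt.continuousWithinAt)
    fun _ ha _ h => CQ.pt₁_act (hZ h) ha

theorem eqM_pt₂ (hZ : Z ⊆ CQ s) {T : Set ((ch.re n₂).WF ν₂ κ₂ Λ)} (m : MapsTo pt₂ Z T) :
    EqM (actQ s Wg) (actF Wg) Z T (θQ₂ s : CL (ch.AQ n₁ n₂ ν κ S) _) pt₂ :=
  PrA.eqM (ah_θQ₂ (s := s) (S := S)) m (fun _ h => (CQ.an_pt₂ (hZ h)).continuousAt.continuousWithinAt)
    fun _ ha _ h => CQ.pt₂_act (hZ h) ha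

variable {F : Fam S Λ R J K} {T₁ : Set ((ch.re n₁).WF ν₁ κ₁ Λ)} {T₂ : Set ((ch.re n₂).WF ν₂ κ₂ Λ)}

theorem ivt_ZQ (hF : F.Inv) (h₁ : Ivt (actF F.toWt) T₁) (h₂ : Ivt (actF F.toWt) T₂) :
    Ivt (actQ s F.toWt : ch.AQ n₁ n₂ ν κ S → _) (ZQ s F T₁ T₂) := fun a ha z h =>
  ⟨ivt_CQ a ha z h.1, actF_mem_adm hF (PrA.u₀ ha) h.2.1,
    mem_of_eq_of_mem (CQ.pt₁_act h.1 ha) (h₁ _ (isUnit_θL (PrA.u₁ ha)) _ h.2.2.1),
    mem_of_eq_of_mem (CQ.pt₂_act h.1 ha) (h₂ _ (isUnit_θL (PrA.u₂ ha)) _ h.2.2.2)⟩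

theorem ivt_LQ (hF : F.Inv) (h₁ : Ivt (actF F.toWt) T₁) (h₂ : Ivt (actF F.toWt) T₂) :
    Ivt (actQ s F.toWt : ch.AQ n₁ n₂ ν κ S → _) (LQ s F T₁ T₂) := fun a ha z h =>
  ⟨ivt_ZQ hF h₁ h₂ a ha z h.1, actF_mem_solF hF (PrA.u₀ ha) h.2⟩

end Ch

end Vale.Agent.P269
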