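import Vale.Agent.P287Q.G.Glu.PrAlg

set_option linter.unusedSectionVars false

/-!
# Decompositions: the direct sum of two points, formal properties
-/

namespace Vale.Agent.P269.Ch

open P291Z Set Function Topology Filter Module Base Cv Holo Vir

variable {S Λ R J K ι ν κ ν₁ κ₁ ν₂ κ₂ : Type} [Fintype S] [Fintype Λ] [Fintype R] [Fintype J]
  [Fintype K] [Fintype ι] [DecidableEq ι] [Fintype ν] [Fintype κ]
  [Fintype ν₁] [Fintype κ₁] [Fintype ν₂] [Fintype κ₂] {ch : Ch ι J} {n₁ n₂ : Nm ι J}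
  {s : Sv ν κ ν₁ κ₁ ν₂ κ₂} {Wg : Wt S Λ R J} {A : Set J}

open Classical in
theorem finrank_Fm (h : J → ℕ) :
    finrank ℂ (ch.Fm A h) = ∑ j with j ∈ A, finrank ℂ (ch.Th j) * h j := by
  let := Fintype.ofFinite A
  refine (finrank_pi_clm (fun j : A => ch.Th j) fun j => Fin (h j) → ℂ).trans ?_
  simp only [Module.finrank_fin_fun]
  exact (Finset.sum_subtype _ (fun j => by simp) fun j => finrank ℂ (ch.Th j) * h j).symm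

namespace PB

theorem pbT_pbT {M M' M'' : ι → ℕ} (φ : HV M M') (ψ : HV M' M'') {σ : Type} [Fintype σ]
    (τ : σ → ι) (m : Tn M'' τ) : pbT φ τ (pbT ψ τ m) = pbT (fun i => ψ i ∘L φ i) τ m := rfl

theorem pbT_congr {M M' M₀ M'' : ι → ℕ} {φ : HV M M'} {ψ : HV M' M''} {φ' : HV M M₀}
    {ψ' : HV M₀ M''} (h : ∀ i v, ψ i (φ i v) = ψ' i (φ' i v)) {σ : Type} [Fintype σ] (τ : σ → ι)
    (m : Tn M'' τ) : pbT φ τ (pbT ψ τ m) = pbT φ' τ (pbT ψ' τ m) :=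
  ContinuousMultilinearMap.ext fun _ => congrArg m (funext fun _ => h _ _)

theorem pbT_eq {M M' M'' : ι → ℕ} {φ : HV M M'} {ψ : HV M' M''} {χ : HV M M''}
    (h : ∀ i v, ψ i (φ i v) = χ i v) {σ : Type} [Fintype σ] (τ : σ → ι)
    (m : Tn M'' τ) : pbT φ τ (pbT ψ τ m) = pbT χ τ m :=
  ContinuousMultilinearMap.ext fun _ => congrArg m (funext fun _ => h _ _)

theorem pbT_id {M M' : ι → ℕ} {φ : HV M M'} {ψ : HV M' M} (h : ∀ i v, ψ i (φ i v) = v)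
    {σ : Type} [Fintype σ] (τ : σ → ι) (m : Tn M τ) : pbT φ τ (pbT ψ τ m) = m :=
  ContinuousMultilinearMap.ext fun _ => congrArg m (funext fun _ => h _ _)

theorem blkD_apply {W W₀ W₁ : Type} [NormedAddCommGroup W] [NormedSpace ℂ W]
    [NormedAddCommGroup W₀] [NormedSpace ℂ W₀] [NormedAddCommGroup W₁] [NormedSpace ℂ W₁]
    (f : W₀ →L[ℂ] W) (g : W →L[ℂ] W₀) (f' : W₁ →L[ℂ] W) (g' : W →L[ℂ] W₁)
    (a : W₀ →L[ℂ] W₀) (a' : W₁ →L[ℂ] W₁) (v : W) :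
    blkD f g f' g' a a' v = f (a (g v)) + f' (a' (g' v)) := rfl

theorem inv_eq {M : Type*} [MonoidWithZero M] {x y : M} (h : x * y = 1) (h' : y * x = 1) :
    Ring.inverse x = y := Ring.inverse_unit ⟨x, y, h, h'⟩

theorem inv_conj {M : Type*} [MonoidWithZero M] {x y a b : M} (hx : IsUnit x) (hy : IsUnit y)
    (h : x * b = a * y) : Ring.inverse x * a = b * Ring.inverse y := by
  rw [Ring.inverse_mul_eq_iff_eq_mul _ _ _ hx, ← mul_assoc, h, Ring.mul_inverse_cancel_right _ _ hy]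

theorem tS_mk₁ (q : Mk ν₁ κ₁) : s.tS ((s.mk₁ q).map id Prod.fst) = .inl (q.map id Prod.fst) := by
  rcases q with q | q <;> simp [Sv.tS]

theorem tS_mk₂ (q : Mk ν₂ κ₂) : s.tS ((s.mk₂ q).map id Prod.fst) = .inr (q.map id Prod.fst) := by
  rcases q with q | q <;> simp [Sv.tS]

theorem elim_tS {X : Type} (f : ν ⊕ κ → X) (g g' : Empty → X) (q : ν ⊕ κ) :
    (s.tS q).elim (fun c => Sum.elim f g (s.t₁ c)) (fun c => Sum.elim f g' (s.t₂ c)) = f q := by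
  rcases q with q | q
  · obtain ⟨q | q, rfl⟩ := s.φ.surjective q <;> simp [Sv.tS, Sv.t₁, Sv.t₂]
  · obtain ⟨q | q, rfl⟩ := s.ψ.surjective q <;> simp [Sv.tS, Sv.t₁, Sv.t₂]

theorem ex_ρM {h : J → ℕ} (t : J → ℂ) (g : HV ch.M ch.M)
    (f : ∀ j, (Fin (h j) → ℂ) →L[ℂ] (Fin (h j) → ℂ)) (v : ch.Fm A h) (j : J) (m : ch.Th j) :
    Fm.ex (ρM t g f v) j m = t j • f j (Fm.ex v j (pbT g _ m)) := by
  by_cases e : j ∈ A
  · rw [Fm.ex_mem _ e, Fm.ex_mem _ e]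
    rfl
  · rw [Fm.ex_not _ e, Fm.ex_not _ e]
    simp

theorem actF_gauge (γ : ch.A (ν ⊕ κ)) (x : ch.WF ν κ Λ) :
    actF Wg ((1, γ) : ch.AF ν κ S) x = (x.1, act (dup γ) x.2) :=
  Prod.ext (Wg.actL_one _) (congrArg (act (dup γ)) ((congrArg (scl · x.2)
    (funext fun _ => Finset.prod_eq_one fun _ _ => one_zpow _)).trans (scl_one _)))

end PB

open PB

namespace Bip

variable (b : ch.Bip n₁ n₂) {a : ch.AQ n₁ n₂ ν κ S} {c : ch.A2 n₁ n₂ ν₁ κ₁ ν₂ κ₂ S}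
  {z : ch.WQ n₁ n₂ ν κ ν₁ κ₁ ν₂ κ₂ Λ} {y : b.WX A ν₁ κ₁ ν₂ κ₂ Λ}

theorem φ₁_inj (i : ι) : Injective (b.φ₁ i) := LeftInverse.injective (b.ψφ₁₁ i)

theorem φ₂_inj (i : ι) : Injective (b.φ₂ i) := LeftInverse.injective (b.ψφ₂₂ i)

theorem isCompl (i : ι) : IsCompl (b.φ₁ i).range (b.φ₂ i).range := by
  refine ⟨Submodule.disjoint_def.2 ?_, codisjoint_iff.2 (eq_top_iff.2 fun v _ =>
    Submodule.mem_sup.2 ⟨_, ⟨_, rfl⟩, _, ⟨_, rfl⟩, b.φψ i v⟩)⟩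
  rintro _ ⟨u, rfl⟩ ⟨v, e⟩
  have := congrArg (b.ψ₁ i) (show b.φ₂ i v = b.φ₁ i u from e)
  rw [b.ψφ₁₂, b.ψφ₁₁] at this
  rw [← this, map_zero]

theorem bij (l : Option J) : Bijective ((b.r₁ l).prod (b.r₂ l)) :=
  bijective_iff_has_inverse.2 ⟨fun v => b.e₁ l v.1 + b.e₂ l v.2, b.er l, fun v => by
    simp [b.re₁₁, b.re₁₂, b.re₂₁, b.re₂₂]⟩

theorem lpr₁ : lpr b.φ₁ b.φ₂ = b.ψ₁ := funext fun i => ContinuousLinearMap.ext fun v => by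
  conv_lhs => rw [← b.φψ i v, map_add, lpr_left b.φ₁_inj b.φ₂_inj b.isCompl,
    lpr_right b.φ₁_inj b.φ₂_inj b.isCompl, add_zero]

theorem lpr₂ : lpr b.φ₂ b.φ₁ = b.ψ₂ := b.symm.lpr₁

include b in
theorem M_add (i : ι) : ch.M i = n₁.M i + n₂.M i := by
  have : Bijective ((b.ψ₁ i).prod (b.ψ₂ i)) :=
    bijective_iff_has_inverse.2 ⟨fun v => b.φ₁ i v.1 + b.φ₂ i v.2, b.φψ i, fun v => by
      simp [b.ψφ₁₁, b.ψφ₁₂, b.ψφ₂₁, b.ψφ₂₂]⟩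
  simpa using (LinearEquiv.ofBijective ((b.ψ₁ i).prod (b.ψ₂ i)).toLinearMap this).finrank_eq

include b in
theorem h_add (l : Option J) : ch.h l = n₁.h l + n₂.h l := by
  simpa using (LinearEquiv.ofBijective ((b.r₁ l).prod (b.r₂ l)).toLinearMap (b.bij l)).finrank_eq

section ds

variable {σ : Type} [Fintype σ] {τ : σ → ι} {l : Option J}
  (X₁ : Tn n₁.M τ →L[ℂ] (ch.re n₁).E l) (X₂ : Tn n₂.M τ →L[ℂ] (ch.re n₂).E l)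

theorem ds_apply (m : Tn ch.M τ) :
    b.ds X₁ X₂ m = b.e₁ l (X₁ (pbT b.φ₁ τ m)) + b.e₂ l (X₂ (pbT b.φ₂ τ m)) := rfl

theorem ds_symm : b.symm.ds X₂ X₁ = b.ds X₁ X₂ := add_comm _ _

theorem r₁_ds (m : Tn ch.M τ) : b.r₁ l (b.ds X₁ X₂ m) = X₁ (pbT b.φ₁ τ m) := by
  rw [ds_apply, map_add, b.re₁₁, b.re₁₂, add_zero]

theorem r₂_ds (m : Tn ch.M τ) : b.r₂ l (b.ds X₁ X₂ m) = X₂ (pbT b.φ₂ τ m) := by
  rw [ds_apply, map_add, b.re₂₁, b.re₂₂, zero_add]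

theorem rs₁_ds (m : Tn n₁.M τ) : b.r₁ l (b.ds X₁ X₂ (pbT b.ψ₁ τ m)) = X₁ m := by
  rw [r₁_ds, pbT_id b.ψφ₁₁]

theorem rs₂_ds (m : Tn n₂.M τ) : b.r₂ l (b.ds X₁ X₂ (pbT b.ψ₂ τ m)) = X₂ m := by
  rw [r₂_ds, pbT_id b.ψφ₂₂]

theorem an_ds {P : Type} [NormedAddCommGroup P] [NormedSpace ℂ P] {q : P}
    {X₁ : P → Tn n₁.M τ →L[ℂ] (ch.re n₁).E l} {X₂ : P → Tn n₂.M τ →L[ℂ] (ch.re n₂).E l}
    (h₁ : AnalyticAt ℂ X₁ q) (h₂ : AnalyticAt ℂ X₂ q) :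
    AnalyticAt ℂ (fun y => b.ds (X₁ y) (X₂ y)) q :=
  (an_comp analyticAt_const (an_comp h₁ analyticAt_const)).add
    (an_comp analyticAt_const (an_comp h₂ analyticAt_const))

end ds

section sm

variable (y₁ : (ch.re n₁).W (Mk ν₁ κ₁)) (y₂ : (ch.re n₂).W (Mk ν₂ κ₂))
  (v : ∀ j, ch.Th j →L[ℂ] ch.E (some j))

theorem sm_p₁ (q) : (b.sm s y₁ y₂ v).p (s.mk₁ q) = apV b.φ₁ (y₁.p q) :=
  congrArg (Sum.elim (fun c => apV b.φ₁ (y₁.p c)) fun c => apV b.φ₂ (y₂.p c)) (s.mkS_mk₁ q)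

theorem sm_p₂ (q) : (b.sm s y₁ y₂ v).p (s.mk₂ q) = apV b.φ₂ (y₂.p q) :=
  congrArg (Sum.elim (fun c => apV b.φ₁ (y₁.p c)) fun c => apV b.φ₂ (y₂.p c)) (s.mkS_mk₂ q)

theorem lk₁ : Lk (b.sm s y₁ y₂ v) ((y₁, b.φ₁, b.r₁) : ch.Lb n₁ _) :=
  ⟨fun _ => b.r₁_ds _ _, b.r₁_ds _ _⟩

theorem lk₂ : Lk (b.sm s y₁ y₂ v) ((y₂, b.φ₂, b.r₂) : ch.Lb n₂ _) :=
  ⟨fun _ => b.r₂_ds _ _, b.r₂_ds _ _⟩

end sm

theorem sm_symm (y₁ : (ch.re n₁).W (Mk ν₁ κ₁)) (y₂ : (ch.re n₂).W (Mk ν₂ κ₂)) (v) :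
    b.symm.sm s.symm y₂ y₁ v = b.sm s y₁ y₂ v := by
  refine W.ext (fun _ => b.ds_symm _ _) (fun q => ?_) (b.ds_symm _ _)
    fun j => congrArg (· + v j) (b.ds_symm _ _)
  rcases s.mk_cases q with ⟨q, rfl⟩ | ⟨q, rfl⟩
  · rw [sm_p₁, ← s.symm_mk₂, sm_p₂]
    rfl
  · rw [sm_p₂, ← s.symm_mk₁, sm_p₁]
    rfl

theorem crF_apply (v : ch.Fm A ch.hf) (j : A) :
    b.crF A v j = v j - b.ds (b.rs₁ A v j) (b.rs₂ A v j) := sub_sub (v j) _ _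

theorem crF_of_mem {v : ch.Fm A ch.hf} (h : v ∈ b.cr A) : b.crF A v = v := by
  simp only [crF, LinearMap.sub_apply, LinearMap.comp_apply, LinearMap.mem_ker.1 h.1,
    LinearMap.mem_ker.1 h.2, map_zero, sub_zero, LinearMap.id_apply]

theorem crP_val (v : b.cr A) : b.crP A v.1 = v := Subtype.ext (b.crF_of_mem v.2)

theorem crP_coe (v : ch.Fm A ch.hf) : (b.crP A v).1 = b.crF A v := rfl

theorem crF_eq_zero {v : ch.Fm A ch.hf} : b.crF A v = 0 ↔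
    ∀ j : A, v j = b.ds (b.rs₁ A v j) (b.rs₂ A v j) :=
  funext_iff.trans (forall_congr' fun j => by
    rw [crF_apply]
    exact sub_eq_zero (a := v j))

theorem crF_ds (X₁ : ∀ j, (ch.re n₁).Th j →L[ℂ] (ch.re n₁).E (some j))
    (X₂ : ∀ j, (ch.re n₂).Th j →L[ℂ] (ch.re n₂).E (some j)) :
    b.crF A (fun j => b.ds (X₁ j) (X₂ j)) = 0 :=
  b.crF_eq_zero.2 fun _ => congrArg₂ b.ds (ContinuousLinearMap.ext fun m => (b.rs₁_ds _ _ m).symm)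
    (ContinuousLinearMap.ext fun m => (b.rs₂_ds _ _ m).symm)

theorem finrank_cr : finrank ℂ (b.cr A) + finrank ℂ ((ch.re n₁).Fm A (ch.re n₁).hf) +
    finrank ℂ ((ch.re n₂).Fm A (ch.re n₂).hf) = finrank ℂ (ch.Fm A ch.hf) := by
  have h := ((b.rs₁ A).prod (b.rs₂ A)).finrank_range_add_finrank_ker
  have h' : ((b.rs₁ A).prod (b.rs₂ A)).range = ⊤ := eq_top_iff.2 fun u _ =>
    ⟨fun j => b.ds (u.1 j) (u.2 j), Prod.ext (funext fun _ => ContinuousLinearMap.ext (b.rs₁_ds _ _))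
      (funext fun _ => ContinuousLinearMap.ext (b.rs₂_ds _ _))⟩
  rw [LinearMap.ker_prod, h', finrank_top, finrank_prod] at h
  rw [← h, add_assoc, add_comm]
  rfl

section blk

variable (b' b'' : ch.Bip n₁ n₂) (a₁ a₁' : HV n₁.M n₁.M) (a₂ a₂' : HV n₂.M n₂.M)
  (c₁ c₁' : ∀ l, (ch.re n₁).E l →L[ℂ] (ch.re n₁).E l)
  (c₂ c₂' : ∀ l, (ch.re n₂).E l →L[ℂ] (ch.re n₂).E l)

/-- Block diagonal maps of the factors from `b'` to `b`. -/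
noncomputable def bV : HV ch.M ch.M :=
  fun i => blkD (b.φ₁ i) (b'.ψ₁ i) (b.φ₂ i) (b'.ψ₂ i) (a₁ i) (a₂ i)

/-- Block diagonal maps of the spaces of sections from `b'` to `b`. -/
noncomputable def bE (l : Option J) : ch.E l →L[ℂ] ch.E l :=
  blkD (b.e₁ l) (b'.r₁ l) (b.e₂ l) (b'.r₂ l) (c₁ l) (c₂ l)

theorem bV_φ₁ (i v) : b.bV b' a₁ a₂ i (b'.φ₁ i v) = b.φ₁ i (a₁ i v) := by
  rw [bV, blkD_apply, b'.ψφ₁₁, b'.ψφ₂₁, map_zero, map_zero, add_zero]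

theorem bV_φ₂ (i v) : b.bV b' a₁ a₂ i (b'.φ₂ i v) = b.φ₂ i (a₂ i v) := by
  rw [bV, blkD_apply, b'.ψφ₁₂, b'.ψφ₂₂, map_zero, map_zero, zero_add]

theorem ψ₁_bV (i v) : b.ψ₁ i (b.bV b' a₁ a₂ i v) = a₁ i (b'.ψ₁ i v) := by
  rw [bV, blkD_apply, map_add, b.ψφ₁₁, b.ψφ₁₂, add_zero]

theorem ψ₂_bV (i v) : b.ψ₂ i (b.bV b' a₁ a₂ i v) = a₂ i (b'.ψ₂ i v) := by
  rw [bV, blkD_apply, map_add, b.ψφ₂₁, b.ψφ₂₂, zero_add]

theorem bE_e₁ (l v) : b.bE b' c₁ c₂ l (b'.e₁ l v) = b.e₁ l (c₁ l v) := by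
  rw [bE, blkD_apply, b'.re₁₁, b'.re₂₁, map_zero, map_zero, add_zero]

theorem bE_e₂ (l v) : b.bE b' c₁ c₂ l (b'.e₂ l v) = b.e₂ l (c₂ l v) := by
  rw [bE, blkD_apply, b'.re₁₂, b'.re₂₂, map_zero, map_zero, zero_add]

theorem r₁_bE (l v) : b.r₁ l (b.bE b' c₁ c₂ l v) = c₁ l (b'.r₁ l v) := by
  rw [bE, blkD_apply, map_add, b.re₁₁, b.re₁₂, add_zero]

theorem r₂_bE (l v) : b.r₂ l (b.bE b' c₁ c₂ l v) = c₂ l (b'.r₂ l v) := by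
  rw [bE, blkD_apply, map_add, b.re₂₁, b.re₂₂, zero_add]

theorem bV_one : b.bV b 1 1 = 1 := funext fun i => ContinuousLinearMap.ext (b.φψ i)

theorem bE_one : b.bE b 1 1 = 1 := funext fun l => ContinuousLinearMap.ext (b.er l)

theorem bV_mul : b.bV b'' (a₁ * a₁') (a₂ * a₂') = b.bV b' a₁ a₂ * b'.bV b'' a₁' a₂' :=
  funext fun i => ContinuousLinearMap.ext fun v => congrArg₂ (fun u w =>
    b.φ₁ i (a₁ i u) + b.φ₂ i (a₂ i w)) (b'.ψ₁_bV b'' a₁' a₂' i v).symm (b'.ψ₂_bV b'' a₁' a₂' i v).symm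

theorem bE_mul : b.bE b'' (c₁ * c₁') (c₂ * c₂') = b.bE b' c₁ c₂ * b'.bE b'' c₁' c₂' :=
  funext fun l => ContinuousLinearMap.ext fun v => congrArg₂ (fun u w =>
    b.e₁ l (c₁ l u) + b.e₂ l (c₂ l w)) (b'.r₁_bE b'' c₁' c₂' l v).symm (b'.r₂_bE b'' c₁' c₂' l v).symm

theorem bV_inv (i : ι) : b.bV b' 1 1 i * b'.bV b 1 1 i = 1 :=
  congrFun ((b.bV_mul b' b 1 1 1 1).symm.trans b.bV_one) i

theorem bE_inv (l : Option J) : b.bE b' 1 1 l * b'.bE b 1 1 l = 1 :=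
  congrFun ((b.bE_mul b' b 1 1 1 1).symm.trans b.bE_one) l

theorem bE_ds {σ : Type} [Fintype σ] {τ : σ → ι} {l : Option J}
    (X₁ : Tn n₁.M τ →L[ℂ] (ch.re n₁).E l) (X₂ : Tn n₂.M τ →L[ℂ] (ch.re n₂).E l) (m : Tn ch.M τ) :
    b.bE b' c₁ c₂ l (b'.ds X₁ X₂ (pbT (b.bV b' a₁ a₂) τ m)) =
      b.ds (c₁ l ∘L X₁ ∘L pbT a₁ τ) (c₂ l ∘L X₂ ∘L pbT a₂ τ) m := by
  rw [ds_apply, map_add, bE_e₁, bE_e₂, pbT_congr (b.bV_φ₁ b' a₁ a₂), pbT_congr (b.bV_φ₂ b' a₁ a₂)]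
  rfl

variable (t : J → ℂ) (v : ch.Fm A ch.hf)

theorem rs₁_ρM : b.rs₁ A (ρM t (b.bV b' a₁ a₂) (fun j => b.bE b' c₁ c₂ (some j)) v) =
    ρM (ch := ch.re n₁) t a₁ (fun j => c₁ (some j)) (b'.rs₁ A v) :=
  funext fun j => ContinuousLinearMap.ext fun m => (map_smul (b.r₁ _) _ _).trans
    (congrArg (t j • ·) ((b.r₁_bE b' c₁ c₂ _ _).trans (congrArg
      (fun u => c₁ _ (b'.r₁ _ (v j u))) (pbT_congr (b.ψ₁_bV b' a₁ a₂) _ m))))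

theorem rs₂_ρM : b.rs₂ A (ρM t (b.bV b' a₁ a₂) (fun j => b.bE b' c₁ c₂ (some j)) v) =
    ρM (ch := ch.re n₂) t a₂ (fun j => c₂ (some j)) (b'.rs₂ A v) :=
  funext fun j => ContinuousLinearMap.ext fun m => (map_smul (b.r₂ _) _ _).trans
    (congrArg (t j • ·) ((b.r₂_bE b' c₁ c₂ _ _).trans (congrArg
      (fun u => c₂ _ (b'.r₂ _ (v j u))) (pbT_congr (b.ψ₂_bV b' a₁ a₂) _ m))))

theorem crF_ρM : b.crF A (ρM t (b.bV b' a₁ a₂) (fun j => b.bE b' c₁ c₂ (some j)) v) =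
    ρM t (b.bV b' a₁ a₂) (fun j => b.bE b' c₁ c₂ (some j)) (b'.crF A v) :=
  funext fun j => ContinuousLinearMap.ext fun m => by
    rw [crF_apply, rs₁_ρM, rs₂_ρM]
    change t j • b.bE b' c₁ c₂ _ _ - (b.e₁ _ (t j • _) + b.e₂ _ (t j • _)) =
      t j • b.bE b' c₁ c₂ _ (b'.crF A v j (pbT (b.bV b' a₁ a₂) _ m))
    rw [crF_apply, _root_.sub_apply, map_sub, bE_ds, map_smul, map_smul, ← smul_add,
      ← smul_sub]
    rfl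

end blk

theorem β_V : (b.β s c).2.1 = b.bV b c.1.2.1 c.2.1 := rfl

theorem β_E : (b.β s c).2.2.1 = b.bE b c.1.2.2.1 c.2.2.1 := rfl

theorem β_T (q) : (b.β s c).2.2.2 q = (s.tS q).elim c.1.2.2.2 c.2.2.2 := rfl

theorem ah_β : AH (b.β s : CL (ch.A2 n₁ n₂ ν₁ κ₁ ν₂ κ₂ S) _) :=
  ⟨Prod.ext rfl (Prod.ext b.bV_one (Prod.ext b.bE_one (funext fun q => by
      rw [β_T]
      cases s.tS q <;> rfl))),
    fun c c' => Prod.ext rfl (Prod.ext (b.bV_mul b b _ _ _ _) (Prod.ext (b.bE_mul b b _ _ _ _)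
      (funext fun q => by
        change _ = (b.β s c).2.2.2 q * (b.β s c').2.2.2 q
        rw [β_T, β_T, β_T]
        cases s.tS q <;> rfl)))⟩

theorem β_fst : (b.β s c).1 = c.1.1 := rfl

theorem ρc_val (v : b.cr A) : (b.ρc s A Wg c v).1 =
    ρM (Wg.cS c.1.1) (b.β s c).2.1 (fun j => (b.β s c).2.2.1 (some j)) v.1 :=
  (b.crF_ρM b _ _ _ _ _ v.1).trans (congrArg _ (b.crF_of_mem v.2))

theorem an_β {P : Type} [NormedAddCommGroup P] [NormedSpace ℂ P] {q : P}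
    {c : P → ch.A2 n₁ n₂ ν₁ κ₁ ν₂ κ₂ S} (h : AnalyticAt ℂ c q) :
    AnalyticAt ℂ (fun y => (c y).1.1) q ∧ AnalyticAt ℂ (fun y => (b.β s (c y)).2.1) q ∧
      AnalyticAt ℂ (fun y j => (b.β s (c y)).2.2.1 (some j)) q :=
  let ⟨h1, h2⟩ := AF.an_iff.1 (CL.an (b.β s) h)
  let ⟨h3, h4, _⟩ := A.an_iff.1 h2
  ⟨h1, h3, .pi fun _ => analyticAt_pi_iff.1 h4 _⟩

theorem rep_ρc : IsRepOn (b.ρc s A Wg : ch.A2 n₁ n₂ ν₁ κ₁ ν₂ κ₂ S → _) ⊤ := by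
  have h : IsRepOn (fun c : ch.A2 n₁ n₂ ν₁ κ₁ ν₂ κ₂ S => (ρM (Wg.cS c.1.1) (b.β s c).2.1
      (fun j => (b.β s c).2.2.1 (some j)) : ch.Fm A ch.hf → _)) ⊤ :=
    rep_ρM ⟨rfl, b.bV_one, funext fun j => congrFun b.bE_one (some j)⟩
      (fun c c' => ⟨rfl, b.bV_mul b b _ _ _ _, funext fun j =>
        congrFun (b.bE_mul b b c.1.2.2.1 c'.1.2.2.1 c.2.2.1 c'.2.2.1) (some j)⟩)
      (fun _ => b.an_β analyticAt_id) fun _ ha => ne_S (AP.isUnit_iff.1 ha).1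
  exact ⟨fun _ _ _ _ => trivial,
    fun c hc v _ w _ => (congrArg _ (h.add c hc v.1 trivial w.1 trivial)).trans (map_add _ _ _),
    fun c hc t v _ => (congrArg _ (h.smul c hc t v.1 trivial)).trans (map_smul _ _ _),
    fun v _ => (congrArg _ (h.one v.1 trivial)).trans (b.crP_val v),
    fun c c' hc hc' v _ => congrArg (b.crP A) ((h.mul c c' hc hc' v.1 trivial).trans
      (congrArg _ (b.ρc_val v).symm)),
    fun v _ => (b.crP A).continuous.comp (h.cont v.1 trivial)⟩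

theorem an_cr {P : Type} [NormedAddCommGroup P] [NormedSpace ℂ P] {q : P} {v : P → b.cr A}
    (h : AnalyticAt ℂ v q) : AnalyticAt ℂ (fun y => (v y).1) q :=
  ((b.cr A).subtypeL.analyticAt _).comp h

instance isAct_actX :
    IsAct (b.actX s Wg : ch.A2 n₁ n₂ ν₁ κ₁ ν₂ κ₂ S → b.WX A ν₁ κ₁ ν₂ κ₂ Λ → _) univ := by
  refine ⟨fun y _ => Prod.ext (isAct_act2.one y.1 trivial) (b.rep_ρc.one y.2 trivial),
    fun c c' hc hc' y _ => Prod.ext (isAct_act2.mul c c' hc hc' y.1 trivial)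
      (b.rep_ρc.mul c c' hc hc' y.2 trivial), fun _ _ _ _ => trivial, fun c hc y _ => ?_⟩
  have h0 : AnalyticAt ℂ (fun p : ch.A2 n₁ n₂ ν₁ κ₁ ν₂ κ₂ S × b.WX A ν₁ κ₁ ν₂ κ₂ Λ => p.1) (c, y) :=
    analyticAt_fst
  have h0' : AnalyticAt ℂ (fun p : ch.A2 n₁ n₂ ν₁ κ₁ ν₂ κ₂ S × b.WX A ν₁ κ₁ ν₂ κ₂ Λ => p.2) (c, y) :=
    analyticAt_snd
  obtain ⟨h1, h2, h3⟩ := b.an_β (s := s) h0
  refine ((isAct_act2.an c hc y.1 trivial).comp_of_eq (h0.prod (analyticAt_fst.comp h0')) rfl).prod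
    (((b.crP A).analyticAt _).comp (Fm.an_iff.2 fun j => ?_))
  exact an_comp (an_smul_clm (an_prod_zpow h1 (ne_S (AP.isUnit_iff.1 hc).1) _)
    (analyticAt_pi_iff.1 h3 j)) (an_comp (Fm.an_iff.1 (b.an_cr (analyticAt_snd.comp h0')) j)
      (GlA.an_pbT h2 _))

theorem an_μ : AnalyticAt ℂ (b.μ s) y := by
  have h0 : AnalyticAt ℂ (fun y : b.WX A ν₁ κ₁ ν₂ κ₂ Λ => y.1) y := analyticAt_fst
  have h1 : AnalyticAt ℂ (fun y : b.WX A ν₁ κ₁ ν₂ κ₂ Λ => y.1.1) y := analyticAt_fst.comp h0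
  obtain ⟨a1, a2, a3, a4⟩ := W.an_iff.1 (analyticAt_snd.comp h1)
  obtain ⟨b1, b2, b3, b4⟩ := W.an_iff.1 (analyticAt_snd.comp h0)
  have h2 := b.an_cr (analyticAt_snd (𝕜 := ℂ) (p := y))
  refine (analyticAt_fst.comp h1).prod (W.an_iff.2 ⟨fun l => b.an_ds (a1 l) (b1 l), fun q => ?_,
    b.an_ds a3 b3, fun j => (b.an_ds (a4 j) (b4 j)).add
      (W.an_X (((ιX : _ →L[ℂ] ch.W Empty).analyticAt _).comp h2) j)⟩)
  rcases s.mk_cases q with ⟨q, rfl⟩ | ⟨q, rfl⟩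
  · simp only [sm_p₁]
    exact .pi fun i => ((b.φ₁ i).analyticAt _).comp (analyticAt_pi_iff.1 (a2 q) i)
  · simp only [sm_p₂]
    exact .pi fun i => ((b.φ₂ i).analyticAt _).comp (analyticAt_pi_iff.1 (b2 q) i)

theorem an_st : AnalyticAt ℂ (b.st s) y := by
  have h0 : AnalyticAt ℂ (fun y : b.WX A ν₁ κ₁ ν₂ κ₂ Λ => y.1) y := analyticAt_fst
  have h1 : AnalyticAt ℂ (fun y : b.WX A ν₁ κ₁ ν₂ κ₂ Λ => y.1.1) y := analyticAt_fst.comp h0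
  obtain ⟨a1, a2, a3, -⟩ := W.an_iff.1 (analyticAt_snd.comp h1)
  obtain ⟨b1, b2, b3, -⟩ := W.an_iff.1 (analyticAt_snd.comp h0)
  refine b.an_μ.prod (AnalyticAt.prod (Lb.an_iff.2 ⟨W.an_iff.2 ⟨a1, a2, a3, fun _ => ?_⟩,
    fun _ => ?_, fun _ => ?_⟩) (Lb.an_iff.2 ⟨W.an_iff.2 ⟨b1, b2, b3, fun _ => ?_⟩, fun _ => ?_,
      fun _ => ?_⟩)) <;> exact analyticAt_const

theorem μ_act : b.μ s (b.actX s Wg c y) = actF Wg (b.β s c) (b.μ s y) := by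
  refine Prod.ext rfl (W.ext (fun l => ContinuousLinearMap.ext fun m => (b.bE_ds b _ _ _ _ _ _ m).symm)
    (fun q => funext fun i => ?_) (ContinuousLinearMap.ext fun m => (b.bE_ds b _ _ _ _ _ _ m).symm)
    fun j => ContinuousLinearMap.ext fun m => ?_)
  · change (b.sm s _ _ _).p q i = (b.β s c).2.2.2 _ i •
      b.bV b _ _ i ((b.sm s _ _ (Fm.ex y.2.1)).p q i)
    rcases s.mk_cases q with ⟨q, rfl⟩ | ⟨q, rfl⟩
    · rw [sm_p₁, sm_p₁, β_T, tS_mk₁]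
      exact (map_smul (b.φ₁ i) _ _).trans (congrArg _ (b.bV_φ₁ b _ _ i _).symm)
    · rw [sm_p₂, sm_p₂, β_T, tS_mk₂]
      exact (map_smul (b.φ₂ i) _ _).trans (congrArg _ (b.bV_φ₂ b _ _ i _).symm)
  · change b.e₁ _ (c.1.2.2.1 _ (Wg.cS c.1.1 j • _)) + b.e₂ _ (c.2.2.1 _ (Wg.cS c.1.1 j • _)) +
      Fm.ex (b.ρc s A Wg c y.2).1 j m = b.bE b c.1.2.2.1 c.2.2.1 _ (Wg.cS c.1.1 j •
        (b.ds _ _ (pbT (b.bV b c.1.2.1 c.2.1) _ m) + Fm.ex y.2.1 j _))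
    rw [ρc_val, ex_ρM, map_smul, map_smul, map_smul, map_smul, map_smul, map_add, bE_ds, smul_add,
      ← smul_add]
    rfl

theorem μ_add (v : b.cr A) : b.μ s ((y.1, y.2 + v) : b.WX A ν₁ κ₁ ν₂ κ₂ Λ) =
    b.μ s y + (0, ιX v.1) :=
  Prod.ext (add_zero _).symm (W.ext (fun _ => (add_zero _).symm) (fun _ => (add_zero _).symm)
    (add_zero _).symm fun j => (congrArg (_ + ·) (congrFun (map_add Fm.ex y.2.1 v.1) j)).trans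
      (add_assoc _ _ _).symm)

theorem eqM_μ {O : Set (b.WX A ν₁ κ₁ ν₂ κ₂ Λ)} {T : Set (ch.WF ν κ Λ)} (m : MapsTo (b.μ s) O T) :
    EqM (b.actX s Wg) (actF Wg) O T (b.β s : CL (ch.A2 n₁ n₂ ν₁ κ₁ ν₂ κ₂ S) _) (b.μ s) :=
  b.ah_β.eqM m (fun _ _ => b.an_μ.continuousAt.continuousWithinAt) fun _ _ _ _ => b.μ_act

theorem ivt_BA : Ivt (b.actX s Wg : ch.A2 n₁ n₂ ν₁ κ₁ ν₂ κ₂ S → b.WX A ν₁ κ₁ ν₂ κ₂ Λ → _)
    (b.BA A) := fun _ hc _ hy =>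
  ⟨Cv.act_mem_base hy.1 (isUnit_dupF (AP.isUnit_iff.1 hc).1),
    Cv.act_mem_base hy.2 (isUnit_dup (AP.isUnit_iff.1 hc).2)⟩

theorem r₁_ex (v : b.cr A) (j : J) (m) : b.r₁ (some j) (Fm.ex v.1 j (pbT b.ψ₁ _ m)) = 0 := by
  by_cases e : j ∈ A
  · rw [Fm.ex_mem _ e]
    exact congrArg (fun u : (ch.re n₁).Fm A (ch.re n₁).hf => u ⟨j, e⟩ m) v.2.1
  · rw [Fm.ex_not _ e]
    exact map_zero _

theorem r₂_ex (v : b.cr A) (j : J) (m) : b.r₂ (some j) (Fm.ex v.1 j (pbT b.ψ₂ _ m)) = 0 := by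
  by_cases e : j ∈ A
  · rw [Fm.ex_mem _ e]
    exact congrArg (fun u : (ch.re n₂).Fm A (ch.re n₂).hf => u ⟨j, e⟩ m) v.2.2
  · rw [Fm.ex_not _ e]
    exact map_zero _

theorem pt2_st : pt2 (b.st s y) = y.1 := by
  refine Prod.ext (Prod.ext rfl (W.ext (fun _ => rfl) (fun _ => rfl) rfl fun j =>
    ContinuousLinearMap.ext fun m => ?_)) (W.ext (fun _ => rfl) (fun _ => rfl) rfl fun j =>
    ContinuousLinearMap.ext fun m => ?_)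
  · change b.r₁ _ (b.ds _ _ (pbT (lpr b.φ₁ b.φ₂) _ m) + Fm.ex y.2.1 j (pbT (lpr b.φ₁ b.φ₂) _ m)) = _
    rw [lpr₁, map_add, rs₁_ds, r₁_ex, add_zero]
  · change b.r₂ _ (b.ds _ _ (pbT (lpr b.φ₂ b.φ₁) _ m) + Fm.ex y.2.1 j (pbT (lpr b.φ₂ b.φ₁) _ m)) = _
    rw [lpr₂, map_add, rs₂_ds, r₂_ex, add_zero]

/-- The labels of `z` are given by `b`. -/
structure Lab (z : ch.WQ n₁ n₂ ν κ ν₁ κ₁ ν₂ κ₂ Λ) : Prop where
  φ₁ : b.φ₁ = z.2.1.2.1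
  φ₂ : b.φ₂ = z.2.2.2.1
  r₁ : b.r₁ = z.2.1.2.2
  r₂ : b.r₂ = z.2.2.2.2

theorem exists_lab (hz : z ∈ CQ s) : ∃ b : ch.Bip n₁ n₂, b.Lab z :=
  let ⟨b, h1, h2, h3, h4⟩ := hz.1.exists_bip
  ⟨b, h1, h2, h3, h4⟩

variable {b' : ch.Bip n₁ n₂}

theorem γ_eq (h : b'.Lab z) :
    (b.γ z.2.1 z.2.2 : ch.A (ν ⊕ κ)) = (b.bV b' 1 1, b.bE b' 1 1, 1) := by
  unfold γ
  rw [← h.φ₁, ← h.φ₂, ← h.r₁, ← h.r₂]
  exact Prod.ext (funext fun i => inv_eq (b'.bV_inv b i) (b.bV_inv b' i)) rfl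

theorem γ_lab (h : b.Lab z) : (b.γ z.2.1 z.2.2 : ch.A (ν ⊕ κ)) = 1 :=
  (b.γ_eq h).trans (Prod.ext b.bV_one (Prod.ext b.bE_one rfl))

theorem γ_st : (b.γ (b.st s y).2.1 (b.st s y).2.2 : ch.A (ν ⊕ κ)) = 1 :=
  b.γ_lab ⟨rfl, rfl, rfl, rfl⟩

theorem g_st' (A' : Set J) :
    (b.g A' (b.st s y)).2 = b.crP A' fun j => Fm.ex y.2.1 j := Subtype.ext <| by
  change b.crF A' (qX A' (act (dup (b.γ (b.st s y).2.1 (b.st s y).2.2)) (b.μ s y).2)) = b.crF A' _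
  rw [γ_st, dup_one, act_one]
  exact ((b.crF A').map_add (fun j : A' => b.ds (y.1.1.2.X j) (y.1.2.X j))
    fun j : A' => Fm.ex y.2.1 j).trans ((congrArg (· + _) (b.crF_ds _ _)).trans (zero_add _))

theorem g_st : b.g A (b.st s y) = y :=
  Prod.ext b.pt2_st ((b.g_st' A).trans ((congrArg (b.crP A)
    (funext fun j => Fm.ex_mem y.2.1 j.2)).trans (b.crP_val _)))

theorem g_st_compl : (b.g Aᶜ (b.st s y)).2 = 0 :=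
  (b.g_st' Aᶜ).trans ((congrArg (b.crP Aᶜ) (funext fun j => Fm.ex_not y.2.1 j.2)).trans
    (map_zero _))

theorem CA_univ : (b.CA s univ : Set (ch.WQ n₁ n₂ ν κ ν₁ κ₁ ν₂ κ₂ Λ)) = CQ s :=
  Set.ext fun _ => and_iff_left (Subtype.ext (funext fun j => (j.2 trivial).elim))

theorem isUnit_γ (hz : z ∈ CQ s) : IsUnit (b.γ z.2.1 z.2.2 : ch.A (ν ⊕ κ)) := by
  obtain ⟨b', h⟩ := exists_lab hz
  rw [b.γ_eq h]
  exact Cv.isUnit_iff.2 ⟨fun i => ⟨⟨_, _, b.bV_inv b' i, b'.bV_inv b i⟩, rfl⟩,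
    fun l => ⟨⟨_, _, b.bE_inv b' l, b'.bE_inv b l⟩, rfl⟩, fun _ _ => one_ne_zero⟩

theorem isUnit_G (hz : z ∈ CQ s) (i : ι) :
    IsUnit (z.2.1.2.1 i ∘L b.ψ₁ i + z.2.2.2.1 i ∘L b.ψ₂ i) :=
  isUnit_ringInverse.1 (isUnit_fst (b.isUnit_γ hz) i)

theorem an_γ (hz : z ∈ CQ s) : AnalyticAt ℂ
    (fun z : ch.WQ n₁ n₂ ν κ ν₁ κ₁ ν₂ κ₂ Λ => (b.γ z.2.1 z.2.2 : ch.A (ν ⊕ κ))) z := by
  have h0 : AnalyticAt ℂ (fun z : ch.WQ n₁ n₂ ν κ ν₁ κ₁ ν₂ κ₂ Λ => z.2) z := analyticAt_snd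
  obtain ⟨-, a1, a2⟩ := Lb.an_iff.1 (analyticAt_fst.comp h0)
  obtain ⟨-, b1, b2⟩ := Lb.an_iff.1 (analyticAt_snd.comp h0)
  exact A.an_iff.2 ⟨.pi fun i => GlA.an_inv ((an_comp (a1 i) analyticAt_const).add
    (an_comp (b1 i) analyticAt_const)) (b.isUnit_G hz i), .pi fun l =>
      (an_comp analyticAt_const (a2 l)).add (an_comp analyticAt_const (b2 l)), analyticAt_const⟩

theorem an_g (hz : z ∈ CQ s) : AnalyticAt ℂ (b.g A) z := by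
  obtain ⟨h1, h2, -⟩ := Ch.A.an_iff.1 (b.an_γ hz)
  have h0 : AnalyticAt ℂ (fun z : ch.WQ n₁ n₂ ν κ ν₁ κ₁ ν₂ κ₂ Λ => z.1) z := analyticAt_fst
  have h3 : AnalyticAt ℂ (fun z : ch.WQ n₁ n₂ ν κ ν₁ κ₁ ν₂ κ₂ Λ =>
      (dup (b.γ z.2.1 z.2.2) : ch.A (Mk ν κ))) z :=
    Ch.A.an_iff.2 ⟨h1, h2, show AnalyticAt ℂ (fun _ => 1) z from analyticAt_const⟩
  exact (CQ.an_pt2 hz).prod (((b.crP A).analyticAt _).comp (((qX A).analyticAt _).comp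
    (an_act h3 (analyticAt_snd.comp h0))))

/-- the cocycle identity -/
theorem γ_act (hz : z ∈ CQ s) (ha : IsUnit a) :
    ((1, b.γ (actQ s Wg a z).2.1 (actQ s Wg a z).2.2) : ch.AF ν κ S) * a.1 =
      b.β s (θQ s a) * (1, b.γ z.2.1 z.2.2) := by
  obtain ⟨h1, h2⟩ := AP.isUnit_iff.1 ha
  obtain ⟨h3, h4⟩ := AP.isUnit_iff.1 h2
  refine Prod.ext (mul_comm _ _) (Prod.ext (funext fun i => inv_conj
    (b.isUnit_G (ivt_CQ a ha z hz) i) (b.isUnit_G hz i) (ContinuousLinearMap.ext fun v => ?_))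
    (Prod.ext (funext fun l => ContinuousLinearMap.ext fun v => ?_) (funext fun q =>
      (one_mul _).trans ((elim_tS _ a.2.1.2.2 a.2.2.2.2 q).symm.trans (mul_one _).symm))))
  · change a.1.2.1 i (z.2.1.2.1 i (Ring.inverse (a.2.1.1 i) (b.ψ₁ i (b.bV b a.2.1.1 a.2.2.1 i v)))) +
      a.1.2.1 i (z.2.2.2.1 i (Ring.inverse (a.2.2.1 i) (b.ψ₂ i (b.bV b a.2.1.1 a.2.2.1 i v)))) =
        a.1.2.1 i (z.2.1.2.1 i (b.ψ₁ i v) + z.2.2.2.1 i (b.ψ₂ i v))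
    rw [ψ₁_bV, ψ₂_bV, inv_ap (isUnit_fst h3 i), inv_ap (isUnit_fst h4 i), map_add]
  · change b.e₁ l (a.2.1.2.1 l (z.2.1.2.2 l (Ring.inverse (a.1.2.2.1 l) (a.1.2.2.1 l v)))) +
      b.e₂ l (a.2.2.2.1 l (z.2.2.2.2 l (Ring.inverse (a.1.2.2.1 l) (a.1.2.2.1 l v)))) =
        b.bE b a.2.1.2.1 a.2.2.2.1 l (b.e₁ l (z.2.1.2.2 l v) + b.e₂ l (z.2.2.2.2 l v))
    rw [inv_ap (isUnit_E (isUnitF_iff.1 h1).2 l), map_add, bE_e₁, bE_e₂]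

theorem g_act (hz : z ∈ CQ s) (ha : IsUnit a) :
    b.g A (actQ s Wg a z) = b.actX s Wg (θQ s a) (b.g A z) := by
  refine Prod.ext (CQ.pt2_act hz ha) (Subtype.ext (Eq.trans ?_ (b.ρc_val _).symm))
  have h := congrArg (fun u => (actF Wg u z.1).2) (b.γ_act (Wg := Wg) hz ha)
  simp only [actF_mul, actF_gauge] at h
  refine (congrArg (fun x => b.crF A (qX A x)) h).trans ?_
  exact (congrArg (b.crF A) (GlA.qX_act A _ _ _)).trans (b.crF_ρM b _ _ _ _ _ _)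

theorem ivt_CA : Ivt (actQ s Wg : ch.AQ n₁ n₂ ν κ S → ch.WQ n₁ n₂ ν κ ν₁ κ₁ ν₂ κ₂ Λ → _)
    (b.CA s A) := fun a ha z hz => ⟨ivt_CQ a ha z hz.1, by
  rw [b.g_act hz.1 ha]
  exact Subtype.ext ((b.ρc_val _).trans ((congrArg (fun v : b.cr Aᶜ => ρM _ _ _ v.1) hz.2).trans
    (ρM_zero _ _ _)))⟩

theorem g_mem (hz : z ∈ CQ s) : b.g A z ∈ b.BA A := ⟨CQ.mem₁ hz, CQ.mem₂ hz⟩

theorem ds_lk (h : b'.Lab z) {σ : Type} [Fintype σ] {τ : σ → ι} {l : Option J}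
    {X : Tn ch.M τ →L[ℂ] ch.E l} {X₁ : Tn n₁.M τ →L[ℂ] (ch.re n₁).E l}
    {X₂ : Tn n₂.M τ →L[ℂ] (ch.re n₂).E l} (h₁ : ∀ m, z.2.1.2.2 l (X m) = X₁ (pbT z.2.1.2.1 τ m))
    (h₂ : ∀ m, z.2.2.2.2 l (X m) = X₂ (pbT z.2.2.2.1 τ m)) :
    b.ds X₁ X₂ = b.bE b' 1 1 l ∘L X ∘L pbT (b.bV b' 1 1) τ := ContinuousLinearMap.ext fun m => by
  rw [← h.r₁, ← h.φ₁] at h₁
  rw [← h.r₂, ← h.φ₂] at h₂
  change _ = b.e₁ l (b'.r₁ l (X (pbT (b.bV b' 1 1) τ m))) +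
    b.e₂ l (b'.r₂ l (X (pbT (b.bV b' 1 1) τ m)))
  rw [h₁, h₂, pbT_eq (b.bV_φ₁ b' 1 1), pbT_eq (b.bV_φ₂ b' 1 1)]
  rfl

theorem μ_g (hz : z ∈ b.CA s A) :
    b.μ s (b.g A z) = actF Wg ((1, b.γ z.2.1 z.2.2) : ch.AF ν κ S) z.1 := by
  obtain ⟨b', h⟩ := exists_lab hz.1
  have h0 := b.crF_eq_zero.1 (congrArg Subtype.val hz.2)
  have h1 := hz.1.1.one
  have h2 := hz.1.1.two
  rw [actF_gauge]
  unfold μ g
  rw [b.γ_eq h] at h0 ⊢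
  have h3 : ∀ (A' : Set J) (j : A'), b.ds ((pt₁ z).2.X j) ((pt₂ z).2.X j) = b.ds
      (b.rs₁ A' (qX A' (act (dup ((b.bV b' 1 1, b.bE b' 1 1, 1) : ch.A (ν ⊕ κ))) z.1.2)) j)
      (b.rs₂ A' (qX A' (act (dup ((b.bV b' 1 1, b.bE b' 1 1, 1) : ch.A (ν ⊕ κ))) z.1.2)) j) :=
    fun A' j => by
      unfold pt₁ pt₂ prt
      rw [← h.φ₁, ← h.φ₂, ← h.r₁, ← h.r₂, lpr₁, lpr₂]
      exact congrArg₂ b.ds (ContinuousLinearMap.ext fun m => ((b.r₁_bE b' 1 1 _ _).trans (congrArg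
        (fun u => b'.r₁ _ (z.1.2.X j u)) (pbT_eq (b.ψ₁_bV b' 1 1) _ m))).symm)
        (ContinuousLinearMap.ext fun m => ((b.r₂_bE b' 1 1 _ _).trans (congrArg
        (fun u => b'.r₂ _ (z.1.2.X j u)) (pbT_eq (b.ψ₂_bV b' 1 1) _ m))).symm)
  refine Prod.ext rfl (W.ext (fun l => b.ds_lk h (h1.Q l) (h2.Q l)) (fun q => funext fun i => ?_)
    (b.ds_lk h h1.Ξ h2.Ξ) fun j => ?_)
  · refine Eq.trans ?_ (one_smul ℂ (b.bV b' 1 1 i (z.1.2.p q i))).symm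
    rcases s.mk_cases q with ⟨q, rfl⟩ | ⟨q, rfl⟩
    · rw [sm_p₁, h1.mark, ← h.φ₁]
      exact (b.bV_φ₁ b' 1 1 i _).symm
    · rw [sm_p₂, h2.mark, ← h.φ₂]
      exact (b.bV_φ₂ b' 1 1 i _).symm
  · by_cases e : j ∈ A
    · exact (congrArg₂ (· + ·) (h3 A ⟨j, e⟩) ((Fm.ex_mem _ e).trans (b.crF_apply _ _))).trans
        (ContinuousLinearMap.ext fun m => add_sub_cancel (_ : ch.E (some j)) _)
    · exact (congrArg₂ (· + ·) (h3 Aᶜ ⟨j, e⟩) (Fm.ex_not _ e)).trans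
        ((add_zero _).trans (h0 ⟨j, e⟩).symm)

theorem θQ_γ : θQ s (((1, b.γ z.2.1 z.2.2), 1) : ch.AQ n₁ n₂ ν κ S) = 1 :=
  θQ_eq_one.2 ⟨rfl, rfl, rfl⟩

/-- the gauge transformation moves `z` to the standard section -/
theorem st_g (hz : z ∈ b.CA s A) : b.st s (b.g A z) =
    actQ s Wg (((1, b.γ z.2.1 z.2.2), 1) : ch.AQ n₁ n₂ ν κ S) z := by
  obtain ⟨b', h⟩ := exists_lab hz.1
  have h0 := b.θQ_γ (s := s) (S := S) (z := z)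
  have h1 := (fst_θQ.symm.trans (congrArg AP.fst h0))
  have h2 := (θ2_θQ.symm.trans (congrArg θ2 h0))
  refine Prod.ext (b.μ_g hz) (Prod.ext (Prod.ext ?_ ?_) (Prod.ext ?_ ?_))
  · exact (W.ext (x := (b.st s (b.g A z)).2.1.1) (y := z.2.1.1) (fun _ => rfl) (fun _ => rfl)
      rfl fun j => (hz.1.2.1 j).symm).trans
      (congrArg Prod.snd ((congrArg (actF Wg · (0, z.2.1.1)) h1).trans (actF_one _))).symm
  · rw [b.γ_eq h]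
    refine Prod.ext (funext fun i => ContinuousLinearMap.ext fun v => ?_)
      (funext fun l => ContinuousLinearMap.ext fun v => ?_)
    · change _ = b.bV b' 1 1 i (z.2.1.2.1 i (Ring.inverse (1 : _ →L[ℂ] _) v))
      rw [Ring.inverse_one, ← h.φ₁, bV_φ₁]
      rfl
    · change _ = z.2.1.2.2 l (Ring.inverse (b.bE b' 1 1 l) v)
      rw [inv_eq (b.bE_inv b' l) (b'.bE_inv b l), ← h.r₁, r₁_bE]
      rfl
  · exact (W.ext (x := (b.st s (b.g A z)).2.2.1) (y := z.2.2.1) (fun _ => rfl) (fun _ => rfl)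
      rfl fun j => (hz.1.2.2 j).symm).trans
      (congrArg Prod.snd ((congrArg (actF Wg · (0, z.2.2.1)) h2).trans (actF_one _))).symm
  · rw [b.γ_eq h]
    refine Prod.ext (funext fun i => ContinuousLinearMap.ext fun v => ?_)
      (funext fun l => ContinuousLinearMap.ext fun v => ?_)
    · change _ = b.bV b' 1 1 i (z.2.2.2.1 i (Ring.inverse (1 : _ →L[ℂ] _) v))
      rw [Ring.inverse_one, ← h.φ₂, bV_φ₂]
      rfl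
    · change _ = z.2.2.2.2 l (Ring.inverse (b.bE b' 1 1 l) v)
      rw [inv_eq (b.bE_inv b' l) (b'.bE_inv b l), ← h.r₂, r₂_bE]
      rfl

/-- the elements of the kernel of `θQ` are determined by the labels -/
theorem eq_of_θQ (hz : z ∈ CQ s) (ha : IsUnit a) (h : θQ s a = 1) : a = ((1, Ring.inverse
    (b.γ (actQ s Wg a z).2.1 (actQ s Wg a z).2.2) * b.γ z.2.1 z.2.2), 1) := by
  have h1 := b.γ_act (Wg := Wg) hz ha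
  rw [h, b.ah_β.one, one_mul] at h1
  obtain ⟨h2, -, h3⟩ := θQ_eq_one.1 h
  exact Prod.ext (Prod.ext h2 ((Ring.inverse_mul_eq_iff_eq_mul _ _ _
    (b.isUnit_γ (ivt_CQ a ha z hz))).2 (congrArg Prod.snd h1).symm).symm) h3

theorem g_snd (h : b'.Lab z) : (b.g A z).2.1 =
    ρM 1 (b.bV b' 1 1) (fun j => b.bE b' 1 1 (some j)) (b'.crF A (qX A z.1.2)) := by
  rw [← crF_ρM]
  change b.crF A (qX A (act (dup (b.γ z.2.1 z.2.2)) z.1.2)) = _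
  rw [b.γ_eq h]
  exact congrArg (b.crF A) ((congrArg (fun x => qX A (act _ x)) (scl_one _).symm).trans
    (GlA.qX_act A _ 1 _))

theorem mem_CA_iff (h : b'.Lab z) (hz : z ∈ CQ s) :
    z ∈ b.CA s A ↔ b'.crF Aᶜ (qX Aᶜ z.1.2) = 0 := by
  refine (and_iff_right hz).trans (Subtype.ext_iff.trans ?_)
  rw [b.g_snd h]
  refine ⟨fun e => funext fun j => ContinuousLinearMap.ext fun m => ?_,
    fun e => (congrArg _ e).trans (ρM_zero _ _ _)⟩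
  have h1 := congrArg (fun u : ch.Fm Aᶜ ch.hf => b'.bE b 1 1 _ (u j (pbT (b'.bV b 1 1) _ m))) e
  refine Eq.trans ?_ (h1.trans (map_zero _))
  change _ = b'.bE b 1 1 _ ((1 : ℂ) • b.bE b' 1 1 _ (b'.crF Aᶜ _ j (pbT _ _ (pbT _ _ m))))
  rw [one_smul, pbT_id fun i v => congrArg (· v) (b'.bV_inv b i)]
  exact (congrArg (fun T : ch.E (some j) →L[ℂ] ch.E (some j) =>
    T (b'.crF Aᶜ (qX Aᶜ z.1.2) j m)) (b'.bE_inv b _)).symm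

end Bip

theorem CQ.exists_st {z : ch.WQ n₁ n₂ ν κ ν₁ κ₁ ν₂ κ₂ Λ} (hz : z ∈ CQ s) :
    ∃ b : ch.Bip n₁ n₂, b.φ₁ = z.2.1.2.1 ∧ b.φ₂ = z.2.2.2.1 ∧ b.r₁ = z.2.1.2.2 ∧ b.r₂ = z.2.2.2.2 ∧
      b.st s (b.g univ z) = z ∧ ∀ A, z ∈ b.CA s A → b.st s (b.g A z) = z := by
  obtain ⟨b, h⟩ := Bip.exists_lab hz
  have k : ∀ A, z ∈ b.CA s A → b.st s (b.g A z) = z := fun A hA => by
    let F : Wt Empty Λ Empty J := ⟨0, 0, 0⟩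
    rw [b.st_g (Wg := F) hA, b.γ_lab h]
    exact (isAct_actQ (Wg := F)).one z trivial
  exact ⟨b, h.φ₁, h.φ₂, h.r₁, h.r₂, k _ ((b.CA_univ (s := s) (Λ := Λ)).ge hz), k⟩

/-- the cross terms do not depend on the choice of the standard position -/
theorem Bip.CA_congr (b b' : ch.Bip n₁ n₂) :
    (b.CA s A : Set (ch.WQ n₁ n₂ ν κ ν₁ κ₁ ν₂ κ₂ Λ)) = b'.CA s A := Set.ext fun z => by
  by_cases hz : z ∈ CQ s
  · obtain ⟨b₀, h⟩ := Bip.exists_lab hz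
    rw [b.mem_CA_iff h hz, b'.mem_CA_iff h hz]
  · exact ⟨fun h => absurd h.1 hz, fun h => absurd h.1 hz⟩

end Vale.Agent.P269.Ch
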