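import Vale.Agent.P287Q.G.Glu.PrSum
import Vale.Agent.P287Q.G.Glu.GC
import Vale.Agent.P287Q.G.Spl.GBp
import Vale.Agent.P269.Pt.Split
import Vale.Agent.P287Q.G.Pt.LC
import Vale.Agent.P269.Base.Std

set_option linter.unusedSectionVars false

/-!
# Decompositions and disjoint sums of abstract maps: the parts
-/

namespace Vale.Agent.P269

open P291Z Set Function Topology Filter Module Base Cv Holo Vir

variable {S Λ R J K ι ν κ ν₁ κ₁ ν₂ κ₂ : Type} [Fintype S] [Fintype Λ] [Fintype R] [Fintype J]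
  [Fintype K] [Fintype ι] [DecidableEq ι] [Fintype ν] [Fintype κ]
  [Fintype ν₁] [Fintype κ₁] [Fintype ν₂] [Fintype κ₂] {s : Sv ν κ ν₁ κ₁ ν₂ κ₂} {A : Set J}
  {m : AM Λ R J ν κ} {m₁ : AM Λ R J ν₁ κ₁} {m₂ : AM Λ R J ν₂ κ₂} {j₁ : m₁.X → m.X}
  {j₂ : m₂.X → m.X}

namespace PrPt

section

variable {X X' : Type} [TopologicalSpace X] [TopologicalSpace X'] [T2Space X] [CompactSpace X]
  [T2Space X'] [CompactSpace X'] {Q : RS X} {Q' : RS X'} {N : Finset (X × X)}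
  {N' : Finset (X' × X')} {M : ι → ℕ} {o : ι} {C C' : Set (V M)} {B : ι → LB Q} {π : X → V M}

/-- restriction of a presentation to a union of components -/
theorem par_res (p : Par o C N B π) {f : X' → X} (h : LIso Q' Q f) (hf : Injective f) (hN : Nd N')
    (e : ∀ x y, Jn N (f x) (f y) ↔ Jn N' x y)
    (hC : ∀ c, c ∈ C' ↔ ∃ x, ∃ t : ι → ℂ, (∀ i, t i ≠ 0) ∧ c = t • π (f x)) :
    Par o C' N' (fun i => h.pb (B i)) fun x => π (f x) := by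
  have d : ∀ x, deriv (br (fun i => h.pb (B i)) (fun x => π (f x)) x) 0 o =
      Units.mk0 _ (h.ne x) • deriv (br B π (f x)) 0 o := fun x =>
    congrFun (h.deriv_eq (u := fun y i j => π y i j / (B i).φ (f x) y)
      (an_br' fun i j => (p.sec i j).1 _)) o
  refine ⟨hN, fun i j => h.pb_mem0 (fun x y a => .inr ((e x y).2 a)) (p.sec i j), fun x => p.ne _,
    hC, fun x y t a => (p.inj _ _ t a).imp (fun b => hf b) (e x y).1, fun x => ?_, fun n a => ?_⟩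
  · convert (p.imm (f x)).units_smul ![1, Units.mk0 _ (h.ne x)] using 1
    funext i
    fin_cases i
    exacts [(one_smul ℂˣ _).symm, d x]
  · have k : LinearIndependent ℂ
        ![π (f n.1) o, deriv (br B π (f n.1)) 0 o, deriv (br B π (f n.2)) 0 o] := by
      rcases (e n.1 n.2).2 (.inl (show (n.1, n.2) ∈ N' from a)) with c | c
      · exact p.cross (f n.1, f n.2) c
      · obtain ⟨b, g⟩ := li_triple_iff.1 (p.cross _ c)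
        rw [show π (f n.2, f n.1).1 = π (f n.1) from node_eq p.sec c] at b g
        exact li_triple_iff.2 ⟨b, fun e e' s k => (g e' e s ((add_comm _ _).trans k)).symm⟩
    convert k.units_smul ![1, Units.mk0 _ (h.ne n.1), Units.mk0 _ (h.ne n.2)] using 1
    funext i
    fin_cases i
    exacts [(one_smul ℂˣ _).symm, d _, d _]

theorem isOpen_ne (p : Par o C N B π) {n : ℕ} (i : ι) (T : (Fin (M i) → ℂ) →L[ℂ] Fin n → ℂ) :
    IsOpen {y | T (π y i) ≠ 0} := isOpen_iff_eventually.2 fun y a =>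
  let ⟨j, b⟩ := ne_iff.1 a
  (((lin_mem p.sec i ((.proj j : (_ → ℂ) →L[ℂ] ℂ) ∘L T)).1 y).ev_ne b).mono
    fun _ c e => c (congrFun e j)

end

open Ch

variable {ch : Ch ι J} {n₁ n₂ : Nm ι J} {z : ch.WQ n₁ n₂ ν κ ν₁ κ₁ ν₂ κ₂ Λ} (hz : z ∈ CQ s)
  {c : V ch.M}
include hz

theorem part_sub : part z ⊆ crv z.1.2 := fun _ ⟨_, a, e⟩ => e ▸ hz.1.apV_mem a

theorem smul_part {t : ι → ℂ} (ht : ∀ i, t i ≠ 0) : t • c ∈ part z ↔ c ∈ part z := by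
  have k : ∀ {t : ι → ℂ} {c}, (∀ i, t i ≠ 0) → c ∈ part z → t • c ∈ part z :=
    fun {t _} ht ⟨c, a, e⟩ => ⟨t • c, hz.1.one.mem.2.2.1.cone t ht c a, e ▸ apV_smul _ _ _⟩
  exact ⟨fun a => Dict.inv_smul ht c ▸ k (fun i => inv_ne_zero (ht i)) a, k ht⟩

theorem mem_part (hc : c ∈ crv z.1.2) (i : ι) :
    c ∈ part z ↔ lpr z.2.1.2.1 z.2.2.2.1 i (c i) ≠ 0 := by
  refine ⟨fun ⟨c, a, e⟩ => e ▸ (lpr_left hz.1.one.inj hz.1.two.inj hz.1.compl i _).trans_ne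
    (crv_ne a i), fun a => (hz.1.crv.subset hc).resolve_right fun ⟨c, _, e⟩ => a ?_⟩
  exact e ▸ lpr_right hz.1.one.inj hz.1.two.inj hz.1.compl i _

theorem not_mem_part (hc : c ∈ crv z.1.2) : c ∉ part z ↔ c ∈ part (swQ z) :=
  ⟨(hz.1.crv.subset hc).resolve_left, fun ⟨_, _, e⟩ a => (mem_part hz hc ch.o).1 a
    (e ▸ lpr_right hz.1.one.inj hz.1.two.inj hz.1.compl _ _)⟩

end PrPt

namespace Ch

open PrPt

variable {ch : Ch ι J} {n₁ n₂ : Nm ι J} {Wg : Wt S Λ R J} {ℓ : R → ι → ℤ}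
  {z z' : ch.WQ n₁ n₂ ν κ ν₁ κ₁ ν₂ κ₂ Λ} {x : ch.WF ν κ Λ} {B : ι → LB m.R} {π : m.X → V ch.M}
  {u t}

theorem CQ.pre_swQ (hz : z ∈ CQ s) (r : RepD ℓ A z.1 m B π u t) :
    π ⁻¹' part (swQ z) = (π ⁻¹' part z)ᶜ :=
  Set.ext fun y => (not_mem_part hz (r.cr.par.mem y)).symm

/-- the first part is a union of components -/
theorem CQ.sat (hz : z ∈ CQ s) (r : RepD ℓ A z.1 m B π u t) : m.Sat (π ⁻¹' part z) ∧
    (∀ q, π (m.p (s.mk₁ q)) ∈ part z) ∧ ∀ q, π (m.p (s.mk₂ q)) ∉ part z := by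
  have k : ∀ {n₁ n₂ : Nm ι J} {ν₁ κ₁ ν₂ κ₂ : Type} [Fintype ν₁] [Fintype κ₁] [Fintype ν₂]
      [Fintype κ₂] {s : Sv ν κ ν₁ κ₁ ν₂ κ₂} {z : ch.WQ n₁ n₂ ν κ ν₁ κ₁ ν₂ κ₂ Λ}, z ∈ CQ s →
      RepD ℓ A z.1 m B π u t → IsOpen (π ⁻¹' part z) ∧ ∀ q, π (m.p (s.mk₁ q)) ∈ part z := by
    intro n₁ n₂ _ _ _ _ _ _ _ _ s z hz r
    refine ⟨?_, fun q => (smul_part hz (r.ne _)).1
      ⟨_, (hz.1.one.mem.2.2.2.1 q).1, (hz.1.one.mark q).symm.trans (r.mark _)⟩⟩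
    rw [show π ⁻¹' part z = _ from Set.ext fun y => mem_part hz (r.cr.par.mem y) ch.o]
    exact isOpen_ne r.cr.par _ _
  have a := k (swQ_mem.2 hz) r
  exact ⟨⟨⟨isOpen_compl_iff.1 (pre_swQ hz r ▸ a.1), (k hz r).1⟩,
    fun _ b _ c => mem_of_eq_of_mem (s := part z) (r.cr.par.π_eq (.inr c)).symm b⟩, (k hz r).2,
    fun q => (not_mem_part hz (r.cr.par.mem _)).2 (a.2 q)⟩

theorem CQ.part_eq (hz : z ∈ CQ s) (hz' : z' ∈ CQ s) (e : z.1 = z'.1) (r : RepD ℓ A z.1 m B π u t)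
    (h : π ⁻¹' part z = π ⁻¹' part z') : part z = part z' := by
  have k : ∀ c ∈ crv z.1.2, c ∈ part z ↔ c ∈ part z' := fun c a => by
    obtain ⟨y, t, b, rfl⟩ := r.mem_crv.1 a
    rw [smul_part hz b, smul_part hz' b]
    exact Set.ext_iff.1 h y
  exact Set.ext fun c => ⟨fun a => (k c (part_sub hz a)).1 a,
    fun a => (k c (e ▸ part_sub hz' a)).2 a⟩

theorem CQ.exists_split (hz : z ∈ CQ s) (r : RepD ℓ A z.1 m B π u t) :
    ∃ (m₁ : AM Λ R J ν₁ κ₁) (m₂ : AM Λ R J ν₂ κ₂) (j₁ : m₁.X → m.X) (j₂ : m₂.X → m.X),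
      AM.Split m m₁ m₂ s.φ s.ψ j₁ j₂ ∧ range j₁ = π ⁻¹' part z :=
  let ⟨a, b, c⟩ := sat hz r
  AM.exists_split a s.φ s.ψ b c

theorem CQ.rep₁ (hl : ch.Lat Wg ℓ) (hz : z ∈ CQ s) (r : RepD ℓ A z.1 m B π u t)
    (h : AM.Emb m₁ m (fun n => s.φ (.inl n)) (fun q => s.ψ (.inl q)) j₁)
    (e : range j₁ = π ⁻¹' part z) : Rep ℓ A (pt₁ z) m₁ := by
  obtain ⟨m', r'⟩ := hl.re.exists_rep (A := A)
    ((baseF_iff hz).1 ((r.mem_baseF (Z := univ)).2 trivial)).1 fun j hj c hc =>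
      (r.exists_val hj (hz.1.apV_mem hc)).imp fun _ => val₁ hz hc
  obtain ⟨B', π', u', t', r'⟩ := r'.exists_data (mem₁ hz)
  have p := par_res (C' := part z) r.cr.par h.liso h.inj m₁.nd (fun _ _ => h.jn) fun c =>
    ⟨fun a => by
      obtain ⟨y, t, b, rfl⟩ := r.mem_crv.1 (part_sub hz a)
      obtain ⟨y, rfl⟩ := e.symm.subset ((smul_part hz b).1 a)
      exact ⟨y, t, b, rfl⟩,
    fun ⟨y, t, b, a⟩ => a ▸ (smul_part hz b).2 (e.subset (mem_range_self y))⟩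
  have p' := r'.cr.par.lin hz.1.one.inj
  obtain ⟨f, c, hf, a, b, c0, d⟩ := p.exists_iso p'
  replace b : ∀ y, apV z.2.1.2.1 (π' (f y)) = c y • π (j₁ y) := b
  have mk : ∀ n, t' (n.map id Prod.fst) • apV z.2.1.2.1 (π' (m'.p n)) =
      t ((s.mk₁ n).map id Prod.fst) • π (j₁ (m₁.p n)) := fun n => by
    rw [← apV_smul, ← r'.mark, h.mark, ← r.mark]
    exact (hz.1.one.mark n).symm
  have hp : ∀ n, f (m₁.p n) = m'.p n := fun n =>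
    ((p'.inj (m'.p n) _ (c (m₁.p n) * ((t ((s.mk₁ n).map id Prod.fst))⁻¹ *
      t' (n.map id Prod.fst))) ((b _).trans (by
        rw [mul_smul, mul_smul]
        exact congrArg _ ((Dict.inv_smul (r.ne _) _).symm.trans
          (congrArg _ (mk n).symm))))).resolve_right (sm_iff.1 (m'.sm n) _)).symm
  have hc : ∀ n, t' (n.map id Prod.fst) * c (m₁.p n) = t ((s.mk₁ n).map id Prod.fst) := fun n =>
    Dict.smul_cancel (r.cr.par.ne _) (by rw [mul_smul, ← b, hp, mk])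
  refine r'.rep.of_isoD (mem₁ hz) hl.re (e := f) (t := fun r y => ∏ i, c y i ^ ℓ r i)
    ⟨hf, isUnit_one, a, hp, fun k => ?_, fun r y => prod_zpow_ne (c0 y) _, fun k q => ?_,
      by rw [Wg.actL_one, ← r'.l, h.l, ← r.l]; rfl, fun j hj y => ?_⟩
  · have := bz_mem d c0 (ℓ k)
    rw [bz_div, ← hf.pb_bz, ← h.liso.pb_bz, div_eq_mul_inv, ← zpow_neg_one] at this
    rw [div_eq_mul_inv, ← zpow_neg_one, ← h.L]
    exact ((((r'.L k).pb hf).mul (((r.L k).pb h.liso).zpow _)).H0).1 this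
  · exact congrArg (fun t : ι → ℂ => ∏ i, t i ^ ℓ k i) (funext fun i => mul_left_cancel₀
      (r'.ne (.inr q) i) ((congrFun (hc (.inr (q, false))) i).trans
        (congrFun (hc (.inr (q, true))) i).symm))
  · have k := r'.cr.par.mem (f y)
    rw [h.vl, ← r.fld_smul hl.wd hj _ (c0 y), ← b, ← fld₁ hz k
      (r.exists_val hj (hz.1.apV_mem k)), r'.cr.fld_π (r'.ind j hj)]

/-- **(P1)** the parts represent the parts -/
theorem CQ.rep (hl : ch.Lat Wg ℓ) (hz : z ∈ CQ s) (r : RepD ℓ A z.1 m B π u t)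
    (h : AM.Split m m₁ m₂ s.φ s.ψ j₁ j₂) (e : range j₁ = π ⁻¹' part z) :
    Rep ℓ A (pt₁ z) m₁ ∧ Rep ℓ A (pt₂ z) m₂ :=
  ⟨rep₁ hl hz r h.one e, rep₁ (s := s.symm) hl (swQ_mem.2 hz) r h.two
    (h.compl.compl_eq.symm.trans ((congrArg _ e).trans (pre_swQ hz r).symm))⟩

theorem CQ.exists_rep (hl : ch.Lat Wg ℓ) (hz : z ∈ CQ s) (r : Rep ℓ A z.1 m) :
    ∃ (m₁ : AM Λ R J ν₁ κ₁) (m₂ : AM Λ R J ν₂ κ₂) (j₁ : m₁.X → m.X) (j₂ : m₂.X → m.X),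
      AM.Split m m₁ m₂ s.φ s.ψ j₁ j₂ ∧ Rep ℓ A (pt₁ z) m₁ ∧ Rep ℓ A (pt₂ z) m₂ :=
  let ⟨_, _, _, _, r⟩ := r.exists_data hz.1.mem
  let ⟨m₁, m₂, j₁, j₂, h, e⟩ := exists_split hz r
  ⟨m₁, m₂, j₁, j₂, h, rep hl hz r h e⟩

/-- **(P3)** the point represents the sum -/
theorem CQ.repD_sum (hl : ch.Lat Wg ℓ) (hz : z ∈ CQ s) (hA : ∀ j ∈ A, NX z j)
    (r₁ : Rep ℓ A (pt₁ z) m₁) (r₂ : Rep ℓ A (pt₂ z) m₂) (h : AM.Split m m₁ m₂ s.φ s.ψ j₁ j₂) :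
    ∃ B π u t, RepD ℓ A z.1 m B π u t ∧ range j₁ = π ⁻¹' part z := by
  obtain ⟨_, _, _, _, d₁⟩ := r₁.exists_data (mem₁ hz)
  obtain ⟨_, _, _, _, d₂⟩ := r₂.exists_data (mem₂ hz)
  obtain ⟨m', r⟩ := hl.exists_rep (A := A) ((baseF_iff hz).2
    ⟨(d₁.mem_baseF (Z := univ)).2 trivial, d₂.mem_baseF.2 trivial⟩) fun j hj =>
      (sec_iff hz).2 ⟨hA j hj, fun _ => d₁.exists_val hj, fun _ => d₂.exists_val hj⟩
  obtain ⟨B, π, u, t, r⟩ := r.exists_data hz.1.mem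
  obtain ⟨m₁', m₂', k₁, k₂, h', e⟩ := exists_split hz r
  obtain ⟨a₁, a₂⟩ := rep hl hz r h' e
  obtain ⟨_, _, _, _, a₁⟩ := a₁.exists_data (mem₁ hz)
  obtain ⟨_, _, _, _, a₂⟩ := a₂.exists_data (mem₂ hz)
  obtain ⟨e₁, _, -, -, i₁⟩ := d₁.isoD (W := Wg) hl.wd a₁
  obtain ⟨e₂, _, -, -, i₂⟩ := d₂.isoD (W := Wg) hl.wd a₂
  obtain ⟨f, _, i, b₁, b₂, -⟩ := h.isoD h' i₁ i₂
  obtain ⟨B', c, u', t', c0, -, r'⟩ := r.of_isoD hl i
  refine ⟨_, _, _, _, r', Set.ext fun y => Iff.trans ?_ (smul_part hz (c0 y)).symm⟩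
  rw [← mem_preimage, ← e]
  rcases h.cases y with ⟨y, rfl⟩ | ⟨y, rfl⟩
  · exact iff_of_true ⟨y, rfl⟩ ⟨_, (b₁ y).symm⟩
  · exact iff_of_false (fun ⟨_, a⟩ => h.ne _ _ a) fun ⟨_, a⟩ => h'.ne _ _ (a.trans (b₂ y))

end Ch

namespace Fam

open Ch

variable [DecidableEq R] {F : Fam S Λ R J K} {k D : ℕ} {g g₁ g₂ : ℤ} {d d₁ d₂ : R → ℤ}
  (hk : F.Big k) (hD : F.BigD k D) (hg : g₁ + g₂ = g + 1) (hd : d₁ + d₂ = d)
include hk hD hg hd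

include s in
theorem qn : (F.sch ν κ k D g d).QN (F.nms ν₁ κ₁ k D g₁ d₁) (F.nms ν₂ κ₂ k D g₂ d₂) :=
  ⟨num₀ hk.two_le hD _ _ _, num₀ hk.two_le hD g₁ _ d₁, num₀ hk.two_le hD g₂ _ d₂,
    ⟨chart_tight, fun _ => rfl⟩,
    ⟨chart_tight (g := g₁) (n := Fintype.card (Mk ν₁ κ₁)) (d := d₁), fun _ => rfl⟩,
    ⟨chart_tight (g := g₂) (n := Fintype.card (Mk ν₂ κ₂)) (d := d₂), fun _ => rfl⟩, hg, fun o => by
      subst hd
      obtain rfl : g = g₁ + g₂ - 1 := by omega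
      change k * (2 * g₁ - 2 + (Fintype.card (Mk ν₁ κ₁) : ℕ) + ∑ i, F.θ i * d₁ i) + o.elim 0 d₁ +
        (k * (2 * g₂ - 2 + (Fintype.card (Mk ν₂ κ₂) : ℕ) + ∑ i, F.θ i * d₂ i) + o.elim 0 d₂) =
        k * (2 * (g₁ + g₂ - 1) - 2 + (Fintype.card (Mk ν κ) : ℕ) + ∑ i, F.θ i * (d₁ i + d₂ i)) +
          o.elim 0 (d₁ + d₂)
      simp only [s.card_mk, mul_add (F.θ _), Finset.sum_add_distrib]
      cases o <;> simp only [Option.elim, Pi.add_apply] <;> push_cast <;> ring⟩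

end Fam

end Vale.Agent.P269
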