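import Vale.Agent.P287Q.G.Glu.PrMain
import Vale.Agent.P287Q.G.Glu.PrUni
import Vale.Agent.P287Q.G.Glu.PrPt0
import Vale.Agent.P269.Map.Tr
import Vale.Agent.P269.Pt.Cmp

set_option linter.unusedSectionVars false
set_option linter.style.haveILetI false

/-!
# Decompositions whose first part is connected
-/

namespace Vale.Agent.P269.Ch

open P291Z Set Function Topology Filter Module Base Cv Holo Vir KD

theorem bun_id {A W : Type} [NormedRing A] [NormedAlgebra ℂ A] [NormedAddCommGroup W]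
    [NormedSpace ℂ W] {act : A → W → W} [IsAct act univ] : Bun act act univ univ (.id ℂ A) id :=
  ⟨⟨rfl, fun _ _ => rfl, surjective_id, fun b h => ⟨b, h, rfl⟩, mapsTo_id _,
    fun _ _ => ⟨id, analyticAt_id, .of_forall fun _ => rfl⟩, fun _ _ _ _ => rfl,
    fun x h _ _ e => ⟨1, isUnit_one, rfl, (IsAct.one x h).trans e⟩, fun _ _ _ _ e _ => e⟩,
    fun _ _ _ _ h _ _ => tendsto_const_nhds.congr fun n => (h n).2.2.symm,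
    fun _ _ => ⟨id, analyticAt_id, rfl, .of_forall fun _ => ⟨trivial, rfl⟩⟩⟩

variable {S Λ R J K ι ν κ ν₁ κ₁ ν₂ κ₂ : Type} [Fintype S] [Fintype Λ] [Fintype R] [Fintype J]
  [Fintype K] [Fintype ι] [DecidableEq ι] [Fintype ν] [Fintype κ]
  [Fintype ν₁] [Fintype κ₁] [Fintype ν₂] [Fintype κ₂] {ch : Ch ι J} {n₁ n₂ : Nm ι J}
  {s : Sv ν κ ν₁ κ₁ ν₂ κ₂} {Wg : Wt S Λ R J} {F : Fam S Λ R J K} {e : K → ι → ℕ} {K₀ : RD R}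
  {ℓ : R → ι → ℤ} {z z' : ch.WQ n₁ n₂ ν κ ν₁ κ₁ ν₂ κ₂ Λ} {B : Set (Λ → ℂ)}

/-- The first part is connected. -/
def Cn : Set (ch.WQ n₁ n₂ ν κ ν₁ κ₁ ν₂ κ₂ Λ) := {z | IsConnected (crv (pt₁ z).2)}

namespace CQ

variable (hz : z ∈ CQ s)
include hz

theorem cn_iff {A : Set J} {m : AM Λ R J ν₁ κ₁} (r : Rep ℓ A (pt₁ z) m) : z ∈ Cn ↔ m.Conn :=
  (r.conn (CQ.mem₁ hz)).symm

variable (hl : (ch.re n₁).Lat Wg ℓ) (hb : z.1 ∈ ch.baseF ν κ B) (hc : z ∈ Cn)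
include hl hb hc

theorem cn_act {a : ch.AQ n₁ n₂ ν κ S} (ha : IsUnit a) : actQ s Wg a z ∈ Cn := by
  obtain ⟨m, r⟩ := hl.exists_rep (A := ∅) ((CQ.baseF_iff hz).1 hb).1 fun _ h => h.elim
  have := r.actF (W := Wg) (CQ.mem₁ hz) (ah_θQ₁.isUnit (θ₁ := θQ₁ s) ha)
  rw [← CQ.pt₁_act hz ha] at this
  exact (cn_iff (ivt_CQ a ha z hz) this).2 ((cn_iff hz r).1 hc)

theorem ev_cn (hN : ch.QN n₁ n₂) : ∀ᶠ y in 𝓝 z, y ∈ CQ s → y.1 ∈ ch.baseF ν κ B → y ∈ Cn := by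
  obtain ⟨m, r⟩ := hl.exists_rep (A := ∅) ((CQ.baseF_iff hz).1 hb).1 fun _ h => h.elim
  refine ((CQ.an_pt₁ hz).continuousAt.eventually (r.eventually_same (A' := ∅) hN.num₁.cuts
    (CQ.mem₁ hz))).mono fun y h hy k => ?_
  obtain ⟨m', r'⟩ := hl.exists_rep (A := ∅) ((CQ.baseF_iff hy).1 k).1 fun _ h => h.elim
  exact (cn_iff hy r').2 ((h (CQ.mem₁ hy) m' r').conn ((cn_iff hz r).1 hc))

omit hl hb in
theorem part_cn (hl : ch.Lat Wg ℓ) {A : Set J} {m : AM Λ R J ν κ} {B π u t}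
    (r : RepD ℓ A z.1 m B π u t) (a : Mk ν₁ κ₁) : π ⁻¹' part z = m.cmp (m.p (s.mk₁ a)) := by
  obtain ⟨m₁, m₂, j₁, j₂, h, k⟩ := CQ.exists_split hz r
  obtain ⟨x, hx⟩ := h.one.conn.1 ((cn_iff hz (CQ.rep hl hz r h k).1).1 hc)
  rw [← k, hx]
  exact (LC.cmp_eq (hx.le (k.ge ((CQ.sat hz r).2.1 a)))).symm

end CQ

variable (s B) in
/-- Decomposed curves with connected first part. -/
def TC : Set (ch.WQ n₁ n₂ ν κ ν₁ κ₁ ν₂ κ₂ Λ) := CQ s ∩ Prod.fst ⁻¹' ch.baseF ν κ B ∩ Cn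

/-- **the labels are unique up to frames** -/
theorem bun_TC (hN : ch.QN n₁ n₂) (hl : ch.Lat Wg ℓ) (hl₁ : (ch.re n₁).Lat Wg ℓ) (a : Mk ν₁ κ₁) :
    Bun (actQ s Wg) (actF Wg) (TC s B : Set (ch.WQ n₁ n₂ ν κ ν₁ κ₁ ν₂ κ₂ Λ)) (ch.baseF ν κ B)
      (AP.fst : CL (ch.AQ n₁ n₂ ν κ S) _) Prod.fst := by
  have k : ∀ (c : ch.AQ n₁ n₂ ν κ S) (y : ch.WQ n₁ n₂ ν κ ν₁ κ₁ ν₂ κ₂ Λ), c.1 = 1 →
      actQ s Wg c y = actA s Wg c.2 y := fun c y h =>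
    congrArg (actQ s Wg · y) (Prod.ext h rfl : c = (1, c.2))
  refine ⟨⟨rfl, fun _ _ => rfl, fun b => ⟨(b, 1), rfl⟩,
    fun b h => ⟨(b, 1), AP.isUnit_iff.2 ⟨h, isUnit_one⟩, rfl⟩, fun _ h => h.1.2,
    fun _ _ => ⟨Prod.fst, analyticAt_fst, .of_forall fun _ => rfl⟩, fun _ _ _ _ => rfl,
    fun x hx y hy h => ?_, fun x hx c hc h1 h2 => Prod.ext h1
      (CQ.fre (Wg := Wg) hx.1.1 _ (AP.isUnit_iff.1 hc).2 ((k c x h1).symm.trans h2))⟩,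
    fun x hx y c h h1 h2 => ?_, fun x hx => ?_⟩
  · obtain ⟨m, r⟩ := hl.exists_rep (A := ∅) hx.1.2 fun _ h => h.elim
    obtain ⟨B, π, u, t, r⟩ := r.exists_data hx.1.2.2.1
    obtain ⟨c, hc, f⟩ := CQ.uniq (Wg := Wg) hN hx.1.1 hy.1.1 h (CQ.part_eq hx.1.1 hy.1.1 h r
      ((CQ.part_cn hx.1.1 hx.2 hl r a).trans (CQ.part_cn hy.1.1 hy.2 hl (h ▸ r) a).symm))
    exact ⟨(1, c), PrU.unit hc, rfl, f⟩
  · have d := (PrU.an_cc (q := (x, x)) analyticAt_fst analyticAt_snd hx.1.1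
      hx.1.1).continuousAt.tendsto.comp (h1.prodMk_nhds h2)
    rw [PrU.cc_self hx.1.1] at d
    exact ((tendsto_const_nhds (x := (1 : ch.AF ν κ S))).prodMk_nhds d).congr fun n =>
      Prod.ext (h n).2.2.symm ((congrArg (PrU.cc (y n)) (k _ _ (h n).2.2)).trans
        (PrU.cc_act (h n).1.1.1 (AP.isUnit_iff.1 (h n).2.1).2))
  · obtain ⟨σ, h1, h2, h3⟩ := CQ.sec hN hx.1.1
    have h4 := h1.continuousAt.eventually (h2.symm ▸ CQ.ev_cn hx.1.1 hl₁ hx.1.2 hx.2 hN)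
    refine ⟨σ, h1, h2, ((h3.and h4).filter_mono nhdsWithin_le_nhds).mp
      (eventually_mem_nhdsWithin.mono fun y hy h => ?_)⟩
    obtain ⟨p, q⟩ := h.1 hy.2.1
    exact ⟨⟨⟨p, mem_preimage.2 (mem_of_eq_of_mem q hy)⟩, h.2 p (mem_of_eq_of_mem q hy)⟩, q⟩

variable {b b' N₁ N₂ d : ℕ} {U₁ Z₁ : Set ((ch.re n₁).WF ν₁ κ₁ Λ)}
  {U₂ Z₂ : Set ((ch.re n₂).WF ν₂ κ₂ Λ)} {Z O M : Set (ch.WF ν κ Λ)}

variable (s F e K₀ ℓ) in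
/-- The stratum `Z` is the product of the strata `Z₁` and `Z₂`. -/
structure QZ (b b' : ℕ) (U₁ Z₁ : Set ((ch.re n₁).WF ν₁ κ₁ Λ)) (U₂ Z₂ : Set ((ch.re n₂).WF ν₂ κ₂ Λ))
    (N₁ N₂ : ℕ) (Z O M : Set (ch.WF ν κ Λ)) (d : ℕ) : Prop
    extends QH F e K₀ ℓ b b' U₁ Z₁ U₂ Z₂ N₁ N₂ where
  lat : ch.Lat F.toWt ℓ
  sub : Z ⊆ ch.baseF ν κ F.B
  vd : Vd F e (clo F Z) O M d
  eq : ZQ s F Z₁ Z₂ = CQ s ∩ Prod.fst ⁻¹' Z

namespace QZ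

variable (h : QZ s F e K₀ ℓ b b' U₁ Z₁ U₂ Z₂ N₁ N₂ Z O M d)
include h

theorem clo_eq : ZQ s F (clo F Z₁) (clo F Z₂) = CQ s ∩ Prod.fst ⁻¹' clo F Z := by
  refine Subset.antisymm (fun z hz => ⟨hz.1, ?_, hz.2.1.1⟩) fun z hz => ?_
  · obtain ⟨N, c⟩ := h.pcy s
    exact map_mem_closure continuous_fst (c.dense hz) fun _ k => (h.eq.le k).2
  · obtain ⟨σ, h1, h2, h3⟩ := CQ.sec h.qn hz.1
    have k : z ∈ closure (ZQ s F Z₁ Z₂) := by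
      rw [← h2]
      refine mem_closure_of_frequently_of_tendsto ?_ h1.continuousAt
      refine ((mem_closure_iff_frequently.1 hz.2.1).and_eventually h3).mono fun x a => ?_
      obtain ⟨p, q⟩ := a.2 (h.sub a.1).2.1
      exact h.eq.ge ⟨p, mem_preimage.2 (mem_of_eq_of_mem q a.1)⟩
    have c := (CQ.baseF_iff hz.1).1 hz.2.2
    exact ⟨hz.1, h.vd.adm hz.2, ⟨(CQ.an_pt₁ hz.1).continuousAt.continuousWithinAt.mem_closure k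
      fun _ a => a.2.2.1, c.1⟩, (CQ.an_pt₂ hz.1).continuousAt.continuousWithinAt.mem_closure k
      fun _ a => a.2.2.2, c.2⟩

theorem ivt : Ivt (actQ s F.toWt : ch.AQ n₁ n₂ ν κ S → _) (ZQ s F (clo F Z₁) (clo F Z₂)) :=
  ivt_ZQ h.std.inv h.vd₁.inv h.vd₂.inv

theorem reg {C Y : Set (ch.WQ n₁ n₂ ν κ ν₁ κ₁ ν₂ κ₂ Λ)} (hY : Y = LQ s F (clo F Z₁) (clo F Z₂) ∩ C)
    (hi : ∀ a : ch.AQ n₁ n₂ ν κ S, IsUnit a → ∀ z ∈ ZQ s F (clo F Z₁) (clo F Z₂), z ∈ C →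
      actQ s F.toWt a z ∈ C)
    (ho : ∀ z ∈ ZQ s F (clo F Z₁) (clo F Z₂), z ∈ C →
      ∀ᶠ y in 𝓝 z, y ∈ ZQ s F (clo F Z₁) (clo F Z₂) → y ∈ C) :
    ∃ O n r, (ch.kdPQ n₁ n₂ ν κ ν₁ κ₁ ν₂ κ₂ F e).Reg (actQ s F.toWt) Y
      (ZQ s F (clo F Z₁) (clo F Z₂)) O n r := by
  obtain ⟨n, g⟩ := h.vd.gd h.std
  obtain ⟨V, v, hO⟩ := h.vd.dom.opn
  obtain ⟨N, c⟩ := h.pcy s
  obtain ⟨U, u, k⟩ := TrP.exists_open (M := ZQ s F (clo F Z₁) (clo F Z₂) ∩ Prod.fst ⁻¹' O ∩ C)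
    (N := ZQ s F (clo F Z₁) (clo F Z₂)) (fun _ a => a.1.1) fun x a =>
    (((ho x a.1.1 a.2).and (continuous_fst.continuousAt.eventually (v.mem_nhds
      (hO.le a.1.2).2))).filter_mono nhdsWithin_le_nhds).mp (eventually_mem_nhdsWithin.mono
        fun y p q => ⟨⟨p, hO.ge ⟨(h.clo_eq.le p).2, q.2⟩⟩, q.1 p⟩)
  exact ⟨ZQ s F (clo F Z₁) (clo F Z₂) ∩ Prod.fst ⁻¹' O ∩ C, n, _, fun x a => let a := hY.le a
    ⟨⟨a.1.1, g.dom.sub ⟨a.1.2, (h.clo_eq.le a.1.1).2⟩⟩, a.2⟩, ⟨U, u, k⟩, fun a ha x p =>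
    ⟨⟨h.ivt a ha x p.1.1, g.ivt _ (AP.isUnit_iff.1 ha).1 _ p.1.2⟩, hi a ha x p.1.1 p.2⟩,
    k ▸ c.lc.inter u.isLocallyClosed, fun x p => (g.dom.zero _ p.1.2).trans
      ⟨fun q => hY.ge ⟨⟨p.1.1, q.1⟩, p.2⟩, fun q => ⟨(hY.le q).1.2, (hO.le p.1.2).1⟩⟩,
    g.ok.pb' (eqM_fstQ fun _ p => p.1.2)⟩

omit h in
variable (s F Z₁ Z₂) in
/-- The labelled solutions with connected first part. -/
abbrev LC : Set (ch.WQ n₁ n₂ ν κ ν₁ κ₁ ν₂ κ₂ Λ) := LQ s F (clo F Z₁) (clo F Z₂) ∩ Cn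

theorem regC : ∃ O n r, (ch.kdPQ n₁ n₂ ν κ ν₁ κ₁ ν₂ κ₂ F e).Reg (actQ s F.toWt) (LC s F Z₁ Z₂)
    (ZQ s F (clo F Z₁) (clo F Z₂)) O n r :=
  h.reg rfl (fun _ a _ p q => CQ.cn_act p.1 h.ok₁.lat (h.clo_eq.le p).2.2 q a) fun _ p q =>
    (CQ.ev_cn p.1 h.ok₁.lat (h.clo_eq.le p).2.2 q h.qn).mono fun _ a b =>
      a b.1 (h.clo_eq.le b).2.2

theorem pl₁ : Pl (ch.kdPQ n₁ n₂ ν κ ν₁ κ₁ ν₂ κ₂ F e) (ch.kdPQ n₁ n₂ ν κ ν₁ κ₁ ν₂ κ₂ F e)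
    (actQ s F.toWt) (actQ s F.toWt) univ univ (.id ℂ _) id .id (LC s F Z₁ Z₂)
    (ZQ s F (clo F Z₁) (clo F Z₂)) (LQ s F (clo F Z₁) (clo F Z₂)) (ZQ s F (clo F Z₁) (clo F Z₂)) :=
  ⟨bun_id, fun _ _ _ _ => trivial, fun _ _ _ _ => trivial, h.ivt, h.ivt, subset_univ _,
    fun _ _ => .of_forall fun _ => (and_iff_right trivial).symm,
    let ⟨O, n, r, a⟩ := h.regC
    ⟨O, n, r, a, fun _ p => p, fun _ _ _ _ => rfl, fun _ _ _ p => p,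
      fun _ _ => mem_of_eq_of_mem (sub_self _) (zero_mem _), fun _ _ _ _ p => p⟩,
    h.reg (C := univ) (inter_univ _).symm (fun _ _ _ _ _ => trivial)
      fun _ _ _ => .of_forall fun _ _ => trivial, inter_subset_left, fun _ _ _ _ p => p,
    fun _ _ w p => ⟨w, p, mem_of_eq_of_mem (sub_self _) (zero_mem _)⟩⟩

theorem maps : MapsTo Prod.fst (LC s F Z₁ Z₂) (ch.solF ν κ F ∩ clo F Z) :=
  fun _ a => ⟨a.1.2, (h.clo_eq.le a.1.1).2⟩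

theorem pl₂ (a : Mk ν₁ κ₁) : Pl (ch.kdPQ n₁ n₂ ν κ ν₁ κ₁ ν₂ κ₂ F e) (ch.kd ν κ F e)
    (actQ s F.toWt) (actF F.toWt) (TC s F.B) (ch.baseF ν κ F.B) (AP.fst : CL (ch.AQ n₁ n₂ ν κ S) _)
    Prod.fst .id (LC s F Z₁ Z₂) (ZQ s F (clo F Z₁) (clo F Z₂)) (ch.solF ν κ F ∩ clo F Z) O := by
  obtain ⟨n, g⟩ := h.vd.gd h.std
  obtain ⟨V, v, hO⟩ := h.vd.dom.opn
  have k : Ivt (actF F.toWt) (ch.baseF ν κ F.B) := fun _ a _ b =>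
    actF_mem_baseF a b (h.std.inv.invB _ (isUnit_S a) _ b.1)
  exact ⟨bun_TC h.qn h.lat h.ok₁.lat a, fun c hc z p => ⟨⟨ivt_CQ c hc z p.1.1,
    k _ (AP.isUnit_iff.1 hc).1 _ p.1.2⟩, CQ.cn_act p.1.1 h.ok₁.lat p.1.2 p.2 hc⟩, k, h.ivt, g.ivt,
    fun _ p => (hO.le p).1.2, fun x p => ((CQ.ev_cn p.1.1.1 h.ok₁.lat (h.maps p).2.2 p.2 h.qn).and
      (continuous_fst.continuousAt.eventually (v.mem_nhds (hO.le (g.dom.sub (h.maps p))).2))).mono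
      fun y q => ⟨fun r => let r' := (h.clo_eq.le r).2
        ⟨⟨⟨r.1, r'.2⟩, q.1 r.1 r'.2⟩, hO.ge ⟨r', q.2⟩⟩,
        fun r => h.clo_eq.ge ⟨r.1.1.1, (hO.le r.2).1⟩⟩,
    let ⟨O, n, r, a⟩ := h.regC
    ⟨O, n, r, a, fun _ p => p, fun _ _ _ _ => rfl, fun _ _ _ p => p,
      fun _ _ => mem_of_eq_of_mem (sub_self _) (zero_mem _), fun _ _ _ _ p => p⟩,
    ⟨O, n, _, g.dom.sub, g.dom.opn, g.ivt, g.lc, g.dom.zero, g.ok⟩, h.maps, fun _ _ _ _ p => p,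
    fun _ _ w p => ⟨w, p, mem_of_eq_of_mem (sub_self _) (zero_mem _)⟩⟩

variable [IsAct F.actL F.B] [Nice (F.Bs F.B)] [Nice (ModS F (clo F Z₁))]
  [Nice (ModS F (clo F Z₂))] [Nice (ModS F (clo F Z))] [Nice (ModQ s F (clo F Z₁) (clo F Z₂))]
  {Δ : Coch (F.Bs F.B × F.Bs F.B)}

/-- **the virtual class of the locus where the first part is a connected component** -/
theorem res_eq (hΔ : IsDB F.actL F.B b' Δ) (a : Mk ν₁ κ₁) :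
    IsOpenEmbedding (Quo.incl (actQ s F.toWt : ch.AQ n₁ n₂ ν κ S → _)
      (inter_subset_left : LC s F Z₁ Z₂ ⊆ _)) ∧
    IsOpenEmbedding (eqM_fstQ (s := s) (Wg := F.toWt) h.maps).map ∧
    res (Quo.incl (actQ s F.toWt : ch.AQ n₁ n₂ ν κ S → _) (inter_subset_left : LC s F Z₁ Z₂ ⊆ _))
      (gys (ΦQ s F (clo F Z₁) (clo F Z₂)) (pull (Prod.map (parM F _) (parM F _)) Δ)
        (cross Prod.fst Prod.snd (virF F e (clo F Z₁)) (virF F e (clo F Z₂)))) =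
      res (eqM_fstQ (s := s) (Wg := F.toWt) h.maps).map (virF F e (clo F Z)) := by
  obtain ⟨k, i, p, -⟩ := h.vd.exists_isKP h.std
  have v : (ch.kd ν κ F e).IsV (actF F.toWt) _ O (virF F e (clo F Z)) :=
    h.vd.virF_eq p ▸ h.vd.dom.self.isV_fnd h.vd.cyc p
  obtain ⟨p₁, p₂⟩ := h.pl₁.isV (Φ := Quo.incl _ inter_subset_left) (fun _ => rfl) (h.isV s hΔ)
  exact ⟨p₁, ((h.pl₂ a).isV (fun _ => rfl) v).1,
    (h.pl₂ a).eq_res (fun _ => rfl) h.vd.cyc.uf v p₂⟩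

end QZ

end Vale.Agent.P269.Ch
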