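import Vale.Agent.P287Q.G.Glu.PrCrv
import Vale.Agent.P287Q.G.Glu.Eqv0

set_option linter.unusedSectionVars false

/-!
# Decompositions: restriction of functions to one part
-/

namespace Vale.Agent.P269.Ch

open P291Z Set Function Topology Filter Module Base Cv Holo Vir KD

variable {S Λ R J K ι ν κ ν₁ κ₁ : Type} [Fintype S] [Fintype Λ] [Fintype R] [Fintype J]
  [Fintype K] [Fintype ι] [DecidableEq ι] [Fintype ν] [Fintype κ] [Fintype ν₁] [Fintype κ₁]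
  {ch : Ch ι J} {n n₁ n₂ : Nm ι J} {F : Fam S Λ R J K} {e : K → ι → ℕ}
  {σ : K → Finset (J →₀ ℕ)} {A : Set J}

namespace PrT

/-- counting dimensions in a short exact sequence of quotients -/
theorem ker_count {P P' V : Type} [AddCommGroup P] [Module ℂ P] [AddCommGroup P'] [Module ℂ P']
    [AddCommGroup V] [Module ℂ V] [FiniteDimensional ℂ V] {O N : Submodule ℂ P}
    {O' N' : Submodule ℂ P'} [FiniteDimensional ℂ O] [FiniteDimensional ℂ O'] {B : P →ₗ[ℂ] P'}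
    {E : V →ₗ[ℂ] P} (h1 : N ≤ O) (h2 : N' ≤ O') (h3 : O.map B = O') (h4 : ∀ w ∈ N, B w ∈ N')
    (h5 : ∀ v, E v ∈ O) (h6 : ∀ v, B (E v) = 0) (h7 : ∀ v, E v ∈ N → v = 0)
    (hr : finrank ℂ O + finrank ℂ N' = finrank ℂ N + finrank ℂ V + finrank ℂ O') {w : P}
    (hw : w ∈ O) (h : B w ∈ N') : ∃ v, w - E v ∈ N := by
  have a : ∀ {Q Q' : Type} [AddCommGroup Q] [Module ℂ Q] [AddCommGroup Q'] [Module ℂ Q']
      (U : Submodule ℂ Q) [FiniteDimensional ℂ U] (f : Q →ₗ[ℂ] Q'),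
      finrank ℂ (U.map f) + finrank ℂ (U ⊓ LinearMap.ker f : Submodule ℂ Q) = finrank ℂ U :=
    fun U _ f => by
      rw [← (f.domRestrict U).finrank_range_add_finrank_ker, LinearMap.range_domRestrict,
        LinearMap.ker_domRestrict, ← Submodule.finrank_map_subtype_eq U, Submodule.map_comap_subtype]
  have b := a O (N'.mkQ ∘ₗ B)
  have c := a O' N'.mkQ
  rw [Submodule.map_comp, h3, LinearMap.ker_comp, Submodule.ker_mkQ] at b
  rw [Submodule.ker_mkQ, inf_of_le_right h2] at c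
  have := Submodule.finiteDimensional_of_le h1
  have d := Submodule.finrank_sup_add_finrank_inf_eq N (LinearMap.range E)
  rw [LinearMap.finrank_range_of_inj ((injective_iff_map_eq_zero E).2 fun v k =>
    h7 v (k ▸ zero_mem _)), (eq_bot_iff (a := N ⊓ LinearMap.range E)).2 (by
      rintro _ ⟨k, v, rfl⟩
      exact (congrArg E (h7 v k)).trans (map_zero E)), finrank_bot] at d
  have := Submodule.finiteDimensional_of_le (inf_le_left : O ⊓ N'.comap B ≤ O)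
  obtain ⟨u, hu, _, ⟨v, rfl⟩, rfl⟩ := Submodule.mem_sup.1 ((Submodule.eq_of_le_of_finrank_eq
    (show N ⊔ LinearMap.range E ≤ O ⊓ N'.comap B from sup_le (fun w k => ⟨h1 k, h4 w k⟩) (by
      rintro _ ⟨v, rfl⟩
      exact ⟨h5 v, (mem_of_eq_of_mem (h6 v) (zero_mem N') :)⟩)) (by omega)).ge ⟨hw, h⟩)
  exact ⟨v, (add_sub_cancel_right u _).symm ▸ hu⟩

theorem fin_prod {P P' : Type} [AddCommGroup P] [Module ℂ P] [AddCommGroup P'] [Module ℂ P']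
    (U : Submodule ℂ P) (U' : Submodule ℂ P') [FiniteDimensional ℂ U] [FiniteDimensional ℂ U'] :
    FiniteDimensional ℂ (U.prod U') ∧ finrank ℂ (U.prod U') = finrank ℂ U + finrank ℂ U' := by
  rw [← Module.finrank_prod, ← LinearMap.finrank_range_of_inj (f := U.subtype.prodMap U'.subtype)
    (U.injective_subtype.prodMap U'.injective_subtype), show U.prod U' =
      LinearMap.range (U.subtype.prodMap U'.subtype) by
        rw [LinearMap.range_prodMap, U.range_subtype, U'.range_subtype]]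
  exact ⟨inferInstance, rfl⟩

theorem obs_rank {K₀ : RD R} {ℓ : R → ι → ℤ} (hs : ch.Std F e K₀ ℓ) {x : ch.WF ν κ Λ}
    (a : x ∈ ch.solF ν κ F) (c : x ∈ ch.adm ν κ F) : FiniteDimensional ℂ (obsM F e x) ∧
      finrank ℂ (obsM F e x) = finrank ℂ (vanM F e x) + (ch.rk F ℓ K₀).toNat := by
  obtain ⟨v, o⟩ := hs.ok (ν := ν) (κ := κ)
  have d := mem_dom (e := e) a c
  have := o.fin
  exact ⟨Submodule.finiteDimensional_of_le (o.obs_le x d (sctF_mem_vanM hs.fits a)),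
    (o.obs_rank x d (sctF_mem_vanM hs.fits a)).trans (congrArg (· + _) (o.fam.rank x d).symm)⟩

theorem cone_dSc (hf : ch.Fits F e) (hc : ch.Cuts) {x₀ : ch.WF ν κ Λ} {x y : ℕ → ch.WF ν κ Λ}
    {δ : ℕ → ch.Fm F.mov ch.hf} {c : ℕ → ℂ} {u : ℕ → ch.P K} {v : ch.Fm F.mov ch.hf} {w : ch.P K}
    (h : ∀ k, y k = x k + (0, ιX (δ k))) (hx : ∀ k, x k ∈ ch.solF ν κ F) (h0 : x₀.2 ∈ ch.base _)
    (h1 : Tendsto x atTop (𝓝 x₀)) (h2 : Tendsto δ atTop (𝓝 0))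
    (h3 : Tendsto (fun k => c k • δ k) atTop (𝓝 v)) (hu : ∀ k, u k ∈ vanM F e (x k))
    (h4 : Tendsto (fun k => c k • sctF F e (y k) + u k) atTop (𝓝 w)) :
    w - dSc F e x₀ v ∈ vanM F e x₀ := by
  refine hc.van_lim (.of_forall fun k => (hx k).2.1) h0 h1 (.of_forall fun k => ?_)
    (h4.sub (tendsto_dSc (e := e) h1 h2 h3))
  rw [← h, smul_sub, add_sub_right_comm, sub_sub_cancel]
  exact add_mem (Submodule.smul_mem _ _ (sctF_mem_vanM hf (hx k))) (hu k)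

theorem trP_mem (φ : HV n.M ch.M) (ψ : HV ch.M n.M) (r : ∀ l, ch.E l →L[ℂ] (ch.re n).E l)
    {f : ch.P K} (hf : f ∈ ch.polS e σ) : trP K (ch' := ch.re n)
      (fun z => (apV φ z.1, fun l => z.2 l ∘L r l)) (fun _ => pbT ψ _) (fun ζ i => ζ i ∘L ψ i) f ∈
        (ch.re n).polS e σ := by
  refine mem_polS.2 ⟨fun j => ?_, fun k => ?_⟩
  · change (fun (z : (ch.re n).Pt) (m : (ch.re n).Th j × (ch.re n).Th j) =>
      f.1 j (apV φ z.1, fun l => z.2 l ∘L r l) (pbT ψ _ m.1, pbT ψ _ m.2)) ∈ _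
    have h := (mem_polS.1 hf).1 j
    generalize f.1 j = g at h
    induction h using Submodule.span_induction with
    | mem g h =>
      obtain ⟨a, a', μ, y, rfl⟩ := h
      exact Submodule.subset_span ⟨a ∘L pbT ψ _, a' ∘L pbT ψ _, pbT φ _ μ, r _ y, rfl⟩
    | zero => exact zero_mem _
    | add _ _ _ _ a b => exact add_mem a b
    | smul c _ _ a => exact Submodule.smul_mem _ c a
  · change (fun (z : (ch.re n).Pt) (ζ : (ch.re n).Zt) =>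
      f.2 k (apV φ z.1, fun l => z.2 l ∘L r l) fun i => ζ i ∘L ψ i) ∈ _
    have h := (mem_polS.1 hf).2 k
    generalize f.2 k = g at h
    induction h using Submodule.span_induction with
    | mem g h =>
      obtain ⟨a, ha, v, y, μ, rfl⟩ := h
      exact Submodule.subset_span ⟨a, ha, fun s => ψ s.1 (v s), fun s => r _ (y s), pbT φ _ μ, rfl⟩
    | zero => exact zero_mem _
    | add _ _ _ _ a b => exact add_mem a b
    | smul c _ _ a => exact Submodule.smul_mem _ c a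

/-- polynomial functions vanish at the origin -/
theorem evZ_zero (he : ∀ k, e k ≠ 0) {f : ch.P K} (hf : f ∈ ch.polS e σ) : evZ 0 f = 0 := by
  refine Prod.ext (funext fun j => ?_) (funext fun k => ?_)
  · change f.1 j 0 = 0
    have h := (mem_polS.1 hf).1 j
    generalize f.1 j = g at h
    induction h using Submodule.span_induction with
    | mem g h =>
      obtain ⟨a, a', μ, y, rfl⟩ := h
      exact funext fun m => mul_zero _
    | zero => rfl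
    | add _ _ _ _ a b => exact (congrArg₂ (· + ·) a b).trans (add_zero _)
    | smul c _ _ a => exact (congrArg (c • ·) a).trans (smul_zero _)
  · change f.2 k 0 = 0
    have h := (mem_polS.1 hf).2 k
    generalize f.2 k = g at h
    induction h using Submodule.span_induction with
    | mem g h =>
      obtain ⟨a, -, v, y, μ, rfl⟩ := h
      refine funext fun ζ => ?_
      by_cases k0 : a = 0
      · obtain ⟨i, hi⟩ := ne_iff.1 (he k)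
        exact mul_eq_zero_of_right _ (μ.map_coord_zero
          ⟨i, ⟨0, by simpa [k0] using Nat.pos_of_ne_zero hi⟩⟩ rfl)
      · obtain ⟨j, hj⟩ := DFunLike.ne_iff.1 k0
        exact mul_eq_zero_of_left (mul_eq_zero_of_right _
          (Finset.prod_eq_zero (Finset.mem_univ ⟨j, ⟨0, Nat.pos_of_ne_zero hj⟩⟩) rfl)) _
    | zero => rfl
    | add _ _ _ _ a b => exact (congrArg₂ (· + ·) a b).trans (add_zero _)
    | smul c _ _ a => exact (congrArg (c • ·) a).trans (smul_zero _)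

/-- the action on functions as a linear map -/
noncomputable def ρL (F : Fam S Λ R J K) (s : ch.AF ν κ S) : ch.P K →ₗ[ℂ] ch.P K :=
  ⟨⟨ρF F s, ρF_add s⟩, ρF_smul s⟩

theorem van_of_act {s : ch.AF ν κ S} (hs : IsUnit s) {x : ch.WF ν κ Λ} {f : ch.P K}
    (h : ρF F s f ∈ vanM F e (actF F.toWt s x)) : f ∈ vanM F e x := by
  obtain ⟨u, rfl⟩ := hs
  have a := vanM_actF u⁻¹.isUnit h
  rwa [← ρF_mul u⁻¹.isUnit u.isUnit, ← actF_mul, u.inv_mul, ρF_one, actF_one] at a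

end PrT

namespace Bip

open PrT

variable (b : ch.Bip n₁ n₂) {x : ch.WF ν κ Λ} {x₁ : (ch.re n₁).WF ν₁ κ₁ Λ} {w : ch.P K}
  {w₁ : (ch.re n₁).P K} {z : (ch.re n₁).Pt}

/-- Restriction of values to the tests of the first part. -/
noncomputable def rF (K : Type) : Fib ch.Th K ch.Zt →ₗ[ℂ] Fib (ch.re n₁).Th K (ch.re n₁).Zt where
  toFun f := (fun j m => f.1 j (pbT b.ψ₁ _ m.1, pbT b.ψ₁ _ m.2),
    fun k ζ => f.2 k fun i => ζ i ∘L b.ψ₁ i)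
  map_add' _ _ := rfl
  map_smul' _ _ := rfl

/-- The fields of `x` induce the fields of `x₁`. -/
structure Rs (x : ch.WF ν κ Λ) (x₁ : (ch.re n₁).WF ν₁ κ₁ Λ) : Prop where
  par : x.1 = x₁.1
  gr : ∀ z ∈ gr x₁.2, b.i₁ z ∈ gr x.2
  X : ∀ j m, b.r₁ _ (x.2.X j (pbT b.ψ₁ _ m)) = x₁.2.X j m

theorem evZ_B₁ (z : (ch.re n₁).Pt) (w : ch.P K) : evZ z (b.B₁ K w) = b.rF K (evZ (b.i₁ z) w) := rfl

theorem evZ_L₁ (z : ch.Pt) (w : (ch.re n₁).P K) :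
    evZ z (b.L₁ K w) = resF K b.φ₁ (evZ (b.j₁ z) w) := rfl

theorem B₁_mem (h : w ∈ ch.polS e σ) : b.B₁ K w ∈ (ch.re n₁).polS e σ := trP_mem _ _ _ h

theorem L₁_mem (h : w₁ ∈ (ch.re n₁).polS e σ) : b.L₁ K w₁ ∈ ch.polS e σ :=
  trP_mem (ch := ch.re n₁) (n := ⟨ch.M, ch.h, ch.g, ch.m⟩) b.ψ₁ b.φ₁ b.e₁ h

theorem j₁_i₁ (z : (ch.re n₁).Pt) : b.j₁ (b.i₁ z) = z :=
  Prod.ext (b.apV_ψφ₁₁ _) (funext fun l => ContinuousLinearMap.ext fun v =>
    congrArg (z.2 l) (b.re₁₁ l v))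

theorem j₁_i₂ (z : (ch.re n₂).Pt) : b.j₁ (b.symm.i₁ z) = 0 :=
  Prod.ext (b.apV_ψφ₁₂ _) (funext fun l => ContinuousLinearMap.ext fun v =>
    (congrArg (z.2 l) (b.re₂₁ l v)).trans (map_zero _))

theorem val_ψφ {a : ι → ℕ} (m : Tens n₁.M a) (c : V n₁.M) :
    val (pbT b.ψ₁ _ m) (apV b.φ₁ c) = val m c := congrArg (val m) (b.apV_ψφ₁₁ c)

theorem B₁_L₁ (w : (ch.re n₁).P K) : b.B₁ K (b.L₁ K w) = w :=
  P_ext (fun j z _ => (congrArg (w.1 j · _) (b.j₁_i₁ z)).trans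
    (congrArg (w.1 j z) (Prod.ext (b.pbT_φψ₁₁ _) (b.pbT_φψ₁₁ _)))) fun k z ζ =>
      (congrArg (w.2 k · _) (b.j₁_i₁ z)).trans (congrArg (w.2 k z) (funext fun i =>
        ContinuousLinearMap.ext fun v => congrArg (ζ i) (b.ψφ₁₁ i v)))

theorem evZ_i₂ (he : ∀ k, e k ≠ 0) (h : w₁ ∈ (ch.re n₁).polS e σ) (z : (ch.re n₂).Pt) :
    evZ (b.symm.i₁ z) (b.L₁ K w₁) = 0 := by
  rw [evZ_L₁, j₁_i₂, evZ_zero he h, map_zero]

theorem B₂_L₁ (he : ∀ k, e k ≠ 0) (h : w₁ ∈ (ch.re n₁).polS e σ) :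
    b.symm.B₁ K (b.L₁ K w₁) = 0 :=
  have a : ∀ z, evZ z (b.symm.B₁ K (b.L₁ K w₁)) = 0 := fun z => by
    rw [evZ_B₁, b.evZ_i₂ he h, map_zero]
  P_ext (fun j z m => congrFun (congrFun (congrArg Prod.fst (a z)) j) m)
    fun k z ζ => congrFun (congrFun (congrArg Prod.snd (a z)) k) ζ

theorem B₁_ρF {s : ch.AF ν κ S} {s₁ : (ch.re n₁).AF ν₁ κ₁ S} (hs : IsUnit s) (h₁ : IsUnit s₁)
    (e1 : s.1 = s₁.1) (e2 : ∀ i v, s.2.1 i (b.φ₁ i v) = b.φ₁ i (s₁.2.1 i v))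
    (e3 : ∀ i v, b.ψ₁ i (s.2.1 i v) = s₁.2.1 i (b.ψ₁ i v))
    (e4 : ∀ l v, b.r₁ l (s.2.2.1 l v) = s₁.2.2.1 l (b.r₁ l v)) (w : ch.P K) :
    b.B₁ K (ρF F s w) = ρF F s₁ (b.B₁ K w) := by
  have a : ∀ z, zz s (b.i₁ z) = b.i₁ (zz s₁ z) := fun z => Prod.ext (funext fun i =>
    (ContinuousLinearMap.isUnit_iff_bijective.1 (unit_fst hs i)).1 ((ap_zz hs _ i).trans
      ((congrArg (b.φ₁ i) (ap_zz h₁ z i).symm).trans (e2 i _).symm)))
    (funext fun l => ContinuousLinearMap.ext fun v => congrArg (z.2 l) (e4 l v))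
  have c : ∀ j (m : (ch.re n₁).Th j), sub s.2 _ (pbT b.ψ₁ _ m) = pbT b.ψ₁ _ (sub s₁.2 _ m) :=
    fun j m => ContinuousMultilinearMap.ext fun u => congrArg m (funext fun i => e3 _ _)
  refine P_ext (fun j z m => ?_) fun k z ζ => ?_
  · change _ * w.1 j (zz s (b.i₁ z)) (sub s.2 _ (pbT b.ψ₁ _ m.1), sub s.2 _ (pbT b.ψ₁ _ m.2)) = _
    rw [a, c, c, e1]
    rfl
  · change _ * w.2 k (zz s (b.i₁ z)) (fun i => (ζ i ∘L b.ψ₁ i) ∘L s.2.1 i) = _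
    rw [a, e1]
    exact congrArg (_ * w.2 k _ ·) (funext fun i => ContinuousLinearMap.ext fun v =>
      congrArg (ζ i) (e3 i v))

theorem ex_cr {v : ch.Fm A ch.hf} (hv : b.rs₁ A v = 0) (j : J) (m : (ch.re n₁).Th j) :
    b.r₁ _ (Fm.ex v j (pbT b.ψ₁ _ m)) = 0 :=
  (Fm.ex_cmp (fun j => b.r₁ (some j)) (fun _ => pbT b.ψ₁ _) v j m).symm.trans (by
    rw [show Fm.cmp _ _ v = 0 from hv, map_zero]
    rfl)

theorem uZ_cr {v : ch.Fm A ch.hf} (hv : b.rs₁ A v = 0) (z : (ch.re n₁).Pt) (j : J)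
    (m : (ch.re n₁).Th j) : uZ (b.i₁ z) v j (pbT b.ψ₁ _ m) = 0 :=
  (congrArg (z.2 _) (b.ex_cr hv j m)).trans (map_zero _)

theorem B₁_dSc {v : ch.Fm F.mov ch.hf} (hv : b.rs₁ F.mov v = 0) : b.B₁ K (dSc F e x v) = 0 :=
  P_ext (fun j z m => (dSc_fst x v j (b.i₁ z) _).trans (by
    rw [b.uZ_cr hv, b.uZ_cr hv, mul_zero, mul_zero, sub_zero]
    rfl)) fun k z ζ => (dSc_snd x v k (b.i₁ z) _).trans (Finset.sum_eq_zero fun j _ =>
      mul_eq_zero_of_right _ (b.uZ_cr hv z j (pwT ζ j)))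

theorem uZ_eq_zero {v : ch.Fm F.mov ch.hf} (hv : b.rs₁ F.mov v = 0) (hz : ∀ i, z.1 i ≠ 0)
    (h : evZ (b.i₁ z) (dSc F e x v) = 0) (j : J) (m : ch.Th j) : uZ (b.i₁ z) v j m = 0 := by
  obtain ⟨m', a⟩ := tvZ_ne (ch := ch.re n₁) hz j
  have c := (dSc_fst x v j (b.i₁ z) (m, pbT b.ψ₁ _ m')).symm.trans
    (congrFun (congrFun (congrArg Prod.fst h) j) _)
  rw [b.uZ_cr hv, mul_zero, sub_zero] at c
  exact (mul_eq_zero.1 c).resolve_left ((b.val_ψφ m' z.1).trans_ne a)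

variable {b}

namespace Rs

variable (h : b.Rs x x₁)
include h

theorem yv_eq (z : (ch.re n₁).Pt) (j : J) (m : (ch.re n₁).Th j) :
    yv x.2 (b.i₁ z) j (pbT b.ψ₁ _ m) = yv x₁.2 z j m := congrArg (z.2 _) (h.X j m)

theorem hp_eq (k : K) (ζ : (ch.re n₁).Zt) (c : V n₁.M) :
    hp (ch := ch) F e x.1 k (fun i => ζ i ∘L b.ψ₁ i) (apV b.φ₁ c) = hp F e x₁.1 k ζ c :=
  congrArg₂ (hp F e · k ζ ·) h.par (b.apV_ψφ₁₁ c)

theorem van (hw : w ∈ vanM F e x) : b.B₁ K w ∈ vanM F e x₁ :=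
  mem_vanM.2 ⟨b.B₁_mem hw.1, fun z hz => by
    rw [evZ_B₁, (mem_vanM.1 hw).2 _ (h.gr z hz), map_zero]⟩

theorem sec : b.B₁ K (sctF F e x) = sctF F e x₁ :=
  P_ext (fun j z _ => congrArg₂ (· - ·) (congrArg₂ (· * ·) (b.val_ψφ _ _) (h.yv_eq z j _))
    (congrArg₂ (· * ·) (b.val_ψφ _ _) (h.yv_eq z j _))) fun k z ζ =>
      (sctF_snd' x k (b.i₁ z) _).trans ((congrArg₂ (fun u p => MvPolynomial.eval u p)
        (funext fun j => h.yv_eq z j (pwT ζ j)) (h.hp_eq k ζ z.1)).trans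
          (sctF_snd' x₁ k z ζ).symm)

theorem rF_dEq (z : (ch.re n₁).Pt) (Y : ∀ j, ch.Th j →ₗ[ℂ] ℂ) :
    b.rF K ((pd F e x (b.i₁ z)).dEq pwT Y) =
      (pd F e x₁ z).dEq pwT fun j => Y j ∘ₗ (pbT b.ψ₁ _).toLinearMap :=
  Prod.ext (funext₂ fun _ _ => congrArg₂ (· - ·) (congrArg (· * _) (b.val_ψφ _ _))
    (congrArg (· * _) (b.val_ψφ _ _))) (funext₂ fun k ζ => Finset.sum_congr rfl fun j _ =>
      congrArg (· * _) (congrArg₂ (fun u p => MvPolynomial.eval u (MvPolynomial.pderiv j p))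
        (funext fun j => h.yv_eq z j (pwT ζ j)) (h.hp_eq k ζ z.1)))

theorem obs (hw : w ∈ obsM F e x) : b.B₁ K w ∈ obsM F e x₁ :=
  mem_obsM.2 ⟨b.B₁_mem hw.1, fun z hz => by
    obtain ⟨Y, a, c⟩ := PD.mem_Im.1 ((mem_obsM.1 hw).2 _ (h.gr z hz))
    rw [evZ_B₁, ← c, h.rF_dEq]
    exact PD.mem_Im.2 ⟨_, fun j hj => by rw [a j hj, LinearMap.zero_comp], rfl⟩⟩

theorem L₁_obs (he : ∀ k, e k ≠ 0) {C : Set (ch.re n₂).Pt}
    (hg : Ch.gr x.2 ⊆ b.i₁ '' Ch.gr x₁.2 ∪ b.symm.i₁ '' C)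
    (hm : ∀ j m, b.r₁ _ (x.2.X j m) = x₁.2.X j (pbT b.φ₁ _ m)) (hw : w₁ ∈ obsM F e x₁) :
    b.L₁ K w₁ ∈ obsM F e x := by
  refine mem_obsM.2 ⟨b.L₁_mem hw.1, fun y hy => ?_⟩
  obtain ⟨z, hz, rfl⟩ | ⟨z, -, rfl⟩ := hg hy
  · obtain ⟨Y, a, c⟩ := PD.mem_Im.1 ((mem_obsM.1 hw).2 _ hz)
    have d : pdL F e x₁ b.φ₁ z = pd F e x (b.i₁ z) := PD.ext' rfl (funext₃ fun k ζ j =>
      congrArg₂ (fun u l => MvPolynomial.eval u (MvPolynomial.pderiv j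
        (hp F e l k ζ (apV b.φ₁ z.1)))) (funext fun i => congrArg (z.2 (some i))
          (hm i (pwT ζ i)).symm) h.par.symm) rfl
    rw [evZ_L₁, j₁_i₁, ← c, resF_dEq, d]
    exact PD.mem_Im.2 ⟨_, fun j hj => by rw [a j hj, LinearMap.zero_comp], rfl⟩
  · exact mem_of_eq_of_mem (b.evZ_i₂ he hw.1 z) (zero_mem _)

/-- **the kernel of the restriction to the two parts** -/
theorem ker {ν₂ κ₂ : Type} [Fintype ν₂] [Fintype κ₂] {x₂ : (ch.re n₂).WF ν₂ κ₂ Λ}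
    (h' : b.symm.Rs x x₂) (he : ∀ k, e k ≠ 0) (hf : ch.Fits F e)
    (hg : Ch.gr x.2 ⊆ b.i₁ '' Ch.gr x₁.2 ∪ b.symm.i₁ '' Ch.gr x₂.2)
    (m₁ : ∀ j m, b.r₁ _ (x.2.X j m) = x₁.2.X j (pbT b.φ₁ _ m))
    (m₂ : ∀ j m, b.r₂ _ (x.2.X j m) = x₂.2.X j (pbT b.φ₂ _ m)) {r₁ r₂ : ℕ}
    (k : FiniteDimensional ℂ (obsM F e x) ∧ finrank ℂ (obsM F e x) =
      finrank ℂ (vanM F e x) + (finrank ℂ (b.cr F.mov) + (r₁ + r₂)))
    (k₁ : FiniteDimensional ℂ (obsM F e x₁) ∧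
      finrank ℂ (obsM F e x₁) = finrank ℂ (vanM F e x₁) + r₁)
    (k₂ : FiniteDimensional ℂ (obsM F e x₂) ∧
      finrank ℂ (obsM F e x₂) = finrank ℂ (vanM F e x₂) + r₂)
    (hi : ∀ v : b.cr F.mov, dSc F e x v.1 ∈ vanM F e x → v = 0) (hw : w ∈ obsM F e x)
    (h0 : b.B K w ∈ (vanM F e x₁).prod (vanM F e x₂)) :
    ∃ v : b.cr F.mov, w - dSc F e x v.1 ∈ vanM F e x := by
  obtain ⟨⟨_, k⟩, ⟨_, k₁⟩, _, k₂⟩ := And.intro k (And.intro k₁ k₂)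
  have := Submodule.finiteDimensional_of_le (vanM_le_obsM (F := F) (e := e) (x := x₁))
  have := Submodule.finiteDimensional_of_le (vanM_le_obsM (F := F) (e := e) (x := x₂))
  obtain ⟨_, a⟩ := fin_prod (obsM F e x₁) (obsM F e x₂)
  have c := (fin_prod (vanM F e x₁) (vanM F e x₂)).2
  refine ker_count (O' := (obsM F e x₁).prod (obsM F e x₂)) (E := dSc F e x ∘ₗ (b.cr F.mov).subtype)
    vanM_le_obsM (Submodule.prod_mono vanM_le_obsM vanM_le_obsM) (le_antisymm ?_ fun u hu => ?_)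
    (fun _ a => ⟨h.van a, h'.van a⟩) (fun _ => dSc_obs hf _ _)
    (fun v => Prod.ext (b.B₁_dSc v.2.1) (b.symm.B₁_dSc v.2.2)) hi (by omega) hw h0
  · rintro _ ⟨u, hu, rfl⟩
    exact ⟨h.obs hu, h'.obs hu⟩
  · refine ⟨b.L₁ K u.1 + b.symm.L₁ K u.2, add_mem (h.L₁_obs he hg m₁ hu.1)
      (h'.L₁_obs he (hg.trans (union_comm _ _).le) m₂ hu.2), ?_⟩
    rw [map_add]
    exact Prod.ext ((congrArg₂ (· + ·) (b.B₁_L₁ _) (b.symm.B₂_L₁ he hu.2.1)).trans (add_zero _))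
      ((congrArg₂ (· + ·) (b.B₂_L₁ he hu.1.1) (b.symm.B₁_L₁ _)).trans (zero_add _))

end Rs

end Bip

end Vale.Agent.P269.Ch
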