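import Vale.Agent.P287Q.G.Glu.PrSum
import Vale.Agent.P287Q.G.Glu.PrTt0
import Vale.Agent.P269.Glu.VrA
import Vale.Agent.P269.Map.Tot
import Vale.Agent.P287Q.G.Vir.RD

set_option linter.unusedSectionVars false

/-!
# Decompositions: comparison of the obstruction theories
-/

namespace Vale.Agent.P269.Ch.Bip

open P291Z Set Function Topology Filter Module Base Cv Holo Vir KD PrT

variable {S Λ R J K ι ν κ ν₁ κ₁ ν₂ κ₂ : Type} [Fintype S] [Fintype Λ] [Fintype R] [Fintype J]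
  [Fintype K] [Fintype ι] [DecidableEq ι] [Fintype ν] [Fintype κ]
  [Fintype ν₁] [Fintype κ₁] [Fintype ν₂] [Fintype κ₂] {ch : Ch ι J} {n₁ n₂ : Nm ι J}
  {s : Sv ν κ ν₁ κ₁ ν₂ κ₂} {F : Fam S Λ R J K} {e : K → ι → ℕ} {K₀ : RD R} {ℓ : R → ι → ℤ}
  (b : ch.Bip n₁ n₂) (hs : ch.Std F e K₀ ℓ) (hN : ch.QN n₁ n₂)

section aux

variable {y₁ : (ch.re n₁).W (Mk ν₁ κ₁)} {y₂ : (ch.re n₂).W (Mk ν₂ κ₂)} {A : Set J}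
  {y : b.WX A ν₁ κ₁ ν₂ κ₂ Λ}

theorem r₁_sm (v : ∀ j, ch.Th j →L[ℂ] ch.E (some j)) (j : J) (m : ch.Th j) :
    b.r₁ _ ((b.sm s y₁ y₂ v).X j m) = y₁.X j (pbT b.φ₁ _ m) + b.r₁ _ (v j m) := by
  change b.r₁ _ (b.e₁ _ (y₁.X j (pbT b.φ₁ _ m)) + b.e₂ _ (y₂.X j (pbT b.φ₂ _ m)) + v j m) = _
  rw [map_add, map_add, b.re₁₁, b.re₁₂, add_zero]

theorem rs_sm (hc : ch.Cuts) (h₁ : ∀ l, Surjective (y₁.Q l)) (h₂ : ∀ l, Surjective (y₂.Q l))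
    {v : ch.Fm A ch.hf} (hv : b.rs₁ A v = 0) (l : Λ → ℂ) :
    b.Rs ((l, b.sm s y₁ y₂ (Fm.ex v)) : ch.WF ν κ Λ) ((l, y₁) : (ch.re n₁).WF ν₁ κ₁ Λ) :=
  ⟨rfl, fun z hz => (b.gr_sm _ hc h₁ h₂).ge (.inl ⟨z, hz, rfl⟩), fun j m =>
    (b.r₁_sm _ j _).trans (by rw [b.pbT_φψ₁₁, b.ex_cr hv, add_zero])⟩

theorem rs_μ₁ (hc : ch.Cuts) (hy : y ∈ b.BA A) : b.Rs (b.μ s y) y.1.1 :=
  b.rs_sm hc hy.1.1 hy.2.1 y.2.2.1 _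

theorem rs_μ₂ (hc : ch.Cuts) (hy : y ∈ b.BA A) :
    b.symm.Rs (b.μ s y) ((y.1.1.1, y.1.2) : (ch.re n₂).WF ν₂ κ₂ Λ) := by
  have := b.symm.rs_sm (s := s.symm) hc hy.2.1 hy.1.1 y.2.2.2 y.1.1.1
  rwa [b.sm_symm] at this

theorem ba_of_sol {y : ch.W2 n₁ n₂ ν₁ κ₁ ν₂ κ₂ Λ}
    (hy : y ∈ fpS πF ((ch.re n₁).solF ν₁ κ₁ F) ((ch.re n₂).solF ν₂ κ₂ F)) (v : b.cr A) :
    ((y, v) : b.WX A ν₁ κ₁ ν₂ κ₂ Λ) ∈ b.BA A := ⟨hy.1.2.1, hy.2.2.1⟩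

theorem rk_sub' {ν' : Type} [Fintype ν'] {x : ch.W ν'} (hx : x ∈ ch.base ν')
    (ha : ∀ l, ch.a l ≠ 0) :
    ch.rk F ℓ K₀ = finrank ℂ (ch.Fm F.mov ch.hf) - ch.euD ℓ K₀.n K₀.γ := by
  classical
  have a : ∀ j, ch.eu (fun i => ch.a (some j) i) = ch.h (some j) := fun j => (h_eq₁ hx (ha _)).symm
  rw [rk_eq, finrank_Fm, Nat.cast_sum]
  simp only [a, Nat.cast_mul]

theorem vanM_sm (l : Λ → ℂ) (v v' : ∀ j, ch.Th j →L[ℂ] ch.E (some j)) :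
    vanM F e ((l, b.sm s y₁ y₂ v) : ch.WF ν κ Λ) = vanM F e ((l, b.sm s y₁ y₂ v') : ch.WF ν κ Λ) :=
  congrArg (fun C : Set ch.Pt => ch.polF F e ⊓ ⨅ z ∈ C, LinearMap.ker (evZ z))
    (show gr (b.sm s y₁ y₂ v) = gr (b.sm s y₁ y₂ v') from rfl)

theorem μ_eq (y : b.WX A ν₁ κ₁ ν₂ κ₂ Λ) :
    b.μ s y = b.μ s ((y.1, 0) : b.WX A ν₁ κ₁ ν₂ κ₂ Λ) + (0, ιX y.2.1) := by
  rw [← b.μ_add, zero_add]

theorem mt_μ (h : y.2 = 0) : (∀ j m, b.r₁ _ ((b.μ s y).2.X j m) = y.1.1.2.X j (pbT b.φ₁ _ m)) ∧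
    ∀ j m, b.r₂ _ ((b.μ s y).2.X j m) = y.1.2.X j (pbT b.φ₂ _ m) := by
  have z : Fm.ex y.2.1 = 0 := by rw [h, ZeroMemClass.coe_zero, map_zero]
  rw [μ, z]
  refine ⟨fun j m => (b.r₁_sm 0 j m).trans ?_, fun j m => ?_⟩
  · exact (congrArg _ (map_zero _)).trans (add_zero _)
  · rw [← b.sm_symm]
    exact (b.symm.r₁_sm 0 j m).trans ((congrArg _ (map_zero _)).trans (add_zero _))

end aux

include hs hN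

/-- restriction to the parts -/
theorem lin : (b.kdX s F e).Lin (b.kd0 ν₁ κ₁ ν₂ κ₂ F e) id (.inl ℂ _ _ ∘L .fst ℂ _ _ :
    b.WX F.mov ν₁ κ₁ ν₂ κ₂ Λ →L[ℂ] b.WX F.mov ν₁ κ₁ ν₂ κ₂ Λ) (b.BA F.mov) (b.B K) where
  mem _ h := ⟨b.B₁_mem h, b.symm.B₁_mem h⟩
  eqv a ha w _ := by
    obtain ⟨h1, h2⟩ := AP.isUnit_iff.1 ha
    have h3 : IsUnit (θ2 a) := isUnitF_iff.2 ⟨(isUnitF_iff.1 h1).1, h2⟩
    have h4 := (b.ah_β (s := s)).isUnit ha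
    refine Prod.ext (b.B₁_ρF h4 h1 rfl (fun i v => ?_) (fun i v => ?_) (fun i v => ?_) w)
      (b.symm.B₁_ρF h4 h3 rfl (fun i v => ?_) (fun i v => ?_) (fun i v => ?_) w)
    · change b.φ₁ i (a.1.2.1 i (b.ψ₁ i (b.φ₁ i v))) + b.φ₂ i (a.2.1 i (b.ψ₂ i (b.φ₁ i v))) = _
      rw [b.ψφ₁₁, b.ψφ₂₁, map_zero, map_zero, add_zero]
    · change b.ψ₁ i (b.φ₁ i (a.1.2.1 i (b.ψ₁ i v)) + b.φ₂ i (a.2.1 i (b.ψ₂ i v))) = _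
      rw [map_add, b.ψφ₁₁, b.ψφ₁₂, add_zero]
    · change b.r₁ i (b.e₁ i (a.1.2.2.1 i (b.r₁ i v)) + b.e₂ i (a.2.2.1 i (b.r₂ i v))) = _
      rw [map_add, b.re₁₁, b.re₁₂, add_zero]
    · change b.φ₁ i (a.1.2.1 i (b.ψ₁ i (b.φ₂ i v))) + b.φ₂ i (a.2.1 i (b.ψ₂ i (b.φ₂ i v))) = _
      rw [b.ψφ₁₂, b.ψφ₂₂, map_zero, map_zero, zero_add]
      rfl
    · change b.ψ₂ i (b.φ₁ i (a.1.2.1 i (b.ψ₁ i v)) + b.φ₂ i (a.2.1 i (b.ψ₂ i v))) = _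
      rw [map_add, b.ψφ₂₁, b.ψφ₂₂, zero_add]
      rfl
    · change b.r₂ i (b.e₁ i (a.1.2.2.1 i (b.r₁ i v)) + b.e₂ i (a.2.2.1 i (b.r₂ i v))) = _
      rw [map_add, b.re₂₁, b.re₂₂, zero_add]
      rfl
  van _ hx _ h := ⟨(b.rs_μ₁ hs.cuts hx).van h, (b.rs_μ₂ hs.cuts hx).van h⟩
  sec _ hx := mem_of_eq_of_mem (sub_eq_zero.2
    (Prod.ext (b.rs_μ₁ hs.cuts hx).sec (b.rs_μ₂ hs.cuts hx).sec)) (zero_mem _)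
  obs _ hx _ _ h := ⟨(b.rs_μ₁ hs.cuts hx).obs h, (b.rs_μ₂ hs.cuts hx).obs h⟩

/-- the ranks -/
theorem rk_add {y : ch.W2 n₁ n₂ ν₁ κ₁ ν₂ κ₂ Λ}
    (hy : y ∈ fpS πF ((ch.re n₁).solF ν₁ κ₁ F) ((ch.re n₂).solF ν₂ κ₂ F)) :
    (ch.rk F ℓ K₀).toNat = finrank ℂ (b.cr F.mov) +
      (((ch.re n₁).rk F ℓ K₀).toNat + ((ch.re n₂).rk F ℓ K₀).toNat) := by
  classical
  have a := rk_sub' (F := F) (ℓ := ℓ) (K₀ := K₀) (b.sm_mem_base (s := ⟨.refl _, .refl _⟩) 0 hN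
    hy.1.2.1 hy.2.2.1) hs.cuts.ne
  have a₁ := rk_sub' (ch := ch.re n₁) (F := F) (ℓ := ℓ) (K₀ := K₀) hy.1.2.1 hs.cuts.ne
  have a₂ := rk_sub' (ch := ch.re n₂) (F := F) (ℓ := ℓ) (K₀ := K₀) hy.2.2.1 hs.cuts.ne
  have c : ch.euD ℓ K₀.n K₀.γ = (ch.re n₁).euD ℓ K₀.n K₀.γ + (ch.re n₂).euD ℓ K₀.n K₀.γ := by
    simp only [euD, ← hN.m, mul_add, Finset.sum_add_distrib]
    linear_combination (K₀.n : ℤ) * hN.g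
  have e₁ := Int.toNat_of_nonneg ((hs.re n₁).rk_nonneg hy.1)
  have e₂ := Int.toNat_of_nonneg ((hs.re n₂).rk_nonneg hy.2)
  have d := congrArg (Nat.cast : ℕ → ℤ) (b.finrank_cr (A := F.mov))
  rw [c] at a
  push_cast at d
  rw [show ch.rk F ℓ K₀ = (finrank ℂ (b.cr F.mov) +
      (((ch.re n₁).rk F ℓ K₀).toNat + ((ch.re n₂).rk F ℓ K₀).toNat) : ℕ) by
    push_cast
    rw [e₁, e₂]
    linear_combination a - a₁ - a₂ - d, Int.toNat_natCast]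

theorem dSc_inj {x : b.WX F.mov ν₁ κ₁ ν₂ κ₂ Λ} (hx : x ∈ b.BA F.mov) (v : b.cr F.mov)
    (h : dSc F e (b.μ s x) v.1 ∈ vanM F e (b.μ s x)) : v = 0 :=
  Subtype.ext (funext fun j => ContinuousLinearMap.ext fun m =>
    GlP.E_ext (b.sm_mem_base (s := s) (Fm.ex x.2.1) hN hx.1 hx.2) fun y hy => by
      have a := (mem_vanM.1 h).2 y hy
      have c : uZ y v.1 j m = 0 := by
        obtain ⟨z, hz, rfl⟩ | ⟨z, hz, rfl⟩ := (b.gr_sm _ hs.cuts hx.1.1 hx.2.1).le hy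
        exacts [b.uZ_eq_zero v.2.1 hz.1 a j m, b.symm.uZ_eq_zero v.2.2 hz.1 a j m]
      rw [uF_apply, Fm.ex_mem _ j.2] at c
      exact c.trans (map_zero _).symm)

theorem cone_μ {x : b.WX F.mov ν₁ κ₁ ν₂ κ₂ Λ} (hx : x ∈ b.BA F.mov) (h0 : x.2 = 0)
    {y : ℕ → b.WX F.mov ν₁ κ₁ ν₂ κ₂ Λ} {c : ℕ → ℂ} {u : ℕ → ch.P K} {v : b.cr F.mov} {w : ch.P K}
    (h : ∀ k, (y k).1 ∈ fpS πF ((ch.re n₁).solF ν₁ κ₁ F) ((ch.re n₂).solF ν₂ κ₂ F))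
    (h1 : Tendsto y atTop (𝓝 x)) (h2 : Tendsto (fun k => c k • (y k).2) atTop (𝓝 v))
    (hu : ∀ k, u k ∈ vanM F e (b.μ s (y k)))
    (h3 : Tendsto (fun k => c k • sctF F e (b.μ s (y k)) + u k) atTop (𝓝 w)) :
    w - dSc F e (b.μ s x) v.1 ∈ vanM F e (b.μ s x) := by
  have a1 : Tendsto (fun k => (y k).2) atTop (𝓝 0) := h0 ▸ h1.snd_nhds
  have a2 : Tendsto (fun k => (((y k).1, 0) : b.WX F.mov ν₁ κ₁ ν₂ κ₂ Λ)) atTop (𝓝 x) :=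
    h1.fst_nhds.prodMk_nhds (h0.symm ▸ tendsto_const_nhds)
  have a3 : Tendsto (fun k => b.μ s (((y k).1, 0) : b.WX F.mov ν₁ κ₁ ν₂ κ₂ Λ)) atTop
      (𝓝 (b.μ s x)) := b.an_μ.continuousAt.tendsto.comp a2
  have a4 : Tendsto (fun k => (y k).2.1) atTop (𝓝 0) := (continuous_subtype_val.tendsto 0).comp a1
  have a5 : Tendsto (fun k => c k • (y k).2.1) atTop (𝓝 v.1) :=
    (continuous_subtype_val.tendsto v).comp h2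
  have a6 : ∀ k, u k ∈ vanM F e (b.μ s (((y k).1, 0) : b.WX F.mov ν₁ κ₁ ν₂ κ₂ Λ)) := fun k =>
    (b.vanM_sm (y k).1.1.1 (Fm.ex (y k).2.1) (Fm.ex (0 : b.cr F.mov).1)).le (hu k)
  exact cone_dSc hs.fits hs.cuts (fun k => b.μ_eq (y k))
    (fun k => (b.μ_solF hN (b.ba_of_sol (h k) 0)).2 ⟨h k, rfl⟩) (b.sm_mem_base _ hN hx.1 hx.2)
    a3 a4 a5 a6 h3

theorem ker_μ {x : b.WX F.mov ν₁ κ₁ ν₂ κ₂ Λ}
    (hZ : x.1 ∈ fpS πF ((ch.re n₁).solF ν₁ κ₁ F) ((ch.re n₂).solF ν₂ κ₂ F))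
    (hA : x.1 ∈ fpS πF ((ch.re n₁).adm ν₁ κ₁ F) ((ch.re n₂).adm ν₂ κ₂ F)) (h0 : x.2 = 0)
    {w : ch.P K} (hw : w ∈ obsM F e (b.μ s x))
    (h : b.B K w ∈ (vanM F e x.1.1).prod (vanM F e (fp₂ πF x.1))) :
    ∃ v : b.cr F.mov, w - dSc F e (b.μ s x) v.1 ∈ vanM F e (b.μ s x) :=
  have m : x ∈ b.BA F.mov := b.ba_of_sol hZ x.2
  (b.rs_μ₁ hs.cuts m).ker (b.rs_μ₂ hs.cuts m) hs.fits.ne hs.fits (b.gr_sm _ hs.cuts m.1.1 m.2.1).le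
    (b.mt_μ h0).1 (b.mt_μ h0).2 (b.rk_add hs hN hZ ▸
      obs_rank hs ((b.μ_solF hN m).2 ⟨hZ, h0⟩) (b.μ_adm hN hs.inv hA))
    (obs_rank (hs.re n₁) hZ.1 hA.1) (obs_rank (hs.re n₂) hZ.2 hA.2) (b.dSc_inj hs hN m) hw h

/-- **the cross terms are cut out by the additional equations** -/
theorem tt {Z₀ : Set (ch.W2 n₁ n₂ ν₁ κ₁ ν₂ κ₂ Λ)}
    (hZ : Z₀ ⊆ fpS πF ((ch.re n₁).solF ν₁ κ₁ F) ((ch.re n₂).solF ν₂ κ₂ F))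
    (hA : Z₀ ⊆ fpS πF ((ch.re n₁).adm ν₁ κ₁ F) ((ch.re n₂).adm ν₂ κ₂ F)) :
    Tt (b.kdX s F e) (b.kd0 ν₁ κ₁ ν₂ κ₂ F e) (b.actX s F.toWt) (b.ρc s F.mov F.toWt)
      (.inl ℂ _ _ ∘L .fst ℂ _ _) (.snd ℂ _ _) (Z₀ ×ˢ {0}) (Z₀ ×ˢ {0}) (b.BA F.mov) (b.B K)
      (b.E s F e) 0 where
  lin := b.lin hs hN
  graph _ := ⟨fun h => ⟨⟨h.1, rfl⟩, h.2⟩, fun h => ⟨h.1.1, h.2⟩⟩
  cont := continuousOn_const
  E_mem _ _ _ := dSc_mem hs.fits _ _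
  E_cont v := fun _ _ => ((continuous_dSc v.1).continuousAt.comp
    b.an_μ.continuousAt).continuousWithinAt
  E_eqv x _ a ha v := by
    change dSc F e (b.μ s (b.actX s F.toWt a x)) (b.ρc s F.mov F.toWt a v).1 = _
    rw [b.μ_act, b.ρc_val]
    exact dSc_act hs.inv (b.ah_β.isUnit ha) _
  cone x hx _ _ y _ _ h h1 h2 h3 := b.cone_μ hs hN (x := x) (y := y) (b.ba_of_sol (hZ hx.1) x.2)
    hx.2 (fun k => hZ (h k).2.1.1) h1 (h2.congr fun _ => congrArg _ (sub_zero _))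
      (fun k => (h k).2.2) h3
  inj x hx := b.dSc_inj hs hN (x := x) (b.ba_of_sol (hZ hx.1) x.2)
  ker x hx _ := b.ker_μ hs hN (x := x) (hZ hx.1) (hA hx.1) hx.2

omit hN in
/-- **the gauge transformation** -/
theorem vr_gauge {Z O : Set (ch.WQ n₁ n₂ ν κ ν₁ κ₁ ν₂ κ₂ Λ)} (hO : O ⊆ b.CA s F.mov) {n n' r : ℕ}
    (h : (ch.kdPQ n₁ n₂ ν κ ν₁ κ₁ ν₂ κ₂ F e).Gd (actQ s F.toWt) Z O n r)
    (h' : ((b.kdX s F e).pb (θQ s) (b.g F.mov)).Gd (actQ s F.toWt) Z O n' r) :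
    (ch.kdPQ n₁ n₂ ν κ ν₁ κ₁ ν₂ κ₂ F e).vr (actQ s F.toWt) Z O =
      ((b.kdX s F e).pb (θQ s) (b.g F.mov)).vr (actQ s F.toWt) Z O := by
  have u : ∀ z ∈ (CQ s : Set (ch.WQ n₁ n₂ ν κ ν₁ κ₁ ν₂ κ₂ Λ)),
      IsUnit ((1, b.γ z.2.1 z.2.2) : ch.AF ν κ S) := fun z hz =>
    isUnitF_iff.2 ⟨fun _ => one_ne_zero, b.isUnit_γ hz⟩
  have g := fun z (hz : z ∈ O) => b.μ_g (Wg := F.toWt) (hO hz)
  refine h.vr_congr h' (B := fun z => ρL F ((1, b.γ z.2.1 z.2.2) : ch.AF ν κ S))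
    ⟨fun _ _ _ => ρF_mem, fun w hw => continuousOn_iff_continuous_domRestrict.2 ?_,
      fun z hz a ha w _ => ?_, fun z hz w hw => ?_, fun z hz => ?_, fun z hz _ w hw => ?_⟩
    fun z hz w _ hw => van_of_act (u z (hO (h.dom.sub hz)).1)
      ((congrArg (vanM F e) (g z (h.dom.sub hz))).le hw)
  · exact (continuous_ρF hw).comp (f := fun z : O => (u z (hO z.2).1).unit)
      (Units.isOpenEmbedding_val.isEmbedding.continuous_iff.2 (continuous_const.prodMk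
        (continuous_iff_continuousAt.2 fun z => (b.an_γ (hO z.2).1).continuousAt.comp
          continuous_subtype_val.continuousAt)))
  · have h1 := (AP.isUnit_iff.1 ha).1
    exact (ρF_mul (u _ (ivt_CQ a ha z (hO hz).1)) h1 w).symm.trans ((congrArg (ρF F · w)
      (b.γ_act (hO hz).1 ha)).trans (ρF_mul (b.ah_β.isUnit (ah_θQ.isUnit ha)) (u z (hO hz).1) w))
  · change _ ∈ vanM F e (b.μ s (b.g F.mov z))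
    rw [g z hz]
    exact vanM_actF (u z (hO hz).1) hw
  · change _ - sctF F e (b.μ s (b.g F.mov z)) ∈ _
    rw [g z hz, sctF_actF hs.inv (u z (hO hz).1)]
    exact mem_of_eq_of_mem (sub_self _) (zero_mem _)
  · change _ ∈ obsM F e (b.μ s (b.g F.mov z))
    rw [g z hz]
    exact obsM_actF hs.inv (u z (hO hz).1) hw

end Vale.Agent.P269.Ch.Bip
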