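import Vale.Agent.P287Q.G.Glu.PrBun
import Vale.Agent.P287Q.G.Glu.PrTt
import Vale.Agent.P287Q.G.Glu.FpB
import Vale.Agent.P287Q.G.Glu.FpC
import Vale.Agent.P287Q.G.Bas.Lv

set_option linter.unusedSectionVars false
set_option linter.style.haveILetI false

/-!
# Decompositions: the virtual class of the labelled space
-/

namespace Vale.Agent.P269.Ch

open P291Z Set Function Topology Filter Module Base Cv Holo Vir KD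

variable {S Λ R J K ι ν κ ν₁ κ₁ ν₂ κ₂ : Type} [Fintype S] [Fintype Λ] [Fintype R] [Fintype J]
  [Fintype K] [Fintype ι] [DecidableEq ι] [Fintype ν] [Fintype κ]
  [Fintype ν₁] [Fintype κ₁] [Fintype ν₂] [Fintype κ₂] {ch : Ch ι J} {n₁ n₂ : Nm ι J}
  (s : Sv ν κ ν₁ κ₁ ν₂ κ₂) (F : Fam S Λ R J K) {e : K → ι → ℕ} {K₀ : RD R} {ℓ : R → ι → ℤ}

namespace PrMain

variable {A W U : Type} [NormedRing A] [NormedAlgebra ℂ A] [NormedAddCommGroup W] [NormedSpace ℂ W]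
  [NormedAddCommGroup U] [NormedSpace ℂ U] [FiniteDimensional ℂ A] [FiniteDimensional ℂ W]
  [FiniteDimensional ℂ U] {T M : Set W} {n : ℕ}

theorem pcy_fst (c : PCy T M n) :
    PCy (Prod.fst ⁻¹' T : Set (W × U)) (Prod.fst ⁻¹' M) (n + finrank ℂ U) := by
  have := smo_pcy (T' := (univ : Set (W × U))) (B := univ) (f := Prod.fst) (V := U)
    (fun x _ => ⟨id, Prod.snd, ⟨_, analyticAt_fst, .of_forall fun _ _ => rfl⟩,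
      ⟨_, analyticAt_snd, .of_forall fun _ _ => rfl⟩, analyticAt_id, .of_forall fun _ _ => rfl,
      .of_forall fun _ _ => ⟨trivial, rfl, rfl⟩⟩) (subset_univ _) c
  rwa [univ_inter, univ_inter] at this

theorem cyc_empty (act : A → W → W) : Cyc act ∅ ∅ n :=
  (pcy_self fun _ h => h.elim).cyc (fun _ _ _ h => h.elim) (empty_subset _)

theorem prB_base {T : Set (Λ → ℂ)} : PrB T (ch.baseF ν κ T) := fun _ h => ⟨h.1, fun _ a => ⟨a, h.2⟩⟩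

/-- the domain of a stratum -/
theorem dom_eq {F : Fam S Λ R J K} (hs : ch.Std F e K₀ ℓ) {U : Set (ch.WF ν κ Λ)} (hU : IsOpen U) :
    ∃ V, IsOpen V ∧ ∀ T ⊆ ch.adm ν κ F, T ∩ U ∩ ch.dom ν κ F e = T ∩ V :=
  let ⟨V, h1, h2⟩ := hs.dom_open (ν := ν) (κ := κ)
  ⟨U ∩ V, hU.inter h1, fun _ hT => Set.ext fun _ => ⟨fun a => ⟨a.1.1, a.1.2, (h2.le a.2).2⟩,
    fun a => ⟨⟨a.1, a.2.1⟩, h2.ge ⟨hT a.1, a.2.2⟩⟩⟩⟩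

theorem prp {F : Fam S Λ R J K} {T O M : Set (ch.WF ν κ Λ)} (h : Vd F e T O M n) :
    Prp (actF F.toWt) O :=
  haveI := h.dom.isAct
  haveI := h.dom.orb.proper
  prp_of_properSMul

theorem vd {F : Fam S Λ R J K} {b : ℕ} {U Z : Set (ch.WF ν κ Λ)} (h : ch.Ok F e K₀ ℓ b U)
    (hZ : Stra F Z n) : ∃ V, IsOpen V ∧
      Vd F e (clo F Z) (clo F Z ∩ V) (Z ∩ V) (n - finrank ℂ (ch.AF ν κ S)) := by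
  obtain ⟨V, h1, h2⟩ := dom_eq h.toStd h.pr.opn
  have a := h.vd_clo hZ.lev hZ.mfd hZ.an
  rw [h2 _ a.adm, h2 _ hZ.lev.adm] at a
  exact ⟨V, h1, a⟩

end PrMain

open PrMain

variable (e K₀ ℓ) in
/-- The hypotheses: good charts, two strata, a good parameter space. -/
structure QH (b b' : ℕ) (U₁ Z₁ : Set ((ch.re n₁).WF ν₁ κ₁ Λ)) (U₂ Z₂ : Set ((ch.re n₂).WF ν₂ κ₂ Λ))
    (N₁ N₂ : ℕ) : Prop where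
  qn : ch.QN n₁ n₂
  std : ch.Std F e K₀ ℓ
  ok₁ : (ch.re n₁).Ok F e K₀ ℓ b U₁
  ok₂ : (ch.re n₂).Ok F e K₀ ℓ b U₂
  st₁ : Stra F Z₁ N₁
  st₂ : Stra F Z₂ N₂
  prb : PrB F.B Z₂
  bs : BsOk F.actL F.B b'

namespace QH

variable {F} {b b' N₁ N₂ : ℕ} {U₁ Z₁ : Set ((ch.re n₁).WF ν₁ κ₁ Λ)}
  {U₂ Z₂ : Set ((ch.re n₂).WF ν₂ κ₂ Λ)} (h : QH F e K₀ ℓ b b' U₁ Z₁ U₂ Z₂ N₁ N₂)
include h

theorem vd₁ : Vd F e (clo F Z₁) (clo F Z₁ ∩ U₁ ∩ (ch.re n₁).dom ν₁ κ₁ F e)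
    (Z₁ ∩ U₁ ∩ (ch.re n₁).dom ν₁ κ₁ F e) (N₁ - finrank ℂ ((ch.re n₁).AF ν₁ κ₁ S)) :=
  h.ok₁.vd_clo h.st₁.lev h.st₁.mfd h.st₁.an

theorem vd₂ : Vd F e (clo F Z₂) (clo F Z₂ ∩ U₂ ∩ (ch.re n₂).dom ν₂ κ₂ F e)
    (Z₂ ∩ U₂ ∩ (ch.re n₂).dom ν₂ κ₂ F e) (N₂ - finrank ℂ ((ch.re n₂).AF ν₂ κ₂ S)) :=
  h.ok₂.vd_clo h.st₂.lev h.st₂.mfd h.st₂.an

theorem nice₁ : Nice (ModS F (clo F Z₁)) := h.vd₁.nice h.ok₁.toStd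

theorem nice₂ : Nice (ModS F (clo F Z₂)) := h.vd₂.nice h.ok₂.toStd

theorem pcy₀ : PCy (fpS πF (clo F Z₁) (clo F Z₂)) (fpS πF Z₁ Z₂)
    (N₁ + N₂ - (finrank ℂ (S → ℂ) + b')) :=
  (pcy_fpS h.bs.mf (fun _ a => a.1) h.prb prB_base h.ok₁.mfd_baseF h.ok₂.mfd_baseF h.st₁.lev.base
    h.st₂.lev.base h.st₁.mfd h.st₂.mfd h.st₁.an h.st₂.an).2

/-- **the labelled space is a cycle** -/
theorem pcy : ∃ N, PCy (ZQ s F (clo F Z₁) (clo F Z₂)) (ZQ s F Z₁ Z₂) N := by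
  rcases isEmpty_or_nonempty (ch.Bip n₁ n₂) with hb | ⟨⟨c⟩⟩
  · have a : ∀ T₁ T₂, ZQ s F T₁ T₂ = (∅ : Set (ch.WQ n₁ n₂ ν κ ν₁ κ₁ ν₂ κ₂ Λ)) := fun _ _ =>
      subset_eq_empty (fun _ a => a.1) (CQ_eq_empty hb)
    rw [a, a]
    exact ⟨0, pcy_self fun _ h => h.elim⟩
  · rw [c.ZQ_eq h.std.inv h.vd₁.adm h.vd₂.adm, c.ZQ_eq h.std.inv h.st₁.lev.adm h.st₂.lev.adm]
    have a : finrank ℂ (ch.A2 n₁ n₂ ν₁ κ₁ ν₂ κ₂ S) ≤ finrank ℂ (ch.AQ n₁ n₂ ν κ S) :=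
      LinearMap.finrank_le_finrank_of_surjective (f := (θQ s).toLinearMap) θQ_surj
    exact ⟨_, (c.bun s h.qn F.toWt F.mov).pcy c.ivt_CA c.ivt_BA (fun _ a => ⟨a.1.2.2.1, a.2.2.2.1⟩)
      (pcy_fst h.pcy₀) (Nat.sub_add_cancel (a.trans (Nat.le_add_left _ _)))⟩

theorem ivt₁ : Ivt (actF F.toWt) ((ch.re n₁).solF ν₁ κ₁ F ∩ clo F Z₁) :=
  let ⟨_, a⟩ := h.vd₁.gd h.ok₁.toStd; a.ivtZ

theorem ivt₂ : Ivt (actF F.toWt) ((ch.re n₂).solF ν₂ κ₂ F ∩ clo F Z₂) :=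
  let ⟨_, a⟩ := h.vd₂.gd h.ok₂.toStd; a.ivtZ

omit h in
/-- pairs of solutions -/
abbrev Z0 (F : Fam S Λ R J K) (Z₁ : Set ((ch.re n₁).WF ν₁ κ₁ Λ))
    (Z₂ : Set ((ch.re n₂).WF ν₂ κ₂ Λ)) : Set (ch.W2 n₁ n₂ ν₁ κ₁ ν₂ κ₂ Λ) :=
  fpS πF ((ch.re n₁).solF ν₁ κ₁ F ∩ clo F Z₁) ((ch.re n₂).solF ν₂ κ₂ F ∩ clo F Z₂)

omit h in
/-- the pair of parts -/
noncomputable abbrev Φ0 (F : Fam S Λ R J K) (Z₁ : Set ((ch.re n₁).WF ν₁ κ₁ Λ))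
    (Z₂ : Set ((ch.re n₂).WF ν₂ κ₂ Λ))
    (z : Quo (act2 F.toWt : ch.A2 n₁ n₂ ν₁ κ₁ ν₂ κ₂ S → _) (Z0 F Z₁ Z₂)) :
    ModS F (clo F Z₁) × ModS F (clo F Z₂) := (fp_act2.eqM₁.map z, fp_act2.eqM₂.map z)

theorem emb₀ : IsClosedEmbedding (Φ0 F Z₁ Z₂) ∧
    range (Φ0 F Z₁ Z₂) = {p | parM F _ p.1 = parM F _ p.2} :=
  fp_act2.isClosedEmbedding h.bs h.ivt₁ h.ivt₂ (eqM_par F _).maps (eqM_par F _).maps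

variable (c : ch.Bip n₁ n₂)

omit h in
theorem eqX : EqM (c.actX s F.toWt : ch.A2 n₁ n₂ ν₁ κ₁ ν₂ κ₂ S → c.WX F.mov ν₁ κ₁ ν₂ κ₂ Λ → _)
    (act2 F.toWt) (Z0 F Z₁ Z₂ ×ˢ {0}) (Z0 F Z₁ Z₂) id Prod.fst :=
  .same (fun _ a => a.1) continuousOn_fst fun _ _ _ _ => rfl

theorem bunL : Bun (actQ s F.toWt) (c.actX s F.toWt) (LQ s F (clo F Z₁) (clo F Z₂))
    (Z0 F Z₁ Z₂ ×ˢ {0}) (θQ s : CL (ch.AQ n₁ n₂ ν κ S) _) (c.g F.mov) := by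
  rw [c.LQ_eq h.std.inv h.vd₁.adm h.vd₂.adm]
  exact (c.bun s h.qn F.toWt F.mov).restrict fun _ a => ⟨a.1.1.2.2.2.1, a.1.2.2.2.2.1⟩

theorem ivtX : Ivt (c.actX s F.toWt : ch.A2 n₁ n₂ ν₁ κ₁ ν₂ κ₂ S → c.WX F.mov ν₁ κ₁ ν₂ κ₂ Λ → _)
    (Z0 F Z₁ Z₂ ×ˢ {0}) := fun a ha _ hx =>
  ⟨fp_act2.ivt h.ivt₁ h.ivt₂ a ha _ hx.1, (congrArg (c.ρc s F.mov F.toWt a)
    (hx.2.trans (zero_smul ℂ 0).symm)).trans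
      ((c.rep_ρc.smul a ha 0 0 trivial).trans (zero_smul ℂ _))⟩

theorem homeo : IsHomeomorph (h.bunL s c).toEt.eqM.map ∧
    IsHomeomorph (eqX s c (F := F) (Z₁ := Z₁) (Z₂ := Z₂)).map ∧
    ⇑(ΦQ s F (clo F Z₁) (clo F Z₂)) =
      Φ0 F Z₁ Z₂ ∘ (eqX s c).map ∘ (h.bunL s c).toEt.eqM.map := by
  haveI := IsAct.mono inferInstance (subset_univ _) (h.ivtX s c)
  haveI := IsAct.mono inferInstance (subset_univ _) (ivt_LQ (s := s) h.std.inv h.vd₁.inv h.vd₂.inv)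
  haveI := IsAct.mono inferInstance (subset_univ _) (fp_act2.ivt h.ivt₁ h.ivt₂)
  refine ⟨(h.bunL s c).isHomeomorph (fun _ => rfl) fun y hy => ?_,
    (FpC.bun (act := c.actX s F.toWt) (fun _ _ => rfl) (Z0 F Z₁ Z₂)).isHomeomorph (fun _ => rfl)
      fun y hy => ⟨(y, 0), ⟨hy, rfl⟩, rfl⟩, funext fun z => ?_⟩
  · obtain ⟨z, hz, rfl⟩ := c.surjOn_g s h.qn F.mov ⟨hy.1.1.2.2.2.1, hy.1.2.2.2.2.1⟩
    exact ⟨z, (c.LQ_eq h.std.inv h.vd₁.adm h.vd₂.adm).ge ⟨hz, hy⟩, rfl⟩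
  · obtain ⟨x, rfl⟩ := Quot.exists_rep z
    rfl

omit c

/-- **the labelled moduli space is the fibre product** -/
theorem isClosedEmbedding : IsClosedEmbedding (ΦQ s F (clo F Z₁) (clo F Z₂)) ∧
    range (ΦQ s F (clo F Z₁) (clo F Z₂)) = {p | parM F _ p.1 = parM F _ p.2} := by
  rcases isEmpty_or_nonempty (ch.Bip n₁ n₂) with hb | ⟨⟨c⟩⟩
  · haveI : IsEmpty (ModQ s F (clo F Z₁) (clo F Z₂)) :=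
      ⟨fun z => (CQ_eq_empty hb).le z.out.2.1.1⟩
    refine ⟨⟨.of_subsingleton _, by rw [range_eq_empty]; exact isClosed_empty⟩,
      (range_eq_empty _).trans (eq_empty_of_forall_notMem fun p _ => ?_).symm⟩
    exact (h.qn.exists_bip ⟨_, p.1.out.2.1.1.2.1⟩ ⟨_, p.2.out.2.1.1.2.1⟩).elim hb.false
  · obtain ⟨a1, a2, a3⟩ := h.homeo s c
    rw [a3]
    exact ⟨h.emb₀.1.comp (a2.comp a1).isClosedEmbedding,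
      ((a2.comp a1).surjective.range_comp _).trans h.emb₀.2⟩

/-- domains in the space of pairs with cross terms -/
theorem gdX (c : ch.Bip n₁ n₂) {O₀ : Set (ch.W2 n₁ n₂ ν₁ κ₁ ν₂ κ₂ Λ)} {m r : ℕ}
    (g : (ch.kd2 n₁ n₂ ν₁ κ₁ ν₂ κ₂ F e).Gd (act2 F.toWt) (Z0 F Z₁ Z₂) O₀ m r)
    (h0 : O₀ ⊆ fpS πF (clo F Z₁) (clo F Z₂)) : ∃ (O V : Set (c.WX F.mov ν₁ κ₁ ν₂ κ₂ Λ)) (n : ℕ),
    IsOpen V ∧ O = Prod.fst ⁻¹' O₀ ∩ V ∧ MapsTo (c.μ s) O (ch.dom ν κ F e) ∧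
    (c.kdX s F e).Gd (c.actX s F.toWt) (Z0 F Z₁ Z₂ ×ˢ {0}) O n (ch.rk F ℓ K₀).toNat := by
  obtain ⟨V, v, eV⟩ := h.std.dom_open (ν := ν) (κ := κ)
  obtain ⟨n, hn⟩ := h.std.ok (ν := ν) (κ := κ)
  have cμ : Continuous (c.μ s : c.WX F.mov ν₁ κ₁ ν₂ κ₂ Λ → _) :=
    continuous_iff_continuousAt.2 fun _ => c.an_μ.continuousAt
  have a0 := h0.trans (fpS_mono (π := πF) h.vd₁.adm h.vd₂.adm)
  have a1 : ∀ y : c.WX F.mov ν₁ κ₁ ν₂ κ₂ Λ, y.1 ∈ O₀ → y ∈ c.BA F.mov :=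
    fun _ a => ⟨(h0 a).1.2.2.1, (h0 a).2.2.2.1⟩
  obtain ⟨O, hO⟩ : ∃ O : Set (c.WX F.mov ν₁ κ₁ ν₂ κ₂ Λ),
    O = Prod.fst ⁻¹' O₀ ∩ c.μ s ⁻¹' V := ⟨_, rfl⟩
  have a2 : MapsTo (c.μ s) O (ch.dom ν κ F e) := fun _ a =>
    eV.ge ⟨c.μ_adm h.qn h.std.inv (a0 (hO.le a).1), (hO.le a).2⟩
  have a3 : Ivt (c.actX s F.toWt : ch.A2 n₁ n₂ ν₁ κ₁ ν₂ κ₂ S → _) O := fun a ha y hy =>
    hO.ge ⟨g.ivt a ha _ (hO.le hy).1, (eV.le (mem_of_eq_of_mem c.μ_act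
      (actF_mem_dom h.std.inv (c.ah_β.isUnit ha) (a2 hy)))).2⟩
  have a4 : IsLocallyClosed O :=
    hO ▸ (g.lc.preimage continuous_fst).inter (v.preimage cμ).isLocallyClosed
  haveI := g.dom.isAct
  haveI : IsAct (c.actX s F.toWt : ch.A2 n₁ n₂ ν₁ κ₁ ν₂ κ₂ S → _) O :=
    IsAct.mono inferInstance (subset_univ _) a3
  haveI := FiniteDimensional.proper ℂ (c.WX F.mov ν₁ κ₁ ν₂ κ₂ Λ)
  haveI : LocallyCompactSpace O := a4.locallyCompactSpace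
  haveI : Nice (Holo.Sp (c.actX s F.toWt : ch.A2 n₁ n₂ ν₁ κ₁ ν₂ κ₂ S → _) O) :=
    ⟨inferInstance, inferInstance, inferInstance⟩
  have a5 : ∀ y ∈ O, c.μ s y ∈ ch.solF ν κ F ↔ y ∈ Z0 F Z₁ Z₂ ×ˢ ({0} : Set (c.cr F.mov)) :=
    fun y hy => (c.μ_solF h.qn (a1 y (hO.le hy).1)).trans
      ⟨fun a => ⟨⟨⟨a.1.1, (h0 (hO.le hy).1).1⟩, a.1.2, (h0 (hO.le hy).1).2⟩, a.2⟩,
        fun a => ⟨⟨a.1.1.1, a.1.2.1⟩, a.2⟩⟩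
  exact ⟨O, _, n, v.preimage cμ, hO, a2,
    ⟨fun y a => hO.ge ⟨g.dom.sub a.1, (eV.le (mem_dom ((c.μ_solF h.qn (a1 y (g.dom.sub a.1))).2
        ⟨⟨a.1.1.1, a.1.2.1⟩, a.2⟩) (c.μ_adm h.qn h.std.inv (a0 (g.dom.sub a.1))))).2⟩,
      ⟨_, isOpen_univ, (inter_univ _).symm⟩, ‹_›,
      g.dom.orb.of_map (f := fun y => .of _ y.val.1 (hO.le y.val_mem).1)
        ((continuous_fst.comp Holo.Sp.continuous_val).subtype_mk _) fun _ _ => rfl,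
      fun y hy => (h.std.zero (a2 hy)).trans (a5 y hy)⟩, hn.pb' (c.eqM_μ a2)⟩

section dom

variable (c : ch.Bip n₁ n₂) {O M : Set (c.WX F.mov ν₁ κ₁ ν₂ κ₂ Λ)} {n d : ℕ}
  (g : (c.kdX s F e).Gd (c.actX s F.toWt) (Z0 F Z₁ Z₂ ×ˢ {0}) O n (ch.rk F ℓ K₀).toNat)
  (hO : O ⊆ Prod.fst ⁻¹' fpS πF (clo F Z₁) (clo F Z₂))
include g hO

/-- domains in the labelled space -/
theorem gdL (m : MapsTo (c.μ s) O (ch.dom ν κ F e)) :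
    ∃ n', (ch.kdPQ n₁ n₂ ν κ ν₁ κ₁ ν₂ κ₂ F e).Gd (actQ s F.toWt) (LQ s F (clo F Z₁) (clo F Z₂))
      (c.CA s F.mov ∩ c.g F.mov ⁻¹' O) n' (ch.rk F ℓ K₀).toNat := by
  have B := c.bun s h.qn F.toWt F.mov
  have eZ := c.ZQ_eq (s := s) h.std.inv h.vd₁.adm h.vd₂.adm
  have eL := c.LQ_eq (s := s) h.std.inv h.vd₁.adm h.vd₂.adm
  have a1 : O ⊆ c.BA F.mov := fun _ a => ⟨(hO a).1.2.2.1, (hO a).2.2.2.1⟩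
  haveI := g.dom.isAct
  haveI := g.dom.orb.proper
  refine h.std.gdQ (fun z hz => ?_) (fun a ha z hz => ⟨c.ivt_CA a ha z hz.1,
      pre_of_eq (c.g_act hz.1.1 ha) (g.ivt _ (ah_θQ.isUnit ha) _ hz.2)⟩)
    (B.lc c.ivt_CA c.ivt_BA a1 g.lc) (B.prp c.ivt_CA c.ivt_BA a1 g.ivt prp_of_properSMul)
    (subset_antisymm (fun z a => ⟨⟨(eL.le a).1, g.dom.sub (eL.le a).2⟩, a.2⟩)
      fun z a => ⟨eZ.ge ⟨a.1.1, hO a.1.2⟩, a.2⟩)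
  obtain ⟨u, hu⟩ : IsUnit ((1, c.γ z.2.1 z.2.2) : ch.AF ν κ S) :=
    Prod.isUnit_iff.2 ⟨isUnit_one, c.isUnit_γ hz.1.1⟩
  have := actF_mem_dom h.std.inv (Units.isUnit u⁻¹) (m hz.2)
  rwa [c.μ_g (Wg := F.toWt) hz.1, ← hu, TopB.act_inv (actF F.toWt)] at this

/-- the virtual class pulls back -/
theorem vr_pull {n' : ℕ} (c₀ : Cyc (c.actX s F.toWt : ch.A2 n₁ n₂ ν₁ κ₁ ν₂ κ₂ S → _) O M d)
    [Nice (Quo (c.actX s F.toWt : ch.A2 n₁ n₂ ν₁ κ₁ ν₂ κ₂ S → c.WX F.mov ν₁ κ₁ ν₂ κ₂ Λ → _)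
      (Z0 F Z₁ Z₂ ×ˢ {0}))]
    (gQ : (ch.kdPQ n₁ n₂ ν κ ν₁ κ₁ ν₂ κ₂ F e).Gd (actQ s F.toWt) (LQ s F (clo F Z₁) (clo F Z₂))
      (c.CA s F.mov ∩ c.g F.mov ⁻¹' O) n' (ch.rk F ℓ K₀).toNat) :
    (ch.kdPQ n₁ n₂ ν κ ν₁ κ₁ ν₂ κ₂ F e).vr (actQ s F.toWt) _ _ (gQ.fu d) =
      res (h.bunL s c).toEt.eqM.map ((c.kdX s F e).vr (c.actX s F.toWt) _ _ (g.fu d)) := by
  have eL := c.LQ_eq (s := s) h.std.inv h.vd₁.adm h.vd₂.adm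
  have B' := (c.bun s h.qn F.toWt F.mov).restrict (S₂ := O)
    fun _ a => ⟨(hO a).1.2.2.1, (hO a).2.2.2.1⟩
  haveI := g.dom.isAct
  haveI := g.nice
  haveI := gQ.dom.isAct
  have g' : ((c.kdX s F e).pb (θQ s) (c.g F.mov)).Gd (actQ s F.toWt)
      (LQ s F (clo F Z₁) (clo F Z₂)) _ n _ :=
    ⟨⟨gQ.dom.sub, gQ.dom.opn, gQ.dom.isAct, gQ.dom.orb, fun z hz => (g.dom.zero _ hz.2).trans
      ⟨fun a => eL.ge ⟨hz.1, a⟩, fun a => (eL.le a).2⟩⟩, g.ok.pb' B'.toEt.eqM⟩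
  obtain ⟨b1, b2⟩ := B'.res_fnd gQ.ivt g.ivt g.dom.orb c₀ gQ.lc
  rw [c.vr_gauge h.std inter_subset_left gQ g']
  exact ((congrArg _ b2).symm.trans ((g'.vr_pull g B'.toEt (B := .id)
    ⟨fun _ h => h, fun _ _ _ _ => rfl, fun _ _ _ h => h,
      fun x _ => (sub_self ((c.kdX s F e).s (c.g F.mov x))).symm ▸ zero_mem _, fun _ _ _ _ h => h⟩
    (fun _ _ _ _ h => h) (fun _ => rfl) (h.bunL s c).maps b1 B'.toEt.map_mk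
    (h.bunL s c).toEt.eqM.map_mk).2 (g.fu d)).symm)

end dom

variable [IsAct F.actL F.B] [Nice (F.Bs F.B)] [Nice (ModS F (clo F Z₁))]
  [Nice (ModS F (clo F Z₂))] {Δ : Coch (F.Bs F.B × F.Bs F.B)} (hΔ : IsDB F.actL F.B b' Δ)
include hΔ

/-- the virtual class of the space of pairs -/
theorem pairs : ∃ (V M : Set (ch.W2 n₁ n₂ ν₁ κ₁ ν₂ κ₂ Λ)) (n d : ℕ)
    (g : (ch.kd2 n₁ n₂ ν₁ κ₁ ν₂ κ₂ F e).Gd (act2 F.toWt) (Z0 F Z₁ Z₂)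
      (fpS πF (clo F Z₁) (clo F Z₂) ∩ V) n
      (((ch.re n₁).rk F ℓ K₀).toNat + ((ch.re n₂).rk F ℓ K₀).toNat)), IsOpen V ∧
    Cyc (act2 F.toWt : ch.A2 n₁ n₂ ν₁ κ₁ ν₂ κ₂ S → _) (fpS πF (clo F Z₁) (clo F Z₂) ∩ V) M d ∧
    (ch.kd2 n₁ n₂ ν₁ κ₁ ν₂ κ₂ F e).vr (act2 F.toWt) _ _ (g.fu d) = gys (Φ0 F Z₁ Z₂)
      (pull (Prod.map (parM F _) (parM F _)) Δ)
      (cross Prod.fst Prod.snd (virF F e (clo F Z₁)) (virF F e (clo F Z₂))) := by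
  obtain ⟨V₁, v₁, d₁⟩ := vd h.ok₁ h.st₁
  obtain ⟨V₂, v₂, d₂⟩ := vd h.ok₂ h.st₂
  obtain ⟨m₁, g₁⟩ := d₁.gd h.ok₁.toStd
  obtain ⟨m₂, g₂⟩ := d₂.gd h.ok₂.toStd
  have fp := fp_act2 (ch := ch) (n₁ := n₁) (n₂ := n₂) (ν₁ := ν₁) (κ₁ := κ₁) (ν₂ := ν₂) (κ₂ := κ₂)
    (Wg := F.toWt)
  have g₀ := fp.gd g₁ g₂
  obtain ⟨c₀, c₁⟩ := fp.cyc h.bs h.pcy₀ (fun _ a => (h.st₁.lev.base a).1) h.prb v₁ v₂ d₁.cyc d₂.cyc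
    (prp d₁) (prp d₂)
  haveI := g₁.dom.isAct
  haveI := g₂.dom.isAct
  haveI := g₀.dom.isAct
  haveI := g₁.nice
  haveI := g₂.nice
  have p₁ : MapsTo πF (clo F Z₁ ∩ V₁) F.B := fun _ a => a.1.2.1
  have p₂ : MapsTo Prod.fst (clo F Z₂ ∩ V₂) F.B := fun _ a => a.1.2.1
  have r₀ := fp.vr_gys g₁ g₂ h.bs p₁ p₂ (eqM_par F _).maps (eqM_par F _).maps hΔ.co.cocycle
    hΔ.co.supp (fnd _ _ (N₁ - finrank ℂ ((ch.re n₁).AF ν₁ κ₁ S)))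
    (fnd _ _ (N₂ - finrank ℂ ((ch.re n₂).AF ν₂ κ₂ S)))
  rw [fp.fnd_eq h.bs hΔ g₁.dom.orb g₂.dom.orb p₁ p₂ d₁.cyc d₂.cyc c₀
    (fun a => Nat.sub_add_cancel (c₁ a)) h.prb ⟨V₂, v₂, rfl⟩, ← d₁.virF_vr h.ok₁.toStd,
    ← d₂.virF_vr h.ok₂.toStd] at r₀
  have a : ∃ g : (ch.kd2 n₁ n₂ ν₁ κ₁ ν₂ κ₂ F e).Gd (act2 F.toWt) (Z0 F Z₁ Z₂)
      (fpS πF (clo F Z₁ ∩ V₁) (clo F Z₂ ∩ V₂)) (m₁ + m₂)
      (((ch.re n₁).rk F ℓ K₀).toNat + ((ch.re n₂).rk F ℓ K₀).toNat), ∃ M d,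
      Cyc (act2 F.toWt : ch.A2 n₁ n₂ ν₁ κ₁ ν₂ κ₂ S → _)
        (fpS πF (clo F Z₁ ∩ V₁) (clo F Z₂ ∩ V₂)) M d ∧
      (ch.kd2 n₁ n₂ ν₁ κ₁ ν₂ κ₂ F e).vr (act2 F.toWt) _ _ (g.fu d) = gys (Φ0 F Z₁ Z₂)
        (pull (Prod.map (parM F _) (parM F _)) Δ)
        (cross Prod.fst Prod.snd (virF F e (clo F Z₁)) (virF F e (clo F Z₂))) :=
    ⟨g₀, _, _, c₀, r₀⟩
  rw [fpS_inter] at a
  obtain ⟨g, M, d, a1, a2⟩ := a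
  exact ⟨_, M, _, d, g, (v₁.preimage continuous_fst).inter (v₂.preimage continuous_fp₂), a1, a2⟩

/-- the virtual class of the space of pairs with cross terms -/
theorem cross_terms (c : ch.Bip n₁ n₂)
    [Nice (Quo (act2 F.toWt : ch.A2 n₁ n₂ ν₁ κ₁ ν₂ κ₂ S → _) (Z0 F Z₁ Z₂))] :
    ∃ (O V M : Set (c.WX F.mov ν₁ κ₁ ν₂ κ₂ Λ)) (n d : ℕ)
    (g : (c.kdX s F e).Gd (c.actX s F.toWt) (Z0 F Z₁ Z₂ ×ˢ {0}) O n (ch.rk F ℓ K₀).toNat),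
    IsOpen V ∧ O = Prod.fst ⁻¹' fpS πF (clo F Z₁) (clo F Z₂) ∩ V ∧
    MapsTo (c.μ s) O (ch.dom ν κ F e) ∧
    Cyc (c.actX s F.toWt : ch.A2 n₁ n₂ ν₁ κ₁ ν₂ κ₂ S → _) O M d ∧
    (c.kdX s F e).vr (c.actX s F.toWt) _ _ (g.fu d) = res (eqX s c).map (gys (Φ0 F Z₁ Z₂)
      (pull (Prod.map (parM F _) (parM F _)) Δ)
      (cross Prod.fst Prod.snd (virF F e (clo F Z₁)) (virF F e (clo F Z₂)))) := by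
  obtain ⟨V₀, M, m, d, g, v₀, c₀, r₀⟩ := h.pairs hΔ
  obtain ⟨O, V, n, v, hO, a2, gX⟩ := h.gdX s c g inter_subset_left
  obtain ⟨b1, -, b2⟩ := Gd.vr_prod c.rep_ρc (act := c.actX s F.toWt) (fun _ _ => rfl) gX g c₀
    ⟨_, v, hO⟩ ((c.tt h.std h.qn (fpS_mono inter_subset_left inter_subset_left)
      ((fpS_mono inter_subset_right inter_subset_right).trans
        (fpS_mono h.vd₁.adm h.vd₂.adm))).mono fun y a =>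
          ⟨(hO.le a).1.1.1.2.2.1, (hO.le a).1.1.2.2.2.1⟩)
    (fun ⟨y, a⟩ => c.rk_add h.std h.qn ⟨a.1.1, a.2.1⟩) (eqX s c)
  exact ⟨O, _, _, n, _, gX, (v₀.preimage continuous_fst).inter v,
    hO.trans (inter_assoc _ _ _), a2, b1, b2.symm.trans (congrArg _ r₀)⟩

theorem res_gys (c : ch.Bip n₁ n₂)
    [Nice (Quo (act2 F.toWt : ch.A2 n₁ n₂ ν₁ κ₁ ν₂ κ₂ S → _) (Z0 F Z₁ Z₂))]
    [Nice (Quo (c.actX s F.toWt : ch.A2 n₁ n₂ ν₁ κ₁ ν₂ κ₂ S → c.WX F.mov ν₁ κ₁ ν₂ κ₂ Λ → _)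
      (Z0 F Z₁ Z₂ ×ˢ {0}))] [Nice (ModQ s F (clo F Z₁) (clo F Z₂))] (β) :
    res (h.bunL s c).toEt.eqM.map (res (eqX s c).map (gys (Φ0 F Z₁ Z₂)
      (pull (Prod.map (parM F _) (parM F _)) Δ) β)) = gys (ΦQ s F (clo F Z₁) (clo F Z₂))
        (pull (Prod.map (parM F _) (parM F _)) Δ) β := by
  obtain ⟨a2, a3, a4⟩ := h.homeo s c
  have a := (parM F (clo F Z₁)).continuous.prodMap (parM F (clo F Z₂)).continuous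
  have hs : supp (pull (Prod.map (parM F (clo F Z₁)) (parM F (clo F Z₂))) Δ) ⊆
      range (ΦQ s F (clo F Z₁) (clo F Z₂)) := fun p hp => (h.isClosedEmbedding s).2.ge (by
    obtain ⟨y, hy⟩ := hΔ.co.supp (supp_pull a Δ hp)
    exact (congrArg Prod.fst hy).symm.trans (congrArg Prod.snd hy))
  rw [a4] at hs ⊢
  rw [res_res a2.isOpenEmbedding a3.isOpenEmbedding, ← push_gys (a3.comp a2).isClosedEmbedding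
    h.emb₀.1 (cocycle_pull a hΔ.co.cocycle) hs, res_push_homeo (a3.comp a2)]

/-- **the virtual class of the labelled space** -/
theorem isV :
    (ch.kdPQ n₁ n₂ ν κ ν₁ κ₁ ν₂ κ₂ F e).IsV (actQ s F.toWt) (LQ s F (clo F Z₁) (clo F Z₂))
      (ZQ s F (clo F Z₁) (clo F Z₂)) (gys (ΦQ s F (clo F Z₁) (clo F Z₂))
        (pull (Prod.map (parM F _) (parM F _)) Δ)
        (cross Prod.fst Prod.snd (virF F e (clo F Z₁)) (virF F e (clo F Z₂)))) := by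
  rcases isEmpty_or_nonempty (ch.Bip n₁ n₂) with hb | ⟨⟨c⟩⟩
  · have a : ZQ s F (clo F Z₁) (clo F Z₂) = ∅ := subset_eq_empty (fun _ a => a.1) (CQ_eq_empty hb)
    haveI : IsEmpty (ModQ s F (clo F Z₁) (clo F Z₂)) := ⟨fun z => a.le z.out.2.1⟩
    obtain ⟨n, g⟩ := h.std.gdQ (s := s) (Z := LQ s F (clo F Z₁) (clo F Z₂)) (O := ∅)
      (fun _ a => a.elim) (fun _ _ _ a => a.elim) isClosed_empty.isLocallyClosed (fun _ a => a.elim)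
      (by rw [LQ, a])
    rw [Orb.BM_eq_of_isEmpty (gys _ _ _) _]
    exact g.isV ⟨∅, isOpen_empty, (inter_empty _).symm⟩ (g.dom.isFund (cyc_empty (n := 0) _))
  haveI : Nice (Quo (act2 F.toWt : ch.A2 n₁ n₂ ν₁ κ₁ ν₂ κ₂ S → _) (Z0 F Z₁ Z₂)) :=
    let ⟨_, _, _, _, a, _⟩ := h.pairs hΔ; a.niceZ
  obtain ⟨O, V, M, n, d, g, v, hO, m, c₀, r₀⟩ := h.cross_terms s hΔ c
  have a1 := hO.le.trans inter_subset_left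
  obtain ⟨n', gQ⟩ := h.gdL s c g a1 m
  haveI := g.niceZ
  haveI := gQ.niceZ
  have eZ := c.ZQ_eq (s := s) h.std.inv h.vd₁.adm h.vd₂.adm
  obtain ⟨u, u1, u2⟩ := continuousOn_iff'.1
    (fun z hz => (c.an_g hz.1).continuousAt.continuousWithinAt :
      ContinuousOn (c.g F.mov) (c.CA s F.mov)) V v
  rw [← h.res_gys s hΔ c, ← r₀, ← h.vr_pull s c g a1 c₀ gQ]
  exact gQ.isV ⟨u, u1, Set.ext fun z => ⟨fun a => ⟨eZ.ge ⟨a.1, a1 a.2⟩,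
    (u2.le ⟨(hO.le a.2).2, a.1⟩).1⟩, fun a => ⟨(eZ.le a.1).1, hO.ge ⟨(eZ.le a.1).2,
      (u2.ge ⟨a.2, (eZ.le a.1).1⟩).1⟩⟩⟩⟩ (gQ.dom.isFund ((c.bun s h.qn F.toWt F.mov).cyc c.ivt_CA
    c.ivt_BA (fun _ a => ⟨(a1 a).1.2.2.1, (a1 a).2.2.2.1⟩) c₀))

/-- the same in every domain -/
theorem vr_eq {O M : Set (ch.WQ n₁ n₂ ν κ ν₁ κ₁ ν₂ κ₂ Λ)} {n r d : ℕ}
    (g : (ch.kdPQ n₁ n₂ ν κ ν₁ κ₁ ν₂ κ₂ F e).Gd (actQ s F.toWt) (LQ s F (clo F Z₁) (clo F Z₂)) O n r)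
    (ho : ∃ V, IsOpen V ∧ O = ZQ s F (clo F Z₁) (clo F Z₂) ∩ V) (hc : Cyc (actQ s F.toWt) O M d) :
    (ch.kdPQ n₁ n₂ ν κ ν₁ κ₁ ν₂ κ₂ F e).vr (actQ s F.toWt) _ O (g.fu d) =
      gys (ΦQ s F (clo F Z₁) (clo F Z₂)) (pull (Prod.map (parM F _) (parM F _)) Δ)
        (cross Prod.fst Prod.snd (virF F e (clo F Z₁)) (virF F e (clo F Z₂))) := by
  obtain ⟨k, i, a1, -, -, a2⟩ := g.exists_isKP
  rw [a2]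
  exact ((g.dom' ho).eq_vir_fnd hc a1 (h.isV s hΔ)).symm

end QH

end Vale.Agent.P269.Ch
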