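import Vale.Agent.P287Q.G.Glu.PrPush
import Vale.Agent.P287Q.G.Glu.PrPsi
import Vale.Agent.P287Q.G.Glu.FpD
import Vale.Agent.P287Q.G.Spl.NFQA
import Vale.Agent.P287Q.G.Spl.Num

set_option linter.unusedSectionVars false
set_option linter.style.haveILetI false

/-!
# Decompositions: integrals
-/

namespace Vale.Agent.P269.Ch

open P291Z Set Function Topology Filter Module Base Cv Holo Vir KD

variable {S Λ R J K ι ν κ ν₁ κ₁ ν₂ κ₂ β : Type} [Fintype S] [Fintype Λ] [Fintype R] [Fintype J]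
  [Fintype K] [Fintype ι] [DecidableEq ι] [Fintype ν] [Fintype κ] [Fintype β]
  [Fintype ν₁] [Fintype κ₁] [Fintype ν₂] [Fintype κ₂] {ch : Ch ι J} {n₁ n₂ : Nm ι J}
  {s : Sv ν κ ν₁ κ₁ ν₂ κ₂} {F : Fam S Λ R J K} {e : K → ι → ℕ} {K₀ : RD R} {ℓ : R → ι → ℤ}

/-- factors at points with the same values -/
theorem GZ.cohom_re {ch' : Ch ι J} {Z : Set (ch.WF ν κ Λ)} {Z' : Set (ch'.WF ν₁ κ₁ Λ)}
    (hZ : GZ F ℓ Z) (hZ' : GZ F ℓ Z') {Y : Type} [TopologicalSpace Y]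
    {Ψ : C(Y, Quo (actF F.toWt) Z)} {Φ : C(Y, Quo (actF F.toWt) Z')} {a : ν₁ → ν} {b : κ₁ → κ}
    (pts : ∀ y, ∃ (x : Z) (x' : Z'), Ψ y = Quo.mk _ x ∧ Φ y = Quo.mk _ x' ∧ x.1.1 = x'.1.1 ∧
      ∀ n, vl x.1 (n.map a (Prod.map b id)) = vl x'.1 n)
    (hψ : ∀ n : Mk ν₁ κ₁, H.map Ψ (hcls (psiF (n.map a (Prod.map b id)))) = H.map Φ (hcls (psiF n)))
    {f : Fac F.toWt ν₁ κ₁} (hn : f.NoTw) (hA : (f.re a b).At Z) (hA' : f.At Z') :
    Cohom (Ψ ⁻¹' (f.re a b).spt Z) (pull Ψ (F.coch Z (f.re a b))) (pull Φ (F.coch Z' f)) := by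
  have k : ∀ {X : Type} [TopologicalSpace X] (u : C(Quo (actF F.toWt) Z, X))
      (u' : C(Quo (actF F.toWt) Z', X)) (c : Coch X) (A : Set Y), (∀ y, u (Ψ y) = u' (Φ y)) →
      Cohom A (pull Ψ (pull u c)) (pull Φ (pull u' c)) := fun u u' c A k => by
    rw [pull_pull, pull_pull, show u ∘ Ψ = u' ∘ Φ from funext k]
    exact Cohom.refl _ _
  cases f with
  | psi n =>
    have c := hZ.cocycle_psi (n.map a (Prod.map b id))
    have c' := hZ'.cocycle_psi n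
    exact NF.cohom_of_hcls (cocycle_pull Ψ.continuous c) (cocycle_pull Φ.continuous c')
      ((H.map_hcls Ψ c).symm.trans ((hψ n).trans (H.map_hcls Φ c')))
  | ev n A c =>
    rw [show F.coch Z (.re a b (.ev n A c)) = _ from hZ.evF_eq _ hA _,
      show F.coch Z' (.ev n A c) = _ from hZ'.evF_eq n hA' _]
    refine k _ _ _ _ fun y => ?_
    obtain ⟨x, x', u, u', -, d⟩ := pts y
    rw [u, u']
    exact congrArg (Quo.mk _) (Subtype.ext (d n))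
  | par A c =>
    rw [show F.coch Z (.re a b (.par A c)) = _ from hZ.parF_eq hA _,
      show F.coch Z' (.par A c) = _ from hZ'.parF_eq hA' _]
    refine k _ _ _ _ fun y => ?_
    obtain ⟨x, x', u, u', d, -⟩ := pts y
    rw [u, u']
    exact congrArg (Quo.mk _) (Subtype.ext d)
  | dg q =>
    rw [show F.coch Z (.re a b (.dg q)) = _ from hZ.evN_eq _ _,
      show F.coch Z' (.dg q) = _ from hZ'.evN_eq q _]
    refine k _ _ _ _ fun y => ?_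
    obtain ⟨x, x', u, u', c, d⟩ := pts y
    rw [u, u']
    exact congrArg (Quo.mk _) (Subtype.ext (Prod.ext c (Prod.ext
      (congrArg Prod.snd (d (.inr (q, false))) :) (congrArg Prod.snd (d (.inr (q, true))) :))))
  | tw Θ => exact hn.elim

theorem GZ.coch_par {T : Set (ch.WF ν κ Λ)} (h : GZ F ℓ (ch.solF ν κ F ∩ T)) (c : H (F.Bs F.B)) :
    F.coch _ (.par F.B c : Fac F.toWt ν κ) = pull (parM F T) (rep c) :=
  (h.parF_eq (fun _ a => a.1.1.1) _).trans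
    (congrArg (pull · _) (funext fun y => Quot.inductionOn y fun _ => rfl))

theorem GZ.mem_Zc1 {Z : Set (ch.WF ν κ Λ)} (h : GZ F ℓ Z) (hd : F.IsDiag F.diag)
    {fs : List (Fac F.toWt ν κ)} (hA : ∀ f ∈ fs, f.At Z) (hq : ∀ q, .dg q ∈ fs)
    (hc : IsCompact (dia F.toWt Z)) : (fs.map (F.coch Z)).prod ∈ Zc _ :=
  one_mul (fs.map (F.coch Z)).prod ▸ h.mem_Zc hd hA hq cocycle_one hc

namespace PC

variable {b b' N₁ N₂ N : ℕ} {U₁ Z₁ : Set ((ch.re n₁).WF ν₁ κ₁ Λ)}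
  {U₂ Z₂ : Set ((ch.re n₂).WF ν₂ κ₂ Λ)} {C U : Set (ch.WF ν κ Λ)}
  (h : PC s F e K₀ ℓ b b' U₁ Z₁ U₂ Z₂ N₁ N₂ C U N) {fs₁ : List (Fac F.toWt ν₁ κ₁)}
  {fs₂ : List (Fac F.toWt ν₂ κ₂)}
include h

theorem gz : GZ F ℓ (ch.solF ν κ F ∩ clo F C) :=
  let ⟨_, a⟩ := h.pr
  let ⟨_, _, _, _, b⟩ := h.vd a
  b.gz h.qh.std

theorem gz₁ : GZ F ℓ ((ch.re n₁).solF ν₁ κ₁ F ∩ clo F Z₁) := h.qh.vd₁.gz h.qh.ok₁.toStd

theorem gz₂ : GZ F ℓ ((ch.re n₂).solF ν₂ κ₂ F ∩ clo F Z₂) := h.qh.vd₂.gz h.qh.ok₂.toStd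

theorem at₁ {f : Fac F.toWt ν₁ κ₁} (hf : f.At ((ch.re n₁).solF ν₁ κ₁ F ∩ clo F Z₁)) :
    (f.re (s.φ ∘ .inl) (s.ψ ∘ .inl)).At (ch.solF ν κ F ∩ clo F C) := by
  cases f with
  | ev n A c =>
    intro x a
    obtain ⟨z, k, rfl⟩ := h.img_clo.ge a.2
    exact (CQ.vl₁ k.1 a.1 n).subst (motive := (· ∈ A)) (hf _ ((eqL₁ s F _ _).maps ⟨k, a.1⟩))
  | par A c =>
    intro x a
    obtain ⟨z, k, rfl⟩ := h.img_clo.ge a.2
    exact hf _ ((eqL₁ s F _ _).maps ⟨k, a.1⟩)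
  | _ => trivial

theorem at₂ {f : Fac F.toWt ν₂ κ₂} (hf : f.At ((ch.re n₂).solF ν₂ κ₂ F ∩ clo F Z₂)) :
    (f.re (s.φ ∘ .inr) (s.ψ ∘ .inr)).At (ch.solF ν κ F ∩ clo F C) := by
  cases f with
  | ev n A c =>
    intro x a
    obtain ⟨z, k, rfl⟩ := h.img_clo.ge a.2
    exact (CQ.vl₂ k.1 a.1 n).subst (motive := (· ∈ A)) (hf _ ((eqL₂ s F _ _).maps ⟨k, a.1⟩))
  | par A c =>
    intro x a
    obtain ⟨z, k, rfl⟩ := h.img_clo.ge a.2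
    exact hf _ ((eqL₂ s F _ _).maps ⟨k, a.1⟩)
  | _ => trivial

variable (hd : F.IsDiag F.diag)
  (a₁ : ∀ f ∈ fs₁, f.At ((ch.re n₁).solF ν₁ κ₁ F ∩ clo F Z₁) ∧ f.NoTw)
  (a₂ : ∀ f ∈ fs₂, f.At ((ch.re n₂).solF ν₂ κ₂ F ∩ clo F Z₂) ∧ f.NoTw)
  (q₁ : ∀ q, .dg q ∈ fs₁) (q₂ : ∀ q, .dg q ∈ fs₂)
include hd a₁ a₂ q₁ q₂

/-- the integrand on the labelled space -/
theorem ev_pull (hc : IsCompact (dia F.toWt (ch.solF ν κ F ∩ clo F C))) (hp : IsPr h.eqM.map)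
    (v : BM (ModQ s F (clo F Z₁) (clo F Z₂))) :
    ev (P291Z.push h.eqM.map v) ((fs₁.map (Fac.re (s.φ ∘ .inl) (s.ψ ∘ .inl)) ++
        fs₂.map (Fac.re (s.φ ∘ .inr) (s.ψ ∘ .inr))).map (F.coch _)).prod =
      ev v (pull (eqL₁ s F _ _).map (fs₁.map (F.coch _)).prod *
        pull (eqL₂ s F _ _).map (fs₂.map (F.coch _)).prod) := by
  have g := h.gz
  obtain ⟨p₁, p₂, -⟩ := CQ.cls (Z := LQ s F (clo F Z₁) (clo F Z₂)) (fun _ a => a.1.1) g.toOZ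
    h.gz₁.toOZ h.gz₂.toOZ h.eqM.maps (eqL₁ s F _ _).maps (eqL₂ s F _ _).maps h.qh.qn
  have hA := List.forall_mem_append.2 (And.intro
    (List.forall_mem_map.2 fun f hf => h.at₁ (a₁ f hf).1)
    (List.forall_mem_map.2 fun f hf => h.at₂ (a₂ f hf).1))
  have hq : ∀ q, .dg q ∈ fs₁.map (Fac.re (s.φ ∘ .inl) (s.ψ ∘ .inl)) ++
      fs₂.map (Fac.re (s.φ ∘ .inr) (s.ψ ∘ .inr)) := fun q => by
    obtain ⟨_ | _, rfl⟩ := s.ψ.surjective q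
    exacts [List.mem_append_left _ (List.mem_map_of_mem (q₁ _)),
      List.mem_append_right _ (List.mem_map_of_mem (q₂ _))]
  rw [Orb.ev_push hp _ (g.mem_Zc1 hd hA hq hc), ev_eq, ev_eq,
    map_list_prod, map_list_prod, map_list_prod, ← List.prod_append, List.map_map, List.map_map,
    List.map_map]
  refine congrArg _ (cls_eq_of_cohom (hp.pre _ hc) ((NF.cohom_prod
    (A := fun f => h.eqM.map ⁻¹' f.spt _) (fun f hf => ⟨cocycle_pull hp.cont (g.cocycle hd (hA f hf)),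
      (supp_pull hp.cont _).trans (preimage_mono (g.supp_coch hd f))⟩) (List.rel_append
      (List.forall₂_map_left_iff.2 (List.forall₂_map_right_iff.2 (List.forall₂_same.2 fun f hf => ?_)))
      (List.forall₂_map_left_iff.2 (List.forall₂_map_right_iff.2
        (List.forall₂_same.2 fun f hf => ?_))))).mono fun y hy =>
      GZ.dia_eq.ge (mem_iInter.2 fun q => hy _ (hq q))))
  · exact g.cohom_re h.gz₁ (fun y => Quot.inductionOn y fun z =>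
      ⟨_, _, rfl, rfl, rfl, fun n => (CQ.vl₁ z.2.1.1 z.2.2 n).symm⟩) p₁ (a₁ f hf).2
      (h.at₁ (a₁ f hf).1) (a₁ f hf).1
  · exact g.cohom_re h.gz₂ (fun y => Quot.inductionOn y fun z =>
      ⟨_, _, rfl, rfl, rfl, fun n => (CQ.vl₂ z.2.1.1 z.2.2 n).symm⟩) p₂ (a₂ f hf).2
      (h.at₂ (a₂ f hf).1) (a₂ f hf).1

/-- **the product formula in a chart** -/
theorem num [CompactSpace (F.Bs F.B)] {u u' : β → H (F.Bs F.B)} (hu : F.CasB F.B u u')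
    (hc : IsCompact (dia F.toWt (ch.solF ν κ F ∩ clo F C)))
    (c₁ : IsCompact (dia F.toWt ((ch.re n₁).solF ν₁ κ₁ F ∩ clo F Z₁)))
    (c₂ : IsCompact (dia F.toWt ((ch.re n₂).solF ν₂ κ₂ F ∩ clo F Z₂))) :
    ev (virF F e (clo F C)) ((fs₁.map (Fac.re (s.φ ∘ .inl) (s.ψ ∘ .inl)) ++
        fs₂.map (Fac.re (s.φ ∘ .inr) (s.ψ ∘ .inr))).map (F.coch _)).prod =
      ∑ q, ev (virF F e (clo F Z₁)) ((.par F.B (u q) :: fs₁).map (F.coch _)).prod *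
        ev (virF F e (clo F Z₂)) ((.par F.B (u' q) :: fs₂).map (F.coch _)).prod := by
  haveI := h.qh.bs.isAct
  haveI := h.qh.bs.nice
  haveI := h.qh.nice₁
  haveI := h.qh.nice₂
  obtain ⟨Δ, hΔ⟩ := h.qh.bs.exists_isDB
  obtain ⟨p, k⟩ := h.push (h.qh.isV s hΔ)
  obtain ⟨i, r⟩ := h.qh.isClosedEmbedding s
  rw [← k, h.ev_pull hd a₁ a₂ q₁ q₂ hc p]
  refine (ev_gys_cross i _ _ hΔ.co r hu.1 (h.qh.bs.hcls_eq hΔ hu) _ _
    (h.gz₁.mem_Zc1 hd (fun f hf => (a₁ f hf).1) q₁ c₁)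
    (h.gz₂.mem_Zc1 hd (fun f hf => (a₂ f hf).1) q₂ c₂)).trans
    (Finset.sum_congr rfl fun q _ => ?_)
  rw [List.map_cons, List.map_cons, List.prod_cons, List.prod_cons, h.gz₁.coch_par, h.gz₂.coch_par]

end PC

end Vale.Agent.P269.Ch
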