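import Vale.Agent.P287Q.G.Glu.PrSum
import Vale.Agent.P287Q.G.Glu.Prp

set_option linter.unusedSectionVars false

/-!
# Decompositions: limits of labels
-/

namespace Vale.Agent.P269.Ch.PrP

open P291Z Set Function Topology Filter Module Base Cv Holo Vir

section gen

variable {E E₁ E₂ α : Type} [NormedAddCommGroup E] [NormedSpace ℂ E] [NormedAddCommGroup E₁]
  [NormedSpace ℂ E₁] [NormedAddCommGroup E₂] [NormedSpace ℂ E₂] {l : Filter α}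

theorem tendsto_cmp {f : α → E₁ →L[ℂ] E₂} {f₀ : E₁ →L[ℂ] E₂} {g : α → E →L[ℂ] E₁}
    {g₀ : E →L[ℂ] E₁} (hf : Tendsto f l (𝓝 f₀)) (hg : Tendsto g l (𝓝 g₀)) :
    Tendsto (fun k => f k ∘L g k) l (𝓝 (f₀ ∘L g₀)) :=
  ((isBoundedBilinearMap_comp (𝕜 := ℂ) (E := E) (F := E₁) (G := E₂)).continuous.tendsto
    (f₀, g₀)).comp (hf.prodMk_nhds hg)

theorem exists_conj {A : Type} [NormedRing A] [CompleteSpace A] [l.NeBot] {p : α → A} {p₀ : A}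
    (h : Tendsto p l (𝓝 p₀)) (hp : ∀ k, p k * p k = p k) :
    ∀ᶠ k in l, ∃ T : Aˣ, T * p k * (↑T⁻¹ : A) = p₀ := by
  have e : p₀ * p₀ = p₀ := tendsto_nhds_unique (h.mul h) (h.congr fun k => (hp k).symm)
  have h1 := (h.const_mul p₀).add ((h.const_sub 1).const_mul (1 - p₀))
  rw [show p₀ * p₀ + (1 - p₀) * (1 - p₀) = 1 by
    rw [_root_.sub_mul, mul_sub, mul_sub, e]; simp] at h1
  refine (h1.eventually (Units.isOpen.mem_nhds isUnit_one)).mono fun k ⟨T, hT⟩ => ⟨T, ?_⟩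
  rw [Units.mul_inv_eq_iff_eq_mul, hT, add_mul, mul_add, mul_assoc, mul_assoc, hp,
    _root_.sub_mul 1 (p k), hp, ← mul_assoc, ← mul_assoc, e, mul_sub p₀, e]
  simp

theorem unit_of_mul [FiniteDimensional ℂ E] {f g : E →L[ℂ] E} (h : IsUnit (f * g)) :
    IsUnit f ∧ IsUnit g := by
  have := FiniteDimensional.complete ℂ E
  have h1 := ContinuousLinearMap.isUnit_iff_bijective.1 h
  have h2 : Surjective f := Surjective.of_comp (g := g) h1.2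
  have h3 : Injective g := Injective.of_comp (f := f) h1.1
  exact ⟨ContinuousLinearMap.isUnit_iff_bijective.2
      ⟨(LinearMap.injective_iff_surjective (f := f.toLinearMap)).2 h2, h2⟩,
    ContinuousLinearMap.isUnit_iff_bijective.2
      ⟨h3, (LinearMap.injective_iff_surjective (f := g.toLinearMap)).1 h3⟩⟩

theorem exists_units [FiniteDimensional ℂ E₁] [l.NeBot] {φ : α → E₁ →L[ℂ] E} {ψ : α → E →L[ℂ] E₁}
    {φ₀ : E₁ →L[ℂ] E} {ψ₀ : E →L[ℂ] E₁} (e : ∀ v, ψ₀ (φ₀ v) = v)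
    (h : Tendsto (fun k => φ k ∘L ψ k) l (𝓝 (φ₀ ∘L ψ₀))) :
    (∃ c : α → E₁ →L[ℂ] E₁, (∀ k, IsUnit (c k)) ∧
      Tendsto (fun k => φ k ∘L Ring.inverse (c k)) l (𝓝 φ₀)) ∧
    ∃ c : α → E₁ →L[ℂ] E₁, (∀ k, IsUnit (c k)) ∧ Tendsto (fun k => c k ∘L ψ k) l (𝓝 ψ₀) := by
  have := FiniteDimensional.complete ℂ E₁
  have h1 := tendsto_cmp h (tendsto_const_nhds (x := φ₀))
  have h2 := tendsto_cmp (tendsto_const_nhds (x := ψ₀)) h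
  have h3 := tendsto_cmp (tendsto_const_nhds (x := ψ₀)) h1
  rw [show (φ₀ ∘L ψ₀) ∘L φ₀ = φ₀ from ContinuousLinearMap.ext fun v => congrArg φ₀ (e v)] at h1 h3
  rw [show ψ₀ ∘L φ₀ ∘L ψ₀ = ψ₀ from ContinuousLinearMap.ext fun v => e _] at h2
  rw [show ψ₀ ∘L φ₀ = 1 from ContinuousLinearMap.ext e] at h3
  have h4 := (h3.eventually (Units.isOpen.mem_nhds isUnit_one)).mono fun k a =>
    unit_of_mul (f := ψ₀ ∘L φ k) (g := ψ k ∘L φ₀) a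
  obtain ⟨c, hc⟩ := (h4.mono fun k a => a.1).choice
  obtain ⟨d, hd⟩ := (h4.mono fun k a => a.2).choice
  exact ⟨⟨fun k => ↑(d k)⁻¹, fun k => (d k)⁻¹.isUnit, h1.congr' (hd.mono fun k a => by
      simp only [Ring.inverse_unit, inv_inv, a]; rfl)⟩,
    fun k => c k, fun k => (c k).isUnit, h2.congr' (hc.mono fun k a => by simp only [a]; rfl)⟩

theorem finrank_le [FiniteDimensional ℂ E] {U : Ultrafilter α} {I : α → Submodule ℂ E}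
    {I₀ : Submodule ℂ E}
    (h : ∀ (μ : α → E) (μ₀ : E), (∀ᶠ k in U, μ k ∈ I k) → Tendsto μ U (𝓝 μ₀) → μ₀ ∈ I₀) :
    ∀ᶠ k in U, finrank ℂ (I k) ≤ finrank ℂ I₀ := by
  obtain ⟨W, hW⟩ := I₀.exists_isCompl
  have := FiniteDimensional.proper ℂ E
  refine by_contra fun hn => ?_
  obtain ⟨μ, h1⟩ := ((U.eventually_not.2 hn).mono fun k a => show ∃ μ, μ ∈ I k ∧ μ ∈ Metric.sphere (0 : E) 1 ∩ W from
    by_contra fun d => a (by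
      have b := Submodule.finrank_add_finrank_le_of_disjoint (s := I k) (t := W)
        (Submodule.disjoint_def.2 fun μ b c => by_contra fun e =>
          d ⟨(‖μ‖⁻¹ : ℂ) • μ, (I k).smul_mem _ b, by simp [norm_smul, e], W.smul_mem _ c⟩)
      have c := Submodule.finrank_add_eq_of_isCompl hW
      omega)).choice
  obtain ⟨μ₀, h2, h3⟩ := ((isCompact_sphere (0 : E) 1).inter_right
    W.closed_of_finiteDimensional).ultrafilter_le_nhds (U.map μ)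
    (le_principal_iff.2 (h1.mono fun k a => a.2))
  simpa [Submodule.disjoint_def.1 hW.disjoint μ₀ (h μ μ₀ (h1.mono fun k a => a.1) h3) h2.2]
    using h2.1

variable {ι : Type} [Fintype ι] [DecidableEq ι] {M M' M'' : ι → ℕ}

theorem tendsto_lpr {φ : α → HV M' M} {φ₀ : HV M' M} {φ' : α → HV M'' M} {φ₀' : HV M'' M}
    (h₁ : ∀ i, Injective (φ₀ i)) (h₂ : ∀ i, Injective (φ₀' i))
    (h : ∀ i, IsCompl (φ₀ i).range (φ₀' i).range) (a : Tendsto φ l (𝓝 φ₀))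
    (a' : Tendsto φ' l (𝓝 φ₀')) : Tendsto (fun k => lpr (φ k) (φ' k)) l (𝓝 (lpr φ₀ φ₀')) :=
  Tendsto.comp (g := fun p : HV M' M × HV M'' M => lpr p.1 p.2) (f := fun k => (φ k, φ' k))
    (an_lpr h₁ h₂ h).continuousAt.tendsto (a.prodMk_nhds a')

theorem tendsto_pbT {φ : α → HV M M'} {φ₀ : HV M M'}
    (h : Tendsto φ l (𝓝 φ₀)) {σ : Type} [Fintype σ] (τ : σ → ι) :
    Tendsto (fun k => pbT (φ k) τ) l (𝓝 (pbT φ₀ τ)) :=
  (GlA.an_pbT analyticAt_id τ).continuousAt.tendsto.comp h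

theorem tendsto_apV {φ : α → HV M M'} {φ₀ : HV M M'}
    {c : α → V M} {c₀ : V M} (h : Tendsto φ l (𝓝 φ₀)) (h' : Tendsto c l (𝓝 c₀)) :
    Tendsto (fun k => apV (φ k) (c k)) l (𝓝 (apV φ₀ c₀)) :=
  tendsto_pi_nhds.2 fun i => tendsto_app (tendsto_pi_nhds.1 h i) (tendsto_pi_nhds.1 h' i)

end gen

variable {S Λ R J ι ν κ ν₁ κ₁ ν₂ κ₂ α : Type} [Fintype S] [Fintype Λ] [Fintype R] [Fintype J]
  [Fintype ι] [DecidableEq ι] [Fintype ν] [Fintype κ]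
  [Fintype ν₁] [Fintype κ₁] [Fintype ν₂] [Fintype κ₂] {ch : Ch ι J} {n n₁ n₂ : Nm ι J}
  {s : Sv ν κ ν₁ κ₁ ν₂ κ₂} {Wg : Wt S Λ R J} {l : Filter α} {U : Ultrafilter α}

theorem tendsto_mk {Q : α → ∀ i, Tens ch.M (ch.a i) →L[ℂ] ch.E i} {p : α → ν → V ch.M}
    {Ξ : α → Tn ch.M ch.slot →L[ℂ] ch.E none} {x : ch.W ν}
    (h1 : ∀ i, Tendsto (fun k => Q k i) l (𝓝 (x.Q i)))
    (h2 : ∀ q, Tendsto (fun k => p k q) l (𝓝 (x.p q))) (h3 : Tendsto Ξ l (𝓝 x.Ξ)) :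
    Tendsto (fun k => W.mk' (Q k) (p k) (Ξ k) x.X) l (𝓝 x) :=
  (tendsto_pi_nhds.2 h1).prodMk_nhds ((tendsto_pi_nhds.2 h2).prodMk_nhds
    (h3.prodMk_nhds tendsto_const_nhds))

theorem lb_iff {w : α → ch.Lb n ν} {w₀ : ch.Lb n ν} : Tendsto w l (𝓝 w₀) ↔
    Tendsto (fun k => (w k).1) l (𝓝 w₀.1) ∧ Tendsto (fun k => (w k).2.1) l (𝓝 w₀.2.1) ∧
      ∀ i, Tendsto (fun k => (w k).2.2 i) l (𝓝 (w₀.2.2 i)) :=
  ⟨fun h => ⟨h.fst_nhds, h.snd_nhds.fst_nhds, tendsto_pi_nhds.1 h.snd_nhds.snd_nhds⟩,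
    fun h => h.1.prodMk_nhds (h.2.1.prodMk_nhds (tendsto_pi_nhds.2 h.2.2))⟩

/-- The point of a label in terms of the maps of the labels. -/
noncomputable def lb (x : ch.W (Mk ν κ)) (m : Mk ν₁ κ₁ → Mk ν κ) (ψ : HV ch.M n.M)
    (r : ∀ l, ch.E l →L[ℂ] (ch.re n).E l) : (ch.re n).W (Mk ν₁ κ₁) :=
  W.mk' (fun l => r l ∘L x.Q l ∘L pbT ψ _) (fun q => apV ψ (x.p (m q)))
    (r none ∘L x.Ξ ∘L pbT ψ _) 0

theorem eq_lb {x : ch.W (Mk ν κ)} {w₁ : ch.Lb n₁ (Mk ν₁ κ₁)} {w₂ : ch.Lb n₂ (Mk ν₂ κ₂)}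
    (h : Du s x w₁ w₂) (hX : ∀ j, w₁.1.X j = 0) :
    w₁.1 = lb x s.mk₁ (lpr w₁.2.1 w₂.2.1) w₁.2.2 :=
  have e := lpr_left h.one.inj h.two.inj h.compl
  W.ext (fun l => ContinuousLinearMap.ext fun μ =>
      ((h.one.Q l _).trans (congrArg (w₁.1.Q l) (PB.pbT_id e _ μ))).symm)
    (fun q => funext fun i => ((congrArg _ (congrFun (h.one.mark q) i)).trans (e i _)).symm)
    (ContinuousLinearMap.ext fun μ =>
      ((h.one.Ξ _).trans (congrArg w₁.1.Ξ (PB.pbT_id e _ μ))).symm) hX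

variable (s l) in
/-- The maps of the labels converge to those of `b`. -/
structure Sq (z : α → ch.WQ n₁ n₂ ν κ ν₁ κ₁ ν₂ κ₂ Λ) (x : ch.W (Mk ν κ)) (b : ch.Bip n₁ n₂) :
    Prop where
  mem : ∀ᶠ k in l, z k ∈ CQ s
  lim : Tendsto (fun k => (z k).1.2) l (𝓝 x)
  φ₁ : Tendsto (fun k => (z k).2.1.2.1) l (𝓝 b.φ₁)
  φ₂ : Tendsto (fun k => (z k).2.2.2.1) l (𝓝 b.φ₂)
  r₁ : ∀ i, Tendsto (fun k => (z k).2.1.2.2 i) l (𝓝 (b.r₁ i))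
  r₂ : ∀ i, Tendsto (fun k => (z k).2.2.2.2 i) l (𝓝 (b.r₂ i))

namespace Sq

variable {z : α → ch.WQ n₁ n₂ ν κ ν₁ κ₁ ν₂ κ₂ Λ} {x : ch.W (Mk ν κ)} {b : ch.Bip n₁ n₂}

section

variable (h : Sq s l z x b)
include h

theorem symm : Sq s.symm l (fun k => swQ (z k)) x b.symm :=
  ⟨h.mem.mono fun _ => swQ_mem.2, h.lim, h.φ₂, h.φ₁, h.r₂, h.r₁⟩

theorem ψ : Tendsto (fun k => lpr (z k).2.1.2.1 (z k).2.2.2.1) l (𝓝 b.ψ₁) :=
  b.lpr₁ ▸ tendsto_lpr b.φ₁_inj b.φ₂_inj b.isCompl h.φ₁ h.φ₂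

theorem pt : Tendsto (fun k => (z k).2.1.1) l (𝓝 (lb x s.mk₁ b.ψ₁ b.r₁)) :=
  (tendsto_mk (x := lb x s.mk₁ b.ψ₁ b.r₁)
    (fun i => tendsto_cmp (h.r₁ i) (tendsto_cmp (W.tendsto_Q h.lim i) (tendsto_pbT h.ψ _)))
    (fun _ => tendsto_apV h.ψ (W.tendsto_p h.lim _))
    (tendsto_cmp (h.r₁ none) (tendsto_cmp (W.tendsto_Ξ h.lim) (tendsto_pbT h.ψ _)))).congr'
    (h.mem.mono fun _ a => (eq_lb a.1 a.2.1).symm)

theorem lab : Tendsto (fun k => (z k).2.1) l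
    (𝓝 ((lb x s.mk₁ b.ψ₁ b.r₁, b.φ₁, b.r₁) : ch.Lb n₁ (Mk ν₁ κ₁))) :=
  lb_iff.2 ⟨h.pt, h.φ₁, h.r₁⟩

variable [l.NeBot]

theorem lk : Lk x ((lb x s.mk₁ b.ψ₁ b.r₁, b.φ₁, b.r₁) : ch.Lb n₁ (Mk ν₁ κ₁)) :=
  ⟨fun i μ => tendsto_nhds_unique_of_eventuallyEq
      (tendsto_app (h.r₁ i) (tendsto_app (W.tendsto_Q h.lim i) tendsto_const_nhds))
      (tendsto_app (W.tendsto_Q h.pt i) (tendsto_app (tendsto_pbT h.φ₁ _) tendsto_const_nhds))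
      (h.mem.mono fun _ a => a.1.one.Q i μ),
    fun μ => tendsto_nhds_unique_of_eventuallyEq
      (tendsto_app (h.r₁ none) (tendsto_app (W.tendsto_Ξ h.lim) tendsto_const_nhds))
      (tendsto_app (W.tendsto_Ξ h.pt) (tendsto_app (tendsto_pbT h.φ₁ _) tendsto_const_nhds))
      (h.mem.mono fun _ a => a.1.one.Ξ μ)⟩

theorem mark (q) : x.p (s.mk₁ q) = apV b.φ₁ ((lb x s.mk₁ b.ψ₁ b.r₁).p q) :=
  tendsto_nhds_unique_of_eventuallyEq (W.tendsto_p h.lim _)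
    (tendsto_apV h.φ₁ (W.tendsto_p h.pt q)) (h.mem.mono fun _ a => a.1.one.mark q)

theorem approx (hc : ch.Cuts) (hx : x ∈ ch.base _) {c : V n₁.M}
    (a : c ∈ crv (lb x s.mk₁ b.ψ₁ b.r₁)) :
    ∃ c' : α → V n₁.M, (∀ᶠ k in l, c' k ∈ crv (z k).2.1.1) ∧ Tendsto c' l (𝓝 c) := by
  obtain ⟨c, a, rfl⟩ := a
  obtain ⟨d, a1, a2⟩ := hc.exists_gr (h.mem.mono fun _ e => e.1.mem) hx h.lim (PrS.i_mem h.lk a)
  have a3 := b.apV_ψφ₁₁ c.1 ▸ tendsto_apV h.ψ a2.fst_nhds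
  refine ⟨_, ?_, a3⟩
  filter_upwards [h.mem, a1, (tendsto_pi_nhds.1 a3 ch.o).eventually_ne (a.1 _)] with k e e' d'
  obtain ⟨c', e1, e2⟩ | ⟨c', -, e2⟩ := e.1.crv.subset (mem_image_of_mem _ e')
  · rw [← e2]
    exact mem_of_eq_of_mem (funext fun i => lpr_left e.1.one.inj e.1.two.inj e.1.compl i _) e1
  · rw [← e2] at d'
    exact absurd (lpr_right e.1.one.inj e.1.two.inj e.1.compl _ _) d'

end

variable (h : Sq s U z x b)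
include h

theorem hilb (hc : ch.Cuts) (hx : x ∈ ch.base _) (a : ι → ℕ) (ha : a ≠ 0) :
    (finrank ℂ (Hs (crv (lb x s.mk₁ b.ψ₁ b.r₁)) a) : ℤ) ≤ dg n₁.m a + 1 - n₁.g := by
  obtain ⟨k, e, e'⟩ := (h.mem.and (finrank_le (U := U)
    (I := fun k => LinearMap.ker (resL (crv (z k).2.1.1) a))
    (I₀ := LinearMap.ker (resL (crv (lb x s.mk₁ b.ψ₁ b.r₁)) a)) fun μ μ₀ e e' =>
      funext fun c => by
        obtain ⟨c', a1, a2⟩ := h.approx hc hx c.2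
        exact tendsto_nhds_unique_of_eventuallyEq (tendsto_val₂ e' a2) tendsto_const_nhds
          ((e.and a1).mono fun k d => congrFun d.1 ⟨_, d.2⟩))).exists
  have e1 : _ = dg n₁.m a + 1 - n₁.g := e.1.one.mem.2.2.1.finrank_Hs ha
  have e2 := LinearMap.finrank_range_add_finrank_ker (resL (crv (z k).2.1.1) a)
  have e3 := LinearMap.finrank_range_add_finrank_ker (resL (crv (lb x s.mk₁ b.ψ₁ b.r₁)) a)
  rw [← e1]
  exact Int.ofNat_le.2 (Nat.le_of_add_le_add_right ((e3.trans e2.symm).le.trans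
    (Nat.add_le_add_left e' _)))

theorem du (hN : ch.QN n₁ n₂) (hx : x ∈ ch.base _) :
    Du s x ((lb x s.mk₁ b.ψ₁ b.r₁, b.φ₁, b.r₁) : ch.Lb n₁ (Mk ν₁ κ₁))
      ((lb x s.mk₂ b.ψ₂ b.r₂, b.φ₂, b.r₂) : ch.Lb n₂ (Mk ν₂ κ₂)) := by
  have k : PrS.Wk s b x (lb x s.mk₁ b.ψ₁ b.r₁) (lb x s.mk₂ b.ψ₂ b.r₂) :=
    ⟨h.lk, h.symm.lk, by
      simp only [crv, PrS.gr_eq h.lk h.symm.lk hN.cuts (PrS.surj_of h.lk hx.1)
        (PrS.surj_of h.symm.lk hx.1), Bip.un, image_union, image_image]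
      rfl, hx.1, h.mark, h.symm.mark⟩
  have c := b.isCurve_of_un (fun _ => crv_ne) (fun _ => crv_ne) hN.g hN.m (k.crv ▸ hx.2.2.1)
    (h.hilb hN.cuts hx) (h.symm.hilb hN.cuts hx)
  exact ⟨hx, ⟨k.one, k.mem_left hN.cuts hx c.1, b.φ₁_inj, k.p₁⟩,
    ⟨k.two, k.symm.mem_left hN.cuts hx c.2, b.φ₂_inj, k.p₂⟩, b.isCompl, b.bij, k.crv⟩

end Sq

/-- The projection of the factors to the first part. -/
noncomputable def pV (b : ch.Bip n₁ n₂) : HV ch.M ch.M := fun i => b.φ₁ i ∘L b.ψ₁ i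

/-- The projection of the spaces of sections to the first part. -/
noncomputable def pE (b : ch.Bip n₁ n₂) (i : Option J) : ch.E i →L[ℂ] ch.E i := b.e₁ i ∘L b.r₁ i

theorem pV_symm (b : ch.Bip n₁ n₂) (i : ι) : pV b.symm i = 1 - pV b i :=
  ContinuousLinearMap.ext fun v => eq_sub_of_add_eq' (b.φψ i v)

theorem pE_symm (b : ch.Bip n₁ n₂) (i : Option J) : pE b.symm i = 1 - pE b i :=
  ContinuousLinearMap.ext fun v => eq_sub_of_add_eq' (b.er i v)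

/-- The transport of a decomposition. -/
noncomputable def tr (b : ch.Bip n₁ n₂) (T : ∀ i, ((Fin (ch.M i) → ℂ) →L[ℂ] Fin (ch.M i) → ℂ)ˣ)
    (T' : ∀ i, (ch.E i →L[ℂ] ch.E i)ˣ) : ch.Bip n₁ n₂ where
  φ₁ i := (T i).1 ∘L b.φ₁ i
  φ₂ i := (T i).1 ∘L b.φ₂ i
  ψ₁ i := b.ψ₁ i ∘L (T i).2
  ψ₂ i := b.ψ₂ i ∘L (T i).2
  r₁ i := b.r₁ i ∘L (T' i).2
  r₂ i := b.r₂ i ∘L (T' i).2
  e₁ i := (T' i).1 ∘L b.e₁ i
  e₂ i := (T' i).1 ∘L b.e₂ i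
  ψφ₁₁ i v := (congrArg (b.ψ₁ i) (DFunLike.congr_fun (T i).4 _)).trans (b.ψφ₁₁ i v)
  ψφ₁₂ i v := (congrArg (b.ψ₁ i) (DFunLike.congr_fun (T i).4 _)).trans (b.ψφ₁₂ i v)
  ψφ₂₁ i v := (congrArg (b.ψ₂ i) (DFunLike.congr_fun (T i).4 _)).trans (b.ψφ₂₁ i v)
  ψφ₂₂ i v := (congrArg (b.ψ₂ i) (DFunLike.congr_fun (T i).4 _)).trans (b.ψφ₂₂ i v)
  φψ i v := (map_add (T i).1 _ _).symm.trans
    ((congrArg _ (b.φψ i _)).trans (DFunLike.congr_fun (T i).3 v))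
  re₁₁ i v := (congrArg (b.r₁ i) (DFunLike.congr_fun (T' i).4 _)).trans (b.re₁₁ i v)
  re₁₂ i v := (congrArg (b.r₁ i) (DFunLike.congr_fun (T' i).4 _)).trans (b.re₁₂ i v)
  re₂₁ i v := (congrArg (b.r₂ i) (DFunLike.congr_fun (T' i).4 _)).trans (b.re₂₁ i v)
  re₂₂ i v := (congrArg (b.r₂ i) (DFunLike.congr_fun (T' i).4 _)).trans (b.re₂₂ i v)
  er i v := (map_add (T' i).1 _ _).symm.trans
    ((congrArg _ (b.er i _)).trans (DFunLike.congr_fun (T' i).3 v))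

theorem exists_bip [l.NeBot] {B : α → ch.Bip n₁ n₂} {P : HV ch.M ch.M}
    {P' : ∀ i, ch.E i →L[ℂ] ch.E i} (h : ∀ i, Tendsto (fun k => pV (B k) i) l (𝓝 (P i)))
    (h' : ∀ i, Tendsto (fun k => pE (B k) i) l (𝓝 (P' i))) :
    ∃ b : ch.Bip n₁ n₂, pV b = P ∧ pE b = P' := by
  obtain ⟨k, e, e'⟩ := ((eventually_all.2 fun i => exists_conj (h i) fun k =>
    ContinuousLinearMap.ext fun v => congrArg ((B k).φ₁ i) ((B k).ψφ₁₁ i _)).and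
    (eventually_all.2 fun i => exists_conj (h' i) fun k =>
      ContinuousLinearMap.ext fun v => congrArg ((B k).e₁ i) ((B k).re₁₁ i _))).exists
  choose T e using e
  choose T' e' using e'
  exact ⟨tr (B k) T T', funext e, funext e'⟩

theorem exists_frame [l.NeBot] {B : α → ch.Bip n₁ n₂} {b : ch.Bip n₁ n₂}
    (h : ∀ i, Tendsto (fun k => pV (B k) i) l (𝓝 (pV b i)))
    (h' : ∀ i, Tendsto (fun k => pE (B k) i) l (𝓝 (pE b i))) :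
    ∃ c : α → (ch.re n₁).A Empty, (∀ k, IsUnit (c k)) ∧
      (∀ i, Tendsto (fun k => (B k).φ₁ i ∘L Ring.inverse ((c k).1 i)) l (𝓝 (b.φ₁ i))) ∧
      ∀ i, Tendsto (fun k => (c k).2.1 i ∘L (B k).r₁ i) l (𝓝 (b.r₁ i)) := by
  choose c a1 a2 using fun i => (exists_units (b.ψφ₁₁ i) (h i)).1
  choose d a3 a4 using fun i => (exists_units (b.re₁₁ i) (h' i)).2
  exact ⟨fun k => (fun i => c i k, fun i => d i k, Empty.elim),
    fun k => Cv.isUnit_iff.2 ⟨fun i => a1 i k, fun i => a3 i k, fun q => q.elim⟩, a2, a4⟩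

section lab

variable {z : ch.WQ n₁ n₂ ν κ ν₁ κ₁ ν₂ κ₂ Λ} {b : ch.Bip n₁ n₂} (hz : z ∈ CQ s) (h : b.Lab z)
include hz h

theorem norm_pV {c : V ch.M} (hc : c ∈ crv z.1.2) (i : ι) : ‖pV b i (c i)‖ ≤ ‖c i‖ := by
  obtain ⟨c, -, rfl⟩ | ⟨c, -, rfl⟩ := hz.1.crv.subset hc
  · rw [← h.φ₁]
    exact (congrArg (fun v => ‖b.φ₁ i v‖) (b.ψφ₁₁ i _)).le
  · rw [← h.φ₂]
    exact (congrArg (fun v => ‖b.φ₁ i v‖) (b.ψφ₁₂ i _)).le.trans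
      (by rw [map_zero, norm_zero]; exact norm_nonneg _)

theorem pE_Q (hc : ch.Cuts) (i : Option J) (μ : Tens ch.M (ch.a i)) :
    pE b i (z.1.2.Q i μ) = z.1.2.Q i (pbT (pV b) _ μ) := by
  have l₁ : Lk z.1.2 ((z.2.1.1, b.φ₁, b.r₁) : ch.Lb n₁ _) := h.φ₁ ▸ h.r₁ ▸ hz.1.one.toLk
  have l₂ : Lk z.1.2 ((z.2.2.1, b.φ₂, b.r₂) : ch.Lb n₂ _) := h.φ₂ ▸ h.r₂ ▸ hz.1.two.toLk
  exact (congrArg (b.e₁ i) (l₁.Q i μ)).trans (PrS.Q_pb l₁ l₂ hc i _).symm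

end lab

/-- the projections converge -/
theorem exists_lim (hN : ch.QN n₁ n₂) {y : α → ch.WQ n₁ n₂ ν κ ν₁ κ₁ ν₂ κ₂ Λ} {x : ch.W (Mk ν κ)}
    {B : α → ch.Bip n₁ n₂} (hy : ∀ᶠ k in U, y k ∈ CQ s ∧ (B k).Lab (y k))
    (hl : Tendsto (fun k => (y k).1.2) U (𝓝 x)) (hx : x ∈ ch.base _) :
    ∃ b : ch.Bip n₁ n₂, (∀ i, Tendsto (fun k => pV (B k) i) U (𝓝 (pV b i))) ∧
      ∀ i, Tendsto (fun k => pE (B k) i) U (𝓝 (pE b i)) := by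
  have hC := hx.2.2.1
  have h1 : ∀ i, ∃ P, Tendsto (fun k => pV (B k) i) U (𝓝 P) := fun i => by
    refine lim_of_bdd (bdd_of_span (hC.span_top (hN.tight.1.eq hx i) (p := fun _ => True)
      fun c hc => (hC.nod.frequently_not_node x.p hc).mono fun _ _ => trivial) ?_)
    rintro _ ⟨_, ⟨⟨c₀, h3, rfl⟩, -⟩, rfl⟩
    obtain ⟨c, a1, a2⟩ := hN.cuts.exists_gr (hy.mono fun _ a => a.1.1.mem) hx hl h3
    have a3 := tendsto_pi_nhds.1 a2.fst_nhds i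
    obtain ⟨C, a4⟩ := bdd_of_lim a3
    exact ⟨_, a3, C, ((hy.and a1).and a4).mono fun k a =>
      (norm_pV a.1.1.1 a.1.1.2 (mem_image_of_mem _ a.1.2) i).trans a.2⟩
  choose P h1 using h1
  have h2 : ∀ i, ∃ P, Tendsto (fun k => pE (B k) i) U (𝓝 P) := fun i => by
    refine lim_of_bdd (bdd_of_span Submodule.span_univ fun v _ => ?_)
    obtain ⟨μ, rfl⟩ := hx.1 i v
    exact ⟨_, tendsto_app (W.tendsto_Q hl i) tendsto_const_nhds, bdd_of_lim ((tendsto_app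
      (W.tendsto_Q hl i) (tendsto_app (tendsto_pbT (tendsto_pi_nhds.2 h1) _)
        (tendsto_const_nhds (x := μ)))).congr'
      (hy.mono fun k a => (pE_Q a.1 a.2 hN.cuts i μ).symm))⟩
  choose P' h2 using h2
  obtain ⟨b, rfl, rfl⟩ := exists_bip h1 h2
  exact ⟨b, h1, h2⟩

theorem actA_φ₁ (c : ch.AL n₁ n₂) (z : ch.WQ n₁ n₂ ν κ ν₁ κ₁ ν₂ κ₂ Λ) (i : ι) :
    (actA s Wg c z).2.1.2.1 i = z.2.1.2.1 i ∘L Ring.inverse (c.1.1 i) :=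
  ContinuousLinearMap.ext fun _ => rfl

theorem actA_φ₂ (c : ch.AL n₁ n₂) (z : ch.WQ n₁ n₂ ν κ ν₁ κ₁ ν₂ κ₂ Λ) (i : ι) :
    (actA s Wg c z).2.2.2.1 i = z.2.2.2.1 i ∘L Ring.inverse (c.2.1 i) :=
  ContinuousLinearMap.ext fun _ => rfl

theorem actA_r₁ (c : ch.AL n₁ n₂) (z : ch.WQ n₁ n₂ ν κ ν₁ κ₁ ν₂ κ₂ Λ) (i : Option J) :
    (actA s Wg c z).2.1.2.2 i = c.1.2.1 i ∘L z.2.1.2.2 i :=
  congrArg (fun T => c.1.2.1 i ∘L z.2.1.2.2 i ∘L T) (Ring.inverse_one (ch.E i →L[ℂ] ch.E i))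

theorem actA_r₂ (c : ch.AL n₁ n₂) (z : ch.WQ n₁ n₂ ν κ ν₁ κ₁ ν₂ κ₂ Λ) (i : Option J) :
    (actA s Wg c z).2.2.2.2 i = c.2.2.1 i ∘L z.2.2.2.2 i :=
  congrArg (fun T => c.2.2.1 i ∘L z.2.2.2.2 i ∘L T) (Ring.inverse_one (ch.E i →L[ℂ] ch.E i))

theorem exists_sq (hN : ch.QN n₁ n₂) {y : α → ch.WQ n₁ n₂ ν κ ν₁ κ₁ ν₂ κ₂ Λ} {x : ch.W (Mk ν κ)}
    (hy : ∀ᶠ k in U, y k ∈ CQ s) (hl : Tendsto (fun k => (y k).1.2) U (𝓝 x))
    (hx : x ∈ ch.base _) : ∃ (c : α → ch.AL n₁ n₂) (b : ch.Bip n₁ n₂), (∀ k, IsUnit (c k)) ∧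
      Sq s U (fun k => actA s Wg (c k) (y k)) x b := by
  obtain ⟨B, hB⟩ := (hy.mono fun _ => Bip.exists_lab).choice
  obtain ⟨b, h1, h2⟩ := exists_lim hN (hy.and hB) hl hx
  obtain ⟨c, a1, a2, a3⟩ := exists_frame h1 h2
  obtain ⟨d, b1, b2, b3⟩ := exists_frame (B := fun k => (B k).symm) (b := b.symm)
    (fun i => by simpa only [pV_symm] using (h1 i).const_sub 1)
    fun i => by simpa only [pE_symm] using (h2 i).const_sub 1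
  have u : ∀ k, IsUnit (M := ch.AL n₁ n₂) (c k, d k) := fun k => AP.isUnit_iff.2 ⟨a1 k, b1 k⟩
  exact ⟨fun k => (c k, d k), b, u,
    hy.mono fun k a => ivt_CQ _ (AP.isUnit_iff.2 ⟨isUnit_one, u k⟩) _ a,
    hl.congr fun k => (congrArg Prod.snd (actA_fst _)).symm,
    tendsto_pi_nhds.2 fun i => (a2 i).congr' (hB.mono fun k a =>
      (congrArg (fun φ : HV _ _ => φ i ∘L _) a.φ₁).trans (actA_φ₁ (c k, d k) (y k) i).symm),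
    tendsto_pi_nhds.2 fun i => (b2 i).congr' (hB.mono fun k a =>
      (congrArg (fun φ : HV _ _ => φ i ∘L _) a.φ₂).trans (actA_φ₂ (c k, d k) (y k) i).symm),
    fun i => (a3 i).congr' (hB.mono fun k a =>
      (congrArg (_ ∘L ·) (congrFun a.r₁ i)).trans (actA_r₁ (c k, d k) (y k) i).symm),
    fun i => (b3 i).congr' (hB.mono fun k a =>
      (congrArg (_ ∘L ·) (congrFun a.r₂ i)).trans (actA_r₂ (c k, d k) (y k) i).symm)⟩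

/-- the frames of a label converge -/
theorem lim_frame {β : ν₁ ⊕ κ₁ → (ν ⊕ κ) ⊕ Empty} {a : α → AP (ch.AF ν κ S) ((ch.re n).A Empty)}
    {w : α → ch.Lb n (Mk ν₁ κ₁)} {w₀ w₁ : ch.Lb n (Mk ν₁ κ₁)} {ψ : α → HV ch.M n.M}
    {ψ₀ : HV ch.M n.M} {g : ch.AF ν κ S} (ha : ∀ k, IsUnit (a k)) (h0 : Tendsto w U (𝓝 w₀))
    (h1 : Tendsto (fun k => actL1 Wg β (a k) (w k)) U (𝓝 w₁))
    (hg : Tendsto (fun k => (a k).1) U (𝓝 g)) (hψ : Tendsto ψ U (𝓝 ψ₀))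
    (e : ∀ k i v, ψ k i ((actL1 Wg β (a k) (w k)).2.1 i v) = v)
    (hs : ∀ i, Surjective (w₀.2.2 i)) : ∃ c, Tendsto (fun k => (a k).2) U (𝓝 c) := by
  have h2 : ∀ i, Tendsto (fun k => (a k).2.1 i) U (𝓝 _) := fun i =>
    (tendsto_cmp (tendsto_pi_nhds.1 hψ i) (tendsto_cmp (tendsto_pi_nhds.1 hg.snd_nhds.fst_nhds i)
      (tendsto_pi_nhds.1 (lb_iff.1 h0).2.1 i))).congr fun k => ContinuousLinearMap.ext fun v =>
        (congrArg (ψ k i) (PrA.actL1_V (Wg := Wg) (β := β) (ha k) (w k) i v).symm).trans (e k i _)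
  have h3 : ∀ i, ∃ e, Tendsto (fun k => (a k).2.2.1 i) U (𝓝 e) := fun i => by
    refine lim_of_bdd (bdd_of_span Submodule.span_univ fun v _ => ?_)
    obtain ⟨v, rfl⟩ := hs i v
    exact ⟨_, tendsto_app ((lb_iff.1 h0).2.2 i) tendsto_const_nhds, bdd_of_lim ((tendsto_app
      ((lb_iff.1 h1).2.2 i) (tendsto_app (tendsto_pi_nhds.1 hg.snd_nhds.snd_nhds.fst_nhds i)
        (tendsto_const_nhds (x := v)))).congr fun k =>
      actLb_E (c := Wg.cS (a k).1.1) (s' := dup (θL β (a k)).2) (w := w k)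
        (isUnitF_iff.1 (AP.isUnit_iff.1 (ha k)).1).2 i v)⟩
  choose e h3 using h3
  exact ⟨(_, e, Empty.elim), (tendsto_pi_nhds.2 h2).prodMk_nhds
    ((tendsto_pi_nhds.2 h3).prodMk_nhds (tendsto_pi_nhds.2 fun q => q.elim))⟩

end Vale.Agent.P269.Ch.PrP
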