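import Vale.Agent.P287Q.G.Glu.PrUni
import Vale.Agent.P287Q.G.Glu.PrPrp0
import Vale.Agent.P287Q.G.Glu.CptZ

set_option linter.unusedSectionVars false

/-!
# Decompositions: compactness and properness
-/

namespace Vale.Agent.P269.Ch

open P291Z Set Function Topology Filter Module Base Cv Holo Vir KD

variable {S Λ R J K ι ν κ ν₁ κ₁ ν₂ κ₂ : Type} [Fintype S] [Fintype Λ] [Fintype R] [Fintype J]
  [Fintype K] [Fintype ι] [DecidableEq ι] [Fintype ν] [Fintype κ]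
  [Fintype ν₁] [Fintype κ₁] [Fintype ν₂] [Fintype κ₂] {ch : Ch ι J} {n₁ n₂ : Nm ι J}
  {s : Sv ν κ ν₁ κ₁ ν₂ κ₂} {Wg : Wt S Λ R J} {F : Fam S Λ R J K}

/-- **(K)** along an ultrafilter -/
theorem CQ.cpt_ultra (hN : ch.QN n₁ n₂) {α : Type} {U : Ultrafilter α}
    {y : α → ch.WQ n₁ n₂ ν κ ν₁ κ₁ ν₂ κ₂ Λ} {x : ch.WF ν κ Λ} (hy : ∀ᶠ k in U, y k ∈ CQ s)
    (hl : Tendsto (fun k => (y k).1) U (𝓝 x)) (hx : x.2 ∈ ch.base (Mk ν κ)) :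
    ∃ (c : α → ch.AL n₁ n₂) (z : ch.WQ n₁ n₂ ν κ ν₁ κ₁ ν₂ κ₂ Λ), (∀ k, IsUnit (c k)) ∧ z ∈ CQ s ∧
      Tendsto (fun k => actA s Wg (c k) (y k)) U (𝓝 z) := by
  have h1 : Tendsto (fun k => (y k).1.2) U (𝓝 x.2) := hl.snd_nhds
  obtain ⟨c, b, hc, h⟩ := PrP.exists_sq (Wg := Wg) hN hy h1 hx
  exact ⟨c, (x, (PrP.lb x.2 s.mk₁ b.ψ₁ b.r₁, b.φ₁, b.r₁), (PrP.lb x.2 s.mk₂ b.ψ₂ b.r₂, b.φ₂, b.r₂)),
    hc, ⟨h.du hN hx, fun _ => rfl, fun _ => rfl⟩,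
    (hl.congr fun k => (actA_fst (s := s) (c k)).symm).prodMk_nhds (h.lab.prodMk_nhds h.symm.lab)⟩

/-- **(K)** for sequences -/
theorem CQ.cpt (hN : ch.QN n₁ n₂) {y : ℕ → ch.WQ n₁ n₂ ν κ ν₁ κ₁ ν₂ κ₂ Λ} {x : ch.WF ν κ Λ}
    (hy : ∀ k, y k ∈ CQ s) (hl : Tendsto (fun k => (y k).1) atTop (𝓝 x))
    (hx : x.2 ∈ ch.base (Mk ν κ)) :
    ∃ (φ : ℕ → ℕ) (c : ℕ → ch.AL n₁ n₂) (z : ch.WQ n₁ n₂ ν κ ν₁ κ₁ ν₂ κ₂ Λ), StrictMono φ ∧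
      (∀ k, IsUnit (c k)) ∧ z ∈ CQ s ∧ z.1 = x ∧
      Tendsto (fun k => actA s Wg (c k) (y (φ k))) atTop (𝓝 z) := by
  have h0 := hl.mono_left Nat.hyperfilter_le_atTop
  obtain ⟨c, z, h1, h2, h3⟩ := CQ.cpt_ultra (Wg := Wg) hN (.of_forall hy) h0 hx
  obtain ⟨φ, h4, h5⟩ :=
    (mapClusterPt_iff_ultrafilter.2 ⟨_, Nat.hyperfilter_le_atTop, h3⟩).tendsto_subseq
  exact ⟨φ, c ∘ φ, z, h4, fun k => h1 _, h2,
    tendsto_nhds_unique h3.fst_nhds (h0.congr fun k => (actA_fst _).symm), h5⟩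

/-- forgetting the labels is proper on every invariant set that is closed over `O` -/
theorem isPr_fstQ (hN : ch.QN n₁ n₂) {O : Set (ch.WF ν κ Λ)} {Z : Set (ch.WQ n₁ n₂ ν κ ν₁ κ₁ ν₂ κ₂ Λ)}
    (hO : O ⊆ ch.bsF ν κ Λ) (hZ : Z ⊆ CQ s) [IsAct (actF Wg : ch.AF ν κ S → _) O]
    [Nice (Quo (actF Wg : ch.AF ν κ S → _) O)]
    [Nice (Quo (actQ s Wg : ch.AQ n₁ n₂ ν κ S → _) Z)]
    (hi : Ivt (actQ s Wg : ch.AQ n₁ n₂ ν κ S → _) Z)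
    (hc : ∀ z ∈ CQ s, z.1 ∈ O → z ∈ closure Z → z ∈ Z) (m : MapsTo Prod.fst Z O) :
    IsPr (eqM_fstQ (s := s) (Wg := Wg) m).map := by
  refine EqM.isPr_of_seq _ (fun b hb => ⟨(b, 1), AP.isUnit_iff.2 ⟨hb, isUnit_one⟩, rfl⟩) hi
    fun y x h1 h2 h3 => ?_
  obtain ⟨φ, c, z, b1, b2, b3, b4, b5⟩ := CQ.cpt (Wg := Wg) hN (fun k => hZ (h1 k)) h3 (hO h2)
  have u : ∀ k, IsUnit (M := ch.AQ n₁ n₂ ν κ S) (1, c k) := fun k =>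
    AP.isUnit_iff.2 ⟨isUnit_one, b2 k⟩
  exact ⟨φ, fun k => (1, c k), z, b1, u, hc z b3 (mem_of_eq_of_mem b4 h2)
    (mem_closure_of_tendsto b5 (.of_forall fun k => hi _ (u k) _ (h1 _))), b5⟩

/-- `ZQ` over closures of strata is closed over `adm` -/
theorem ZQ.closed (hF : F.Inv) {Z₁ : Set ((ch.re n₁).WF ν₁ κ₁ Λ)} {Z₂ : Set ((ch.re n₂).WF ν₂ κ₂ Λ)}
    {z : ch.WQ n₁ n₂ ν κ ν₁ κ₁ ν₂ κ₂ Λ} (hz : z ∈ CQ s) (ha : z.1 ∈ ch.adm ν κ F)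
    (h : z ∈ closure (ZQ s F (clo F Z₁) (clo F Z₂))) : z ∈ ZQ s F (clo F Z₁) (clo F Z₂) :=
  have _ := hF
  have k := (CQ.baseF_iff hz).1 ha.1
  ⟨hz, ha, ⟨closure_closure.subset ((CQ.an_pt₁ hz).continuousAt.continuousWithinAt.mem_closure h
      fun _ a => a.2.2.1.1), k.1⟩, closure_closure.subset
    ((CQ.an_pt₂ hz).continuousAt.continuousWithinAt.mem_closure h fun _ a => a.2.2.2.1), k.2⟩

/-- the image of `ZQ` is closed in `baseF` -/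
theorem ZQ.closed_image (hN : ch.QN n₁ n₂) (hF : F.Inv) (hc : ch.Cuts)
    {Z₁ : Set ((ch.re n₁).WF ν₁ κ₁ Λ)} {Z₂ : Set ((ch.re n₂).WF ν₂ κ₂ Λ)}
    (h₁ : Ivt (actF F.toWt) (clo F Z₁)) (h₂ : Ivt (actF F.toWt) (clo F Z₂)) {x : ch.WF ν κ Λ}
    (hx : x ∈ ch.baseF ν κ F.B) (h : x ∈ closure (Prod.fst '' (ZQ s F (clo F Z₁) (clo F Z₂) :
      Set (ch.WQ n₁ n₂ ν κ ν₁ κ₁ ν₂ κ₂ Λ)))) :
    x ∈ Prod.fst '' (ZQ s F (clo F Z₁) (clo F Z₂) : Set (ch.WQ n₁ n₂ ν κ ν₁ κ₁ ν₂ κ₂ Λ)) := by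
  obtain ⟨v, a1, a2⟩ := mem_closure_iff_seq_limit.1 h
  choose y a3 a4 using a1
  obtain ⟨φ, c, z, -, b2, b3, b4, b5⟩ := CQ.cpt (Wg := F.toWt) hN (fun k => (a3 k).1)
    (a2.congr fun k => (a4 k).symm) hx.2.1
  exact ⟨z, ZQ.closed hF b3 (mem_of_eq_of_mem b4 (hc.closure_inter_subset_adm hF
    (image_subset_iff.2 fun _ a => a.2.1) ⟨h, hx⟩)) (mem_closure_of_tendsto b5 (.of_forall fun k =>
      ivt_ZQ hF h₁ h₂ _ (AP.isUnit_iff.2 ⟨isUnit_one, b2 k⟩) _ (a3 _))), b4⟩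

/-- **properness of the action** -/
theorem prp_CQ {U : Set (ch.WF ν κ Λ)} (hU : Prp (actF Wg : ch.AF ν κ S → _) U)
    (hi : Ivt (actF Wg : ch.AF ν κ S → _) U) :
    Prp (actQ s Wg : ch.AQ n₁ n₂ ν κ S → ch.WQ n₁ n₂ ν κ ν₁ κ₁ ν₂ κ₂ Λ → _)
      (CQ s ∩ Prod.fst ⁻¹' U) := fun z hz z' hz' =>
  bd_of_ultra fun V y a h1 h2 h3 => by
    obtain ⟨g, hg, -⟩ := (hU _ hz.2 _ hz'.2).exists_tendsto (fun s => hi _ s.isUnit)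
      (hU _ hz'.2 _ hz.2) V (s := fun k => AP.fstU (a k)) (.of_forall fun k => (h1 k).2)
      h2.fst_nhds h3.fst_nhds
    have h4 := (Units.continuous_val.tendsto g).comp hg
    have h5 := fun k => (ivt_CQ (Wg := Wg) _ (a k).isUnit _ (h1 k).1).1
    have h6 := (PrP.lb_iff.1 h3.snd_nhds.fst_nhds).2.1
    have h7 := (PrP.lb_iff.1 h3.snd_nhds.snd_nhds).2.1
    have d := hz'.1.1
    obtain ⟨c, b1⟩ := PrP.lim_frame (Wg := Wg) (β := s.t₁) (fun k => PrA.u₁ (a k).isUnit)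
      h2.snd_nhds.fst_nhds h3.snd_nhds.fst_nhds h4
      (PrP.tendsto_lpr d.one.inj d.two.inj d.compl h6 h7)
      (fun k => lpr_left (h5 k).one.inj (h5 k).two.inj (h5 k).compl)
      fun i => Prod.fst_surjective.comp (hz.1.1.bij i).2
    obtain ⟨c', b2⟩ := PrP.lim_frame (Wg := Wg) (β := s.t₂) (fun k => PrA.u₂ (a k).isUnit)
      h2.snd_nhds.snd_nhds h3.snd_nhds.snd_nhds h4
      (PrP.tendsto_lpr d.two.inj d.one.inj d.symm.compl h7 h6)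
      (fun k => lpr_left (h5 k).two.inj (h5 k).one.inj (h5 k).symm.compl)
      fun i => Prod.snd_surjective.comp (hz.1.1.bij i).2
    exact bdd_of_lim (E := ch.AQ n₁ n₂ ν κ S) (h4.prodMk_nhds (b1.prodMk_nhds b2))

end Vale.Agent.P269.Ch
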