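import Vale.Agent.P287Q.G.Glu.PushA
import Vale.Agent.P287Q.G.Glu.CptZ
import Vale.Agent.P269.Glu.Fnd
import Vale.Agent.P269.Glu.VrA
import Vale.Agent.P287Q.G.Glu.Pcy

set_option linter.unusedSectionVars false
set_option linter.style.haveILetI false

/-!
# Gluing: the degree of the labelled space, from the properties of the labelled cycle
-/

namespace Vale.Agent.P269

open P291Z Set Function Topology Filter Module Holo Base Cv Ch.KD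

section gen

variable {A W P : Type} [NormedRing A] [NormedAlgebra ℂ A] [NormedAddCommGroup W]
  [NormedSpace ℂ W] [FiniteDimensional ℂ A] [FiniteDimensional ℂ W] [AddCommGroup P] [Module ℂ P]
  [TopologicalSpace P] [IsTopologicalAddGroup P] [ContinuousSMul ℂ P] [T2Space P]
  {act : A → W → W} {T M B Z : Set W} {n m d d' : ℕ}

theorem PCy.of_dim (h : PCy T M n) (e : M.Nonempty → n = m) : PCy T M m := by
  rcases M.eq_empty_or_nonempty with rfl | a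
  · obtain rfl : T = ∅ := subset_empty_iff.1 (h.dense.trans closure_empty.le)
    exact pcy_self nofun
  · exact e a ▸ h

theorem Cyc.of_dim (h : Cyc act T M d) (e : M.Nonempty → d = d') : Cyc act T M d' :=
  (h.pcy.of_dim fun a => congrArg _ (e a)).cyc h.inv h.free

/-- the free points outside a small set are dense -/
theorem Cyc.dense_diff [IsAct act T] (ho : Orb.Orb Aˣ (Holo.Sp act T)) (c : Cyc act T M d)
    (hB : DimLt (finrank ℂ A + d) B) : M ⊆ closure (M ∩ ({x | Fre act x} \ B)) := fun _ hx =>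
  closure_minimal (fun y hy => mem_closure_iff_frequently.2
    (((mem_closure_iff_frequently.1 (hB.dense c.mfd hy.1)).and_eventually
      ((ev_sub (p := Fre act) (c.sub hy.1)).1
        (eventually_fre ho (x := .of act y (c.sub hy.1)) hy.2))).mono
      fun _ a => And.intro a.1.1 ⟨a.2 (c.sub a.1.1), a.1.2⟩)) isClosed_closure (c.free hx)

theorem Ch.KD.Gd.eq_vr {D : Ch.KD A W P} {O : Set W} (h : D.Gd act Z O n m)
    (ho : ∃ U, IsOpen U ∧ O = T ∩ U) (hc : Cyc act O M d) {v : BM (Quo act Z)}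
    (hv : D.IsV act Z T v) : v = D.vr act Z O (h.fu d) := by
  obtain ⟨k, i, h1, -, -, h2⟩ := h.exists_isKP
  rw [h2]
  exact (h.dom' ho).eq_vir_fnd hc h1 hv

end gen

namespace Ch

variable {S Λ R J K ι ν κ κ' : Type} [Fintype S] [Fintype Λ] [Fintype R] [Fintype J]
  [Fintype K] [Fintype ι] [DecidableEq ι] [Fintype ν] [Fintype κ] [Fintype κ']
  {ch : Ch ι J} {n : Nm ι J} {F : Fam S Λ R J K} {e : K → ι → ℕ} {K₀ : RD R} {ℓ : R → ι → ℤ}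
  {L V T T' : Set ((ch.re n).WF ν (κ ⊕ κ') Λ)} {C U U₀ O M : Set (ch.WF ν κ Λ)} {N' N m d : ℕ}
  {O' M' : Set (ch.WG n ν κ κ' Λ)}

theorem Zf.mono (h : T ⊆ T') : (Zf F T : Set (ch.WG n ν κ κ' Λ)) ⊆ Zf F T' :=
  fun _ a => ⟨⟨a.1.1, h a.1.2.1, a.1.2.2⟩, a.2⟩

theorem Zf.ivt_image (hT : Ivt (actF F.toWt) T) :
    Ivt (actF F.toWt) (Prod.fst '' (Zf F T : Set (ch.WG n ν κ κ' Λ))) := by
  rintro b hb _ ⟨z, hz, rfl⟩
  exact ⟨_, ivt_Zf hT ((b, 1) : ch.AG n ν κ κ' S) (AP.isUnit_iff.2 ⟨hb, isUnit_one⟩) z hz, rfl⟩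

theorem ivt_compl_closure (h : Ivt (actF F.toWt) O) : Ivt (actF F.toWt) (closure O)ᶜ := by
  rw [compl_eq_univ_sdiff]
  exact Ivt.diff fun s hs _ a => map_mem_closure (continuous_actF hs) a fun _ => h s hs _

/-- **the degree of the labelled cycle** -/
theorem CntL.push_fnd (hn : ch.GN n κ') (hT : Lev F T) [IsAct (actF F.toWt) O]
    [IsAct (actG F.toWt : ch.AG n ν κ κ' S → _) O']
    (hf : EqM (actG F.toWt : ch.AG n ν κ κ' S → _) (actF F.toWt) O' O (fun a => a.1) Prod.fst)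
    (ho : Orb.Orb (ch.AF ν κ S)ˣ (Holo.Sp (actF F.toWt) O))
    (ho' : Orb.Orb (ch.AG n ν κ κ' S)ˣ (Holo.Sp (actG F.toWt : ch.AG n ν κ κ' S → _) O'))
    (c : Cyc (actF F.toWt) O M d) (c' : Cyc (actG F.toWt : ch.AG n ν κ κ' S → _) O' M' d)
    (hp : IsPr hf.map) (hO : O' ⊆ Zf F T) (maps : MapsTo Prod.fst M' M)
    {Y : Set (ch.WG n ν κ κ' Λ)} (hY : M' ⊆ Y) (hY' : ∀ z ∈ Y, z.1 ∈ M → z ∈ O')
    (cnt : ∀ x ∈ M, CntL F.toWt Y m x) :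
    push hf.map (fnd (actG F.toWt : ch.AG n ν κ κ' S → _) O' d) =
      (m : ℂ) • fnd (actF F.toWt) O d := by
  refine Cyc.push_fnd (θ := AP.fst) hf (fun _ _ => .of_an analyticAt_fst) ho ho' c c' hp
    (c.dense_diff ho (Zf.dimLt hn (fun _ a => (hO a.1).1.1) (Ivt.diff c'.inv) c'.small))
    fun x hx => ⟨hx.2.1, ?_⟩
  obtain ⟨z, z1, z2, z3⟩ := cnt x hx.1
  have k : ∀ y ∈ O', y.1 = x → y ∈ M' := fun y a b => by_contra fun c => hx.2.2 ⟨y, ⟨a, c⟩, b⟩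
  have z4 : ∀ i, z i ∈ M' := fun i => k _ (hY' _ (z1 i).1 ((z1 i).2.symm ▸ hx.1)) (z1 i).2
  have H : ∀ i, ∃ s : ch.WF ν κ Λ → ch.WG n ν κ κ' Λ, AnalyticAt ℂ s x ∧ s x = z i ∧
      ∀ᶠ y in 𝓝 x, y ∈ M → s y ∈ M' ∧ (s y).1 = y := fun i =>
    (z1 i).2 ▸ Zf.exists_sec hn hT (c'.sub.trans hO) c'.inv ⟨z4 i, c'.mfd ⟨_, z4 i⟩⟩
      ⟨maps (z4 i), c.mfd ⟨_, maps (z4 i)⟩⟩ maps
  choose σ s1 s2 s3 using H
  refine ⟨σ, fun i => ⟨s1 i, ?_, eventually_nhdsWithin_iff.2 (s3 i)⟩, fun i j a ha b => ?_,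
    fun y hy b hb q => ?_⟩
  · rw [s2]
    exact (hO (c'.sub (z4 i))).1.1.fre hn ((z1 i).2.symm ▸ hx.2.1)
  · rw [s2, s2] at b
    refine z2 i j a ha (hx.2.1 _ (AP.isUnit_iff.1 ha).1 ?_) b
    exact (congrArg (actF F.toWt a.1) (z1 i).2.symm).trans ((congrArg Prod.fst b).trans (z1 j).2)
  · have hb' : IsUnit (M := ch.AG n ν κ κ' S) (b, 1) := AP.isUnit_iff.2 ⟨hb, isUnit_one⟩
    obtain ⟨i, a, ha, -, r⟩ := z3 _ (hY (k (actG F.toWt (b, 1) y) (IsAct.mem _ hb' y hy) q)) q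
    exact ⟨i, _, ha.mul hb', (IsAct.mul a _ ha hb' y hy).trans (r.trans (s2 i).symm)⟩

namespace GC

variable (h : ch.GC n F e K₀ ℓ L V C U N' N m)
include h

theorem levL' : Lev F (clo F L) := h.levL.clo h.gh.std.inv h.gh.num.cuts'

theorem levC' : Lev F (clo F C) := h.levC.clo h.gh.std.inv h.gh.std.cuts

theorem levD : Lev F (clo F L \ V) := sdiff_self_inter ▸ h.levL'.diff h.gh.lev

theorem finrank_le (hU : Pr F U₀) (hne : (C ∩ U ∩ U₀).Nonempty) : finrank ℂ (ch.AF ν κ S) ≤ N :=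
  let ⟨x, hx⟩ := hne
  Prp.finrank_le (M := C ∩ U ∩ U₀) ((hU.prp_lev h.levC).mono fun _ a => ⟨a.1.1, a.2⟩)
    (fun s hs y a => ⟨⟨h.levC.inv s hs y a.1.1, h.inv s hs y a.1.2⟩, hU.inv s hs y a.2⟩)
    ((h.pcy.inter hU.opn).mfd x hx)

theorem vd' (hU : Pr F U₀) :
    Vd F e (clo F C) (clo F C ∩ (U ∩ U₀) ∩ ch.dom ν κ F e) (C ∩ (U ∩ U₀) ∩ ch.dom ν κ F e)
      (N - finrank ℂ (ch.AF ν κ S)) := by
  have a := h.levC'
  have i : ∀ {Z : Set (ch.WF ν κ Λ)}, Lev F Z → Ivt (actF F.toWt) (Z ∩ (U ∩ U₀)) :=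
    fun b s hs y c => ⟨b.inv s hs y c.1, h.inv s hs y c.2.1, hU.inv s hs y c.2.2⟩
  have p := (h.pcy.inter hU.opn).of_dim fun b => (Nat.add_sub_cancel' (h.finrank_le hU b)).symm
  rw [inter_assoc _ U, inter_assoc _ U] at p
  exact h.gh.std.vd a.adm a.inv (h.opn.inter hU.opn) (i a) (fun _ b => ⟨h.sol b, hU.sol b.1⟩)
    ((hU.prp_lev a).mono fun _ b => ⟨b.1, b.2.2⟩) (p.cyc (i h.levC) fun _ b => closure_mono
      (fun _ c => And.intro ⟨c.1.1.1, c.2, c.1.1.2⟩ c.1.2)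
      (h.opn.closure_inter ⟨hU.free h.levC ⟨b.1, b.2.2⟩, b.2.1⟩))

theorem maps_clo (hd : (Zf F (clo F L ∩ V) : Set (ch.WG n ν κ κ' Λ)) ⊆ closure (Zf F (L ∩ V))) :
    MapsTo Prod.fst (Zf F (clo F L ∩ V) : Set (ch.WG n ν κ κ' Λ)) (clo F C) := fun _ a =>
  ⟨map_mem_closure continuous_fst (hd a) fun y b => h.maps y (Zf.mono inter_subset_left b),
    (Zb.adm h.gh.num h.gh.std.inv h.gh.lev.adm a.1).1⟩

/-- the labels over points near the solutions lie over `V` -/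
theorem sol_sub (H : GlC ν κ κ' ch n F.toWt) : ch.solF ν κ F ∩ clo F C ⊆
    (closure (Prod.fst '' (Zf F (clo F L \ V) : Set (ch.WG n ν κ κ' Λ))))ᶜ := fun x a b => by
  obtain ⟨z, c, rfl⟩ := Zf.closed_of H h.gh.num h.gh.std.inv h.levD (fun y c =>
    ⟨⟨closure_minimal (fun _ k => k.1.1) isClosed_closure c.1, c.2⟩,
      closure_minimal (fun _ k => k.2) h.opnV.isClosed_compl c.1⟩) ⟨b, a.1.1⟩
    (h.lab x ⟨a.1.1, h.sol a⟩)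
  have k := ZL.lf h.gh.num h.levD ⟨c, a.1⟩
  exact k.1.2.1.2 (h.solV ⟨k.2.2.1, k.1.2.1.1⟩)

theorem push_of (H : GlC ν κ κ' ch n F.toWt) (hU : Pr F U₀)
    (hd : (Zf F (clo F L ∩ V) : Set (ch.WG n ν κ κ' Λ)) ⊆ closure (Zf F (L ∩ V))) {v₀ r₀ d₀ : ℕ}
    (gd : (ch.kdL ν κ κ' n F e).Gd (actG F.toWt) (ZL F (clo F L ∩ V))
      (OF F e (clo F L ∩ V) U₀) v₀ r₀)
    (cyc : Cyc (actG F.toWt : ch.AG n ν κ κ' S → _) (OF F e (clo F L ∩ V) U₀)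
      (OF F e (L ∩ V) U₀) d₀)
    (dim : (OF F e (clo F L ∩ V) U₀).Nonempty →
      d₀ + finrank ℂ ((ch.re n).AF ν (κ ⊕ κ') S) + finrank ℂ ((ch.re n).Fm F.mov (ch.re n).hf) =
        N' + finrank ℂ (ch.Fm F.mov ch.hf))
    (hf : EqM (actG F.toWt : ch.AG n ν κ κ' S → _) (actF F.toWt) (ZL F (clo F L ∩ V))
      (ch.solF ν κ F ∩ clo F C) (fun a => a.1) Prod.fst)
    {v : BM (Quo (actG F.toWt) (ZL F (clo F L ∩ V)))}
    (hv : (ch.kdL ν κ κ' n F e).IsV (actG F.toWt) (ZL F (clo F L ∩ V)) (Zf F (clo F L ∩ V)) v) :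
    IsPr hf.map ∧ push hf.map v = (m : ℂ) • virF F e (clo F C) := by
  have hs := h.gh.std
  have hn := h.gh.num
  obtain ⟨O₀, o1, o2, o3, o4⟩ : ∃ O₀ : Set (ch.WF ν κ Λ), IsOpen O₀ ∧ Ivt (actF F.toWt) O₀ ∧
      ch.solF ν κ F ∩ clo F C ⊆ O₀ ∧ ∀ z ∈ (Zf F (clo F L) : Set (ch.WG n ν κ κ' Λ)), z.1 ∈ O₀ →
        z ∈ Zf F (clo F L ∩ V) :=
    ⟨_, isClosed_closure.isOpen_compl, ivt_compl_closure (Zf.ivt_image h.levD.inv), h.sol_sub H,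
      fun z a b => ⟨⟨a.1.1, ⟨a.1.2.1, by_contra fun c => b (subset_closure
        ⟨z, ⟨⟨a.1.1, ⟨a.1.2.1, c⟩, a.1.2.2⟩, a.2⟩, rfl⟩)⟩, a.1.2.2⟩, a.2⟩⟩
  have hV := (h.vd' hU).inter o1 o3 fun s b x c => o2 s b x c.2
  obtain ⟨v₁, ok⟩ := hs.ok (ν := ν) (κ := κ)
  have g : (ch.kd ν κ F e).Gd (actF F.toWt) _ _ _ _ :=
    ⟨hV.dom.self, ok.mono (Dom.subset_dom hV.adm hV.dom)⟩
  have p1 : IsOpen (Prod.fst ⁻¹' (U ∩ O₀) : Set (ch.WG n ν κ κ' Λ)) :=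
    (h.opn.inter o1).preimage continuous_fst
  have p2 : Ivt (actG F.toWt : ch.AG n ν κ κ' S → _)
      (OF F e (clo F L ∩ V) U₀ ∩ Prod.fst ⁻¹' (U ∩ O₀)) := fun a ha z b =>
    ⟨gd.ivt a ha z b.1, ivt_fst (U := U ∩ O₀)
      (fun s c x k => ⟨h.inv s c x k.1, o2 s c x k.2⟩) a ha z b.2⟩
  have g' := gd.inter p1 p2 fun _ a => And.intro (h.sol (hf.maps a)) (o3 (hf.maps a))
  have e1 : OF F e (clo F L ∩ V) U₀ ∩ Prod.fst ⁻¹' (U ∩ O₀) = Zf F (clo F L) ∩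
      Prod.fst ⁻¹' (clo F C ∩ (U ∩ U₀) ∩ ch.dom ν κ F e ∩ O₀) :=
    Subset.antisymm (fun _ a => ⟨Zf.mono inter_subset_left a.1.1,
      ⟨⟨h.maps_clo hd a.1.1, a.2.1, a.1.2.1⟩, a.1.2.2⟩, a.2.2⟩)
      fun z a => ⟨⟨o4 z a.1 a.2.2, a.2.1.1.2.2, a.2.1.2⟩, a.2.1.1.2.1, a.2.2⟩
  have m1 : MapsTo Prod.fst (OF F e (L ∩ V) U₀ ∩ Prod.fst ⁻¹' (U ∩ O₀))
      (C ∩ (U ∩ U₀) ∩ ch.dom ν κ F e ∩ O₀) := fun z a =>
    ⟨⟨⟨h.maps z (Zf.mono inter_subset_left a.1.1), a.2.1, a.1.2.1⟩, a.1.2.2⟩, a.2.2⟩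
  have c' := (cyc.inter p1 p2).of_dim (d' := N - finrank ℂ (ch.AF ν κ S)) fun ⟨z, a⟩ => by
    have b := m1 a
    have b1 := dim ⟨z, cyc.sub a.1⟩
    have b2 := h.dim ⟨_, a.1.1.1.2.1⟩ ⟨_, b.1.1.1, b.1.1.2.1⟩
    omega
  have hf' := (eqM_fst (Wg := F.toWt)).mono (subset_univ _)
    (S₀' := clo F C ∩ (U ∩ U₀) ∩ ch.dom ν κ F e ∩ O₀) fun z a => (e1.le a).2
  haveI := g.nice
  haveI := g'.nice
  haveI := g.dom.isAct
  haveI := g'.dom.isAct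
  have hp := Zf.isPr_of H hn hs.inv h.levL' (fun _ a => ⟨closure_minimal inter_subset_left
    isClosed_closure a.1, a.2⟩) g.ivt (fun _ a => a.1.1.1.2)
    (fun x a => h.lab x ⟨a.1.1.1.2, a.1.1.2.1⟩) e1 hf'
  obtain ⟨U₁, u1, u2⟩ := hs.dom_open (ν := ν) (κ := κ)
  have e2 := g'.eq_vr ⟨Prod.fst ⁻¹' (U₀ ∩ U₁ ∩ (U ∩ O₀)),
    ((hU.opn.inter u1).inter (h.opn.inter o1)).preimage continuous_fst, Subset.antisymm
      (fun _ a => ⟨a.1.1, ⟨a.1.2.1, (u2.le a.1.2.2).2⟩, a.2⟩) fun _ a => ⟨⟨a.1, a.2.1.1,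
        u2.ge ⟨Zb.adm hn hs.inv h.gh.lev.adm a.1.1, a.2.1.2⟩⟩, a.2.2⟩⟩ c' hv
  have e3 := CntL.push_fnd hn h.levL' hf' g.dom.orb g'.dom.orb hV.cyc c' hp
    (fun _ a => (e1.le a).1) m1 (Y := Zf F L) (fun _ a => Zf.mono inter_subset_left a.1.1)
    (fun _ a b => e1.ge ⟨Zf.mono (subset_inter subset_closure h.levL.base) a, hV.cyc.sub b⟩)
    fun x a => h.cnt x ⟨a.1.1.1, a.1.1.2.1⟩
  obtain ⟨k, i, a, -⟩ := hV.exists_isKP hs
  obtain ⟨b1, b2⟩ := g.vr_push hf' g' hp hf.maps (g'.fu (N - finrank ℂ (ch.AF ν κ S)))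
  refine ⟨b1, (congrArg _ e2).trans (b2.trans ((congrArg _ e3).trans ((map_smul _ _ _).trans ?_)))⟩
  rw [hV.virF_eq a, hV.dom.vr_eq a]
  rfl

end GC

end Ch

end Vale.Agent.P269
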