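import Vale.Agent.P287Q.G.Glu.Main
import Vale.Agent.P287Q.G.Glu.Cpt
import Vale.Agent.P287Q.G.Glu.PushB

set_option linter.unusedSectionVars false

/-!
# Gluing: the degree of the labelled space over the glued stratum
-/

namespace Vale.Agent.P269.Ch

open P291Z Set Function Topology Filter Module Holo Base Cv KD

variable {S Λ R J K ι ν κ κ' : Type} [Fintype S] [Fintype Λ] [Fintype R] [Fintype J]
  [Fintype K] [Fintype ι] [DecidableEq ι] [Fintype ν] [Fintype κ] [Fintype κ']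
  {ch : Ch ι J} {n : Nm ι J} {F : Fam S Λ R J K} {e : K → ι → ℕ} {K₀ : RD R} {ℓ : R → ι → ℤ}
  {L V T : Set ((ch.re n).WF ν (κ ⊕ κ') Λ)} {C U : Set (ch.WF ν κ Λ)} {N' N m : ℕ}

namespace GC

variable (h : ch.GC n F e K₀ ℓ L V C U N' N m)
include h

theorem vd {U₀ : Set (ch.WF ν κ Λ)} (hU : Pr F U₀) :
    Vd F e (clo F C) (clo F C ∩ (U ∩ U₀) ∩ ch.dom ν κ F e) (C ∩ (U ∩ U₀) ∩ ch.dom ν κ F e)
      (N - finrank ℂ (ch.AF ν κ S)) := h.vd' hU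

theorem eqM : EqM (actG F.toWt : ch.AG n ν κ κ' S → _) (actF F.toWt) (ZL F (clo F L ∩ V))
    (ch.solF ν κ F ∩ clo F C) (fun a => a.1) Prod.fst :=
  let ⟨_, a, _⟩ := h.gh.pcy_Zf
  eqM_fst.mono (subset_univ _) fun _ b => ⟨b.2, h.maps_clo a.dense b.1⟩

/-- **the labelled space has degree `m`** -/
theorem push {v : BM (Quo (actG F.toWt) (ZL F (clo F L ∩ V)))}
    (hv : (ch.kdL ν κ κ' n F e).IsV (actG F.toWt) (ZL F (clo F L ∩ V)) (Zf F (clo F L ∩ V)) v) :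
    IsPr h.eqM.map ∧ push h.eqM.map v = (m : ℂ) • virF F e (clo F C) :=
  let ⟨_, hU⟩ := h.pr
  let ⟨_, a, _⟩ := h.gh.pcy_Zf
  let ⟨_, b⟩ := h.gh.gd hU
  h.push_of (Gl.glC h.gh.num) hU a.dense b (h.gh.cyc hU) (h.gh.dim hU) h.eqM hv

end GC

end Vale.Agent.P269.Ch
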