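import Vale.Agent.P287Q.G.Glu.NdDefs
import Vale.Agent.P287Q.G.Bas.Dg
import Vale.Agent.P287Q.G.Prj.PresH
import Vale.Agent.P287Q.G.Vir.RD

/-!
# The fibre product of the total space with itself
-/

set_option linter.unusedSectionVars false
set_option linter.style.haveILetI false

namespace Vale.Agent.P269

open P291Z Set Function Topology Filter Holo Mono Tq Module Coh

variable {S Λ R J K I : Type} [Fintype S] [Fintype Λ] [Fintype R] [Fintype J] [Fintype K] [Fintype I]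

namespace X3

variable {F : Fam S Λ R J K} {W : Type} [NormedAddCommGroup W] [NormedSpace ℂ W]
  [FiniteDimensional ℂ W] {M : Set W} {π : W → Λ → ℂ} {x : W} {y : J → ℂ} {b : ℕ}

/-- The pull-back of a set of parameters and fields. -/
def pul (M : Set W) (π : W → Λ → ℂ) (A : Set ((Λ → ℂ) × (J → ℂ))) : Set (W × (J → ℂ)) :=
  {z | z.1 ∈ M ∧ (π z.1, z.2) ∈ A}

theorem an_line (x : W) (y η : J → ℂ) : AnalyticAt ℂ (fun ε : ℂ => (x, fun j => y j + ε * η j)) 0 :=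
  analyticAt_const.prod (analyticAt_pi_iff.2 fun _ => by fun_prop)

theorem an_pul (hπ : AnalyticAt ℂ π x) :
    AnalyticAt ℂ (fun z : W × (J → ℂ) => (π z.1, z.2)) (x, y) :=
  (AnalyticAt.comp (g := π) (f := Prod.fst) hπ analyticAt_fst).prod analyticAt_snd

theorem mfd_regAt {K₀ : Set K} (hr : F.RegAt K₀ (π x, y)) (h : F.Inv) (hπ : AnalyticAt ℂ π x)
    (hz : (π x, y) ∈ F.cone) {m : ℕ} (hb : MfdAt (pul M π F.bs) m (x, y)) :
    ∃ n, n + Nat.card K₀ = m ∧ MfdAt (pul M π F.cone) n (x, y) := by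
  classical
  haveI := FiniteDimensional.complete ℂ W
  have hz' := F.mem_cone.1 hz
  rw [Nat.card_eq_fintype_card, ← finrank_fintype_fun_eq_card ℂ]
  refine hb.sub' (f := fun s (k : K₀) => F.eqn (π s.1, s.2) k)
    (.of_an (analyticAt_pi_iff.2 fun k => AnalyticAt.comp (g := fun z => F.eqn z k)
      (Fam.an_eqn _ _) (an_pul hπ))) (funext fun k => hz'.2.2 k)
    (fun c _ => Submodule.subset_span ?_) ?_
  · obtain ⟨η, h1, h2⟩ := hr.ind fun k => if e : k ∈ K₀ then c ⟨k, e⟩ else 0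
    refine ⟨_, ⟨an_line x y η, by simp, (h.arc_bs hz'.1 h1).mem.mono fun _ e => ⟨hb.mem.1, e⟩⟩,
      HasDerivAt.deriv (hasDerivAt_pi.2 fun k => ?_)⟩
    exact (Vir.hasDerivAt_eval ((F.fib (π x)).F k) y η).congr_deriv
      ((h2 k k.2).trans (dif_pos k.2))
  · filter_upwards [(an_pul (y := y) hπ).continuousAt.eventually
      (hr.cut.and (h.openU.mem_nhds hz'.2.1))] with s h1
    refine ⟨fun k => ⟨⟨k.1, (F.mem_cone.1 k.2).1⟩, funext fun j => (F.mem_cone.1 k.2).2.2 j⟩,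
      fun k => ⟨k.1.1, F.mem_cone.2 ⟨k.1.2, h1.2, h1.1 k.1.2 fun j hj => congrFun k.2 ⟨j, hj⟩⟩⟩⟩

theorem mfd_reg {K₀ : RD R} (hr : F.Reg K₀) (h : F.Inv) (hπ : AnalyticAt ℂ π x)
    (hz : (π x, y) ∈ F.cone) {m : ℕ} (hb : MfdAt (pul M π F.bs) m (x, y)) :
    ∃ n, n + F.mov.ncard = m + K₀.n ∧ MfdAt (pul M π F.cone) n (x, y) := by
  obtain ⟨K₁, a⟩ := hr.loc _ hz
  obtain ⟨n, b, c⟩ := mfd_regAt a h hπ hz hb
  refine ⟨n, ?_, c⟩
  rw [← hr.n_add h a hz, ← b, Nat.card_coe_set_eq]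
  ring

theorem mfd_sh [DecidableEq I] {δ : J → ℕ} {φ : I → J} {n ψ} (hs : F.Sh δ φ n ψ) (h : F.Inv)
    (hb : MfdAt M b x) (hπ : AnalyticAt ℂ π x) (hM : MapsTo π M F.B) (hz : (π x, y) ∈ F.cone) :
    ∃ m, m + Nat.card (F.movᶜ \ range φ : Set J) = b + Fintype.card J ∧
      MfdAt (pul M π F.bs) m (x, y) := by
  classical
  haveI := FiniteDimensional.complete ℂ W
  have h0 : ∀ j i, n j i < 0 → y (φ i) ≠ 0 := fun j i e =>
    hs.ne _ (hs.free i).1 (hs.free i).2.1 (hs.neg j i e) _ hz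
  have h1 : ∀ᶠ s : W × (J → ℂ) in 𝓝 (x, y), ∀ j i, n j i < 0 → s.2 (φ i) ≠ 0 := by
    simp only [eventually_all]
    exact fun j i e => (by fun_prop : Continuous fun s : W × (J → ℂ) =>
      s.2 (φ i)).continuousAt.eventually_ne (h0 j i e)
  have h2 : ∀ s : W × (J → ℂ), (∀ j i, n j i < 0 → s.2 (φ i) ≠ 0) → (s ∈ pul M π F.bs ↔
      s ∈ M ×ˢ (univ : Set (J → ℂ)) ∧ (fun j : (F.movᶜ \ range φ : Set J) =>
        s.2 j - if j.1 ∈ F.zer then 0 else ψ j (π s.1) * ∏ i, s.2 (φ i) ^ n j i) = 0) :=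
    fun s e => by
    simp only [funext_iff, Pi.zero_apply, sub_eq_zero, mem_prod, mem_univ, and_true]
    refine and_congr_right fun hB => ⟨fun k j => ?_, fun k => ⟨hM hB, ?_⟩⟩
    · split_ifs with c
      exacts [k.2.2 j c, (hs.E _ (hM hB) _ k.2.2 e).1 k.2.1 j j.2.1 c]
    have k' : ∀ j ∈ F.zer, s.2 j = 0 := fun j c => (k ⟨j, disjoint_left.1 h.zer_base c,
      fun ⟨i, e⟩ => (hs.free i).2.1 (e ▸ c)⟩).trans (if_pos c)
    refine ⟨(hs.E _ (hM hB) _ k' e).2 fun j c c' => ?_, k'⟩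
    by_cases d : j ∈ range φ
    · obtain ⟨i, rfl⟩ := d
      rw [(hs.free i).2.2.1, (hs.free i).2.2.2, Finset.prod_eq_single i (fun _ _ e => by simp [e])
        (by simp)]
      simp
    · exact (k ⟨j, c, d⟩).trans (if_neg c')
  have hm : MfdAt (M ×ˢ (univ : Set (J → ℂ))) _ (x, y) := MfdAt.prod hb (.univ y)
  rw [Nat.card_eq_fintype_card, ← finrank_fintype_fun_eq_card ℂ, ← finrank_fintype_fun_eq_card ℂ]
  refine hm.sub' (.of_an (analyticAt_pi_iff.2 fun j => ?_))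
    ((h2 (x, y) h0).1 ⟨hb.mem, (F.mem_cone.1 hz).1⟩).2 (fun c _ => Submodule.subset_span ?_)
    (h1.mono h2)
  · refine (analyticAt_pi_iff.1 analyticAt_snd j.1).sub ?_
    split_ifs
    · exact analyticAt_const
    refine (AnalyticAt.comp (g := ψ j) (f := fun s : W × (J → ℂ) => π s.1) (hs.an j _ hz.1).1
      (AnalyticAt.comp (g := π) (f := Prod.fst) hπ analyticAt_fst)).mul
      (Finset.analyticAt_fun_prod _ fun i _ => ?_)
    rcases lt_or_ge (n j i) 0 with e | e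
    exacts [(analyticAt_pi_iff.1 analyticAt_snd (φ i)).fun_zpow (h0 j i e),
      (analyticAt_pi_iff.1 analyticAt_snd (φ i)).fun_zpow_nonneg e]
  · refine ⟨_, ⟨an_line x y fun j => if e : j ∈ F.movᶜ \ range φ then c ⟨j, e⟩ else 0, by simp,
      .of_forall fun _ => ⟨hb.mem, trivial⟩⟩, HasDerivAt.deriv (hasDerivAt_pi.2 fun j => ?_)⟩
    have k : ∀ i, φ i ∉ F.movᶜ \ range φ := fun i e => e.2 ⟨i, rfl⟩
    simp only [dif_neg (k _), dif_pos j.2, mul_zero, add_zero]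
    exact ((((hasDerivAt_id' (0 : ℂ)).mul_const (c j)).const_add (y j)).sub_const _).congr_deriv
      (one_mul _)

theorem lin3 (F : Wt S Λ R J) (a : Nd.A3 S R) (ha : IsUnit a) : IsLinearMap ℂ (F.act3 a) :=
  have h₁ := F.lin_actT _ (Wt.isUnit3 ha).1
  have h₂ := F.lin_actT _ (Wt.isUnit3 ha).2
  ⟨fun x y => Prod.ext (congrArg Prod.fst (h₁.map_add (x.1, x.2.1) (y.1, y.2.1)) :)
      (Prod.ext (congrArg Prod.snd (h₁.map_add (x.1, x.2.1) (y.1, y.2.1)) :)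
        (congrArg Prod.snd (h₂.map_add (x.1, x.2.2) (y.1, y.2.2)) :)),
    fun c x => Prod.ext (congrArg Prod.fst (h₁.map_smul c (x.1, x.2.1)) :)
      (Prod.ext (congrArg Prod.snd (h₁.map_smul c (x.1, x.2.1)) :)
        (congrArg Prod.snd (h₂.map_smul c (x.1, x.2.2)) :))⟩

variable (F)

/-- the first projection -/
theorem hol₁ : Hol F.act3 F.actT F.cone3 F.cone (fun t => (t.1, t.2.1)) fun z => (z.1, z.2.1) :=
  .of_an ⟨rfl, fun _ _ _ _ => rfl, fun _ _ => by fun_prop⟩ (fun _ h => h.1)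
    (fun _ _ => analyticAt_fst.prod (Dg0.a₁ analyticAt_snd)) fun _ _ _ _ => rfl

/-- the second projection -/
theorem hol₂ : Hol F.act3 F.actT F.cone3 F.cone (fun t => (t.1, t.2.2)) fun z => (z.1, z.2.2) :=
  .of_an ⟨rfl, fun _ _ _ _ => rfl, fun _ _ => by fun_prop⟩ (fun _ h => h.2)
    (fun _ _ => analyticAt_fst.prod (Dg0.a₂ analyticAt_snd)) fun _ _ _ _ => rfl

/-- the diagonal -/
theorem hold : Hol F.actT F.act3 F.cone F.cone3 (fun t => (t.1, t.2, t.2)) fun z => (z.1, z.2, z.2) :=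
  .of_an ⟨rfl, fun _ _ _ _ => rfl, fun _ _ => by fun_prop⟩ (fun _ h => ⟨h, h⟩)
    (fun _ _ => analyticAt_fst.prod (analyticAt_snd.prod analyticAt_snd)) fun _ _ _ _ => rfl

theorem d3_eq : Nd.d3 F = (hold F).q := funext (hold F).toEqh.toEqv.qm_out

theorem q₁_d (z : F.X F.cone) : (hol₁ F).q ((hold F).q z) = z := by
  obtain ⟨z, rfl⟩ := mk_surj z
  rfl

theorem q₂_d (z : F.X F.cone) : (hol₂ F).q ((hold F).q z) = z := by
  obtain ⟨z, rfl⟩ := mk_surj z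
  rfl

/-- The class `∑ a b × a' b`. -/
noncomputable def csm {β : Type} [Fintype β] (a a' : β → H (F.X F.cone)) : H F.X3 :=
  ∑ b, H.map (hol₁ F).q (a b) * H.map (hol₂ F).q (a' b)

variable {F}

theorem isCas_iff {β : Type} [Fintype β] {a a' : β → H (F.X F.cone)} [CompactSpace F.X3]
    [CompactSpace (F.X F.cone)] : F.IsCas a a' ↔ ∀ c, Loc.intg (Tq.fnd F.act3 F.cone3) (csm F a a' * c) =
      Loc.intg (Tq.fnd F.actT F.cone) (H.map (hold F).q c) := by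
  have e₁ : (fun z : F.X3 => Quo.mk F.actT (⟨_, (Quo.out z).2.1⟩ : F.cone)) = (hol₁ F).q :=
    funext (hol₁ F).toEqh.toEqv.qm_out
  have e₂ : (fun z : F.X3 => Quo.mk F.actT (⟨_, (Quo.out z).2.2⟩ : F.cone)) = (hol₂ F).q :=
    funext (hol₂ F).toEqh.toEqv.qm_out
  refine forall_congr' fun c => ?_
  rw [e₁, e₂, Wt.intX_eq, ev_rep, ← hpull_eq, ← d3_eq]
  simp only [hpull_eq]
  rfl

end X3

open X3

namespace Fam

variable {F : Fam S Λ R J K} [DecidableEq R]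

theorem Good.compact3 (h : F.Good) (hc : F.Cp) : CompactSpace F.X3 := by
  obtain ⟨T, h1, h2, h3⟩ := h.exists_cp hc
  obtain ⟨C, h4, h5, h6⟩ := h.cpt T h1 h2
  have k : IsCompact {z : Nd.W3 Λ J | (z.1, z.2.1) ∈ C ∧ (z.1, z.2.2) ∈ C} :=
    ((h5.image continuous_fst).prod ((h5.image continuous_snd).prod
      (h5.image continuous_snd))).of_isClosed_subset
      ((h5.isClosed.preimage (by fun_prop)).inter (h5.isClosed.preimage (by fun_prop)))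
      fun z hz => ⟨⟨_, hz.1, rfl⟩, ⟨_, hz.1, rfl⟩, ⟨_, hz.2, rfl⟩⟩
  haveI := isCompact_iff_compactSpace.1 k
  have e : {z : Nd.W3 Λ J | (z.1, z.2.1) ∈ C ∧ (z.1, z.2.2) ∈ C} ⊆ F.cone3 :=
    fun z hz => ⟨h4 hz.1, h4 hz.2⟩
  refine ⟨(isCompact_range (Tq.continuous_mk.comp (continuous_inclusion e))).of_isClosed_subset
    isClosed_univ fun z _ => ?_⟩
  obtain ⟨⟨z, hz⟩, rfl⟩ := mk_surj z
  obtain ⟨τ, a1, a2⟩ := h3 z.1 hz.1.1
  have u : IsUnit ((τ, 1) : (S → ℂ) × (R → ℂ)) := Prod.isUnit_iff.2 ⟨a1, isUnit_one⟩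
  obtain ⟨t₁, b1, b2⟩ := h6 _ (h.cone_act u hz.1) a2
  obtain ⟨t₂, c1, c2⟩ := h6 _ (h.cone_act u hz.2) a2
  rw [← F.actT_mul] at b2 c2
  simp only [Prod.mk_mul_mk, one_mul, mul_one] at b2 c2
  have v : IsUnit ((τ, t₁, t₂) : Nd.A3 S R) := Prod.isUnit_iff.2 ⟨a1, Prod.isUnit_iff.2 ⟨b1, c1⟩⟩
  exact ⟨⟨F.act3 (τ, t₁, t₂) z, b2, c2⟩, mk_act v hz _⟩

/-- **the fibre product is a manifold** -/
theorem Nice.exists_dim3 {δ : J → ℕ} (h : F.Nice δ) : ∃ n, Dim F.act3 F.cone3 n := by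
  obtain ⟨K₀, hr⟩ := h.reg
  obtain ⟨b, hb⟩ := h.sm
  obtain ⟨_, φ, _, _, hs⟩ := h.sh
  obtain ⟨d, hd⟩ := h.exists_dim
  haveI := h.toGood.fp3
  refine ⟨_, .of_mfd (m := finrank ℂ ((S → ℂ) × (R → ℂ)) + d + Fintype.card J -
    Nat.card (F.movᶜ \ range φ : Set J) + K₀.n - F.mov.ncard) fun z hz => ?_⟩
  obtain ⟨m, h1, h2⟩ := mfd_sh (π := Prod.fst) (y := z.2.2) hs h.toInv (hd _ hz.1) analyticAt_fst
    (fun _ e => e.1) hz.2
  obtain ⟨n, h3, h4⟩ := mfd_reg (x := (z.1, z.2.1)) hr h.toInv analyticAt_fst hz.2 h2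
  rw [← h1, Nat.add_sub_cancel, ← h3, Nat.add_sub_cancel]
  exact h4.iso (F := fun w => (w.1.1, w.1.2, w.2)) (G := fun w => ((w.1, w.2.1), w.2.2))
    ((Dg0.a₁ analyticAt_fst).prod ((Dg0.a₂ analyticAt_fst).prod analyticAt_snd))
    ((analyticAt_fst.prod (Dg0.a₁ analyticAt_snd)).prod (Dg0.a₂ analyticAt_snd))
    (.of_forall fun _ e => ⟨e, rfl⟩) (.of_forall fun _ e => ⟨e, rfl⟩)

theorem Nice.qm3 {δ : J → ℕ} (h : F.Nice δ) (hc : F.Cp) : ∃ n, Tq.QM F.act3 F.cone3 n :=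
  haveI := h.toGood.fp3
  haveI := h.toGood.compact3 hc
  h.exists_dim3.elim fun _ k => ⟨_, .of_dim (lin3 _) k⟩

end Fam

end Vale.Agent.P269
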